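import Mathlib
import Vale.Agent.P060.Defs

set_option linter.all false

section

/-! Facts about the field with 2521 elements and the subgroup `Y` of 18th powers:
`Y` is a symmetric multiplicative group of order 140 with `(Y + Y) ∩ Y = ∅`. -/

namespace Vale.Agent.P060.HW

theorem prime_2521 : Nat.Prime 2521 := by norm_num

instance fact_prime_2521 : Fact (Nat.Prime 2521) := ⟨prime_2521⟩

/-- The field of the construction. -/
abbrev F : Type := ZMod 2521

/-- The subgroup of 18th powers, as a finite set. -/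
def Y : Finset F := Finset.univ.filter fun x => x ^ 140 = 1

theorem mem_Y {x : F} : x ∈ Y ↔ x ^ 140 = 1 := by
  simp [Y]

theorem one_mem_Y : (1 : F) ∈ Y := by
  rw [mem_Y]; exact one_pow 140

theorem ne_zero_of_mem_Y {x : F} (h : x ∈ Y) : x ≠ 0 := by
  rw [mem_Y] at h
  intro hx
  rw [hx, zero_pow (by norm_num)] at h
  exact zero_ne_one h

theorem zero_not_mem_Y : (0 : F) ∉ Y := fun h => ne_zero_of_mem_Y h rfl

theorem mul_mem_Y {x y : F} (hx : x ∈ Y) (hy : y ∈ Y) : x * y ∈ Y := by
  rw [mem_Y] at *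
  rw [mul_pow, hx, hy, one_mul]

theorem inv_mem_Y {x : F} (hx : x ∈ Y) : x⁻¹ ∈ Y := by
  rw [mem_Y] at *
  rw [inv_pow, hx, inv_one]

theorem neg_mem_Y {x : F} (hx : x ∈ Y) : -x ∈ Y := by
  rw [mem_Y] at *
  rw [Even.neg_pow (by decide), hx]

theorem neg_mem_Y_iff {x : F} : -x ∈ Y ↔ x ∈ Y :=
  ⟨fun h => by simpa using neg_mem_Y h, neg_mem_Y⟩

theorem mul_mem_Y_iff {x y : F} (hx : x ∈ Y) : x * y ∈ Y ↔ y ∈ Y := by
  refine ⟨fun h => ?_, fun h => mul_mem_Y hx h⟩
  have := mul_mem_Y (inv_mem_Y hx) h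
  rwa [← mul_assoc, inv_mul_cancel₀ (ne_zero_of_mem_Y hx), one_mul] at this

/-- Kernel computation: for `n` below the bound, `n` and `n + 1` are not both in `Y`. -/
def chk : ℕ → Bool
  | 0 => true
  | n + 1 => (!(decide (n ^ 140 % 2521 = 1) && decide ((n + 1) ^ 140 % 2521 = 1))) && chk n

theorem chk_spec : ∀ {m : ℕ}, chk m = true → ∀ n < m, n ^ 140 % 2521 = 1 →
    (n + 1) ^ 140 % 2521 ≠ 1
  | 0, _, n, hn, _ => absurd hn (Nat.not_lt_zero n)
  | m + 1, h, n, hn, h1 => by
    rw [chk, Bool.and_eq_true] at h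
    rcases Nat.lt_succ_iff_lt_or_eq.mp hn with h2 | h2
    · exact chk_spec h.2 n h2 h1
    · subst h2
      intro h3
      have h4 := h.1
      simp [h1, h3] at h4

theorem chk_all : chk 2521 = true := by decide +kernel

theorem pow_cast (n : ℕ) : ((n : F) ^ 140 = 1) ↔ n ^ 140 % 2521 = 1 := by
  rw [← Nat.cast_pow, ← Nat.cast_one, ZMod.natCast_eq_natCast_iff']

theorem add_one_not_mem_Y {x : F} (hx : x ∈ Y) : x + 1 ∉ Y := by
  rw [mem_Y] at *
  intro h
  have hv : ((x.val : ℕ) : F) = x := ZMod.natCast_zmod_val x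
  have h1 : x.val ^ 140 % 2521 = 1 := by
    rw [← pow_cast, hv]; exact hx
  have h2 : (x.val + 1) ^ 140 % 2521 = 1 := by
    rw [← pow_cast, Nat.cast_add, Nat.cast_one, hv]; exact h
  exact chk_spec chk_all x.val (ZMod.val_lt x) h1 h2

/-- `Y` is sum-free. -/
theorem sum_free {x y : F} (hx : x ∈ Y) (hy : y ∈ Y) : x + y ∉ Y := by
  intro h
  have hy0 := ne_zero_of_mem_Y hy
  have h1 : x * y⁻¹ ∈ Y := mul_mem_Y hx (inv_mem_Y hy)
  have h2 : (x + y) * y⁻¹ ∈ Y := mul_mem_Y h (inv_mem_Y hy)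
  rw [add_mul, mul_inv_cancel₀ hy0] at h2
  exact add_one_not_mem_Y h1 h2

/-- The symmetric form: no three elements of `Y` add up to zero. -/
theorem add_add_ne_zero {x y z : F} (hx : x ∈ Y) (hy : y ∈ Y) (hz : z ∈ Y) :
    x + y + z ≠ 0 := by
  intro h
  have : x + y = -z := eq_neg_of_add_eq_zero_left h
  exact sum_free hx hy (this ▸ neg_mem_Y hz)

/-- Counts the elements of `Y` below a bound. -/
def cnt : ℕ → ℕ
  | 0 => 0
  | n + 1 => cnt n + (if n ^ 140 % 2521 = 1 then 1 else 0)

theorem cnt_spec (m : ℕ) :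
    ((Finset.range m).filter fun n => n ^ 140 % 2521 = 1).card = cnt m := by
  induction m with
  | zero => simp [cnt]
  | succ m ih =>
    rw [Finset.range_add_one, Finset.filter_insert, cnt, ← ih]
    split_ifs with h
    · rw [Finset.card_insert_of_notMem (by simp)]
    · rfl

theorem cnt_all : cnt 2521 = 140 := by decide +kernel

theorem card_Y : Y.card = 140 := by
  rw [← cnt_all, ← cnt_spec]
  refine Finset.card_bij (fun x _ => x.val) ?_ ?_ ?_
  · intro x hx
    rw [Finset.mem_filter, Finset.mem_range]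
    refine ⟨ZMod.val_lt x, ?_⟩
    rw [← pow_cast, ZMod.natCast_zmod_val, ← mem_Y]
    exact hx
  · intro x _ y _ h
    exact ZMod.val_injective _ h
  · intro n hn
    rw [Finset.mem_filter, Finset.mem_range] at hn
    refine ⟨(n : F), ?_, ZMod.val_natCast_of_lt hn.1⟩
    rw [mem_Y, pow_cast]
    exact hn.2

/-- The elements of `Y` are the nonzero 18th powers. -/
theorem pow_mem_Y {z : F} (hz : z ≠ 0) : z ^ 18 ∈ Y := by
  rw [mem_Y, ← pow_mul]
  exact ZMod.pow_card_sub_one_eq_one hz

theorem exists_pow_cyclic {G : Type*} [CommGroup G] [IsCyclic G] [Finite G] {m k : ℕ} (hm : 0 < m)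
    (hG : Nat.card G = m * k) {u : G} (hu : u ^ m = 1) : ∃ z : G, z ^ k = u := by
  obtain ⟨g, hg⟩ := IsCyclic.exists_generator (α := G)
  obtain ⟨i, hi⟩ := (Submonoid.mem_powers_iff _ _).mp ((mem_powers_iff_mem_zpowers).mpr (hg u))
  have hord : orderOf g = m * k := by rw [orderOf_eq_card_of_forall_mem_zpowers hg, hG]
  have h1 : m * k ∣ i * m := by
    rw [← hord, orderOf_dvd_iff_pow_eq_one, pow_mul, hi, hu]
  have h2 : k ∣ i := by
    rw [mul_comm i m] at h1
    exact Nat.dvd_of_mul_dvd_mul_left hm h1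
  obtain ⟨j, rfl⟩ := h2
  refine ⟨g ^ j, ?_⟩
  rw [← pow_mul, mul_comm j k, hi]

theorem exists_pow_field {K : Type*} [Field K] [Fintype K] {m k : ℕ} (hm : 0 < m)
    (hK : Fintype.card K = m * k + 1) {x : K} (hx : x ^ m = 1) : ∃ z : K, z ≠ 0 ∧ z ^ k = x := by
  classical
  have hx0 : x ≠ 0 := by
    rintro rfl
    rw [zero_pow hm.ne'] at hx
    exact zero_ne_one hx
  have hG : Nat.card Kˣ = m * k := by
    rw [Nat.card_eq_fintype_card, Fintype.card_units, hK, Nat.add_sub_cancel]
  have hu : (Units.mk0 x hx0) ^ m = 1 := by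
    apply Units.ext
    rw [Units.val_pow_eq_pow_val, Units.val_mk0, hx, Units.val_one]
  obtain ⟨z, hz⟩ := exists_pow_cyclic hm hG hu
  refine ⟨(z : K), z.ne_zero, ?_⟩
  rw [← Units.val_pow_eq_pow_val, hz, Units.val_mk0]

theorem exists_pow {x : F} (hx : x ∈ Y) : ∃ z : F, z ≠ 0 ∧ z ^ 18 = x :=
  exists_pow_field (m := 140) (by norm_num) (by rw [ZMod.card]) (mem_Y.mp hx)

end Vale.Agent.P060.HW
end

section

/-! Finite probability spaces and Shannon entropy (adapted from the P114 library). -/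

open scoped Classical

noncomputable section

namespace Vale.Agent.P060.HW

universe u v

/-- A probability weight on a finite type. -/
structure FinProb (Ω : Type u) [Fintype Ω] where
  w : Ω → ℝ
  nonneg : ∀ ω, 0 ≤ w ω
  sum_one : ∑ ω, w ω = 1

namespace FinProb

variable {Ω : Type*} [Fintype Ω] (P : FinProb Ω) {α β γ δ : Type*}

/-- The probability that `f = a`. -/
def p (f : Ω → α) (a : α) : ℝ := ∑ ω, if f ω = a then P.w ω else 0

/-- Expectation. -/
def E (X : Ω → ℝ) : ℝ := ∑ ω, P.w ω * X ω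

/-- Shannon entropy in nats. -/
def H (f : Ω → α) : ℝ := ∑ ω, P.w ω * (-Real.log (P.p f (f ω)))

lemma p_nonneg (f : Ω → α) (a : α) : 0 ≤ P.p f a :=
  Finset.sum_nonneg fun ω _ => by split_ifs; exacts [P.nonneg ω, le_rfl]

lemma w_le_p (f : Ω → α) (ω : Ω) : P.w ω ≤ P.p f (f ω) := by
  unfold p
  have := Finset.single_le_sum (f := fun ω' => if f ω' = f ω then P.w ω' else 0)
    (s := Finset.univ) (fun i _ => by split_ifs; exacts [P.nonneg i, le_rfl])
    (Finset.mem_univ ω)
  simpa using this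

lemma w_le_one (ω : Ω) : P.w ω ≤ 1 := by
  rw [← P.sum_one]
  exact Finset.single_le_sum (fun i _ => P.nonneg i) (Finset.mem_univ ω)

lemma p_le_one (f : Ω → α) (a : α) : P.p f a ≤ 1 := by
  rw [← P.sum_one]
  exact Finset.sum_le_sum fun ω _ => by split_ifs; exacts [le_rfl, P.nonneg ω]

lemma p_pos {ω : Ω} (h : 0 < P.w ω) (f : Ω → α) : 0 < P.p f (f ω) :=
  lt_of_lt_of_le h (P.w_le_p f ω)

lemma w_zero_or_pos (ω : Ω) : P.w ω = 0 ∨ 0 < P.w ω := by
  rcases (P.nonneg ω).eq_or_lt with h | h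
  · exact Or.inl h.symm
  · exact Or.inr h

/-- `f` determines `g` on the support: probabilities of fibres are monotone. -/
lemma p_mono_of_det {f : Ω → α} {g : Ω → β} (hfg : ∀ ω ω', f ω = f ω' → g ω = g ω') (ω : Ω) :
    P.p f (f ω) ≤ P.p g (g ω) := by
  unfold p
  refine Finset.sum_le_sum fun ω' _ => ?_
  by_cases h : f ω' = f ω
  · simp [h, hfg _ _ h]
  · simp only [h, if_false]
    split_ifs
    exacts [P.nonneg ω', le_rfl]

lemma H_nonneg (f : Ω → α) : 0 ≤ P.H f := by
  unfold H
  refine Finset.sum_nonneg fun ω _ => mul_nonneg (P.nonneg ω) ?_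
  have := Real.log_nonpos (P.p_nonneg f (f ω)) (P.p_le_one f (f ω))
  linarith

/-- If `f` determines `g` then `H g ≤ H f`. -/
lemma H_le_of_det {f : Ω → α} {g : Ω → β} (hfg : ∀ ω ω', f ω = f ω' → g ω = g ω') :
    P.H g ≤ P.H f := by
  unfold H
  refine Finset.sum_le_sum fun ω _ => ?_
  rcases P.w_zero_or_pos ω with h | h
  · simp [h]
  · refine mul_le_mul_of_nonneg_left ?_ h.le
    have := Real.log_le_log (P.p_pos h f) (P.p_mono_of_det hfg ω)
    linarith

lemma H_congr_det {f : Ω → α} {g : Ω → β} (hfg : ∀ ω ω', f ω = f ω' ↔ g ω = g ω') :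
    P.H g = P.H f :=
  le_antisymm (P.H_le_of_det fun ω ω' h => (hfg ω ω').1 h)
    (P.H_le_of_det fun ω ω' h => (hfg ω ω').2 h)

/-- Sum over fibres. -/
lemma sum_fiber [DecidableEq α] (f : Ω → α) (φ : α → ℝ) :
    ∑ ω, P.w ω * φ (f ω) = ∑ a ∈ Finset.univ.image f, P.p f a * φ a := by
  have h1 : ∀ a ∈ Finset.univ.image f, P.p f a * φ a
      = ∑ ω, if f ω = a then P.w ω * φ (f ω) else 0 := by
    intro a _
    unfold p
    rw [Finset.sum_mul]
    refine Finset.sum_congr rfl fun ω _ => ?_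
    by_cases h : f ω = a
    · simp [h]
    · simp [h]
  rw [Finset.sum_congr rfl h1, Finset.sum_comm]
  refine Finset.sum_congr rfl fun ω _ => ?_
  rw [Finset.sum_ite_eq]
  simp

lemma H_eq_sum [DecidableEq α] (f : Ω → α) :
    P.H f = ∑ a ∈ Finset.univ.image f, Real.negMulLog (P.p f a) := by
  unfold H
  rw [P.sum_fiber f (fun a => -Real.log (P.p f a))]
  refine Finset.sum_congr rfl fun a _ => ?_
  simp [Real.negMulLog]

/-- The sum of the probabilities over any finset is at most one. -/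
lemma sum_p_le_one (f : Ω → α) (s : Finset α) : ∑ a ∈ s, P.p f a ≤ 1 := by
  unfold p
  rw [Finset.sum_comm, ← P.sum_one]
  refine Finset.sum_le_sum fun ω _ => ?_
  rw [Finset.sum_ite_eq]
  split_ifs
  exacts [le_rfl, P.nonneg ω]

lemma sum_p_image [DecidableEq α] (f : Ω → α) : ∑ a ∈ Finset.univ.image f, P.p f a = 1 := by
  have := P.sum_fiber f (fun _ => 1)
  simp only [mul_one] at this
  rw [← this, P.sum_one]

lemma sum_p_pair_left [DecidableEq α] (f : Ω → α) (h : Ω → γ) (c : γ) :
    ∑ a ∈ Finset.univ.image f, P.p (fun ω => (f ω, h ω)) (a, c) = P.p h c := by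
  unfold p
  rw [Finset.sum_comm]
  refine Finset.sum_congr rfl fun ω _ => ?_
  by_cases hc : h ω = c
  · rw [Finset.sum_eq_single (f ω)]
    · simp [hc]
    · intro b _ hb
      simp [Ne.symm hb]
    · intro hb
      exact absurd (Finset.mem_image_of_mem f (Finset.mem_univ ω)) hb
  · have : ∀ a, ¬ ((f ω, h ω) = (a, c)) := by
      intro a h'; exact hc (by simpa using (Prod.ext_iff.1 h').2)
    simp [this, hc]

/-- Gibbs' inequality. -/
lemma H_le_gibbs [DecidableEq α] (f : Ω → α) (q : α → ℝ) (hq : ∀ ω, 0 < P.w ω → 0 < q (f ω))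
    (hs : ∑ a ∈ Finset.univ.image f, q a ≤ 1) (hq0 : ∀ a, 0 ≤ q a) :
    P.H f ≤ ∑ ω, P.w ω * (-Real.log (q (f ω))) := by
  have key : ∑ ω, P.w ω * (Real.log (q (f ω)) - Real.log (P.p f (f ω))) ≤ 0 := by
    have h1 : ∑ ω, P.w ω * (Real.log (q (f ω)) - Real.log (P.p f (f ω)))
        ≤ ∑ ω, P.w ω * (q (f ω) / P.p f (f ω) - 1) := by
      refine Finset.sum_le_sum fun ω _ => ?_
      rcases P.w_zero_or_pos ω with h | h
      · simp [h]
      · refine mul_le_mul_of_nonneg_left ?_ h.le
        rw [← Real.log_div (hq ω h).ne' (P.p_pos h f).ne']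
        exact Real.log_le_sub_one_of_pos (div_pos (hq ω h) (P.p_pos h f))
    have h2 : ∑ ω, P.w ω * (q (f ω) / P.p f (f ω) - 1)
        = ∑ ω, P.w ω * (q (f ω) / P.p f (f ω)) - 1 := by
      simp only [mul_sub, mul_one, Finset.sum_sub_distrib, P.sum_one]
    have h3 : ∑ ω, P.w ω * (q (f ω) / P.p f (f ω)) ≤ ∑ a ∈ Finset.univ.image f, q a := by
      rw [P.sum_fiber f (fun a => q a / P.p f a)]
      refine Finset.sum_le_sum fun a _ => ?_
      rcases (P.p_nonneg f a).eq_or_lt with h | h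
      · rw [← h]; simpa using hq0 a
      · rw [mul_div_cancel₀ _ h.ne']
    linarith only [h3, h2, h1, hs]
  have : ∑ ω, P.w ω * (-Real.log (q (f ω))) - P.H f
      = -∑ ω, P.w ω * (Real.log (q (f ω)) - Real.log (P.p f (f ω))) := by
    unfold H
    rw [← Finset.sum_sub_distrib, ← Finset.sum_neg_distrib]
    exact Finset.sum_congr rfl fun ω _ => by ring
  linarith

/-- Entropy is at most the log of the number of values. -/
lemma H_le_log_card (f : Ω → α) (s : Finset α) (hs : ∀ ω, f ω ∈ s) :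
    P.H f ≤ Real.log s.card := by
  have hne : s.Nonempty := by
    by_contra h
    rw [Finset.not_nonempty_iff_eq_empty] at h
    have : IsEmpty Ω := ⟨fun ω => by simpa [h] using hs ω⟩
    have h1 := P.sum_one
    simp at h1
  have hc : (0 : ℝ) < s.card := by exact_mod_cast hne.card_pos
  have := P.H_le_gibbs f (fun _ => (1 : ℝ) / s.card) (fun ω _ => by positivity) (by
    rw [Finset.sum_const, nsmul_eq_mul]
    have : (Finset.univ.image f).card ≤ s.card :=
      Finset.card_le_card (by intro a ha; obtain ⟨ω, -, rfl⟩ := Finset.mem_image.1 ha; exact hs ω)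
    have h2 : ((Finset.univ.image f).card : ℝ) ≤ s.card := by exact_mod_cast this
    rw [mul_one_div]
    exact (div_le_one hc).2 h2) (fun a => by positivity)
  refine this.trans ?_
  rw [← Finset.sum_mul, P.sum_one]
  simp

/-- Strong subadditivity (submodularity). -/
lemma H_submod (f : Ω → α) (g : Ω → β) (h : Ω → γ) :
    P.H (fun ω => (f ω, g ω, h ω)) + P.H h
      ≤ P.H (fun ω => (f ω, h ω)) + P.H (fun ω => (g ω, h ω)) := by
  set A : α × γ → ℝ := P.p (fun ω => (f ω, h ω)) with hA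
  set B : β × γ → ℝ := P.p (fun ω => (g ω, h ω)) with hB
  set C : α × β × γ → ℝ := P.p (fun ω => (f ω, g ω, h ω)) with hC
  set D : γ → ℝ := P.p h with hD
  have hA0 : ∀ x, 0 ≤ A x := fun x => P.p_nonneg _ x
  have hB0 : ∀ x, 0 ≤ B x := fun x => P.p_nonneg _ x
  have hC0 : ∀ x, 0 ≤ C x := fun x => P.p_nonneg _ x
  have hD0 : ∀ x, 0 ≤ D x := fun x => P.p_nonneg _ x
  have key : ∑ ω, P.w ω * (Real.log (A (f ω, h ω)) + Real.log (B (g ω, h ω))
      - Real.log (C (f ω, g ω, h ω)) - Real.log (D (h ω))) ≤ 0 := by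
    have h1 : ∀ ω, P.w ω * (Real.log (A (f ω, h ω)) + Real.log (B (g ω, h ω))
        - Real.log (C (f ω, g ω, h ω)) - Real.log (D (h ω)))
        ≤ P.w ω * (A (f ω, h ω) * B (g ω, h ω) / (C (f ω, g ω, h ω) * D (h ω)) - 1) := by
      intro ω
      rcases P.w_zero_or_pos ω with hw | hw
      · simp [hw]
      · refine mul_le_mul_of_nonneg_left ?_ hw.le
        have a0 : 0 < A (f ω, h ω) := P.p_pos hw (fun ω => (f ω, h ω))
        have b0 : 0 < B (g ω, h ω) := P.p_pos hw (fun ω => (g ω, h ω))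
        have c0 : 0 < C (f ω, g ω, h ω) := P.p_pos hw (fun ω => (f ω, g ω, h ω))
        have d0 : 0 < D (h ω) := P.p_pos hw h
        rw [← Real.log_mul a0.ne' b0.ne', ← Real.log_div (by positivity) c0.ne',
          ← Real.log_div (by (clear * - a0 b0 c0; positivity)) d0.ne', div_div]
        exact Real.log_le_sub_one_of_pos (by (clear * - a0 b0 c0 d0; positivity))
    have h2 : ∑ ω, P.w ω * (A (f ω, h ω) * B (g ω, h ω) / (C (f ω, g ω, h ω) * D (h ω)) - 1)
        = ∑ ω, P.w ω * (A (f ω, h ω) * B (g ω, h ω) / (C (f ω, g ω, h ω) * D (h ω))) - 1 := by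
      simp only [mul_sub, mul_one, Finset.sum_sub_distrib, P.sum_one]
    have h3 : ∑ ω, P.w ω * (A (f ω, h ω) * B (g ω, h ω) / (C (f ω, g ω, h ω) * D (h ω))) ≤ 1 := by
      have e1 := P.sum_fiber (fun ω => (f ω, g ω, h ω))
        (fun x : α × β × γ => A (x.1, x.2.2) * B (x.2.1, x.2.2) / (C x * D x.2.2))
      simp only at e1
      rw [e1]
      have e2 : ∑ x ∈ Finset.univ.image (fun ω => (f ω, g ω, h ω)),
          P.p (fun ω => (f ω, g ω, h ω)) x
            * (A (x.1, x.2.2) * B (x.2.1, x.2.2) / (C x * D x.2.2))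
          ≤ ∑ x ∈ Finset.univ.image (fun ω => (f ω, g ω, h ω)),
            A (x.1, x.2.2) * B (x.2.1, x.2.2) / D x.2.2 := by
        refine Finset.sum_le_sum fun x _ => ?_
        rw [← hC]
        rcases (hC0 x).eq_or_lt with hx | hx
        · rw [← hx, zero_mul]
          exact div_nonneg (mul_nonneg (hA0 _) (hB0 _)) (hD0 _)
        · rw [mul_comm (C x) (D x.2.2), ← div_div, mul_div_cancel₀ _ hx.ne']
      have e3 : ∑ x ∈ Finset.univ.image (fun ω => (f ω, g ω, h ω)),
            A (x.1, x.2.2) * B (x.2.1, x.2.2) / D x.2.2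
          ≤ ∑ x ∈ (Finset.univ.image f) ×ˢ ((Finset.univ.image g) ×ˢ (Finset.univ.image h)),
            A (x.1, x.2.2) * B (x.2.1, x.2.2) / D x.2.2 := by
        refine Finset.sum_le_sum_of_subset_of_nonneg ?_ ?_
        · intro x hx
          obtain ⟨ω, -, rfl⟩ := Finset.mem_image.1 hx
          simp
        · intro x _ _
          exact div_nonneg (mul_nonneg (hA0 _) (hB0 _)) (hD0 _)
      have e4 : ∑ x ∈ (Finset.univ.image f) ×ˢ ((Finset.univ.image g) ×ˢ (Finset.univ.image h)),
            A (x.1, x.2.2) * B (x.2.1, x.2.2) / D x.2.2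
          = ∑ c ∈ Finset.univ.image h, D c * D c / D c := by
        rw [Finset.sum_product]
        simp_rw [Finset.sum_product]
        have : ∀ a ∈ Finset.univ.image f, ∑ b ∈ Finset.univ.image g, ∑ c ∈ Finset.univ.image h,
            A (a, c) * B (b, c) / D c = ∑ c ∈ Finset.univ.image h, A (a, c) * D c / D c := by
          intro a _
          rw [Finset.sum_comm]
          refine Finset.sum_congr rfl fun c _ => ?_
          rw [← Finset.sum_div, ← Finset.mul_sum, hB, P.sum_p_pair_left g h c]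
        rw [Finset.sum_congr rfl this, Finset.sum_comm]
        refine Finset.sum_congr rfl fun c _ => ?_
        rw [← Finset.sum_div, ← Finset.sum_mul, hA, P.sum_p_pair_left f h c]
      have e5 : ∑ c ∈ Finset.univ.image h, D c * D c / D c = 1 := by
        rw [← P.sum_p_image h]
        refine Finset.sum_congr rfl fun c _ => ?_
        rcases (hD0 c).eq_or_lt with hx | hx
        · rw [← hD, ← hx]; simp
        · rw [mul_div_assoc, div_self hx.ne', mul_one]
      linarith only [e5, e4, e3, e2]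
    have h4 := Finset.sum_le_sum (s := Finset.univ) fun ω _ => h1 ω
    linarith
  have e : P.H (fun ω => (f ω, h ω)) + P.H (fun ω => (g ω, h ω))
      - P.H (fun ω => (f ω, g ω, h ω)) - P.H h
      = -∑ ω, P.w ω * (Real.log (A (f ω, h ω)) + Real.log (B (g ω, h ω))
      - Real.log (C (f ω, g ω, h ω)) - Real.log (D (h ω))) := by
    unfold H
    rw [← Finset.sum_add_distrib, ← Finset.sum_sub_distrib, ← Finset.sum_sub_distrib,
      ← Finset.sum_neg_distrib]
    refine Finset.sum_congr rfl fun ω _ => ?_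
    simp only [hA, hB, hC, hD]
    ring
  linarith

lemma p_eq_zero_of_notMem {f : Ω → α} {a : α} (h : ∀ ω, f ω ≠ a) : P.p f a = 0 := by
  unfold p
  exact Finset.sum_eq_zero fun ω _ => by simp [h ω]

/-- Entropy as a sum over any finset containing the range. -/
lemma H_eq_sum_of_subset [DecidableEq α] (f : Ω → α) (s : Finset α) (hs : ∀ ω, f ω ∈ s) :
    P.H f = ∑ a ∈ s, Real.negMulLog (P.p f a) := by
  rw [P.H_eq_sum]
  refine Finset.sum_subset ?_ ?_
  · intro a ha
    obtain ⟨ω, -, rfl⟩ := Finset.mem_image.1 ha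
    exact hs ω
  · intro a _ ha
    rw [P.p_eq_zero_of_notMem, Real.negMulLog_zero]
    intro ω hω
    exact ha (hω ▸ Finset.mem_image_of_mem f (Finset.mem_univ ω))

/-- Entropy depends only on the law. -/
lemma H_eq_of_law {Ω' : Type*} [Fintype Ω'] (Q : FinProb Ω') (f : Ω → α) (g : Ω' → α)
    (h : ∀ a, P.p f a = Q.p g a) : P.H f = Q.H g := by
  rw [P.H_eq_sum_of_subset f (Finset.univ.image f ∪ Finset.univ.image g)
    (fun ω => Finset.mem_union_left _ (Finset.mem_image_of_mem f (Finset.mem_univ ω))),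
    Q.H_eq_sum_of_subset g (Finset.univ.image f ∪ Finset.univ.image g)
    (fun ω => Finset.mem_union_right _ (Finset.mem_image_of_mem g (Finset.mem_univ ω)))]
  exact Finset.sum_congr rfl fun a _ => by rw [h a]

/-- If `φ` pushes `Q` to `P`, laws of compositions agree. -/
lemma p_comp_of_map {Ω' : Type*} [Fintype Ω'] (Q : FinProb Ω') (φ : Ω' → Ω)
    (hφ : ∀ ω, Q.p φ ω = P.w ω) (f : Ω → α) (a : α) :
    Q.p (fun x => f (φ x)) a = P.p f a := by
  unfold p
  have : ∀ ω, (if f ω = a then P.w ω else 0)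
      = ∑ x, if φ x = ω then (if f ω = a then Q.w x else 0) else 0 := by
    intro ω
    by_cases h : f ω = a
    · simp only [h, if_true]
      rw [← hφ ω]; rfl
    · simp [h]
  rw [Finset.sum_congr rfl fun ω _ => this ω, Finset.sum_comm]
  refine Finset.sum_congr rfl fun x _ => ?_
  rw [Finset.sum_ite_eq]
  simp

lemma H_comp_of_map {Ω' : Type*} [Fintype Ω'] (Q : FinProb Ω') (φ : Ω' → Ω)
    (hφ : ∀ ω, Q.p φ ω = P.w ω) (f : Ω → α) :
    Q.H (fun x => f (φ x)) = P.H f :=
  Q.H_eq_of_law P _ _ (P.p_comp_of_map Q φ hφ f)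

/-- Min-entropy bound. -/
lemma neg_log_le_H (f : Ω → α) (B : ℝ) (hB : ∀ a, P.p f a ≤ B) : -Real.log B ≤ P.H f := by
  unfold H
  have : -Real.log B = ∑ ω, P.w ω * (-Real.log B) := by
    rw [← Finset.sum_mul, P.sum_one, one_mul]
  rw [this]
  refine Finset.sum_le_sum fun ω _ => ?_
  rcases P.w_zero_or_pos ω with h | h
  · simp [h]
  · refine mul_le_mul_of_nonneg_left ?_ h.le
    have := Real.log_le_log (P.p_pos h f) (hB (f ω))
    linarith

end FinProb

end Vale.Agent.P060.HW
end
end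

section

open scoped Classical

noncomputable section

namespace Vale.Agent.P060.HW

namespace FinProb

variable {Ω : Type*} [Fintype Ω] (P : FinProb Ω) {α β γ δ : Type*}

/-- Conditional mutual information dominates the mass which the product of the conditional laws
gives to triples outside the support. -/
lemma offsupp_le_info (f : Ω → α) (g : Ω → β) (h : Ω → γ) (s : Finset (α × β × γ))
    (hs : ∀ x ∈ s, P.p (fun ω => (f ω, g ω, h ω)) x = 0) :
    ∑ x ∈ s, P.p (fun ω => (f ω, h ω)) (x.1, x.2.2) * P.p (fun ω => (g ω, h ω)) (x.2.1, x.2.2)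
        / P.p h x.2.2
      ≤ P.H (fun ω => (f ω, h ω)) + P.H (fun ω => (g ω, h ω))
        - P.H (fun ω => (f ω, g ω, h ω)) - P.H h := by
  set A : α × γ → ℝ := P.p (fun ω => (f ω, h ω)) with hA
  set B : β × γ → ℝ := P.p (fun ω => (g ω, h ω)) with hB
  set C : α × β × γ → ℝ := P.p (fun ω => (f ω, g ω, h ω)) with hC
  set D : γ → ℝ := P.p h with hD
  have hA0 : ∀ x, 0 ≤ A x := fun x => P.p_nonneg _ x
  have hB0 : ∀ x, 0 ≤ B x := fun x => P.p_nonneg _ x
  have hC0 : ∀ x, 0 ≤ C x := fun x => P.p_nonneg _ x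
  have hD0 : ∀ x, 0 ≤ D x := fun x => P.p_nonneg _ x
  set box := (Finset.univ.image f) ×ˢ ((Finset.univ.image g) ×ˢ (Finset.univ.image h)) with hbox
  set T : α × β × γ → ℝ := fun x => A (x.1, x.2.2) * B (x.2.1, x.2.2) / D x.2.2 with hT
  have hT0 : ∀ x, 0 ≤ T x := fun x => div_nonneg (mul_nonneg (hA0 _) (hB0 _)) (hD0 _)
  have hTout : ∀ x, x ∉ box → T x = 0 := by
    intro x hx
    simp only [hbox, Finset.mem_product, Finset.mem_image, Finset.mem_univ, true_and] at hx
    by_cases h1 : ∃ ω, f ω = x.1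
    · by_cases h2 : ∃ ω, g ω = x.2.1
      · by_cases h3 : ∃ ω, h ω = x.2.2
        · exact absurd ⟨h1, h2, h3⟩ hx
        · have : D x.2.2 = 0 := P.p_eq_zero_of_notMem fun ω hω => h3 ⟨ω, hω⟩
          simp [hT, this]
      · have : B (x.2.1, x.2.2) = 0 := P.p_eq_zero_of_notMem fun ω hω => by
          apply h2; exact ⟨ω, (Prod.ext_iff.1 hω).1⟩
        simp [hT, this]
    · have : A (x.1, x.2.2) = 0 := P.p_eq_zero_of_notMem fun ω hω => by
        apply h1; exact ⟨ω, (Prod.ext_iff.1 hω).1⟩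
      simp [hT, this]
  have key : ∑ ω, P.w ω * (Real.log (A (f ω, h ω)) + Real.log (B (g ω, h ω))
      - Real.log (C (f ω, g ω, h ω)) - Real.log (D (h ω))) ≤ - ∑ x ∈ s, T x := by
    have h1 : ∀ ω, P.w ω * (Real.log (A (f ω, h ω)) + Real.log (B (g ω, h ω))
        - Real.log (C (f ω, g ω, h ω)) - Real.log (D (h ω)))
        ≤ P.w ω * (A (f ω, h ω) * B (g ω, h ω) / (C (f ω, g ω, h ω) * D (h ω)) - 1) := by
      intro ω
      rcases P.w_zero_or_pos ω with hw | hw
      · simp [hw]
      · refine mul_le_mul_of_nonneg_left ?_ hw.le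
        have a0 : 0 < A (f ω, h ω) := P.p_pos hw (fun ω => (f ω, h ω))
        have b0 : 0 < B (g ω, h ω) := P.p_pos hw (fun ω => (g ω, h ω))
        have c0 : 0 < C (f ω, g ω, h ω) := P.p_pos hw (fun ω => (f ω, g ω, h ω))
        have d0 : 0 < D (h ω) := P.p_pos hw h
        rw [← Real.log_mul a0.ne' b0.ne', ← Real.log_div (by positivity) c0.ne',
          ← Real.log_div (by (clear * - a0 b0 c0; positivity)) d0.ne', div_div]
        exact Real.log_le_sub_one_of_pos (by (clear * - a0 b0 c0 d0; positivity))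
    have h2 : ∑ ω, P.w ω * (A (f ω, h ω) * B (g ω, h ω) / (C (f ω, g ω, h ω) * D (h ω)) - 1)
        = ∑ ω, P.w ω * (A (f ω, h ω) * B (g ω, h ω) / (C (f ω, g ω, h ω) * D (h ω))) - 1 := by
      simp only [mul_sub, mul_one, Finset.sum_sub_distrib, P.sum_one]
    have h3 : ∑ ω, P.w ω * (A (f ω, h ω) * B (g ω, h ω) / (C (f ω, g ω, h ω) * D (h ω)))
        ≤ 1 - ∑ x ∈ s, T x := by
      have e1 := P.sum_fiber (fun ω => (f ω, g ω, h ω))
        (fun x : α × β × γ => A (x.1, x.2.2) * B (x.2.1, x.2.2) / (C x * D x.2.2))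
      simp only at e1
      rw [e1]
      have e2 : ∑ x ∈ Finset.univ.image (fun ω => (f ω, g ω, h ω)),
          P.p (fun ω => (f ω, g ω, h ω)) x
            * (A (x.1, x.2.2) * B (x.2.1, x.2.2) / (C x * D x.2.2))
          ≤ ∑ x ∈ (Finset.univ.image (fun ω => (f ω, g ω, h ω))).filter (fun x => C x ≠ 0),
            T x := by
        rw [Finset.sum_filter]
        refine Finset.sum_le_sum fun x _ => ?_
        rw [← hC]
        rcases (hC0 x).eq_or_lt with hx | hx
        · rw [← hx, zero_mul]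
          simp
        · rw [mul_comm (C x) (D x.2.2), ← div_div, mul_div_cancel₀ _ hx.ne']
          simp [hx.ne', hT]
      have e4 : ∑ x ∈ box, T x = 1 := by
        have e4a : ∑ x ∈ box, T x = ∑ c ∈ Finset.univ.image h, D c * D c / D c := by
          rw [hbox, Finset.sum_product]
          simp_rw [Finset.sum_product]
          have : ∀ a ∈ Finset.univ.image f, ∑ b ∈ Finset.univ.image g,
              ∑ c ∈ Finset.univ.image h, T (a, b, c)
                = ∑ c ∈ Finset.univ.image h, A (a, c) * D c / D c := by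
            intro a _
            rw [Finset.sum_comm]
            refine Finset.sum_congr rfl fun c _ => ?_
            simp only [hT]
            rw [← Finset.sum_div, ← Finset.mul_sum, hB, P.sum_p_pair_left g h c]
          rw [Finset.sum_congr rfl this, Finset.sum_comm]
          refine Finset.sum_congr rfl fun c _ => ?_
          rw [← Finset.sum_div, ← Finset.sum_mul, hA, P.sum_p_pair_left f h c]
        rw [e4a, ← P.sum_p_image h]
        refine Finset.sum_congr rfl fun c _ => ?_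
        rcases (hD0 c).eq_or_lt with hx | hx
        · rw [← hD, ← hx]; simp
        · rw [mul_div_assoc, div_self hx.ne', mul_one]
      have e5 : ∑ x ∈ (Finset.univ.image (fun ω => (f ω, g ω, h ω))).filter (fun x => C x ≠ 0),
            T x + ∑ x ∈ s, T x ≤ ∑ x ∈ box, T x := by
        have hs' : ∑ x ∈ s, T x = ∑ x ∈ s.filter (· ∈ box), T x := by
          rw [Finset.sum_filter]
          refine Finset.sum_congr rfl fun x _ => ?_
          split_ifs with hx
          · rfl
          · exact hTout x hx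
        rw [hs', ← Finset.sum_union]
        · refine Finset.sum_le_sum_of_subset_of_nonneg ?_ (fun x _ _ => hT0 x)
          intro x hx
          rcases Finset.mem_union.1 hx with hx | hx
          · obtain ⟨ω, -, rfl⟩ := Finset.mem_image.1 (Finset.mem_filter.1 hx).1
            simp [hbox]
          · exact (Finset.mem_filter.1 hx).2
        · rw [Finset.disjoint_left]
          intro x hx hx'
          exact (Finset.mem_filter.1 hx).2 (hs x (Finset.mem_filter.1 hx').1)
      linarith only [e5, e4, e2]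
    have h4 := Finset.sum_le_sum (s := Finset.univ) fun ω _ => h1 ω
    linarith only [h4, h3, h2]
  have e : P.H (fun ω => (f ω, h ω)) + P.H (fun ω => (g ω, h ω))
      - P.H (fun ω => (f ω, g ω, h ω)) - P.H h
      = -∑ ω, P.w ω * (Real.log (A (f ω, h ω)) + Real.log (B (g ω, h ω))
      - Real.log (C (f ω, g ω, h ω)) - Real.log (D (h ω))) := by
    unfold H
    rw [← Finset.sum_add_distrib, ← Finset.sum_sub_distrib, ← Finset.sum_sub_distrib,
      ← Finset.sum_neg_distrib]
    refine Finset.sum_congr rfl fun ω _ => ?_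
    simp only [hA, hB, hC, hD]
    ring
  linarith

/-- Entropy is invariant under a weight preserving bijection of the sample space. -/
lemma p_comp_equiv (Φ : Ω ≃ Ω) (hΦ : ∀ ω, P.w (Φ ω) = P.w ω) (f : Ω → α) (a : α) :
    P.p (fun ω => f (Φ ω)) a = P.p f a := by
  unfold p
  rw [← Equiv.sum_comp Φ (fun ω => if f ω = a then P.w ω else 0)]
  exact Finset.sum_congr rfl fun ω _ => by rw [hΦ ω]

lemma H_comp_equiv (Φ : Ω ≃ Ω) (hΦ : ∀ ω, P.w (Φ ω) = P.w ω) (f : Ω → α) :
    P.H (fun ω => f (Φ ω)) = P.H f :=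
  P.H_eq_of_law P _ _ (P.p_comp_equiv Φ hΦ f)

/-- Averages are attained: some outcome of `h` of positive probability is below the average. -/
lemma exists_le_avg (h : Ω → γ) (φ : γ → ℝ) (c : ℝ)
    (hc : ∑ ω, P.w ω * φ (h ω) ≤ c) : ∃ ω, 0 < P.w ω ∧ φ (h ω) ≤ c := by
  by_contra hcon
  push Not at hcon
  have h1 : ∑ ω, P.w ω * c < ∑ ω, P.w ω * φ (h ω) := by
    have hex : ∃ ω, 0 < P.w ω := by
      by_contra hno
      push Not at hno
      have : ∑ ω, P.w ω ≤ 0 := Finset.sum_nonpos fun ω _ => hno ω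
      rw [P.sum_one] at this
      linarith
    obtain ⟨ω₀, h0⟩ := hex
    refine Finset.sum_lt_sum (fun ω _ => ?_) ⟨ω₀, Finset.mem_univ _, ?_⟩
    · rcases P.w_zero_or_pos ω with hw | hw
      · simp [hw]
      · exact mul_le_mul_of_nonneg_left (hcon ω hw).le hw.le
    · exact mul_lt_mul_of_pos_left (hcon ω₀ h0) h0
  rw [← Finset.sum_mul, P.sum_one, one_mul] at h1
  linarith

end FinProb

end Vale.Agent.P060.HW
end
end

section

/-!
# Exchangeable orderings of a family of disjoint tuples in a random sample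
-/

open scoped Classical

noncomputable section

set_option linter.unusedSectionVars false

namespace Vale.Agent.P060.HW

/-- A set `S` of samples `Fin n → X`, each with `m` disjoint `r`-tuples of indices. -/
structure Samp (X : Type*) (n m r : ℕ) where
  S : Finset (Fin n → X)
  ne : S.Nonempty
  e : (Fin n → X) → Fin m → Fin r → Fin n
  inj : ∀ s ∈ S, ∀ i k i' k', e s i k = e s i' k' → i = i' ∧ k = k'

namespace Samp

variable {X : Type*} [Fintype X] {n m r : ℕ} (D : Samp X n m r)

/-- The probability space: a sample and an ordering. -/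
abbrev Om := {s // s ∈ D.S} × Equiv.Perm (Fin m)

lemma card_Om : (Fintype.card D.Om : ℝ) = D.S.card * (m.factorial : ℝ) := by
  simp [Om, Fintype.card_prod, Fintype.card_perm]

lemma card_Om_pos : (0 : ℝ) < Fintype.card D.Om := by
  rw [card_Om]
  have : 0 < D.S.card := D.ne.card_pos
  have h2 : 0 < m.factorial := Nat.factorial_pos m
  exact mul_pos (by exact_mod_cast this) (by exact_mod_cast h2)

/-- The uniform law on the probability space. -/
def P : FinProb D.Om where
  w _ := 1 / (Fintype.card D.Om : ℝ)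
  nonneg _ := by (clear * -; positivity)
  sum_one := by
    rw [Finset.sum_const, nsmul_eq_mul, Finset.card_univ, mul_one_div,
      div_self D.card_Om_pos.ne']

lemma P_w (ω : D.Om) : D.P.w ω = 1 / (Fintype.card D.Om : ℝ) := rfl

/-- The `i`-th tuple in the random order. -/
def W (ω : D.Om) (i : Fin m) : Fin r → X := fun k => ω.1.1 (D.e ω.1.1 (ω.2 i) k)

/-- The restriction of the random sequence to a set of times. -/
def R (T : Finset (Fin m)) (ω : D.Om) : Fin m → Option (Fin r → X) :=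
  fun i => if i ∈ T then some (D.W ω i) else none

lemma R_eq_iff (T : Finset (Fin m)) (ω ω' : D.Om) :
    D.R T ω = D.R T ω' ↔ ∀ i ∈ T, D.W ω i = D.W ω' i := by
  constructor
  · intro h i hi
    have := congrFun h i
    simpa [R, hi] using this
  · intro h
    funext i
    unfold R
    split_ifs with hi
    · rw [h i hi]
    · rfl

/-- Relabelling of the times. -/
def relabel (ρ : Equiv.Perm (Fin m)) : D.Om ≃ D.Om :=
  Equiv.prodCongr (Equiv.refl _) (Equiv.mulRight ρ)

lemma W_relabel (ρ : Equiv.Perm (Fin m)) (ω : D.Om) (i : Fin m) :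
    D.W (D.relabel ρ ω) i = D.W ω (ρ i) := rfl

/-- Joint laws are exchangeable. -/
lemma H_R_eq (T T' : Finset (Fin m)) (h : T.card = T'.card) :
    D.P.H (D.R T) = D.P.H (D.R T') := by
  have e0 : {x // x ∈ T} ≃ {x // x ∈ T'} := Finset.equivOfCardEq h
  set ρ := e0.extendSubtype with hρ
  have h1 : ∀ i ∈ T, ρ i ∈ T' := fun i hi => e0.extendSubtype_mem i hi
  have h2 : T.image ρ = T' := by
    apply Finset.eq_of_subset_of_card_le
    · intro j hj
      obtain ⟨i, hi, rfl⟩ := Finset.mem_image.1 hj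
      exact h1 i hi
    · rw [Finset.card_image_of_injective _ ρ.injective, h]
  rw [← D.P.H_comp_equiv (D.relabel ρ) (fun ω => rfl) (D.R T)]
  refine D.P.H_congr_det fun ω ω' => ?_
  rw [R_eq_iff, R_eq_iff]
  simp only [W_relabel]
  constructor
  · intro h i hi
    exact h _ (h1 i hi)
  · intro h j hj
    rw [← h2] at hj
    obtain ⟨i, hi, rfl⟩ := Finset.mem_image.1 hj
    exact h i hi

/-- The first `j` times. -/
def T (m j : ℕ) : Finset (Fin m) := Finset.univ.filter (fun i => i.val < j)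

lemma card_T {j : ℕ} (hj : j ≤ m) : (T m j).card = j := by
  unfold T
  rw [Fin.card_filter_val_lt]
  omega

/-- The entropy of `j` tuples. -/
def g (j : ℕ) : ℝ := D.P.H (D.R (T m j))

lemma H_R (S : Finset (Fin m)) : D.P.H (D.R S) = D.g S.card := by
  refine D.H_R_eq _ _ ?_
  rw [card_T]
  simpa using Finset.card_le_univ S

lemma H_pair (a : Fin m) (S : Finset (Fin m)) :
    D.P.H (fun ω => (D.W ω a, D.R S ω)) = D.P.H (D.R (insert a S)) := by
  refine D.P.H_congr_det fun ω ω' => ?_
  rw [R_eq_iff, Prod.mk.injEq, R_eq_iff]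
  simp

lemma H_triple (a b : Fin m) (S : Finset (Fin m)) :
    D.P.H (fun ω => (D.W ω a, D.W ω b, D.R S ω)) = D.P.H (D.R (insert a (insert b S))) := by
  refine D.P.H_congr_det fun ω ω' => ?_
  rw [R_eq_iff, Prod.mk.injEq, Prod.mk.injEq, R_eq_iff]
  simp

/-- Concavity of the entropy profile. -/
lemma g_concave {j : ℕ} (hj : j + 2 ≤ m) : D.g (j + 2) + D.g j ≤ 2 * D.g (j + 1) := by
  set a : Fin m := ⟨j, by omega⟩
  set b : Fin m := ⟨j + 1, by omega⟩
  have ha : a ∉ T m j := by simp [T, a]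
  have hb : b ∉ T m j := by simp [T, b]
  have hab : a ≠ b := by simp [a, b]
  have h := D.P.H_submod (fun ω => D.W ω a) (fun ω => D.W ω b) (D.R (T m j))
  rw [D.H_triple, D.H_pair, D.H_pair, D.H_R, D.H_R, D.H_R, D.H_R] at h
  rw [Finset.card_insert_of_notMem (by simp [hab, ha]), Finset.card_insert_of_notMem hb,
    Finset.card_insert_of_notMem ha, card_T (by omega)] at h
  linarith only [h]

lemma g_zero_nonneg : 0 ≤ D.g 0 := D.P.H_nonneg _

lemma g_zero : D.g 0 = 0 := by
  refine le_antisymm ?_ D.g_zero_nonneg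
  have := D.P.H_le_log_card (D.R (T m 0)) {fun _ => none} (fun ω => by
    rw [Finset.mem_singleton]
    funext i
    simp [R, T])
  simpa [g] using this

lemma g_one (hm : 1 ≤ m) : D.g 1 ≤ r * Real.log (Fintype.card X) := by
  set a : Fin m := ⟨0, by omega⟩
  have h0 : D.P.H (fun ω => D.W ω a) ≤ Real.log (Fintype.card (Fin r → X)) := by
    have := D.P.H_le_log_card (fun ω => D.W ω a) Finset.univ (fun ω => Finset.mem_univ _)
    simpa using this
  have h1 : D.P.H (fun ω => D.W ω a) = D.g 1 := by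
    have e1 : D.P.H (fun ω => D.W ω a) = D.P.H (D.R {a}) := by
      refine D.P.H_congr_det fun ω ω' => ?_
      rw [R_eq_iff]
      simp
    rw [e1, D.H_R, Finset.card_singleton]
  rw [← h1]
  refine h0.trans ?_
  simp

/-- The conditional relative entropy of a tuple given `j` earlier ones. -/
def kap (j : ℕ) : ℝ := r * Real.log (Fintype.card X) - (D.g (j + 1) - D.g j)

lemma kap_zero (hm : 1 ≤ m) : 0 ≤ D.kap 0 := by
  have := D.g_one hm
  have h0 := D.g_zero
  unfold kap
  rw [h0]
  simp only [Nat.zero_add, sub_zero]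
  linarith only [this]

lemma kap_mono {j : ℕ} (hj : j + 2 ≤ m) : D.kap j ≤ D.kap (j + 1) := by
  have := D.g_concave hj
  unfold kap
  have e : D.g (j + 1 + 1) = D.g (j + 2) := rfl
  rw [e]
  linarith only [this]

lemma kap_le {i j : ℕ} (hij : i ≤ j) (hj : j < m) : D.kap i ≤ D.kap j := by
  induction j, hij using Nat.le_induction with
  | base => exact le_rfl
  | succ j hj' ih => exact (ih (by omega)).trans (D.kap_mono (by omega))

lemma kap_nonneg {j : ℕ} (hj : j < m) : 0 ≤ D.kap j :=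
  (D.kap_zero (by omega)).trans (D.kap_le (Nat.zero_le _) hj)

lemma sum_kap (j : ℕ) : ∑ i ∈ Finset.range j, D.kap i
    = j * (r * Real.log (Fintype.card X)) - D.g j := by
  induction j with
  | zero => simp [D.g_zero]
  | succ j ih =>
    rw [Finset.sum_range_succ, ih]
    unfold kap
    push_cast
    ring

/-- Counting: the number of outcomes with prescribed full sequence. -/
lemma card_full_le (hr : 1 ≤ r) (y : Fin m → Fin r → X) :
    (Finset.univ.filter (fun ω : D.Om => D.W ω = y)).card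
      ≤ n ^ (m * r) * Fintype.card X ^ (n - m * r) := by
  set F := Finset.univ.filter (fun ω : D.Om => D.W ω = y)
  let τ : D.Om → (Fin m × Fin r → Fin n) := fun ω q => D.e ω.1.1 (ω.2 q.1) q.2
  have hτinj : ∀ ω, Function.Injective (τ ω) := by
    intro ω q q' h
    have := D.inj ω.1.1 ω.1.2 _ _ _ _ h
    exact Prod.ext (ω.2.injective this.1) this.2
  have h1 : F.card ≤ Fintype.card X ^ (n - m * r) * (F.image τ).card := by
    refine Finset.card_le_mul_card_image F _ ?_
    intro t ht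
    obtain ⟨ω₀, -, hω₀⟩ := Finset.mem_image.1 ht
    have htinj : Function.Injective t := hω₀ ▸ hτinj ω₀
    set U : Finset (Fin n) := Finset.univ.image t
    have hU : U.card = m * r := by
      rw [Finset.card_image_of_injective _ htinj]; simp
    have hUc : Fintype.card {i // i ∉ U} = n - m * r := by
      rw [Fintype.card_subtype_compl]
      simp [hU]
    have : Fintype.card X ^ (n - m * r) = Fintype.card ({i // i ∉ U} → X) := by
      rw [Fintype.card_fun, hUc]
    rw [this, ← Finset.card_univ]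
    refine Finset.card_le_card_of_injOn (fun ω (i : {i // i ∉ U}) => ω.1.1 i.1)
      (fun _ _ => Finset.mem_coe.2 (Finset.mem_univ _)) ?_
    intro ω hω ω' hω' hh
    rw [Finset.mem_coe, Finset.mem_filter, Finset.mem_filter] at hω hω'
    obtain ⟨⟨-, hy⟩, ht1⟩ := hω
    obtain ⟨⟨-, hy'⟩, ht2⟩ := hω'
    have hs : ω.1.1 = ω'.1.1 := by
      funext i
      by_cases hi : i ∈ U
      · obtain ⟨q, -, rfl⟩ := Finset.mem_image.1 hi
        have e1 : ω.1.1 (t q) = y q.1 q.2 := by
          rw [← hy, ← ht1]; rfl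
        have e2 : ω'.1.1 (t q) = y q.1 q.2 := by
          rw [← hy', ← ht2]; rfl
        rw [e1, e2]
      · exact congrFun hh ⟨i, hi⟩
    have hπ : ω.2 = ω'.2 := by
      ext i
      have e1 : τ ω (i, ⟨0, hr⟩) = τ ω' (i, ⟨0, hr⟩) := by rw [ht1, ht2]
      simp only [τ] at e1
      rw [← hs] at e1
      exact congrArg _ (D.inj ω.1.1 ω.1.2 _ _ _ _ e1).1
    exact Prod.ext (Subtype.ext hs) hπ
  refine h1.trans ?_
  rw [mul_comm]
  refine Nat.mul_le_mul_right _ ?_
  calc (F.image τ).card ≤ Fintype.card (Fin m × Fin r → Fin n) := by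
        rw [← Finset.card_univ]; exact Finset.card_le_card (Finset.subset_univ _)
    _ = n ^ (m * r) := by simp

/-- The total budget. -/
def L : ℝ := Real.log ((n : ℝ) ^ (m * r) * (Fintype.card X : ℝ) ^ n
  / (D.S.card * (m.factorial : ℝ)))

include D in
lemma mr_le : m * r ≤ n := by
  obtain ⟨s, hs⟩ := D.ne
  have : Function.Injective (fun q : Fin m × Fin r => D.e s q.1 q.2) := by
    intro q q' h
    have := D.inj s hs _ _ _ _ h
    exact Prod.ext this.1 this.2
  have := Fintype.card_le_of_injective _ this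
  simpa using this

lemma g_top (hr : 1 ≤ r) (hX : 0 < Fintype.card X) :
    m * (r * Real.log (Fintype.card X)) - D.L ≤ D.g m := by
  have hS : (0 : ℝ) < D.S.card := by exact_mod_cast D.ne.card_pos
  have hf : (0 : ℝ) < m.factorial := by exact_mod_cast Nat.factorial_pos m
  have hXr : (0 : ℝ) < Fintype.card X := by exact_mod_cast hX
  have hmr := D.mr_le
  have hn : n = 0 → m * r = 0 := by omega
  have hnr : (0 : ℝ) < (n : ℝ) ^ (m * r) := by
    rcases Nat.eq_zero_or_pos n with h | h
    · rw [hn h]; simp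
    · positivity
  set B : ℝ := (n : ℝ) ^ (m * r) * (Fintype.card X : ℝ) ^ (n - m * r)
    / (D.S.card * (m.factorial : ℝ)) with hB
  have hb : ∀ v, D.P.p (D.R (T m m)) v ≤ B := by
    intro v
    have hcount : D.P.p (D.R (T m m)) v
        = (Finset.univ.filter (fun ω : D.Om => D.R (T m m) ω = v)).card
          / (D.S.card * (m.factorial : ℝ)) := by
      have e1 : D.P.p (D.R (T m m)) v
          = ∑ ω ∈ Finset.univ.filter (fun ω : D.Om => D.R (T m m) ω = v), D.P.w ω := by
        rw [Finset.sum_filter]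
        unfold FinProb.p
        refine Finset.sum_congr rfl fun ω _ => ?_
        congr
      rw [e1]
      simp only [P_w]
      rw [Finset.sum_const, nsmul_eq_mul, card_Om, mul_one_div]
    rw [hcount, hB]
    refine div_le_div_of_nonneg_right ?_ (by (clear * - hS; positivity))
    rcases (Finset.univ.filter (fun ω : D.Om => D.R (T m m) ω = v)).eq_empty_or_nonempty with
      he | ⟨ω₀, hω₀⟩
    · rw [he]; simp only [Finset.card_empty, Nat.cast_zero]; (clear * - hnr hX; positivity)
    · have hsub : Finset.univ.filter (fun ω : D.Om => D.R (T m m) ω = v)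
          ⊆ Finset.univ.filter (fun ω : D.Om => D.W ω = D.W ω₀) := by
        intro ω hω
        simp only [Finset.mem_filter, Finset.mem_univ, true_and] at hω hω₀ ⊢
        have := (D.R_eq_iff _ _ _).1 (hω.trans hω₀.symm)
        funext i
        exact this i (by simp [T])
      have h2 := (Finset.card_le_card hsub).trans (D.card_full_le hr (D.W ω₀))
      exact_mod_cast h2
  have h3 := D.P.neg_log_le_H (D.R (T m m)) B hb
  refine le_trans (le_of_eq ?_) h3
  have hpow : (Fintype.card X : ℝ) ^ n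
      = (Fintype.card X : ℝ) ^ (n - m * r) * (Fintype.card X : ℝ) ^ (m * r) := by
    rw [← pow_add]; congr 1; omega
  have hL : D.L = Real.log B + m * (r * Real.log (Fintype.card X)) := by
    unfold L
    have : (n : ℝ) ^ (m * r) * (Fintype.card X : ℝ) ^ n / (D.S.card * (m.factorial : ℝ))
        = B * (Fintype.card X : ℝ) ^ (m * r) := by
      rw [hB, hpow]; ring
    rw [this, Real.log_mul (by (clear * - hnr hX hS; positivity)) (by positivity), Real.log_pow]
    push_cast
    ring
  rw [hL]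
  ring

lemma sum_kap_le (hr : 1 ≤ r) (hX : 0 < Fintype.card X) :
    ∑ i ∈ Finset.range m, D.kap i ≤ D.L := by
  have := D.g_top hr hX
  rw [D.sum_kap]
  linarith only [this]

lemma kap_J_le (hr : 1 ≤ r) (hX : 0 < Fintype.card X) {J : ℕ} (hJ : J < m) :
    D.kap J ≤ D.L / ((m - J : ℕ) : ℝ) := by
  have h1 : ∑ i ∈ Finset.Ico J m, D.kap i ≤ D.L := by
    refine le_trans ?_ (D.sum_kap_le hr hX)
    refine Finset.sum_le_sum_of_subset_of_nonneg ?_ ?_
    · intro i hi
      simp only [Finset.mem_Ico, Finset.mem_range] at *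
      omega
    · intro i hi _
      exact D.kap_nonneg (Finset.mem_range.1 hi)
  have h2 : ((m - J : ℕ) : ℝ) * D.kap J ≤ ∑ i ∈ Finset.Ico J m, D.kap i := by
    have := Finset.card_nsmul_le_sum (Finset.Ico J m) D.kap (D.kap J) (by
      intro i hi
      rw [Finset.mem_Ico] at hi
      exact D.kap_le hi.1 hi.2)
    simpa using this
  have h3 : (0 : ℝ) < ((m - J : ℕ) : ℝ) := by
    have : 0 < m - J := by omega
    exact_mod_cast this
  rw [le_div_iff₀ h3]
  linarith only [h2, h1]

/-- There is a time at which two fresh tuples are almost conditionally independent. -/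
lemma exists_time (hr : 1 ≤ r) (hX : 0 < Fintype.card X) {J : ℕ} (hJ0 : 0 < J) (hJ : J < m) :
    ∃ j < J, D.kap j ≤ D.L / ((m - J : ℕ) : ℝ) ∧
      2 * D.g (j + 1) - D.g (j + 2) - D.g j ≤ D.L / (J * ((m - J : ℕ) : ℝ)) := by
  have hk := D.kap_J_le hr hX hJ
  have h3 : (0 : ℝ) < ((m - J : ℕ) : ℝ) := by
    have : 0 < m - J := by omega
    exact_mod_cast this
  have hJr : (0 : ℝ) < J := by exact_mod_cast hJ0
  have htel : ∑ j ∈ Finset.range J, (D.kap (j + 1) - D.kap j) = D.kap J - D.kap 0 :=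
    Finset.sum_range_sub D.kap J
  have h0 := D.kap_zero (by omega)
  by_contra hcon
  push Not at hcon
  have h5 : ∀ j ∈ Finset.range J, D.L / (J * ((m - J : ℕ) : ℝ)) < D.kap (j + 1) - D.kap j := by
    intro j hj
    rw [Finset.mem_range] at hj
    have := hcon j hj ((D.kap_le hj.le hJ).trans hk)
    refine this.trans_le (le_of_eq ?_)
    unfold kap
    have e : D.g (j + 1 + 1) = D.g (j + 2) := rfl
    rw [e]
    ring
  have h6 := Finset.sum_lt_sum_of_nonempty (by simpa using hJ0.ne') h5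
  rw [htel, Finset.sum_const, Finset.card_range, nsmul_eq_mul] at h6
  have h7 : (J : ℝ) * (D.L / (J * ((m - J : ℕ) : ℝ))) = D.L / ((m - J : ℕ) : ℝ) := by
    field_simp
  rw [h7] at h6
  linarith only [h6, h0, hk]

end Samp

end Vale.Agent.P060.HW
end
end

section

/-!
# The vertices of a random sample given a short history: exponential moment bound
-/

open scoped Classical

noncomputable section

set_option linter.unusedSectionVars false

namespace Vale.Agent.P060.HW

namespace Samp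

variable {X : Type*} [Fintype X] {n m r : ℕ} (D : Samp X n m r)

/-- The history seen through prescribed positions. -/
def enc (T : Finset (Fin m)) (τ : {i // i ∈ T} → Fin r → Fin n) (s : Fin n → X) :
    Fin m → Option (Fin r → X) :=
  fun i => if h : i ∈ T then some (fun k => s (τ ⟨i, h⟩ k)) else none

lemma R_eq_enc (T : Finset (Fin m)) (ω : D.Om) :
    D.R T ω = enc T (fun i k => D.e ω.1.1 (ω.2 i.1) k) ω.1.1 := by
  funext i
  unfold R enc
  split_ifs with h
  · rfl
  · rfl

/-- The number of sample points in a set. -/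
def cnt {ι : Type*} [Fintype ι] (s : ι → X) (A : Finset X) : ℕ :=
  (Finset.univ.filter (fun i => s i ∈ A)).card

/-- The compensated exponent. -/
def Fex (lam : ℝ) (s : Fin n → X) (A : Finset X) : ℝ :=
  lam * cnt s A - n * (Real.exp lam - 1) * (A.card / (Fintype.card X : ℝ))

lemma exp_cnt {ι : Type*} [Fintype ι] (lam : ℝ) (v : ι → X) (A : Finset X) :
    Real.exp (lam * cnt v A) = ∏ i, (if v i ∈ A then Real.exp lam else 1) := by
  rw [Finset.prod_ite, Finset.prod_const, Finset.prod_const_one, mul_one, cnt,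
    ← Real.exp_nat_mul, mul_comm]

lemma sum_exp_cnt {ι : Type*} [Fintype ι] [DecidableEq ι] (lam : ℝ) (A : Finset X) :
    ∑ v : ι → X, Real.exp (lam * cnt v A)
      = (∑ x : X, if x ∈ A then Real.exp lam else 1) ^ Fintype.card ι := by
  have h := Finset.prod_univ_sum (fun _ : ι => (Finset.univ : Finset X))
    (fun _ x => if x ∈ A then Real.exp lam else 1)
  rw [Fintype.piFinset_univ, Finset.prod_const, Finset.card_univ] at h
  rw [h]
  exact Finset.sum_congr rfl fun v _ => exp_cnt lam v A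

lemma sum_ite_exp_le (hX : 0 < Fintype.card X) (lam : ℝ) (A : Finset X) :
    ∑ x : X, (if x ∈ A then Real.exp lam else 1)
      ≤ Fintype.card X * Real.exp ((Real.exp lam - 1) * (A.card / (Fintype.card X : ℝ))) := by
  have hX' : (0 : ℝ) < Fintype.card X := by exact_mod_cast hX
  have h1 : ∑ x : X, (if x ∈ A then Real.exp lam else 1)
      = Fintype.card X + (Real.exp lam - 1) * A.card := by
    have : ∀ x : X, (if x ∈ A then Real.exp lam else 1)
        = 1 + (if x ∈ A then Real.exp lam - 1 else 0) := by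
      intro x; split_ifs <;> ring
    rw [Finset.sum_congr rfl fun x _ => this x, Finset.sum_add_distrib, ← Finset.sum_filter]
    simp
    ring
  rw [h1]
  have h2 := Real.add_one_le_exp ((Real.exp lam - 1) * (A.card / (Fintype.card X : ℝ)))
  have h3 : (Fintype.card X : ℝ) + (Real.exp lam - 1) * A.card
      = Fintype.card X * ((Real.exp lam - 1) * (A.card / (Fintype.card X : ℝ)) + 1) := by
    field_simp
    ring
  rw [h3]
  exact mul_le_mul_of_nonneg_left h2 hX'.le

/-- The exponential moment under the planted law. -/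
lemma planted_le (hX : 0 < Fintype.card X) {lam : ℝ} (hlam : 0 ≤ lam) (T : Finset (Fin m))
    (τ : {i // i ∈ T} → Fin r → Fin n) (A : (Fin m → Option (Fin r → X)) → Finset X) :
    ∑ s : Fin n → X, Real.exp (Fex lam s (A (enc T τ s)))
      ≤ Real.exp (lam * (T.card * r)) * (Fintype.card X : ℝ) ^ n := by
  have hX' : (0 : ℝ) < Fintype.card X := by exact_mod_cast hX
  have he : 0 ≤ Real.exp lam - 1 := by have := Real.add_one_le_exp lam; linarith
  set U : Finset (Fin n) := Finset.univ.image (fun q : {i // i ∈ T} × Fin r => τ q.1 q.2) with hU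
  have hUc : U.card ≤ T.card * r := by
    refine Finset.card_image_le.trans ?_
    simp
  have hmem : ∀ i k, τ i k ∈ U := fun i k => by
    rw [hU, Finset.mem_image]; exact ⟨(i, k), Finset.mem_univ _, rfl⟩
  set E := Equiv.piEquivPiSubtypeProd (fun i : Fin n => i ∈ U) (fun _ => X) with hE
  let cu : ({i // i ∈ U} → X) → (Fin m → Option (Fin r → X)) := fun u i =>
    if h : i ∈ T then some (fun k => u ⟨τ ⟨i, h⟩ k, hmem _ _⟩) else none
  have hUval : ∀ u v (i : Fin n) (hi : i ∈ U), E.symm (u, v) i = u ⟨i, hi⟩ := by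
    intro u v i hi
    simp [hE, Equiv.piEquivPiSubtypeProd, hi]
  have hVval : ∀ u v (i : Fin n) (hi : i ∉ U), E.symm (u, v) i = v ⟨i, hi⟩ := by
    intro u v i hi
    simp [hE, Equiv.piEquivPiSubtypeProd, hi]
  have henc : ∀ u v, enc T τ (E.symm (u, v)) = cu u := by
    intro u v
    funext i
    simp only [enc, cu]
    split_ifs with h
    · congr 1
      funext k
      rw [hUval u v _ (hmem _ _)]
    · rfl
  have hcnt : ∀ u v (B : Finset X), cnt (E.symm (u, v)) B ≤ U.card + cnt v B := by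
    intro u v B
    unfold cnt
    have hsub : Finset.univ.filter (fun i => E.symm (u, v) i ∈ B)
        ⊆ U ∪ (Finset.univ.filter (fun i : {i // i ∉ U} => v i ∈ B)).image Subtype.val := by
      intro i hi
      rw [Finset.mem_union]
      by_cases h : i ∈ U
      · exact Or.inl h
      · right
        rw [Finset.mem_image]
        refine ⟨⟨i, h⟩, ?_, rfl⟩
        rw [Finset.mem_filter] at hi ⊢
        refine ⟨Finset.mem_univ _, ?_⟩
        rw [← hVval u v i h]
        exact hi.2
    refine (Finset.card_le_card hsub).trans ((Finset.card_union_le _ _).trans ?_)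
    exact Nat.add_le_add_left Finset.card_image_le _
  have hcard : Fintype.card {i : Fin n // i ∈ U} + Fintype.card {i : Fin n // i ∉ U} = n := by
    have := Fintype.card_subtype_compl (fun i : Fin n => i ∈ U)
    have h2 := Fintype.card_subtype_le (fun i : Fin n => i ∈ U)
    rw [Fintype.card_fin] at this h2
    omega
  have hcardle : Fintype.card {i : Fin n // i ∉ U} ≤ n := by omega
  have step : ∀ u, ∑ v : {i : Fin n // i ∉ U} → X,
      Real.exp (Fex lam (E.symm (u, v)) (A (enc T τ (E.symm (u, v)))))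
        ≤ Real.exp (lam * (T.card * r)) * (Fintype.card X : ℝ) ^ Fintype.card {i : Fin n // i ∉ U} := by
    intro u
    set B := A (cu u) with hB
    have h1 : ∀ v, Real.exp (Fex lam (E.symm (u, v)) (A (enc T τ (E.symm (u, v)))))
        ≤ (Real.exp (lam * (T.card * r))
          * Real.exp (-(n * (Real.exp lam - 1) * (B.card / (Fintype.card X : ℝ)))))
            * Real.exp (lam * cnt v B) := by
      intro v
      rw [henc, ← hB, ← Real.exp_add, ← Real.exp_add]
      apply Real.exp_le_exp.2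
      unfold Fex
      have h2 : (cnt (E.symm (u, v)) B : ℝ) ≤ T.card * r + cnt v B := by
        have := hcnt u v B
        have h3 : cnt (E.symm (u, v)) B ≤ T.card * r + cnt v B := by omega
        exact_mod_cast h3
      have := mul_le_mul_of_nonneg_left h2 hlam
      linarith only [this]
    refine (Finset.sum_le_sum fun v _ => h1 v).trans ?_
    rw [← Finset.mul_sum, sum_exp_cnt]
    have h4 := sum_ite_exp_le hX lam B
    have h5 : (∑ x : X, if x ∈ B then Real.exp lam else 1) ^ Fintype.card {i : Fin n // i ∉ U}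
        ≤ (Fintype.card X : ℝ) ^ Fintype.card {i : Fin n // i ∉ U}
          * Real.exp (n * (Real.exp lam - 1) * (B.card / (Fintype.card X : ℝ))) := by
      refine (pow_le_pow_left₀ (Finset.sum_nonneg fun x _ => by split_ifs <;> positivity) h4 _).trans ?_
      rw [mul_pow, ← Real.exp_nat_mul]
      refine mul_le_mul_of_nonneg_left (Real.exp_le_exp.2 ?_) (by positivity)
      have h6 : 0 ≤ (Real.exp lam - 1) * (B.card / (Fintype.card X : ℝ)) := by (clear * - he hX; positivity)
      have h7 : (Fintype.card {i : Fin n // i ∉ U} : ℝ) ≤ n := by exact_mod_cast hcardle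
      calc _ ≤ (n : ℝ) * ((Real.exp lam - 1) * (B.card / (Fintype.card X : ℝ))) :=
            mul_le_mul_of_nonneg_right h7 h6
        _ = _ := by ring
    refine (mul_le_mul_of_nonneg_left h5 (by positivity)).trans (le_of_eq ?_)
    rw [Real.exp_neg]
    have h8 := Real.exp_pos (n * (Real.exp lam - 1) * (B.card / (Fintype.card X : ℝ)))
    field_simp
  have hsum : ∑ s : Fin n → X, Real.exp (Fex lam s (A (enc T τ s)))
      = ∑ u, ∑ v, Real.exp (Fex lam (E.symm (u, v)) (A (enc T τ (E.symm (u, v))))) := by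
    rw [← Fintype.sum_prod_type' (f := fun u v =>
      Real.exp (Fex lam (E.symm (u, v)) (A (enc T τ (E.symm (u, v))))))]
    exact (Equiv.sum_comp E.symm (fun s => Real.exp (Fex lam s (A (enc T τ s))))).symm
  rw [hsum]
  refine (Finset.sum_le_sum fun u _ => step u).trans (le_of_eq ?_)
  rw [Finset.sum_const, nsmul_eq_mul, Finset.card_univ, Fintype.card_fun]
  push_cast
  rw [mul_left_comm, ← pow_add, hcard]

/-- The exponential moment under the law of the sample. -/
lemma exp_moment_le (hX : 0 < Fintype.card X) {lam : ℝ} (hlam : 0 ≤ lam) (T : Finset (Fin m))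
    (A : (Fin m → Option (Fin r → X)) → Finset X) :
    ∑ ω, D.P.w ω * Real.exp (Fex lam ω.1.1 (A (D.R T ω)))
      ≤ (Fintype.card X : ℝ) ^ n / D.S.card * ((n : ℝ) ^ (r * T.card)
        * Real.exp (lam * (T.card * r))) := by
  have hS : (0 : ℝ) < D.S.card := by exact_mod_cast D.ne.card_pos
  have hf : (0 : ℝ) < m.factorial := by exact_mod_cast Nat.factorial_pos m
  have h1 : ∀ ω : D.Om, Real.exp (Fex lam ω.1.1 (A (D.R T ω)))
      ≤ ∑ τ : {i // i ∈ T} → Fin r → Fin n, Real.exp (Fex lam ω.1.1 (A (enc T τ ω.1.1))) := by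
    intro ω
    rw [R_eq_enc]
    exact Finset.single_le_sum
      (f := fun τ : {i // i ∈ T} → Fin r → Fin n => Real.exp (Fex lam ω.1.1 (A (enc T τ ω.1.1))))
      (fun τ _ => (Real.exp_pos _).le) (Finset.mem_univ _)
  simp only [P_w]
  rw [← Finset.mul_sum, card_Om]
  have h2 : ∑ ω : D.Om, Real.exp (Fex lam ω.1.1 (A (D.R T ω)))
      ≤ m.factorial * ((n : ℝ) ^ (r * T.card)
        * (Real.exp (lam * (T.card * r)) * (Fintype.card X : ℝ) ^ n)) := by
    refine (Finset.sum_le_sum fun ω _ => h1 ω).trans ?_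
    rw [Fintype.sum_prod_type]
    simp only [Finset.sum_const, nsmul_eq_mul]
    rw [← Finset.mul_sum, Finset.card_univ, Fintype.card_perm, Fintype.card_fin]
    refine mul_le_mul_of_nonneg_left ?_ hf.le
    rw [Finset.sum_comm]
    have h3 : ∀ τ : {i // i ∈ T} → Fin r → Fin n,
        ∑ s : {s // s ∈ D.S}, Real.exp (Fex lam s.1 (A (enc T τ s.1)))
          ≤ Real.exp (lam * (T.card * r)) * (Fintype.card X : ℝ) ^ n := by
      intro τ
      refine le_trans ?_ (planted_le hX hlam T τ A)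
      rw [Finset.sum_coe_sort D.S (fun s => Real.exp (Fex lam s (A (enc T τ s))))]
      exact Finset.sum_le_sum_of_subset_of_nonneg (Finset.subset_univ _)
        (fun s _ _ => (Real.exp_pos _).le)
    refine (Finset.sum_le_sum fun τ _ => h3 τ).trans (le_of_eq ?_)
    rw [Finset.sum_const, nsmul_eq_mul, Finset.card_univ]
    congr 1
    rw [Fintype.card_fun, Fintype.card_fun]
    simp [← pow_mul]
  refine (mul_le_mul_of_nonneg_left h2 (by positivity)).trans (le_of_eq ?_)
  field_simp

/-- Expected number of sample points in a history dependent set. -/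
lemma cnt_le (hX : 0 < Fintype.card X) (hn : 0 < n) {lam : ℝ} (hlam : 0 ≤ lam)
    (T : Finset (Fin m)) (A : (Fin m → Option (Fin r → X)) → Finset X) :
    ∑ ω, D.P.w ω * Fex lam ω.1.1 (A (D.R T ω))
      ≤ Real.log ((Fintype.card X : ℝ) ^ n / D.S.card) + r * T.card * Real.log n
        + lam * (T.card * r) := by
  have hS : (0 : ℝ) < D.S.card := by exact_mod_cast D.ne.card_pos
  have hX' : (0 : ℝ) < Fintype.card X := by exact_mod_cast hX
  have hn' : (0 : ℝ) < n := by exact_mod_cast hn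
  set M := (Fintype.card X : ℝ) ^ n / D.S.card * ((n : ℝ) ^ (r * T.card)
        * Real.exp (lam * (T.card * r))) with hM
  have hM0 : 0 < M := by positivity
  have hlog : Real.log M = Real.log ((Fintype.card X : ℝ) ^ n / D.S.card)
      + r * T.card * Real.log n + lam * (T.card * r) := by
    rw [hM, Real.log_mul (by positivity) (by positivity),
      Real.log_mul (by positivity) (by positivity), Real.log_exp, Real.log_pow]
    push_cast
    ring
  rw [← hlog]
  have h1 := D.exp_moment_le hX hlam T A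
  rw [← hM] at h1
  have h2 : ∀ ω : D.Om, D.P.w ω * (M * (1 + (Fex lam ω.1.1 (A (D.R T ω)) - Real.log M)))
      ≤ D.P.w ω * Real.exp (Fex lam ω.1.1 (A (D.R T ω))) := by
    intro ω
    refine mul_le_mul_of_nonneg_left ?_ (D.P.nonneg ω)
    have h3 := Real.add_one_le_exp (Fex lam ω.1.1 (A (D.R T ω)) - Real.log M)
    have h4 : Real.exp (Fex lam ω.1.1 (A (D.R T ω)))
        = M * Real.exp (Fex lam ω.1.1 (A (D.R T ω)) - Real.log M) := by
      rw [Real.exp_sub, Real.exp_log hM0]
      field_simp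
    rw [h4]
    refine mul_le_mul_of_nonneg_left ?_ hM0.le
    linarith only [h3]
  have h5 := (Finset.sum_le_sum fun ω _ => h2 ω).trans h1
  have h6 : ∑ ω : D.Om, D.P.w ω * (M * (1 + (Fex lam ω.1.1 (A (D.R T ω)) - Real.log M)))
      = M * (1 + (∑ ω, D.P.w ω * Fex lam ω.1.1 (A (D.R T ω)) - Real.log M)) := by
    have : ∀ ω : D.Om, D.P.w ω * (M * (1 + (Fex lam ω.1.1 (A (D.R T ω)) - Real.log M)))
        = M * (D.P.w ω * Fex lam ω.1.1 (A (D.R T ω))) + M * (1 - Real.log M) * D.P.w ω := by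
      intro ω; ring
    rw [Finset.sum_congr rfl fun ω _ => this ω, Finset.sum_add_distrib, ← Finset.mul_sum,
      ← Finset.mul_sum, D.P.sum_one]
    ring
  rw [h6] at h5
  have h7 : 1 + (∑ ω, D.P.w ω * Fex lam ω.1.1 (A (D.R T ω)) - Real.log M) ≤ 1 := by
    by_contra hcon
    push Not at hcon
    have := mul_lt_mul_of_pos_left hcon hM0
    linarith only [this, h5]
  linarith only [h7]

end Samp

end Vale.Agent.P060.HW
end
end

section

/-!
# Selection of a good history
-/

open scoped Classical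

noncomputable section

set_option linter.unusedSectionVars false

namespace Vale.Agent.P060.HW

namespace FinProb

variable {Ω : Type*} [Fintype Ω] (P : FinProb Ω) {α β γ δ : Type*}

/-- Conditional law. -/
def cond (f : Ω → α) (h : Ω → γ) (c : γ) (y : α) : ℝ :=
  P.p (fun ω => (f ω, h ω)) (y, c) / P.p h c

lemma cond_nonneg (f : Ω → α) (h : Ω → γ) (c : γ) (y : α) : 0 ≤ P.cond f h c y :=
  div_nonneg (P.p_nonneg _ _) (P.p_nonneg _ _)

lemma exists_of_p_ne_zero {f : Ω → α} {a : α} (h : P.p f a ≠ 0) :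
    ∃ ω, f ω = a ∧ 0 < P.w ω := by
  by_contra hcon
  apply h
  unfold p
  refine Finset.sum_eq_zero fun ω _ => ?_
  split_ifs with hω
  · rcases P.w_zero_or_pos ω with h0 | h0
    · exact h0
    · exact absurd ⟨ω, hω, h0⟩ hcon
  · rfl

lemma exists_of_cond_ne_zero {f : Ω → α} {h : Ω → γ} {c : γ} {y : α}
    (hy : P.cond f h c y ≠ 0) : ∃ ω, f ω = y ∧ h ω = c ∧ 0 < P.w ω := by
  have : P.p (fun ω => (f ω, h ω)) (y, c) ≠ 0 := by
    intro h0; apply hy; unfold cond; rw [h0, zero_div]
  obtain ⟨ω, h1, h2⟩ := P.exists_of_p_ne_zero this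
  exact ⟨ω, (Prod.ext_iff.1 h1).1, (Prod.ext_iff.1 h1).2, h2⟩

lemma sum_p_pair [Fintype α] (f : Ω → α) (h : Ω → γ) (c : γ) :
    ∑ y, P.p (fun ω => (f ω, h ω)) (y, c) = P.p h c := by
  rw [← P.sum_p_pair_left f h c]
  symm
  refine Finset.sum_subset (Finset.subset_univ _) ?_
  intro y _ hy
  apply P.p_eq_zero_of_notMem
  intro ω hω
  exact hy (Finset.mem_image.2 ⟨ω, Finset.mem_univ _, (Prod.ext_iff.1 hω).1⟩)

lemma sum_cond [Fintype α] (f : Ω → α) (h : Ω → γ) {c : γ} (hc : P.p h c ≠ 0) :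
    ∑ y, P.cond f h c y = 1 := by
  unfold cond
  rw [← Finset.sum_div, P.sum_p_pair f h c, div_self hc]

/-- Tower property. -/
lemma tower [Fintype α] (f : Ω → α) (h : Ω → γ) (ψ : α → γ → ℝ) :
    ∑ ω, P.w ω * ∑ y, P.cond f h (h ω) y * ψ y (h ω) = ∑ ω, P.w ω * ψ (f ω) (h ω) := by
  have h1 := P.sum_fiber h (fun c => ∑ y, P.cond f h c y * ψ y c)
  have h2 := P.sum_fiber (fun ω => (f ω, h ω)) (fun x : α × γ => ψ x.1 x.2)
  simp only at h1 h2
  rw [h1, h2]
  have h3 : ∑ x ∈ Finset.univ.image (fun ω => (f ω, h ω)),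
      P.p (fun ω => (f ω, h ω)) x * ψ x.1 x.2
      = ∑ x ∈ (Finset.univ : Finset α) ×ˢ Finset.univ.image h,
        P.p (fun ω => (f ω, h ω)) x * ψ x.1 x.2 := by
    refine Finset.sum_subset ?_ ?_
    · intro x hx
      obtain ⟨ω, -, rfl⟩ := Finset.mem_image.1 hx
      simp
    · intro x _ hx
      rw [P.p_eq_zero_of_notMem, zero_mul]
      intro ω hω
      exact hx (hω ▸ Finset.mem_image_of_mem _ (Finset.mem_univ ω))
  rw [h3, Finset.sum_product_right]
  refine Finset.sum_congr rfl fun c hc => ?_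
  rw [Finset.mul_sum]
  refine Finset.sum_congr rfl fun y _ => ?_
  by_cases h0 : P.p h c = 0
  · have h4 : P.p (fun ω => (f ω, h ω)) (y, c) = 0 := by
      refine le_antisymm ?_ (P.p_nonneg _ _)
      rw [← h0, ← P.sum_p_pair f h c]
      exact Finset.single_le_sum (f := fun y => P.p (fun ω => (f ω, h ω)) (y, c))
        (fun y _ => P.p_nonneg _ _) (Finset.mem_univ y)
    rw [h0, h4]; simp
  · unfold cond
    field_simp

/-- Average conditional relative entropy to the uniform law. -/
lemma avg_kl [Fintype α] (f : Ω → α) (h : Ω → γ) {N : ℝ} (hN : 0 < N) :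
    ∑ ω, P.w ω * ∑ y, P.cond f h (h ω) y * Real.log (P.cond f h (h ω) y * N)
      = Real.log N - (P.H (fun ω => (f ω, h ω)) - P.H h) := by
  rw [P.tower f h (fun y c => Real.log (P.cond f h c y * N))]
  have h1 : ∀ ω, P.w ω * Real.log (P.cond f h (h ω) (f ω) * N)
      = P.w ω * Real.log N + (P.w ω * (-Real.log (P.p h (h ω)))
        - P.w ω * (-Real.log (P.p (fun ω => (f ω, h ω)) (f ω, h ω)))) := by
    intro ω
    rcases P.w_zero_or_pos ω with h0 | h0
    · simp [h0]
    · have a0 : 0 < P.p (fun ω => (f ω, h ω)) (f ω, h ω) := P.p_pos h0 (fun ω => (f ω, h ω))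
      have b0 : 0 < P.p h (h ω) := P.p_pos h0 h
      unfold cond
      rw [Real.log_mul (by positivity) hN.ne', Real.log_div a0.ne' b0.ne']
      ring
  rw [Finset.sum_congr rfl fun ω _ => h1 ω, Finset.sum_add_distrib, ← Finset.sum_mul,
    P.sum_one, Finset.sum_sub_distrib]
  unfold H
  ring

/-- Average product mass of a relation which never happens. -/
lemma avg_conf [Fintype α] (f g : Ω → α) (h : Ω → γ) (Conf : α → α → Prop)
    (hno : ∀ ω, ¬ Conf (f ω) (g ω)) :
    ∑ ω, P.w ω * ∑ y, ∑ y', (if Conf y y' then P.cond f h (h ω) y * P.cond g h (h ω) y' else 0)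
      ≤ P.H (fun ω => (f ω, h ω)) + P.H (fun ω => (g ω, h ω))
        - P.H (fun ω => (f ω, g ω, h ω)) - P.H h := by
  set s : Finset (α × α × γ) :=
    ((Finset.univ : Finset (α × α)).filter (fun q => Conf q.1 q.2) ×ˢ
      Finset.univ.image h).map
      (Equiv.prodAssoc α α γ).toEmbedding with hs
  have h0 := P.offsupp_le_info f g h s (by
    intro x hx
    rw [hs, Finset.mem_map] at hx
    obtain ⟨q, hq, rfl⟩ := hx
    rw [Finset.mem_product, Finset.mem_filter] at hq
    apply P.p_eq_zero_of_notMem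
    intro ω hω
    have h1 := Prod.ext_iff.1 hω
    have h2 := Prod.ext_iff.1 h1.2
    simp only [Equiv.coe_toEmbedding, Equiv.prodAssoc_apply] at h1 h2
    apply hno ω
    rw [h1.1, h2.1]
    exact hq.1.2)
  refine le_trans (le_of_eq ?_) h0
  have h1 := P.sum_fiber h (fun c => ∑ y, ∑ y',
    (if Conf y y' then P.cond f h c y * P.cond g h c y' else 0))
  rw [h1, hs, Finset.sum_map, Finset.sum_product_right]
  refine Finset.sum_congr rfl fun c hc => ?_
  rw [Finset.sum_filter, Fintype.sum_prod_type, Finset.mul_sum]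
  refine Finset.sum_congr rfl fun y _ => ?_
  rw [Finset.mul_sum]
  refine Finset.sum_congr rfl fun y' _ => ?_
  simp only [Equiv.coe_toEmbedding, Equiv.prodAssoc_apply]
  split_ifs with hC
  · unfold cond
    by_cases h0 : P.p h c = 0
    · rw [h0]; simp
    · field_simp
  · simp

end FinProb

/-- Relative entropy to the uniform law is nonnegative. -/
lemma kl_nonneg {α : Type*} [Fintype α] (ν : α → ℝ) (h0 : ∀ y, 0 ≤ ν y) (h1 : ∑ y, ν y = 1)
    {N : ℝ} (hN : N = Fintype.card α) : 0 ≤ ∑ y, ν y * Real.log (ν y * N) := by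
  have hne : Nonempty α := by
    by_contra h
    rw [not_nonempty_iff] at h
    simp at h1
  have hN0 : 0 < N := by rw [hN]; exact_mod_cast Fintype.card_pos
  have h2 : ∀ y, ν y - 1 / N ≤ ν y * Real.log (ν y * N) := by
    intro y
    rcases (h0 y).eq_or_lt with h | h
    · rw [← h]; simp only [zero_sub, zero_mul]
      have : 0 < 1 / N := by positivity
      linarith
    · have h3 := Real.one_sub_inv_le_log_of_pos (mul_pos h hN0)
      have h4 := mul_le_mul_of_nonneg_left h3 h.le
      refine le_trans (le_of_eq ?_) h4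
      field_simp
  have h3 := Finset.sum_le_sum (s := Finset.univ) fun y _ => h2 y
  rw [Finset.sum_sub_distrib, h1, Finset.sum_const, nsmul_eq_mul, Finset.card_univ, ← hN,
    mul_one_div, div_self hN0.ne', sub_self] at h3
  exact h3

namespace Samp

variable {X : Type*} [Fintype X] {n m r : ℕ} (D : Samp X n m r)

/-- Averaged one-coordinate marginal. -/
def marg (ν : (Fin r → X) → ℝ) (x : X) : ℝ :=
  (1 / (r : ℝ)) * ∑ k, ∑ y, if y k = x then ν y else 0

lemma sum_marg (ν : (Fin r → X) → ℝ) (A : Finset X) :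
    ∑ x ∈ A, marg ν x = (1 / (r : ℝ)) * ∑ y, ν y * ∑ k, (if y k ∈ A then 1 else 0) := by
  unfold marg
  rw [← Finset.mul_sum]
  congr 1
  rw [Finset.sum_comm]
  have : ∀ y, ν y * ∑ k, (if y k ∈ A then (1 : ℝ) else 0)
      = ∑ k, if y k ∈ A then ν y else 0 := by
    intro y
    rw [Finset.mul_sum]
    exact Finset.sum_congr rfl fun k _ => by split_ifs <;> simp
  rw [Finset.sum_congr rfl fun y _ => this y, Finset.sum_comm (s := (Finset.univ : Finset (Fin r → X)))]
  refine Finset.sum_congr rfl fun k _ => ?_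
  rw [Finset.sum_comm]
  refine Finset.sum_congr rfl fun y _ => ?_
  rw [Finset.sum_ite_eq]

lemma R_relabel_swap (T : Finset (Fin m)) {a b : Fin m} (ha : a ∉ T) (hb : b ∉ T) (ω : D.Om) :
    D.R T (D.relabel (Equiv.swap a b) ω) = D.R T ω := by
  funext i
  unfold R
  split_ifs with hi
  · rw [W_relabel, Equiv.swap_apply_of_ne_of_ne]
    · intro h; exact ha (h ▸ hi)
    · intro h; exact hb (h ▸ hi)
  · rfl

/-- Exchange of the fresh time. -/
lemma sum_exchange (T : Finset (Fin m)) {a b : Fin m} (ha : a ∉ T) (hb : b ∉ T)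
    (ψ : (Fin r → X) → (Fin m → Option (Fin r → X)) → ℝ) :
    ∑ ω, D.P.w ω * ψ (D.W ω b) (D.R T ω) = ∑ ω, D.P.w ω * ψ (D.W ω a) (D.R T ω) := by
  rw [← Equiv.sum_comp (D.relabel (Equiv.swap a b))
    (fun ω => D.P.w ω * ψ (D.W ω b) (D.R T ω))]
  refine Finset.sum_congr rfl fun ω _ => ?_
  rw [R_relabel_swap D T ha hb, W_relabel, Equiv.swap_apply_right]
  rfl

lemma p_exchange (T : Finset (Fin m)) {a b : Fin m} (ha : a ∉ T) (hb : b ∉ T)
    (y : (Fin r → X) × (Fin m → Option (Fin r → X))) :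
    D.P.p (fun ω => (D.W ω b, D.R T ω)) y = D.P.p (fun ω => (D.W ω a, D.R T ω)) y := by
  rw [← D.P.p_comp_equiv (D.relabel (Equiv.swap a b)) (fun ω => rfl)
    (fun ω => (D.W ω b, D.R T ω)) y]
  congr 1
  funext ω
  rw [R_relabel_swap D T ha hb, W_relabel, Equiv.swap_apply_right]

/-- The average over the fresh times is controlled by the whole sample. -/
lemma fresh_le_cnt (T : Finset (Fin m)) {a : Fin m} (ha : a ∉ T)
    (A : (Fin m → Option (Fin r → X)) → Finset X) :
    ((m - T.card : ℕ) : ℝ) * ∑ ω, D.P.w ω * ∑ k, (if D.W ω a k ∈ A (D.R T ω) then (1 : ℝ) else 0)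
      ≤ ∑ ω, D.P.w ω * cnt ω.1.1 (A (D.R T ω)) := by
  have h1 : ((m - T.card : ℕ) : ℝ)
      * ∑ ω, D.P.w ω * ∑ k, (if D.W ω a k ∈ A (D.R T ω) then (1 : ℝ) else 0)
      = ∑ b ∈ Tᶜ, ∑ ω, D.P.w ω * ∑ k, (if D.W ω b k ∈ A (D.R T ω) then (1 : ℝ) else 0) := by
    have h2 : ∀ b ∈ Tᶜ, ∑ ω, D.P.w ω * ∑ k, (if D.W ω b k ∈ A (D.R T ω) then (1 : ℝ) else 0)
        = ∑ ω, D.P.w ω * ∑ k, (if D.W ω a k ∈ A (D.R T ω) then (1 : ℝ) else 0) := by
      intro b hb
      exact D.sum_exchange T ha (Finset.mem_compl.1 hb)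
        (fun y c => ∑ k, (if y k ∈ A c then (1 : ℝ) else 0))
    rw [Finset.sum_congr rfl h2, Finset.sum_const, Finset.card_compl, nsmul_eq_mul,
      Fintype.card_fin]
  rw [h1, Finset.sum_comm]
  refine Finset.sum_le_sum fun ω _ => ?_
  rw [← Finset.mul_sum]
  refine mul_le_mul_of_nonneg_left ?_ (D.P.nonneg ω)
  have h3 : ∑ b ∈ Tᶜ, ∑ k, (if D.W ω b k ∈ A (D.R T ω) then (1 : ℝ) else 0)
      = ((Tᶜ ×ˢ (Finset.univ : Finset (Fin r))).filter
        (fun q => D.W ω q.1 q.2 ∈ A (D.R T ω))).card := by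
    rw [← Finset.sum_product', Finset.card_filter]
    push_cast
    rfl
  rw [h3]
  unfold cnt
  norm_cast
  refine Finset.card_le_card_of_injOn (fun q => D.e ω.1.1 (ω.2 q.1) q.2) ?_ ?_
  · intro q hq
    rw [Finset.mem_coe, Finset.mem_filter] at hq
    rw [Finset.mem_coe, Finset.mem_filter]
    exact ⟨Finset.mem_univ _, hq.2⟩
  · intro q _ q' _ h
    have := D.inj ω.1.1 ω.1.2 _ _ _ _ h
    exact Prod.ext (ω.2.injective this.1) this.2

/-- The fluctuation bound for the marginals. -/
def tvb (n m r J : ℕ) (lam C0 : ℝ) : ℝ :=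
  n * (Real.exp lam - 1) / (lam * (r * (m - J : ℕ))) - 1
    + (C0 + r * J * Real.log n + lam * (J * r)) / (lam * (r * (m - J : ℕ)))

/-- Expected total variation of the averaged marginal, one-sided form. -/
lemma avg_tv (hr : 1 ≤ r) (hX : 0 < Fintype.card X) (hn : 0 < n) {lam : ℝ} (hlam : 0 < lam)
    {j J : ℕ} (hj : j < J) (hJ : J < m) {C0 : ℝ}
    (hC0 : Real.log ((Fintype.card X : ℝ) ^ n / D.S.card) ≤ C0)
    (A : (Fin m → Option (Fin r → X)) → Finset X) :
    ∑ ω, D.P.w ω * ∑ x ∈ A (D.R (T m j) ω),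
      (marg (D.P.cond (fun ω => D.W ω ⟨j, by omega⟩) (D.R (T m j)) (D.R (T m j) ω)) x
        - 1 / (Fintype.card X : ℝ)) ≤ tvb n m r J lam C0 := by
  set a : Fin m := ⟨j, by omega⟩ with ha
  have haT : a ∉ T m j := by simp [T, a]
  have hTc : (T m j).card = j := card_T (by omega)
  have hX' : (0 : ℝ) < Fintype.card X := by exact_mod_cast hX
  have hr' : (0 : ℝ) < r := by exact_mod_cast hr
  have hmJ : (0 : ℝ) < (m - J : ℕ) := by
    have : 0 < m - J := by omega
    exact_mod_cast this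
  have hmj : ((m - J : ℕ) : ℝ) ≤ ((m - j : ℕ) : ℝ) := by
    have : m - J ≤ m - j := by omega
    exact_mod_cast this
  have hlogn : 0 ≤ Real.log n := Real.log_nonneg (by exact_mod_cast hn)
  have hexp : 0 ≤ Real.exp lam - 1 := by have := Real.add_one_le_exp lam; linarith only [this, hlam]
  have hexp2 : lam ≤ Real.exp lam - 1 := by have := Real.add_one_le_exp lam; linarith only [this]
  set u : ℝ := ∑ ω, D.P.w ω * ((A (D.R (T m j) ω)).card / (Fintype.card X : ℝ)) with hu
  have hu0 : 0 ≤ u := Finset.sum_nonneg fun ω _ => mul_nonneg (D.P.nonneg ω) (by (clear * - hX; positivity))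
  have hu1 : u ≤ 1 := by
    rw [← D.P.sum_one]
    refine Finset.sum_le_sum fun ω _ => ?_
    have h1 : ((A (D.R (T m j) ω)).card / (Fintype.card X : ℝ)) ≤ 1 := by
      rw [div_le_one hX']
      exact_mod_cast Finset.card_le_univ _
    calc _ ≤ D.P.w ω * 1 := mul_le_mul_of_nonneg_left h1 (D.P.nonneg ω)
      _ = _ := mul_one _
  set v : ℝ := ∑ ω, D.P.w ω * ∑ k, (if D.W ω a k ∈ A (D.R (T m j) ω) then (1 : ℝ) else 0) with hv
  -- the left side
  have hL : ∑ ω, D.P.w ω * ∑ x ∈ A (D.R (T m j) ω),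
      (marg (D.P.cond (fun ω => D.W ω a) (D.R (T m j)) (D.R (T m j) ω)) x
        - 1 / (Fintype.card X : ℝ)) = v / r - u := by
    have h1 : ∀ ω : D.Om, D.P.w ω * ∑ x ∈ A (D.R (T m j) ω),
      (marg (D.P.cond (fun ω => D.W ω a) (D.R (T m j)) (D.R (T m j) ω)) x
        - 1 / (Fintype.card X : ℝ))
        = (1 / (r : ℝ)) * (D.P.w ω * ∑ y, D.P.cond (fun ω => D.W ω a) (D.R (T m j))
          (D.R (T m j) ω) y * ∑ k, (if y k ∈ A (D.R (T m j) ω) then (1 : ℝ) else 0))
          - D.P.w ω * ((A (D.R (T m j) ω)).card / (Fintype.card X : ℝ)) := by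
      intro ω
      rw [Finset.sum_sub_distrib, sum_marg, Finset.sum_const, nsmul_eq_mul]
      ring
    rw [Finset.sum_congr rfl fun ω _ => h1 ω, Finset.sum_sub_distrib, ← Finset.mul_sum,
      D.P.tower (fun ω => D.W ω a) (D.R (T m j))
        (fun y c => ∑ k, (if y k ∈ A c then (1 : ℝ) else 0))]
    ring
  rw [hL]
  -- bound for v
  have h2 := D.fresh_le_cnt (T m j) haT A
  rw [hTc, ← hv] at h2
  have h3 := D.cnt_le hX hn hlam.le (T m j) A
  rw [hTc] at h3
  have h4 : ∑ ω, D.P.w ω * Fex lam ω.1.1 (A (D.R (T m j) ω))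
      = lam * (∑ ω, D.P.w ω * cnt ω.1.1 (A (D.R (T m j) ω)))
        - n * (Real.exp lam - 1) * u := by
    rw [hu, Finset.mul_sum, Finset.mul_sum, ← Finset.sum_sub_distrib]
    refine Finset.sum_congr rfl fun ω _ => ?_
    unfold Fex
    ring
  rw [h4] at h3
  have hjJ : (j : ℝ) ≤ J := by exact_mod_cast hj.le
  have h5 : Real.log ((Fintype.card X : ℝ) ^ n / D.S.card) + r * j * Real.log n + lam * (j * r)
      ≤ C0 + r * J * Real.log n + lam * (J * r) := by
    have e1 : (r : ℝ) * j * Real.log n ≤ r * J * Real.log n := by gcongr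
    have e2 : lam * (j * r) ≤ lam * (J * r) := by gcongr
    linarith only [e2, e1, hC0]
  have hv0 : 0 ≤ v := Finset.sum_nonneg fun ω _ => mul_nonneg (D.P.nonneg ω)
    (Finset.sum_nonneg fun k _ => by split_ifs <;> norm_num)
  have h6 : ((m - J : ℕ) : ℝ) * v ≤ ((m - j : ℕ) : ℝ) * v := mul_le_mul_of_nonneg_right hmj hv0
  have h7 : lam * (((m - J : ℕ) : ℝ) * v) ≤ n * (Real.exp lam - 1) * u
      + (C0 + r * J * Real.log n + lam * (J * r)) := by
    have := mul_le_mul_of_nonneg_left (h6.trans h2) hlam.le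
    linarith only [h3, h5, this]
  have hnm : (r : ℝ) * ((m - J : ℕ) : ℝ) ≤ n := by
    have h8 := D.mr_le
    have h9 : r * (m - J) ≤ n := by
      calc r * (m - J) ≤ r * m := Nat.mul_le_mul_left _ (Nat.sub_le _ _)
        _ = m * r := mul_comm _ _
        _ ≤ n := h8
    exact_mod_cast h9
  unfold tvb
  set q : ℝ := lam * (r * ((m - J : ℕ) : ℝ)) with hq
  have hq0 : 0 < q := by (clear * - hlam hr hmJ; positivity)
  have h10 : v / r ≤ n * (Real.exp lam - 1) / q * u
      + (C0 + r * J * Real.log n + lam * (J * r)) / q := by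
    rw [div_mul_eq_mul_div, ← add_div, div_le_div_iff₀ hr' hq0, hq]
    have := mul_le_mul_of_nonneg_left h7 hr'.le
    linarith only [this]
  have h11 : 1 ≤ n * (Real.exp lam - 1) / q := by
    rw [le_div_iff₀ hq0, one_mul, hq]
    calc lam * (r * ((m - J : ℕ) : ℝ)) ≤ (Real.exp lam - 1) * n := by
          apply mul_le_mul hexp2 hnm (by positivity) hexp
      _ = _ := mul_comm _ _
  linarith only [mul_nonneg (sub_nonneg.2 h11) (sub_nonneg.2 hu1), h10]

/-- **Selection theorem.** From a set of samples each of which carries `m` disjoint tuples of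
indices with pairwise relation `¬ Conf`, one gets a single law `ν` of a tuple with small relative
entropy, small product mass of `Conf` and averaged marginal close to uniform. -/
theorem select (hr : 1 ≤ r) (hX : 0 < Fintype.card X) (hn : 0 < n) {lam : ℝ} (hlam : 0 < lam)
    {J : ℕ} (hJ0 : 0 < J) (hJ : J < m) {C0 : ℝ}
    (hC0 : Real.log ((Fintype.card X : ℝ) ^ n / D.S.card) ≤ C0)
    (Conf : (Fin r → X) → (Fin r → X) → Prop)
    (hConf : ∀ s ∈ D.S, ∀ i j, i ≠ j →
      ¬ Conf (fun k => s (D.e s i k)) (fun k => s (D.e s j k)))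
    (Good : (Fin r → X) → Prop)
    (hGood : ∀ s ∈ D.S, ∀ i, Good (fun k => s (D.e s i k)))
    {a b c η : ℝ} (ha : 0 < a) (hb : 0 < b) (hc : 0 < c) (hη : 0 < η)
    (hLa : D.L / ((m - J : ℕ) : ℝ) ≤ a) (hLb : D.L / (J * ((m - J : ℕ) : ℝ)) ≤ b)
    (htv : tvb n m r J lam C0 ≤ c) :
    ∃ ν : (Fin r → X) → ℝ, (∀ y, 0 ≤ ν y) ∧ ∑ y, ν y = 1 ∧ (∀ y, ν y ≠ 0 → Good y) ∧
      ∑ y, ν y * Real.log (ν y * (Fintype.card X : ℝ) ^ r) ≤ (1 + η) * a ∧
      ∑ y, ∑ y', (if Conf y y' then ν y * ν y' else 0) ≤ 2 * (1 + η) / η * b ∧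
      ∑ x, max 0 (marg ν x - 1 / (Fintype.card X : ℝ)) ≤ 2 * (1 + η) / η * c := by
  have hX' : (0 : ℝ) < Fintype.card X := by exact_mod_cast hX
  obtain ⟨j, hj, hj1, hj2⟩ := D.exists_time hr hX hJ0 hJ
  set t : Fin m := ⟨j, by omega⟩ with ht
  set t' : Fin m := ⟨j + 1, by omega⟩ with ht'
  have htT : t ∉ T m j := by simp [T, t]
  have htT' : t' ∉ T m j := by simp [T, t']
  have htt : t ≠ t' := by simp [t, t']
  set N : ℝ := (Fintype.card X : ℝ) ^ r with hN
  have hN0 : 0 < N := by positivity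
  have hNc : N = Fintype.card (Fin r → X) := by rw [hN, Fintype.card_fun, Fintype.card_fin]; push_cast; rfl
  set ν : (Fin m → Option (Fin r → X)) → (Fin r → X) → ℝ :=
    D.P.cond (fun ω => D.W ω t) (D.R (T m j)) with hν
  set φ1 : (Fin m → Option (Fin r → X)) → ℝ := fun h => ∑ y, ν h y * Real.log (ν h y * N) with hφ1
  set φ2 : (Fin m → Option (Fin r → X)) → ℝ := fun h =>
    ∑ y, ∑ y', (if Conf y y' then ν h y * ν h y' else 0) with hφ2
  set A : (Fin m → Option (Fin r → X)) → Finset X := fun h =>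
    Finset.univ.filter (fun x => 1 / (Fintype.card X : ℝ) < marg (ν h) x) with hA
  set φ3 : (Fin m → Option (Fin r → X)) → ℝ := fun h =>
    ∑ x ∈ A h, (marg (ν h) x - 1 / (Fintype.card X : ℝ)) with hφ3
  -- entropies
  have hHpair : D.P.H (fun ω => (D.W ω t, D.R (T m j) ω)) = D.g (j + 1) := by
    rw [D.H_pair, D.H_R, Finset.card_insert_of_notMem htT, card_T (by omega)]
  have hHpair' : D.P.H (fun ω => (D.W ω t', D.R (T m j) ω)) = D.g (j + 1) := by
    rw [D.H_pair, D.H_R, Finset.card_insert_of_notMem htT', card_T (by omega)]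
  have hHtr : D.P.H (fun ω => (D.W ω t, D.W ω t', D.R (T m j) ω)) = D.g (j + 2) := by
    rw [D.H_triple, D.H_R, Finset.card_insert_of_notMem (by simp [htt, htT]),
      Finset.card_insert_of_notMem htT', card_T (by omega)]
  have hH0 : D.P.H (D.R (T m j)) = D.g j := rfl
  have h1 : ∑ ω, D.P.w ω * φ1 (D.R (T m j) ω) ≤ a := by
    have := D.P.avg_kl (fun ω => D.W ω t) (D.R (T m j)) hN0
    rw [hHpair, hH0] at this
    refine le_trans (le_of_eq this) ?_
    refine le_trans (le_of_eq ?_) (hj1.trans hLa)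
    rw [hN, Real.log_pow]
    unfold kap
    ring
  have hno : ∀ ω : D.Om, ¬ Conf (D.W ω t) (D.W ω t') := by
    intro ω
    exact hConf ω.1.1 ω.1.2 _ _ (fun h => htt (ω.2.injective h))
  have hcondeq : ∀ h y, D.P.cond (fun ω => D.W ω t') (D.R (T m j)) h y = ν h y := by
    intro h y
    rw [hν]
    unfold FinProb.cond
    rw [D.p_exchange (T m j) htT htT' (y, h)]
  have h2 : ∑ ω, D.P.w ω * φ2 (D.R (T m j) ω) ≤ b := by
    have := D.P.avg_conf (fun ω => D.W ω t) (fun ω => D.W ω t') (D.R (T m j)) Conf hno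
    simp only [hcondeq] at this
    rw [hHpair, hHpair', hHtr, hH0] at this
    refine le_trans this (le_trans (le_of_eq ?_) (hj2.trans hLb))
    ring
  have h3 : ∑ ω, D.P.w ω * φ3 (D.R (T m j) ω) ≤ c :=
    (D.avg_tv hr hX hn hlam hj hJ hC0 A).trans htv
  have hsum : ∑ ω, D.P.w ω * (φ1 (D.R (T m j) ω) / a + η / 2 * (φ2 (D.R (T m j) ω) / b)
      + η / 2 * (φ3 (D.R (T m j) ω) / c)) ≤ 1 + η := by
    have e : ∑ ω, D.P.w ω * (φ1 (D.R (T m j) ω) / a + η / 2 * (φ2 (D.R (T m j) ω) / b)
      + η / 2 * (φ3 (D.R (T m j) ω) / c)) = (∑ ω, D.P.w ω * φ1 (D.R (T m j) ω)) / a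
        + η / 2 * ((∑ ω, D.P.w ω * φ2 (D.R (T m j) ω)) / b)
        + η / 2 * ((∑ ω, D.P.w ω * φ3 (D.R (T m j) ω)) / c) := by
      rw [Finset.sum_div, Finset.sum_div, Finset.sum_div, Finset.mul_sum, Finset.mul_sum,
        ← Finset.sum_add_distrib, ← Finset.sum_add_distrib]
      exact Finset.sum_congr rfl fun ω _ => by ring
    rw [e]
    have e1 := (div_le_one ha).2 h1
    have e2 := mul_le_mul_of_nonneg_left ((div_le_one hb).2 h2) (by positivity : 0 ≤ η / 2)
    have e3 := mul_le_mul_of_nonneg_left ((div_le_one hc).2 h3) (by positivity : 0 ≤ η / 2)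
    linarith only [e3, e2, e1]
  obtain ⟨ω, hω0, hω⟩ := D.P.exists_le_avg (D.R (T m j))
    (fun h => φ1 h / a + η / 2 * (φ2 h / b) + η / 2 * (φ3 h / c)) (1 + η) hsum
  set h := D.R (T m j) ω with hh
  have hp : D.P.p (D.R (T m j)) h ≠ 0 := (D.P.p_pos hω0 (D.R (T m j))).ne'
  have hν0 : ∀ y, 0 ≤ ν h y := fun y => D.P.cond_nonneg _ _ _ _
  have hν1 : ∑ y, ν h y = 1 := D.P.sum_cond _ _ hp
  have n1 : 0 ≤ φ1 h := kl_nonneg (ν h) hν0 hν1 hNc
  have n2 : 0 ≤ φ2 h := Finset.sum_nonneg fun y _ => Finset.sum_nonneg fun y' _ => by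
    split_ifs
    · exact mul_nonneg (hν0 y) (hν0 y')
    · exact le_rfl
  have n3 : 0 ≤ φ3 h := Finset.sum_nonneg fun x hx => by
    have := (Finset.mem_filter.1 hx).2
    linarith only [this]
  have d1 : 0 ≤ φ1 h / a := div_nonneg n1 ha.le
  have d2 : 0 ≤ η / 2 * (φ2 h / b) := mul_nonneg (by positivity) (div_nonneg n2 hb.le)
  have d3 : 0 ≤ η / 2 * (φ3 h / c) := mul_nonneg (by positivity) (div_nonneg n3 hc.le)
  refine ⟨ν h, hν0, hν1, ?_, ?_, ?_, ?_⟩
  · intro y hy
    obtain ⟨ω', e1, -, -⟩ := D.P.exists_of_cond_ne_zero hy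
    rw [← e1]
    exact hGood ω'.1.1 ω'.1.2 _
  · have : φ1 h / a ≤ 1 + η := by linarith only [hω, d2, d3]
    rwa [div_le_iff₀ ha] at this
  · have : φ2 h / b ≤ 2 * (1 + η) / η := by
      rw [le_div_iff₀ hη]
      linarith only [d3, d1, hω]
    rwa [div_le_iff₀ hb] at this
  · have : φ3 h / c ≤ 2 * (1 + η) / η := by
      rw [le_div_iff₀ hη]
      linarith only [d2, d1, hω]
    rw [div_le_iff₀ hc] at this
    refine le_trans (le_of_eq ?_) this
    rw [hφ3, hA]
    simp only
    rw [Finset.sum_filter]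
    refine Finset.sum_congr rfl fun x _ => ?_
    split_ifs with hx
    · exact max_eq_right (by linarith only [hx])
    · exact max_eq_left (by linarith only [not_lt.1 hx])

end Samp

end Vale.Agent.P060.HW
end
end

section

/-!
# From Hadwiger's conjecture for complements of pulled back triangle-free graphs to disjoint pairs
-/

open scoped Classical

noncomputable section

namespace Vale.Agent.P060.HW

variable {X : Type*} {n : ℕ}

/-- The complement of the pulled back graph. -/
def Gs (Adj : X → X → Prop) (hsym : ∀ x y, Adj x y → Adj y x) (s : Fin n → X) :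
    SimpleGraph (Fin n) where
  Adj i j := i ≠ j ∧ ¬ Adj (s i) (s j)
  symm := ⟨fun _ _ h => ⟨h.1.symm, fun h' => h.2 (hsym _ _ h')⟩⟩
  loopless := ⟨fun _ h => h.1 rfl⟩

lemma Gs_indepNum (Adj : X → X → Prop) (hsym : ∀ x y, Adj x y → Adj y x)
    (htri : ∀ x y z, Adj x y → Adj y z → Adj x z → False) (s : Fin n → X) :
    (Gs Adj hsym s).indepNum ≤ 2 := by
  by_contra hcon
  push Not at hcon
  obtain ⟨t, ht⟩ := (Gs Adj hsym s).exists_isNIndepSet_indepNum
  rw [← ht.card_eq, Finset.two_lt_card] at hcon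
  obtain ⟨a, ha, b, hb, c, hc, hab, hac, hbc⟩ := hcon
  have key : ∀ i ∈ t, ∀ j ∈ t, i ≠ j → Adj (s i) (s j) := by
    intro i hi j hj hij
    have := ht.isIndepSet hi hj hij
    by_contra h
    exact this ⟨hij, h⟩
  exact htri _ _ _ (key a ha b hb hab) (key b hb c hc hbc) (key a ha c hc hac)

lemma card_le_of_colorable (G : SimpleGraph (Fin n)) (hG : G.indepNum ≤ 2) {t : ℕ}
    (hc : G.Colorable t) : n ≤ 2 * t := by
  obtain ⟨C⟩ := hc
  have h1 := Finset.card_le_mul_card_image (f := C) (Finset.univ : Finset (Fin n)) 2 (by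
    intro b _
    refine le_trans ?_ hG
    refine SimpleGraph.IsIndepSet.card_le_indepNum (G := G) ?_
    intro i hi j hj _ hadj
    rw [Finset.mem_coe, Finset.mem_filter] at hi hj
    exact C.valid hadj (hi.2.trans hj.2.symm))
  have h2 : (Finset.univ.image C).card ≤ t := by
    refine (Finset.card_le_univ _).trans ?_
    simp
  simp only [Finset.card_univ, Fintype.card_fin] at h1
  calc n ≤ 2 * (Finset.univ.image C).card := h1
    _ ≤ 2 * t := Nat.mul_le_mul_left _ h2

lemma minor_le_card (G : SimpleGraph (Fin n)) {t : ℕ} (h : HasCliqueMinor G t) : t ≤ n := by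
  obtain ⟨B, h1, h2⟩ := h
  choose r hr using fun i => (h1 i).1
  have hinj : Function.Injective r := by
    intro i j hij
    by_contra hne
    have hd := (h2 i j hne).1
    rw [Set.disjoint_left] at hd
    exact hd (hr i) (hij ▸ hr j)
  simpa using Fintype.card_le_of_injective r hinj

lemma minor_hadwiger (G : SimpleGraph (Fin n)) : HasCliqueMinor G (hadwigerNumber G) := by
  unfold hadwigerNumber
  refine Nat.sSup_mem (s := {t : ℕ | HasCliqueMinor G t}) ?_ ⟨n, fun t ht => minor_le_card G ht⟩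
  exact ⟨0, fun i => i.elim0, fun i => i.elim0, fun i => i.elim0⟩

/-- A Hadwiger type bound yields a large clique minor. -/
lemma exists_minor (Adj : X → X → Prop) (hsym : ∀ x y, Adj x y → Adj y x)
    (htri : ∀ x y z, Adj x y → Adj y z → Adj x z → False) (s : Fin n → X)
    (h : (Gs Adj hsym s).chromaticNumber ≤ (hadwigerNumber (Gs Adj hsym s) : ℕ∞)) :
    ∃ t, n ≤ 2 * t ∧ HasCliqueMinor (Gs Adj hsym s) t := by
  refine ⟨_, ?_, minor_hadwiger _⟩
  exact card_le_of_colorable _ (Gs_indepNum Adj hsym htri s)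
    (SimpleGraph.chromaticNumber_le_iff_colorable.1 h)

lemma adj_of_connected_pair (G : SimpleGraph (Fin n)) {x y : Fin n} (hxy : x ≠ y)
    {B : Set (Fin n)} (hx : x ∈ B) (hy : y ∈ B) (hB : ∀ z ∈ B, z = x ∨ z = y)
    (h : (G.induce B).Connected) : G.Adj x y := by
  obtain ⟨w⟩ := h.preconnected ⟨x, hx⟩ ⟨y, hy⟩
  cases w with
  | nil => exact absurd rfl hxy
  | @cons _ v _ hadj _ =>
    have hadj' : G.Adj x v.1 := hadj
    rcases hB v.1 v.2 with hv | hv
    · rw [hv] at hadj'
      exact absurd hadj' (G.loopless.irrefl x)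
    · rwa [hv] at hadj'

/-- Structure of a large clique minor: many singletons or many pairs. -/
lemma families (Adj : X → X → Prop) (hsym : ∀ x y, Adj x y → Adj y x) (s : Fin n → X)
    {t p m : ℕ} (ht : n ≤ 2 * t) (hB : HasCliqueMinor (Gs Adj hsym s) t)
    (hmp : 2 * m + 4 * p ≤ n) :
    (∃ e : Fin p → Fin 1 → Fin n, (∀ i k i' k', e i k = e i' k' → i = i' ∧ k = k') ∧
      ∀ i j, i ≠ j → ¬ Adj (s (e i 0)) (s (e j 0))) ∨
    (∃ e : Fin m → Fin 2 → Fin n, (∀ i k i' k', e i k = e i' k' → i = i' ∧ k = k') ∧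
      (∀ i, ¬ Adj (s (e i 0)) (s (e i 1))) ∧
      ∀ i j, i ≠ j → ¬ ∀ k l, Adj (s (e i k)) (s (e j l))) := by
  obtain ⟨B, h1, h2⟩ := hB
  set F : Fin t → Finset (Fin n) := fun i => (B i).toFinset with hF
  have hFB : ∀ i x, x ∈ F i ↔ x ∈ B i := fun i x => by simp [hF]
  have hpos : ∀ i, 1 ≤ (F i).card := by
    intro i
    obtain ⟨x, hx⟩ := (h1 i).1
    exact Finset.card_pos.2 ⟨x, (hFB i x).2 hx⟩
  have hdisj : ∀ i j, i ≠ j → Disjoint (F i) (F j) := by
    intro i j hij
    rw [Finset.disjoint_left]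
    intro x hx hx'
    exact Set.disjoint_left.1 (h2 i j hij).1 ((hFB i x).1 hx) ((hFB j x).1 hx')
  set S1 := Finset.univ.filter (fun i => (F i).card = 1) with hS1
  set S2 := Finset.univ.filter (fun i => (F i).card = 2) with hS2
  have hsum : ∑ i, (F i).card ≤ n := by
    rw [← Finset.card_biUnion (fun i _ j _ hij => hdisj i j hij)]
    refine (Finset.card_le_univ _).trans ?_
    simp
  have hcount : 3 * t ≤ ∑ i, (F i).card + 2 * S1.card + S2.card := by
    have e1 : S1.card = ∑ i, if (F i).card = 1 then 1 else 0 := by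
      rw [hS1, Finset.card_filter]
    have e2 : S2.card = ∑ i, if (F i).card = 2 then 1 else 0 := by
      rw [hS2, Finset.card_filter]
    have e3 : 3 * t = ∑ _i : Fin t, 3 := by simp [mul_comm]
    rw [e1, e2, e3, Finset.mul_sum, ← Finset.sum_add_distrib, ← Finset.sum_add_distrib]
    refine Finset.sum_le_sum fun i _ => ?_
    have := hpos i
    split_ifs <;> omega
  by_cases hp : p ≤ S1.card
  · left
    have hemb : ∃ f : Fin p → Fin t, Function.Injective f ∧ ∀ i, f i ∈ S1 := by
      obtain ⟨T, hT, hTc⟩ := Finset.exists_subset_card_eq hp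
      refine ⟨fun i => (T.equivFinOfCardEq hTc).symm i, ?_, ?_⟩
      · intro i j hij
        exact (T.equivFinOfCardEq hTc).symm.injective (Subtype.ext hij)
      · intro i
        exact hT ((T.equivFinOfCardEq hTc).symm i).2
    obtain ⟨f, hf, hfS⟩ := hemb
    have hx : ∀ i, ∃ x, F (f i) = {x} := fun i =>
      Finset.card_eq_one.1 (Finset.mem_filter.1 (hfS i)).2
    choose x hx using hx
    have hxm : ∀ i, x i ∈ F (f i) := fun i => by rw [hx]; simp
    refine ⟨fun i _ => x i, ?_, ?_⟩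
    · intro i k i' k' h
      refine ⟨?_, Subsingleton.elim _ _⟩
      have h' : x i = x i' := h
      by_contra hne
      have := Finset.disjoint_left.1 (hdisj (f i) (f i') (fun h' => hne (hf h'))) (hxm i)
      rw [h'] at this
      exact this (hxm i')
    · intro i j hij
      obtain ⟨a, ha, b, hb, hab⟩ := (h2 (f i) (f j) (fun h' => hij (hf h'))).2
      have ea : a = x i := by
        have := (hFB _ _).2 ha
        rw [hx] at this
        simpa using this
      have eb : b = x j := by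
        have := (hFB _ _).2 hb
        rw [hx] at this
        simpa using this
      show ¬ Adj (s (x i)) (s (x j))
      rw [← ea, ← eb]
      exact hab.2
  · right
    have hm : m ≤ S2.card := by omega
    have hemb : ∃ f : Fin m → Fin t, Function.Injective f ∧ ∀ i, f i ∈ S2 := by
      obtain ⟨T, hT, hTc⟩ := Finset.exists_subset_card_eq hm
      refine ⟨fun i => (T.equivFinOfCardEq hTc).symm i, ?_, ?_⟩
      · intro i j hij
        exact (T.equivFinOfCardEq hTc).symm.injective (Subtype.ext hij)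
      · intro i
        exact hT ((T.equivFinOfCardEq hTc).symm i).2
    obtain ⟨f, hf, hfS⟩ := hemb
    have hx : ∀ i, ∃ x y, x ≠ y ∧ F (f i) = {x, y} := fun i =>
      Finset.card_eq_two.1 (Finset.mem_filter.1 (hfS i)).2
    choose x y hxy hx using hx
    have hxm : ∀ i, x i ∈ F (f i) := fun i => by rw [hx]; simp
    have hym : ∀ i, y i ∈ F (f i) := fun i => by rw [hx]; simp
    set e : Fin m → Fin 2 → Fin n := fun i k => if k = 0 then x i else y i with he
    have hem : ∀ i k, e i k ∈ F (f i) := by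
      intro i k
      simp only [he]
      split_ifs
      · exact hxm i
      · exact hym i
    have hall : ∀ i, ∀ z ∈ B (f i), ∃ k, z = e i k := by
      intro i z hz
      have := (hFB _ _).2 hz
      rw [hx, Finset.mem_insert, Finset.mem_singleton] at this
      rcases this with h | h
      · exact ⟨0, by simp [he, h]⟩
      · exact ⟨1, by simp [he, h]⟩
    refine ⟨e, ?_, ?_, ?_⟩
    · intro i k i' k' h
      have hi : i = i' := by
        by_contra hne
        have := Finset.disjoint_left.1 (hdisj (f i) (f i') (fun h' => hne (hf h'))) (hem i k)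
        exact this (h ▸ hem i' k')
      subst hi
      refine ⟨rfl, ?_⟩
      fin_cases k <;> fin_cases k' <;> simp [he] at h ⊢
      · exact hxy i h
      · exact hxy i h.symm
    · intro i
      have := adj_of_connected_pair (Gs Adj hsym s) (hxy i) ((hFB _ _).1 (hxm i))
        ((hFB _ _).1 (hym i)) (by
          intro z hz
          have := (hFB _ _).2 hz
          rw [hx, Finset.mem_insert, Finset.mem_singleton] at this
          exact this) (h1 (f i)).2
      have h3 := this.2
      simpa [he] using h3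
    · intro i j hij hcon
      obtain ⟨a, ha, b, hb, hab⟩ := (h2 (f i) (f j) (fun h' => hij (hf h'))).2
      obtain ⟨k, rfl⟩ := hall i a ha
      obtain ⟨l, rfl⟩ := hall j b hb
      exact hab.2 (hcon k l)

/-- **Finite form of the dichotomy.** -/
theorem exists_samp [Fintype X] [Nonempty X] (Adj : X → X → Prop)
    (hsym : ∀ x y, Adj x y → Adj y x)
    (htri : ∀ x y z, Adj x y → Adj y z → Adj x z → False) {p m : ℕ}
    (hmp : 2 * m + 4 * p ≤ n)
    (hHad : ∀ G : SimpleGraph (Fin n), G.indepNum ≤ 2 →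
      G.chromaticNumber ≤ (hadwigerNumber G : ℕ∞)) :
    (∃ D : Samp X n p 1, Fintype.card X ^ n ≤ 2 * D.S.card ∧
      ∀ s ∈ D.S, ∀ i j, i ≠ j → ¬ Adj (s (D.e s i 0)) (s (D.e s j 0))) ∨
    (∃ D : Samp X n m 2, Fintype.card X ^ n ≤ 2 * D.S.card ∧
      (∀ s ∈ D.S, ∀ i, ¬ Adj (s (D.e s i 0)) (s (D.e s i 1))) ∧
      ∀ s ∈ D.S, ∀ i j, i ≠ j → ¬ ∀ k l, Adj (s (D.e s i k)) (s (D.e s j l))) := by
  set Q1 : (Fin n → X) → Prop := fun s => ∃ e : Fin p → Fin 1 → Fin n,
    (∀ i k i' k', e i k = e i' k' → i = i' ∧ k = k') ∧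
      ∀ i j, i ≠ j → ¬ Adj (s (e i 0)) (s (e j 0)) with hQ1
  set Q2 : (Fin n → X) → Prop := fun s => ∃ e : Fin m → Fin 2 → Fin n,
    (∀ i k i' k', e i k = e i' k' → i = i' ∧ k = k') ∧
      (∀ i, ¬ Adj (s (e i 0)) (s (e i 1))) ∧
      ∀ i j, i ≠ j → ¬ ∀ k l, Adj (s (e i k)) (s (e j l)) with hQ2
  have hor : ∀ s, Q1 s ∨ Q2 s := by
    intro s
    obtain ⟨t, ht, hB⟩ := exists_minor Adj hsym htri s
      (hHad _ (Gs_indepNum Adj hsym htri s))
    exact families Adj hsym s ht hB hmp
  set S1 := Finset.univ.filter Q1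
  set S2 := Finset.univ.filter Q2
  have hcard : Fintype.card X ^ n ≤ S1.card + S2.card := by
    have : (Finset.univ : Finset (Fin n → X)) ⊆ S1 ∪ S2 := by
      intro s _
      rcases hor s with h | h
      · exact Finset.mem_union_left _ (Finset.mem_filter.2 ⟨Finset.mem_univ _, h⟩)
      · exact Finset.mem_union_right _ (Finset.mem_filter.2 ⟨Finset.mem_univ _, h⟩)
    have h3 := (Finset.card_le_card this).trans (Finset.card_union_le _ _)
    rw [Finset.card_univ, Fintype.card_fun, Fintype.card_fin] at h3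
    exact h3
  have hXpos : 0 < Fintype.card X ^ n := pow_pos Fintype.card_pos _
  rcases le_total S2.card S1.card with hle | hle
  · left
    have hS : Fintype.card X ^ n ≤ 2 * S1.card := by omega
    have hne : S1.Nonempty := Finset.card_pos.1 (by omega)
    have hmem : ∀ s ∈ S1, Q1 s := fun s hs => (Finset.mem_filter.1 hs).2
    refine ⟨⟨S1, hne, fun s => if h : Q1 s then h.choose else
      (hmem hne.choose hne.choose_spec).choose, ?_⟩, hS, ?_⟩
    · intro s hs i k i' k' h
      simp only [hmem s hs, dif_pos] at h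
      exact (hmem s hs).choose_spec.1 i k i' k' h
    · intro s hs i j hij
      have hs' : s ∈ S1 := hs
      simp only [hmem s hs', dif_pos]
      exact (hmem s hs').choose_spec.2 i j hij
  · right
    have hS : Fintype.card X ^ n ≤ 2 * S2.card := by omega
    have hne : S2.Nonempty := Finset.card_pos.1 (by omega)
    have hmem : ∀ s ∈ S2, Q2 s := fun s hs => (Finset.mem_filter.1 hs).2
    refine ⟨⟨S2, hne, fun s => if h : Q2 s then h.choose else
      (hmem hne.choose hne.choose_spec).choose, ?_⟩, hS, ?_, ?_⟩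
    · intro s hs i k i' k' h
      simp only [hmem s hs, dif_pos] at h
      exact (hmem s hs).choose_spec.1 i k i' k' h
    · intro s hs i
      have hs' : s ∈ S2 := hs
      simp only [hmem s hs', dif_pos]
      exact (hmem s hs').choose_spec.2.1 i
    · intro s hs i j hij
      have hs' : s ∈ S2 := hs
      simp only [hmem s hs', dif_pos]
      exact (hmem s hs').choose_spec.2.2 i j hij

end Vale.Agent.P060.HW
end
end

section

/-!
# The entropic reduction: Hadwiger's conjecture for `α ≤ 2` forces a cheap conflict-free coupling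
-/

open scoped Classical

noncomputable section

namespace Vale.Agent.P060.HW

namespace Samp

variable {X : Type*} [Fintype X] {n m r : ℕ} (D : Samp X n m r)

lemma logS_le (hX : 0 < Fintype.card X) (hS : Fintype.card X ^ n ≤ 2 * D.S.card) :
    Real.log ((Fintype.card X : ℝ) ^ n / D.S.card) ≤ Real.log 2 := by
  have hS0 : (0 : ℝ) < D.S.card := by exact_mod_cast D.ne.card_pos
  have hX' : (0 : ℝ) < Fintype.card X := by exact_mod_cast hX
  apply Real.log_le_log (by positivity)
  rw [div_le_iff₀ hS0]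
  exact_mod_cast hS

lemma L_le (hX : 0 < Fintype.card X) (hS : Fintype.card X ^ n ≤ 2 * D.S.card) (hm : 0 < m)
    (hn : 0 < n) :
    D.L ≤ Real.log 2 + m * (r * Real.log n - Real.log m + 1) := by
  have hS0 : (0 : ℝ) < D.S.card := by exact_mod_cast D.ne.card_pos
  have hX' : (0 : ℝ) < Fintype.card X := by exact_mod_cast hX
  have hn' : (0 : ℝ) < n := by exact_mod_cast hn
  have hm' : (0 : ℝ) < m := by exact_mod_cast hm
  have hf : (0 : ℝ) < m.factorial := by exact_mod_cast Nat.factorial_pos m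
  have h1 : D.L = m * r * Real.log n + Real.log ((Fintype.card X : ℝ) ^ n / D.S.card)
      - Real.log m.factorial := by
    unfold L
    have : (n : ℝ) ^ (m * r) * (Fintype.card X : ℝ) ^ n / (D.S.card * (m.factorial : ℝ))
        = (n : ℝ) ^ (m * r) * ((Fintype.card X : ℝ) ^ n / D.S.card) / m.factorial := by
      field_simp
    rw [this, Real.log_div (by positivity) (by positivity), Real.log_mul (by positivity)
      (by positivity), Real.log_pow]
    push_cast
    ring
  have h2 := D.logS_le hX hS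
  have h3 : (m : ℝ) * Real.log m - m ≤ Real.log m.factorial := by
    have h4 := Real.pow_div_factorial_le_exp (m : ℝ) hm'.le m
    rw [div_le_iff₀ hf] at h4
    have h5 := Real.log_le_log (by positivity) h4
    rw [Real.log_pow, Real.log_mul (by positivity) (by positivity), Real.log_exp] at h5
    linarith only [h5]
  rw [h1]
  linarith only [h2, h3]

end Samp

section two

variable {X : Type*} [Fintype X]

lemma sum_fin_two (F : (Fin 2 → X) → ℝ) : ∑ y, F y = ∑ x, ∑ x', F ![x, x'] := by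
  rw [← Equiv.sum_comp (finTwoArrowEquiv X).symm, Fintype.sum_prod_type]
  rfl

/-- Symmetrisation. -/
def symz (ν : (Fin 2 → X) → ℝ) (x x' : X) : ℝ := (ν ![x, x'] + ν ![x', x]) / 2

omit [Fintype X] in
lemma symz_comm (ν : (Fin 2 → X) → ℝ) (x x' : X) : symz ν x x' = symz ν x' x := by
  unfold symz; ring

lemma sum_symz (ν : (Fin 2 → X) → ℝ) : ∑ x, ∑ x', symz ν x x' = ∑ y, ν y := by
  have h1 : ∑ x, ∑ x', ν ![x', x] = ∑ x, ∑ x', ν ![x, x'] := Finset.sum_comm
  unfold symz
  simp_rw [← Finset.sum_div, Finset.sum_add_distrib]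
  rw [h1, sum_fin_two]
  ring

lemma xlogx_convex {N a b : ℝ} (hN : 0 < N) (ha : 0 ≤ a) (hb : 0 ≤ b) :
    (a + b) / 2 * Real.log ((a + b) / 2 * N)
      ≤ (a * Real.log (a * N) + b * Real.log (b * N)) / 2 := by
  have h := Real.convexOn_mul_log.2 (Set.mem_Ici.2 (mul_nonneg ha hN.le))
    (Set.mem_Ici.2 (mul_nonneg hb hN.le)) (by norm_num : (0 : ℝ) ≤ 1 / 2)
    (by norm_num : (0 : ℝ) ≤ 1 / 2) (by norm_num)
  simp only [smul_eq_mul] at h
  have e1 : (1 / 2 : ℝ) * (a * N) + 1 / 2 * (b * N) = (a + b) / 2 * N := by ring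
  rw [e1] at h
  have h2 : (a + b) / 2 * N * Real.log ((a + b) / 2 * N)
      = N * ((a + b) / 2 * Real.log ((a + b) / 2 * N)) := by ring
  have h3 : 1 / 2 * (a * N * Real.log (a * N)) + 1 / 2 * (b * N * Real.log (b * N))
      = N * ((a * Real.log (a * N) + b * Real.log (b * N)) / 2) := by ring
  rw [h2, h3] at h
  exact le_of_mul_le_mul_left h hN

lemma kl_symz {N : ℝ} (hN : 0 < N) (ν : (Fin 2 → X) → ℝ) (h0 : ∀ y, 0 ≤ ν y) :
    ∑ x, ∑ x', symz ν x x' * Real.log (symz ν x x' * N) ≤ ∑ y, ν y * Real.log (ν y * N) := by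
  have h1 : ∑ x, ∑ x', symz ν x x' * Real.log (symz ν x x' * N)
      ≤ ∑ x, ∑ x', (ν ![x, x'] * Real.log (ν ![x, x'] * N)
        + ν ![x', x] * Real.log (ν ![x', x] * N)) / 2 :=
    Finset.sum_le_sum fun x _ => Finset.sum_le_sum fun x' _ => xlogx_convex hN (h0 _) (h0 _)
  refine h1.trans (le_of_eq ?_)
  have h2 : ∑ x, ∑ x', ν ![x', x] * Real.log (ν ![x', x] * N)
      = ∑ x, ∑ x', ν ![x, x'] * Real.log (ν ![x, x'] * N) := Finset.sum_comm
  simp_rw [← Finset.sum_div, Finset.sum_add_distrib]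
  rw [h2, sum_fin_two (fun y => ν y * Real.log (ν y * N))]
  ring

lemma marg_symz (ν : (Fin 2 → X) → ℝ) (x : X) :
    ∑ x', symz ν x x' = Samp.marg ν x := by
  unfold Samp.marg symz
  rw [Fin.sum_univ_two, sum_fin_two, sum_fin_two]
  have e1 : ∑ a, ∑ b, (if (![a, b] : Fin 2 → X) 0 = x then ν ![a, b] else 0)
      = ∑ b, ν ![x, b] := by
    rw [Finset.sum_comm]
    refine Finset.sum_congr rfl fun b _ => ?_
    rw [Finset.sum_eq_single x]
    · simp
    · intro a _ ha
      simp [ha]
    · intro h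
      exact absurd (Finset.mem_univ x) h
  have e2 : ∑ a, ∑ b, (if (![a, b] : Fin 2 → X) 1 = x then ν ![a, b] else 0)
      = ∑ b, ν ![b, x] := by
    refine Finset.sum_congr rfl fun b _ => ?_
    rw [Finset.sum_eq_single x]
    · simp
    · intro a _ ha
      simp [ha]
    · intro h
      exact absurd (Finset.mem_univ x) h
  rw [e1, e2, ← Finset.sum_div, Finset.sum_add_distrib]
  push_cast
  ring

lemma conf_symz (Q : X → X → X → X → Prop) (h1 : ∀ a b c d, Q a b c d ↔ Q b a c d)
    (h2 : ∀ a b c d, Q a b c d ↔ Q a b d c) (ν : (Fin 2 → X) → ℝ) :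
    ∑ a, ∑ b, ∑ c, ∑ d, (if Q a b c d then symz ν a b * symz ν c d else 0)
      = ∑ y, ∑ y', (if Q (y 0) (y 1) (y' 0) (y' 1) then ν y * ν y' else 0) := by
  have e0 : ∀ a b, ∑ c, ∑ d, (if Q a b c d then ν ![d, c] else 0)
      = ∑ c, ∑ d, (if Q a b c d then ν ![c, d] else 0) := by
    intro a b
    rw [Finset.sum_comm]
    refine Finset.sum_congr rfl fun d _ => Finset.sum_congr rfl fun c _ => ?_
    exact if_congr (h2 a b c d) rfl rfl
  set K : X → X → ℝ := fun a b => ∑ c, ∑ d, (if Q a b c d then ν ![c, d] else 0) with hK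
  have hKs : ∀ a b, K a b = K b a := by
    intro a b
    simp only [hK]
    exact Finset.sum_congr rfl fun c _ => Finset.sum_congr rfl fun d _ =>
      if_congr (h1 a b c d) rfl rfl
  have e1 : ∀ a b, ∑ c, ∑ d, (if Q a b c d then symz ν a b * symz ν c d else 0)
      = symz ν a b * K a b := by
    intro a b
    have : ∀ c d, (if Q a b c d then symz ν a b * symz ν c d else 0)
        = symz ν a b * (((if Q a b c d then ν ![c, d] else 0)
          + (if Q a b c d then ν ![d, c] else 0)) / 2) := by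
      intro c d
      unfold symz
      split_ifs <;> ring
    simp_rw [this, ← Finset.mul_sum, ← Finset.sum_div, Finset.sum_add_distrib]
    rw [e0]
    simp only [hK]
    ring
  have e2 : ∑ a, ∑ b, ν ![b, a] * K a b = ∑ a, ∑ b, ν ![a, b] * K a b := by
    rw [Finset.sum_comm]
    exact Finset.sum_congr rfl fun a _ => Finset.sum_congr rfl fun b _ => by rw [hKs]
  have e3 : ∑ a, ∑ b, symz ν a b * K a b = ∑ a, ∑ b, ν ![a, b] * K a b := by
    have : ∀ a b, symz ν a b * K a b = (ν ![a, b] * K a b + ν ![b, a] * K a b) / 2 := by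
      intro a b; unfold symz; ring
    simp_rw [this, ← Finset.sum_div, Finset.sum_add_distrib]
    rw [e2]
    ring
  simp_rw [e1]
  rw [e3, sum_fin_two (fun y => ∑ y', (if Q (y 0) (y 1) (y' 0) (y' 1) then ν y * ν y' else 0))]
  refine Finset.sum_congr rfl fun a _ => Finset.sum_congr rfl fun b _ => ?_
  rw [sum_fin_two, hK]
  simp only [Finset.mul_sum]
  refine Finset.sum_congr rfl fun c _ => Finset.sum_congr rfl fun d _ => ?_
  simp

/-- Total variation from the one-sided bound. -/
lemma abs_le_of_max [Nonempty X] (f : X → ℝ) (hf : ∑ x, f x = 1) {c : ℝ}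
    (h : ∑ x, max 0 (f x - 1 / (Fintype.card X : ℝ)) ≤ c) :
    ∑ x, |f x - 1 / (Fintype.card X : ℝ)| ≤ 2 * c := by
  have hX : (0 : ℝ) < Fintype.card X := by exact_mod_cast Fintype.card_pos
  have h1 : ∀ x, |f x - 1 / (Fintype.card X : ℝ)|
      = 2 * max 0 (f x - 1 / (Fintype.card X : ℝ)) - (f x - 1 / (Fintype.card X : ℝ)) := by
    intro x
    rcases le_total 0 (f x - 1 / (Fintype.card X : ℝ)) with h | h
    · rw [abs_of_nonneg h, max_eq_right h]; ring
    · rw [abs_of_nonpos h, max_eq_left h]; ring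
  rw [Finset.sum_congr rfl fun x _ => h1 x, Finset.sum_sub_distrib, ← Finset.mul_sum,
    Finset.sum_sub_distrib, hf, Finset.sum_const, nsmul_eq_mul, Finset.card_univ, mul_one_div,
    div_self hX.ne']
  linarith only [h]

end two

/-- Output (a): a cheap law with few adjacencies. -/
def OutA {X : Type*} [Fintype X] (Adj : X → X → Prop) (K I : ℝ) : Prop :=
  ∃ q : X → ℝ, (∀ x, 0 ≤ q x) ∧ ∑ x, q x = 1 ∧
    ∑ x, q x * Real.log (q x * Fintype.card X) ≤ K ∧
    ∑ x, ∑ y, (if Adj x y then q x * q y else 0) ≤ I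

/-- Output (b): a cheap symmetric coupling with near uniform marginal and few conflicts. -/
def OutB {X : Type*} [Fintype X] (Adj : X → X → Prop) (K ε I : ℝ) : Prop :=
  ∃ ν : X → X → ℝ, (∀ x y, 0 ≤ ν x y) ∧ ∑ x, ∑ y, ν x y = 1 ∧ (∀ x y, ν x y = ν y x) ∧
    (∀ x y, ν x y ≠ 0 → ¬ Adj x y) ∧
    ∑ x, ∑ y, ν x y * Real.log (ν x y * (Fintype.card X : ℝ) ^ 2) ≤ K ∧
    ∑ x, |∑ y, ν x y - 1 / (Fintype.card X : ℝ)| ≤ ε ∧
    ∑ x, ∑ x', ∑ y, ∑ y',
      (if Adj x y ∧ Adj x y' ∧ Adj x' y ∧ Adj x' y' then ν x x' * ν y y' else 0) ≤ I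

lemma outA_mono {X : Type*} [Fintype X] {Adj : X → X → Prop} {K I K' I' : ℝ} (hK : K ≤ K')
    (hI : I ≤ I') (h : OutA Adj K I) : OutA Adj K' I' := by
  obtain ⟨q, h1, h2, h3, h4⟩ := h
  exact ⟨q, h1, h2, h3.trans hK, h4.trans hI⟩

lemma outB_mono {X : Type*} [Fintype X] {Adj : X → X → Prop} {K ε I K' ε' I' : ℝ} (hK : K ≤ K')
    (hε : ε ≤ ε') (hI : I ≤ I') (h : OutB Adj K ε I) : OutB Adj K' ε' I' := by
  obtain ⟨q, h1, h2, h3, h4, h5, h6, h7⟩ := h
  exact ⟨q, h1, h2, h3, h4, h5.trans hK, h6.trans hε, h7.trans hI⟩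

/-- From one-tuples to output (a). -/
lemma outA_of_samp {X : Type*} [Fintype X] [Nonempty X] {n p : ℕ} (Adj : X → X → Prop)
    (D : Samp X n p 1) (hS : Fintype.card X ^ n ≤ 2 * D.S.card)
    (hD : ∀ s ∈ D.S, ∀ i j, i ≠ j → ¬ Adj (s (D.e s i 0)) (s (D.e s j 0)))
    (hn : 0 < n) (hp : 3 ≤ p) {δ : ℝ} (hδ : 0 < δ) (hδ1 : δ ≤ 1) (hδp : δ * n ≤ p) :
    OutA Adj (4 * (2 + Real.log (1 / δ))) (24 * (2 + Real.log (1 / δ)) / (δ * n)) := by
  have hX : 0 < Fintype.card X := Fintype.card_pos
  have hn' : (0 : ℝ) < n := by exact_mod_cast hn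
  have hp' : (3 : ℝ) ≤ p := by exact_mod_cast hp
  have hp0 : (0 : ℝ) < p := by linarith only [hp']
  set J := p / 2 with hJ
  have hJ0 : 0 < J := by omega
  have hJp : J < p := by omega
  have hJ3 : (p : ℝ) / 3 ≤ J := by
    have : p ≤ 3 * J := by omega
    have h2 : (p : ℝ) ≤ 3 * J := by exact_mod_cast this
    linarith only [h2]
  have hpJ : (p : ℝ) / 2 ≤ ((p - J : ℕ) : ℝ) := by
    have : p ≤ 2 * (p - J) := by omega
    have h2 : (p : ℝ) ≤ 2 * ((p - J : ℕ) : ℝ) := by exact_mod_cast this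
    linarith only [h2]
  have hlogδ : 0 ≤ Real.log (1 / δ) := Real.log_nonneg (by rw [le_div_iff₀ hδ]; linarith only [hδ1])
  have hL := D.L_le hX hS (by omega) hn
  have hl1 : Real.log n - Real.log p ≤ Real.log (1 / δ) := by
    rw [← Real.log_div hn'.ne' hp0.ne']
    apply Real.log_le_log (by positivity)
    rw [div_le_div_iff₀ hp0 hδ]
    linarith only [hδp]
  have hlog2 : Real.log 2 ≤ 1 := by
    have := Real.log_two_lt_d9; linarith only [this]
  have hL2 : D.L ≤ p * (2 + Real.log (1 / δ)) := by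
    have h3 : (p : ℝ) * (1 * Real.log n - Real.log p + 1) ≤ p * (Real.log (1 / δ) + 1) := by
      apply mul_le_mul_of_nonneg_left _ hp0.le
      linarith only [hl1]
    push_cast at hL
    have : Real.log 2 ≤ p := by linarith only [hlog2, hp']
    linarith only [h3, hL, hlog2, hp']
  set a := 2 * (2 + Real.log (1 / δ)) with ha
  have ha0 : 0 < a := by positivity
  have hpJ0 : (0 : ℝ) < ((p - J : ℕ) : ℝ) := by linarith only [hpJ, hp']
  have hJr : (0 : ℝ) < J := by exact_mod_cast hJ0
  have hLa : D.L / ((p - J : ℕ) : ℝ) ≤ a := by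
    rw [div_le_iff₀ hpJ0, ha]
    (by_contra nlg; linarith only [mul_pos (sub_pos.2 (not_le.1 nlg)) (sub_pos.2 hδ), mul_nonneg (le_of_lt (sub_pos.2 (not_le.1 nlg))) (sub_nonneg.2 hδ1), mul_nonneg (le_of_lt (sub_pos.2 hδ)) (sub_nonneg.2 hL2), mul_nonneg (sub_nonneg.2 hδ1) (sub_nonneg.2 hL2), mul_nonneg (le_of_lt (sub_pos.2 ha0)) (sub_nonneg.2 hpJ)])
  have hLb : D.L / (J * ((p - J : ℕ) : ℝ)) ≤ a / J := by
    rw [mul_comm, ← div_div]
    exact div_le_div_of_nonneg_right hLa hJr.le
  obtain ⟨ν, h0, h1, h2, h3, h4, -⟩ := D.select le_rfl hX hn (lam := 1) one_pos hJ0 hJp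
    (D.logS_le hX hS) (fun y y' => Adj (y 0) (y' 0)) (fun s hs i j hij => hD s hs i j hij)
    (fun _ => True) (fun _ _ _ => trivial) ha0 (div_pos ha0 hJr)
    (c := max 1 (Samp.tvb n p 1 J 1 (Real.log 2))) (η := 1)
    (lt_of_lt_of_le one_pos (le_max_left _ _)) one_pos hLa hLb (le_max_right _ _)
  have hsum : ∀ F : (Fin 1 → X) → ℝ, ∑ y, F y = ∑ x, F (fun _ => x) := by
    intro F
    rw [← Equiv.sum_comp (Equiv.funUnique (Fin 1) X).symm]
    rfl
  refine ⟨fun x => ν (fun _ => x), fun x => h0 _, ?_, ?_, ?_⟩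
  · rw [← hsum]; exact h1
  · rw [hsum] at h3
    simp only [pow_one] at h3
    refine h3.trans (le_of_eq ?_)
    rw [ha]; ring
  · rw [hsum] at h4
    have h5 : ∑ x, ∑ y : Fin 1 → X,
        (if Adj ((fun _ => x : Fin 1 → X) 0) (y 0) then ν (fun _ => x) * ν y else 0)
        = ∑ x, ∑ y, (if Adj x y then ν (fun _ => x) * ν (fun _ => y) else 0) :=
      Finset.sum_congr rfl fun x _ => by rw [hsum]
    rw [h5] at h4
    refine h4.trans ?_
    have h6 : a / J ≤ 3 * a / (δ * n) := by
      rw [div_le_div_iff₀ hJr (by positivity)]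
      have : δ * n ≤ 3 * J := by linarith only [hJ3, hδp]
      linarith only [mul_le_mul_of_nonneg_left this ha0.le]
    calc 2 * (1 + 1) / 1 * (a / J) = 4 * (a / J) := by ring
      _ ≤ 4 * (3 * a / (δ * n)) := by linarith only [h6]
      _ = 24 * (2 + Real.log (1 / δ)) / (δ * n) := by rw [ha]; ring

/-- From pairs to output (b). -/
lemma outB_of_samp {X : Type*} [Fintype X] [Nonempty X] {n m : ℕ} (Adj : X → X → Prop)
    (hsym : ∀ x y, Adj x y → Adj y x)
    (D : Samp X n m 2) (hS : Fintype.card X ^ n ≤ 2 * D.S.card)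
    (hD1 : ∀ s ∈ D.S, ∀ i, ¬ Adj (s (D.e s i 0)) (s (D.e s i 1)))
    (hD2 : ∀ s ∈ D.S, ∀ i j, i ≠ j → ¬ ∀ k l, Adj (s (D.e s i k)) (s (D.e s j l)))
    (hn : 0 < n) {J : ℕ} (hJ0 : 0 < J) (hJ : J < m) {a c lam η : ℝ} (ha : 0 < a) (hc : 0 < c)
    (hlam : 0 < lam) (hη : 0 < η) (hLa : D.L / ((m - J : ℕ) : ℝ) ≤ a)
    (htv : Samp.tvb n m 2 J lam (Real.log 2) ≤ c) :
    OutB Adj ((1 + η) * a) (2 * (2 * (1 + η) / η * c)) (2 * (1 + η) / η * (a / J)) := by
  have hX : 0 < Fintype.card X := Fintype.card_pos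
  have hJr : (0 : ℝ) < J := by exact_mod_cast hJ0
  have hLb : D.L / (J * ((m - J : ℕ) : ℝ)) ≤ a / J := by
    rw [mul_comm, ← div_div]
    exact div_le_div_of_nonneg_right hLa hJr.le
  obtain ⟨ν, h0, h1, h2, h3, h4, h5⟩ := D.select (by norm_num) hX hn hlam hJ0 hJ
    (D.logS_le hX hS) (fun y y' => ∀ k l, Adj (y k) (y' l)) (fun s hs i j hij => hD2 s hs i j hij)
    (fun y => ¬ Adj (y 0) (y 1)) (fun s hs i => hD1 s hs i) ha (div_pos ha hJr) hc hη hLa hLb htv
  have hX' : (0 : ℝ) < Fintype.card X := by exact_mod_cast hX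
  refine ⟨symz ν, ?_, ?_, symz_comm ν, ?_, ?_, ?_, ?_⟩
  · intro x y
    unfold symz
    have := h0 ![x, y]
    have := h0 ![y, x]
    linarith
  · rw [sum_symz, h1]
  · intro x y hxy hadj
    apply hxy
    have e1 : ν ![x, y] = 0 := by
      by_contra h
      exact h2 _ h (by simpa using hadj)
    have e2 : ν ![y, x] = 0 := by
      by_contra h
      exact h2 _ h (by simpa using hsym _ _ hadj)
    unfold symz
    rw [e1, e2]
    norm_num
  · exact (kl_symz (by positivity) ν h0).trans h3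
  · refine abs_le_of_max (fun x => ∑ y, symz ν x y) ?_ ?_
    · rw [sum_symz, h1]
    · simp only [marg_symz]
      exact h5
  · obtain ⟨Q, hQ⟩ : ∃ Q : X → X → X → X → Prop, ∀ a b c d, Q a b c d ↔
        (Adj a c ∧ Adj a d ∧ Adj b c ∧ Adj b d) := ⟨_, fun _ _ _ _ => Iff.rfl⟩
    have hcs := conf_symz Q (fun a b c d => by rw [hQ, hQ]; tauto)
      (fun a b c d => by rw [hQ, hQ]; tauto) ν
    have e1 : ∑ x, ∑ x', ∑ y, ∑ y', (if Adj x y ∧ Adj x y' ∧ Adj x' y ∧ Adj x' y'
        then symz ν x x' * symz ν y y' else 0)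
        = ∑ x, ∑ x', ∑ y, ∑ y', (if Q x x' y y' then symz ν x x' * symz ν y y' else 0) :=
      Finset.sum_congr rfl fun a _ => Finset.sum_congr rfl fun b _ => Finset.sum_congr rfl
        fun c _ => Finset.sum_congr rfl fun d _ => if_congr (hQ a b c d).symm rfl rfl
    rw [e1, hcs]
    refine le_trans (le_of_eq ?_) h4
    refine Finset.sum_congr rfl fun y _ => Finset.sum_congr rfl fun y' _ => ?_
    have hiff : Q (y 0) (y 1) (y' 0) (y' 1) ↔ ∀ k l, Adj (y k) (y' l) := by
      rw [hQ]
      simp only [Fin.forall_fin_two]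
      tauto
    by_cases hc : Q (y 0) (y 1) (y' 0) (y' 1)
    · rw [if_pos hc, if_pos (hiff.1 hc)]
    · rw [if_neg hc, if_neg (fun h => hc (hiff.2 h))]

end Vale.Agent.P060.HW
end
end

section

/-!
# The abstract host

Vertices are triples (type, bit, parameter); the form of a vertex of type `a` and bit `ι` is a
symmetric matrix `B` with `B g_a = ι e₀`, vanishing rows `U a`, and `(B g_c)_w = 0` for `w ∈ U c`.
Two vertices are adjacent iff `B_x g_b - B_y g_a` is a multiple `u e_t`, `t ∈ E`, `u ∈ Y`.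
-/

open scoped Classical

noncomputable section

set_option linter.unusedSectionVars false

namespace Vale.Agent.P060.HW

/-- The data of the construction: coordinates `K`, types `T`. -/
structure Design (K T : Type*) where
  /-- the visible coordinates -/
  E : Finset K
  /-- a distinguished visible coordinate -/
  e0 : K
  he0 : e0 ∈ E
  /-- the vector of a type -/
  g : T → K → F
  /-- the zero rows of a type -/
  U : T → Finset K
  hU : ∀ a, ∀ w ∈ U a, w ∉ E
  hg : ∀ a, ∀ t ∈ E, g a t ∈ Y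

namespace Design

variable {K T : Type*} [Fintype K] (δ : Design K T)

/-- The common linear conditions. -/
def Com : Submodule F (Matrix K K F) where
  carrier := {B | B.IsSymm ∧ ∀ c, ∀ w ∈ δ.U c, (B.mulVec (δ.g c)) w = 0}
  zero_mem' := ⟨Matrix.isSymm_zero, fun c w _ => by simp⟩
  add_mem' := by
    rintro A B ⟨hA, hA'⟩ ⟨hB, hB'⟩
    refine ⟨hA.add hB, fun c w hw => ?_⟩
    rw [Matrix.add_mulVec, Pi.add_apply, hA' c w hw, hB' c w hw, add_zero]
  smul_mem' := by
    rintro r A ⟨hA, hA'⟩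
    refine ⟨hA.smul r, fun c w hw => ?_⟩
    rw [Matrix.smul_mulVec, Pi.smul_apply, hA' c w hw, smul_zero]

lemma mem_Com {B : Matrix K K F} :
    B ∈ δ.Com ↔ B.IsSymm ∧ ∀ c, ∀ w ∈ δ.U c, (B.mulVec (δ.g c)) w = 0 := Iff.rfl

/-- The direction space of the forms of type `a`. -/
def Dir (a : T) : Submodule F (Matrix K K F) where
  carrier := {B | B ∈ δ.Com ∧ (∀ w ∈ δ.U a, ∀ v, B w v = 0) ∧ B.mulVec (δ.g a) = 0}
  zero_mem' := ⟨Submodule.zero_mem _, fun w _ v => rfl, by simp⟩
  add_mem' := by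
    rintro A B ⟨hA, hA', hA''⟩ ⟨hB, hB', hB''⟩
    refine ⟨Submodule.add_mem _ hA hB, fun w hw v => ?_, ?_⟩
    · rw [Matrix.add_apply, hA' w hw, hB' w hw, add_zero]
    · rw [Matrix.add_mulVec, hA'', hB'', add_zero]
  smul_mem' := by
    rintro r A ⟨hA, hA', hA''⟩
    refine ⟨Submodule.smul_mem _ r hA, fun w hw v => ?_, ?_⟩
    · rw [Matrix.smul_apply, hA' w hw, smul_zero]
    · rw [Matrix.smul_mulVec, hA'', smul_zero]

lemma mem_Dir {a : T} {B : Matrix K K F} : B ∈ δ.Dir a ↔
    B ∈ δ.Com ∧ (∀ w ∈ δ.U a, ∀ v, B w v = 0) ∧ B.mulVec (δ.g a) = 0 := Iff.rfl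

lemma g_e0_ne (a : T) : δ.g a δ.e0 ≠ 0 := ne_zero_of_mem_Y (δ.hg a _ δ.he0)

/-- The particular form with `B g_a = e₀`. -/
def B0 (a : T) : Matrix K K F := fun i j =>
  if i = δ.e0 ∧ j = δ.e0 then (δ.g a δ.e0)⁻¹ else 0

lemma B0_mulVec (a : T) (v : K → F) (i : K) :
    ((δ.B0 a).mulVec v) i = if i = δ.e0 then (δ.g a δ.e0)⁻¹ * v δ.e0 else 0 := by
  unfold Matrix.mulVec dotProduct B0
  by_cases hi : i = δ.e0
  · rw [if_pos hi, Finset.sum_eq_single δ.e0]
    · simp [hi]
    · intro j _ hj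
      simp [hj]
    · intro h; exact absurd (Finset.mem_univ _) h
  · rw [if_neg hi]
    exact Finset.sum_eq_zero fun j _ => by simp [hi]

lemma B0_mem_Com (a : T) : δ.B0 a ∈ δ.Com := by
  refine ⟨?_, fun c w hw => ?_⟩
  · ext i j
    simp only [Matrix.transpose_apply, B0, and_comm]
  · rw [B0_mulVec, if_neg]
    intro h
    exact δ.hU c w hw (h ▸ δ.he0)

lemma B0_row (a b : T) {w : K} (hw : w ∈ δ.U b) (v : K) : δ.B0 a w v = 0 := by
  unfold B0
  rw [if_neg]
  rintro ⟨h, -⟩
  exact δ.hU b w hw (h ▸ δ.he0)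

lemma B0_g (a : T) : (δ.B0 a).mulVec (δ.g a) = Pi.single δ.e0 1 := by
  funext i
  rw [B0_mulVec, Pi.single_apply]
  split_ifs
  · exact inv_mul_cancel₀ (δ.g_e0_ne a)
  · rfl

/-- A linear surjection onto the direction space. -/
def proj (a : T) : Matrix K K F →ₗ[F] δ.Dir a :=
  (LinearMap.exists_leftInverse_of_injective (δ.Dir a).subtype
    (LinearMap.ker_eq_bot.2 (δ.Dir a).injective_subtype)).choose

lemma proj_apply (a : T) (B : δ.Dir a) : δ.proj a (B : Matrix K K F) = B := by
  have := (LinearMap.exists_leftInverse_of_injective (δ.Dir a).subtype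
    (LinearMap.ker_eq_bot.2 (δ.Dir a).injective_subtype)).choose_spec
  exact LinearMap.congr_fun this B

lemma proj_surjective (a : T) : Function.Surjective (δ.proj a) := fun B => ⟨B, δ.proj_apply a B⟩

variable (K T) in
/-- Vertices: type, bit, parameter. -/
abbrev Vtx := T × Bool × Matrix K K F

/-- The form of a vertex. -/
def frm (x : Vtx K T) : Matrix K K F :=
  (if x.2.1 then δ.B0 x.1 else 0) + (δ.proj x.1 x.2.2 : Matrix K K F)

lemma frm_mem_Com (x : Vtx K T) : δ.frm x ∈ δ.Com := by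
  unfold frm
  refine Submodule.add_mem _ ?_ (δ.proj x.1 x.2.2).2.1
  split_ifs
  · exact δ.B0_mem_Com _
  · exact Submodule.zero_mem _

lemma frm_symm (x : Vtx K T) : (δ.frm x).IsSymm := (δ.frm_mem_Com x).1

lemma frm_row (x : Vtx K T) {w : K} (hw : w ∈ δ.U x.1) (v : K) : δ.frm x w v = 0 := by
  unfold frm
  rw [Matrix.add_apply, (δ.proj x.1 x.2.2).2.2.1 w hw v, add_zero]
  split_ifs
  · exact δ.B0_row _ _ hw v
  · rfl

lemma frm_row_mulVec (x : Vtx K T) {w : K} (hw : w ∈ δ.U x.1) (v : K → F) :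
    ((δ.frm x).mulVec v) w = 0 := by
  unfold Matrix.mulVec dotProduct
  refine Finset.sum_eq_zero fun j _ => ?_
  show δ.frm x w j * v j = 0
  rw [δ.frm_row x hw j, zero_mul]

lemma frm_test (x : Vtx K T) (c : T) {w : K} (hw : w ∈ δ.U c) :
    ((δ.frm x).mulVec (δ.g c)) w = 0 := (δ.frm_mem_Com x).2 c w hw

lemma frm_self (x : Vtx K T) :
    (δ.frm x).mulVec (δ.g x.1) = if x.2.1 then Pi.single δ.e0 1 else 0 := by
  unfold frm
  rw [Matrix.add_mulVec, (δ.proj x.1 x.2.2).2.2.2, add_zero]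
  split_ifs
  · exact δ.B0_g _
  · simp

/-- The difference vector of two vertices. -/
def dif (x y : Vtx K T) : K → F := (δ.frm x).mulVec (δ.g y.1) - (δ.frm y).mulVec (δ.g x.1)

lemma dif_swap (x y : Vtx K T) : δ.dif y x = - δ.dif x y := by
  unfold dif; rw [neg_sub]

/-- Adjacency. -/
def Adj (x y : Vtx K T) : Prop := ∃ t ∈ δ.E, ∃ u ∈ Y, δ.dif x y = Pi.single t u

lemma adj_symm (x y : Vtx K T) (h : δ.Adj x y) : δ.Adj y x := by
  obtain ⟨t, ht, u, hu, h⟩ := h
  refine ⟨t, ht, -u, neg_mem_Y hu, ?_⟩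
  rw [dif_swap, h, Pi.single_neg]

lemma symm_dot {B : Matrix K K F} (hB : B.IsSymm) (u v : K → F) :
    dotProduct u (B.mulVec v) = dotProduct v (B.mulVec u) := by
  rw [Matrix.dotProduct_mulVec, ← Matrix.mulVec_transpose, hB, dotProduct_comm]

lemma cocycle (x y z : Vtx K T) :
    dotProduct (δ.g z.1) (δ.dif x y) + dotProduct (δ.g x.1) (δ.dif y z)
      = dotProduct (δ.g y.1) (δ.dif x z) := by
  unfold dif
  simp only [dotProduct_sub]
  rw [symm_dot (δ.frm_symm x) (δ.g z.1) (δ.g y.1), symm_dot (δ.frm_symm y) (δ.g z.1) (δ.g x.1),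
    symm_dot (δ.frm_symm z) (δ.g x.1) (δ.g y.1)]
  ring

lemma triangle_free (x y z : Vtx K T) (hxy : δ.Adj x y) (hyz : δ.Adj y z) (hxz : δ.Adj x z) :
    False := by
  obtain ⟨t₁, ht₁, u₁, hu₁, h₁⟩ := hxy
  obtain ⟨t₂, ht₂, u₂, hu₂, h₂⟩ := hyz
  obtain ⟨t₃, ht₃, u₃, hu₃, h₃⟩ := hxz
  have h := δ.cocycle x y z
  rw [h₁, h₂, h₃, dotProduct_single, dotProduct_single, dotProduct_single] at h
  have h4 := sum_free (mul_mem_Y (δ.hg z.1 t₁ ht₁) hu₁) (mul_mem_Y (δ.hg x.1 t₂ ht₂) hu₂)
  rw [h] at h4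
  exact h4 (mul_mem_Y (δ.hg y.1 t₃ ht₃) hu₃)

/-- Vertices of the same type with different bits are adjacent. -/
lemma adj_of_bit {x y : Vtx K T} (h : x.1 = y.1) (hb : x.2.1 ≠ y.2.1) : δ.Adj x y := by
  have h1 : δ.dif x y = (if x.2.1 then Pi.single δ.e0 1 else 0)
      - (if y.2.1 then Pi.single δ.e0 1 else 0) := by
    unfold dif
    rw [← δ.frm_self x, ← δ.frm_self y, h]
  cases hx : x.2.1 <;> cases hy : y.2.1
  · exact absurd (hx.trans hy.symm) hb
  · refine ⟨δ.e0, δ.he0, -1, neg_mem_Y one_mem_Y, ?_⟩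
    rw [h1, hx, hy, Pi.single_neg]
    simp
  · refine ⟨δ.e0, δ.he0, 1, one_mem_Y, ?_⟩
    rw [h1, hx, hy]
    simp
  · exact absurd (hx.trans hy.symm) hb

end Design

end Vale.Agent.P060.HW
end
end

section

/-!
# The final count: cross pairs which are not cut
-/

open scoped Classical

noncomputable section

namespace Vale.Agent.P060.HW

/-- Abstract count: mass of cross-cross configurations without any of the four cuts. -/
lemma count_abs {Z : Type*} [Fintype Z] (w : Z → ℝ) (hw : ∀ z, 0 ≤ w z)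
    (C : Z → Prop) {m q : ℝ} (hm : ∑ z, (if C z then w z else 0) = m)
    (c1 c2 : Z → Z → Prop)
    (h1 : ∀ z, w z ≠ 0 → C z → ∑ z', (if c1 z z' then w z' else 0) ≤ q)
    (h2 : ∀ z, w z ≠ 0 → C z → ∑ z', (if c2 z z' then w z' else 0) ≤ q) :
    m * m - 4 * (m * q) ≤ ∑ z, ∑ z', (if C z ∧ C z' ∧ ¬ c1 z z' ∧ ¬ c2 z z' ∧ ¬ c1 z' z ∧ ¬ c2 z' z
      then w z * w z' else 0) := by
  have e0 : ∑ z, ∑ z', (if C z ∧ C z' then w z * w z' else 0) = m * m := by
    rw [← hm, Finset.sum_mul_sum]
    refine Finset.sum_congr rfl fun z _ => Finset.sum_congr rfl fun z' _ => ?_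
    by_cases hz : C z <;> by_cases hz' : C z' <;> simp [hz, hz']
  have key : ∀ c : Z → Z → Prop, (∀ z, w z ≠ 0 → C z → ∑ z', (if c z z' then w z' else 0) ≤ q) →
      ∑ z, ∑ z', (if C z ∧ c z z' then w z * w z' else 0) ≤ m * q := by
    intro c hc
    rw [← hm, Finset.sum_mul]
    refine Finset.sum_le_sum fun z _ => ?_
    by_cases hz : C z
    · simp only [hz, true_and, if_true]
      rcases (hw z).eq_or_lt with h0 | h0
      · rw [← h0]; simp
      · have h3 := mul_le_mul_of_nonneg_left (hc z h0.ne' hz) h0.le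
        refine le_trans (le_of_eq ?_) h3
        rw [Finset.mul_sum]
        exact Finset.sum_congr rfl fun z' _ => by split_ifs <;> simp
    · simp [hz]
  have key' : ∀ c : Z → Z → Prop, (∀ z, w z ≠ 0 → C z → ∑ z', (if c z z' then w z' else 0) ≤ q) →
      ∑ z, ∑ z', (if C z' ∧ c z' z then w z * w z' else 0) ≤ m * q := by
    intro c hc
    rw [Finset.sum_comm]
    refine le_trans (le_of_eq ?_) (key c hc)
    refine Finset.sum_congr rfl fun z _ => Finset.sum_congr rfl fun z' _ => ?_
    split_ifs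
    · ring
    · rfl
  have a1 := key c1 h1
  have a2 := key c2 h2
  have a3 := key' c1 h1
  have a4 := key' c2 h2
  have hpt : ∀ z z', (if C z ∧ C z' then w z * w z' else 0)
      ≤ (if C z ∧ C z' ∧ ¬ c1 z z' ∧ ¬ c2 z z' ∧ ¬ c1 z' z ∧ ¬ c2 z' z then w z * w z' else 0)
        + (if C z ∧ c1 z z' then w z * w z' else 0) + (if C z ∧ c2 z z' then w z * w z' else 0)
        + (if C z' ∧ c1 z' z then w z * w z' else 0)
        + (if C z' ∧ c2 z' z then w z * w z' else 0) := by
    intro z z'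
    have h0 : 0 ≤ w z * w z' := mul_nonneg (hw z) (hw z')
    by_cases hz : C z <;> by_cases hz' : C z' <;> by_cases b1 : c1 z z' <;>
      by_cases b2 : c2 z z' <;> by_cases b3 : c1 z' z <;> by_cases b4 : c2 z' z <;>
      simp only [hz, hz', b1, b2, b3, b4, and_true, and_false,
        not_true_eq_false, not_false_eq_true, if_true, if_false] <;> linarith
  have hsum := Finset.sum_le_sum (s := Finset.univ) fun z _ =>
    Finset.sum_le_sum (s := Finset.univ) fun z' _ => hpt z z'
  simp only [Finset.sum_add_distrib] at hsum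
  rw [e0] at hsum
  linarith

namespace Design

variable {K T : Type*} [Fintype K] [Fintype T] (δ : Design K T)

/-- Same-type mass is at most one half, up to small errors. -/
lemma same_mass [Nonempty T] (ν : Vtx K T → Vtx K T → ℝ) (h0 : ∀ x y, 0 ≤ ν x y)
    (h2 : ∀ x y, ν x y ≠ 0 → ¬ δ.Adj x y) {ε I : ℝ}
    (hm : ∑ x, |∑ y, ν x y - 1 / (Fintype.card (Vtx K T) : ℝ)| ≤ ε)
    (hc : ∑ x, ∑ x', ∑ y, ∑ y', (if δ.Adj x y ∧ δ.Adj x y' ∧ δ.Adj x' y ∧ δ.Adj x' y'
      then ν x x' * ν y y' else 0) ≤ I) :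
    ∑ x, ∑ x', (if x.1 = x'.1 then ν x x' else 0)
      ≤ 1 / 2 + ε + Fintype.card T * Real.sqrt I := by
  set N : ℝ := (Fintype.card (Vtx K T) : ℝ) with hN
  have hKne : Nonempty (Vtx K T) := ⟨(Classical.arbitrary T, true, 0)⟩
  have hN0 : 0 < N := by rw [hN]; exact_mod_cast Fintype.card_pos
  set S : T → Bool → ℝ := fun a b => ∑ x, ∑ x',
    (if (x.1 = a ∧ x.2.1 = b) ∧ (x'.1 = a ∧ x'.2.1 = b) then ν x x' else 0) with hS
  have hS0 : ∀ a b, 0 ≤ S a b := fun a b => Finset.sum_nonneg fun x _ =>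
    Finset.sum_nonneg fun x' _ => by split_ifs; exacts [h0 _ _, le_rfl]
  -- decomposition of the same-type mass
  have hdec : ∑ x, ∑ x', (if x.1 = x'.1 then ν x x' else 0) = ∑ a, (S a true + S a false) := by
    have e1 : ∀ x x', (if x.1 = x'.1 then ν x x' else 0)
        = ∑ a, ((if (x.1 = a ∧ x.2.1 = true) ∧ (x'.1 = a ∧ x'.2.1 = true) then ν x x' else 0)
          + (if (x.1 = a ∧ x.2.1 = false) ∧ (x'.1 = a ∧ x'.2.1 = false) then ν x x' else 0)) := by
      intro x x'
      by_cases hx : x.1 = x'.1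
      · rw [if_pos hx, Finset.sum_eq_single x.1]
        · by_cases hb : x.2.1 = x'.2.1
          · cases hx1 : x.2.1
            · rw [hx1] at hb
              simp [← hb, ← hx]
            · rw [hx1] at hb
              simp [← hb, ← hx]
          · have hν : ν x x' = 0 := by
              by_contra h
              exact h2 _ _ h (δ.adj_of_bit hx hb)
            simp [hν]
        · intro a _ ha
          simp [Ne.symm ha]
        · intro h; exact absurd (Finset.mem_univ _) h
      · rw [if_neg hx]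
        symm
        refine Finset.sum_eq_zero fun a _ => ?_
        rw [if_neg, if_neg, add_zero]
        · rintro ⟨⟨h1, -⟩, h2, -⟩; exact hx (h1.trans h2.symm)
        · rintro ⟨⟨h1, -⟩, h2, -⟩; exact hx (h1.trans h2.symm)
    simp only [e1]
    rw [Finset.sum_congr rfl fun x _ => Finset.sum_comm, Finset.sum_comm]
    refine Finset.sum_congr rfl fun a _ => ?_
    simp only [Finset.sum_add_distrib]
    rfl
  -- the product is small
  have hprod : ∀ a, S a true * S a false ≤ I := by
    intro a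
    refine le_trans ?_ hc
    have e1 : S a true * S a false = ∑ x, ∑ x', ∑ y, ∑ y',
        (if (x.1 = a ∧ x.2.1 = true) ∧ (x'.1 = a ∧ x'.2.1 = true) then ν x x' else 0)
        * (if (y.1 = a ∧ y.2.1 = false) ∧ (y'.1 = a ∧ y'.2.1 = false) then ν y y' else 0) := by
      simp only [hS]
      rw [Finset.sum_mul]
      refine Finset.sum_congr rfl fun x _ => ?_
      rw [Finset.sum_mul]
      refine Finset.sum_congr rfl fun x' _ => ?_
      rw [Finset.mul_sum]
      refine Finset.sum_congr rfl fun y _ => ?_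
      rw [Finset.mul_sum]
    rw [e1]
    refine Finset.sum_le_sum fun x _ => Finset.sum_le_sum fun x' _ => Finset.sum_le_sum
      fun y _ => Finset.sum_le_sum fun y' _ => ?_
    by_cases hx : (x.1 = a ∧ x.2.1 = true) ∧ (x'.1 = a ∧ x'.2.1 = true)
    · by_cases hy : (y.1 = a ∧ y.2.1 = false) ∧ (y'.1 = a ∧ y'.2.1 = false)
      · have hadj : ∀ u v : Vtx K T, (u.1 = a ∧ u.2.1 = true) → (v.1 = a ∧ v.2.1 = false) →
            δ.Adj u v := fun u v hu hv =>
          δ.adj_of_bit (hu.1.trans hv.1.symm) (by rw [hu.2, hv.2]; simp)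
        rw [if_pos hx, if_pos hy, if_pos ⟨hadj _ _ hx.1 hy.1, hadj _ _ hx.1 hy.2,
          hadj _ _ hx.2 hy.1, hadj _ _ hx.2 hy.2⟩]
      · rw [if_neg hy, mul_zero]
        split_ifs
        · exact mul_nonneg (h0 _ _) (h0 _ _)
        · exact le_rfl
    · rw [if_neg hx, zero_mul]
      split_ifs
      · exact mul_nonneg (h0 _ _) (h0 _ _)
      · exact le_rfl
  -- marginals
  set M : T → Bool → ℝ := fun a b => ∑ x, (if x.1 = a ∧ x.2.1 = b then ∑ y, ν x y else 0) with hM
  set Δ : T → Bool → ℝ := fun a b => ∑ x, (if x.1 = a ∧ x.2.1 = b then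
    |∑ y, ν x y - 1 / N| else 0) with hΔ
  have hΔ0 : ∀ a b, 0 ≤ Δ a b := fun a b => Finset.sum_nonneg fun x _ => by
    split_ifs; exacts [abs_nonneg _, le_rfl]
  have hSM : ∀ a b, S a b ≤ M a b := by
    intro a b
    refine Finset.sum_le_sum fun x _ => ?_
    split_ifs with hx
    · refine Finset.sum_le_sum fun x' _ => ?_
      split_ifs; exacts [le_rfl, h0 _ _]
    · exact Finset.sum_nonpos fun x' _ => by simp [hx]
  have hcardab : ∀ a b, ((Finset.univ.filter (fun x : Vtx K T => x.1 = a ∧ x.2.1 = b)).card : ℝ)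
      = N / (2 * Fintype.card T) := by
    intro a b
    have e1 : (Finset.univ.filter (fun x : Vtx K T => x.1 = a ∧ x.2.1 = b))
        = ({a} : Finset T) ×ˢ (({b} : Finset Bool) ×ˢ (Finset.univ : Finset (Matrix K K F))) := by
      ext x
      simp only [Finset.mem_filter, Finset.mem_univ, true_and, Finset.mem_product,
        Finset.mem_singleton, and_true]
    have hT : (0 : ℝ) < Fintype.card T := by exact_mod_cast Fintype.card_pos
    rw [e1, Finset.card_product, Finset.card_product, hN, Fintype.card_prod, Fintype.card_prod]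
    simp only [Finset.card_singleton, Fintype.card_bool, Finset.card_univ]
    push_cast
    field_simp
  have hMΔ : ∀ a b, M a b ≤ 1 / (2 * Fintype.card T) + Δ a b := by
    intro a b
    have e1 : (1 : ℝ) / (2 * Fintype.card T)
        = ∑ x : Vtx K T, (if x.1 = a ∧ x.2.1 = b then 1 / N else 0) := by
      rw [← Finset.sum_filter, Finset.sum_const, nsmul_eq_mul, hcardab]
      field_simp
    rw [e1, ← Finset.sum_add_distrib]
    refine Finset.sum_le_sum fun x _ => ?_
    split_ifs
    · have := le_abs_self (∑ y, ν x y - 1 / N)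
      linarith only [this]
    · simp
  have hsumΔ : ∑ a, (Δ a true + Δ a false) ≤ ε := by
    refine le_trans (le_of_eq ?_) hm
    have e1 : ∀ x : Vtx K T, |∑ y, ν x y - 1 / N|
        = ∑ a, ((if x.1 = a ∧ x.2.1 = true then |∑ y, ν x y - 1 / N| else 0)
          + (if x.1 = a ∧ x.2.1 = false then |∑ y, ν x y - 1 / N| else 0)) := by
      intro x
      rw [Finset.sum_eq_single x.1]
      · cases x.2.1 <;> simp
      · intro a _ ha
        simp [Ne.symm ha]
      · intro h; exact absurd (Finset.mem_univ _) h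
    rw [Finset.sum_congr rfl fun x _ => e1 x, Finset.sum_comm]
    refine Finset.sum_congr rfl fun a _ => ?_
    simp only [hΔ, Finset.sum_add_distrib]
  -- conclusion
  have hfin : ∀ a, S a true + S a false
      ≤ 1 / (2 * Fintype.card T) + (Δ a true + Δ a false) + Real.sqrt I := by
    intro a
    have hmin : min (S a true) (S a false) ≤ Real.sqrt I := by
      apply Real.le_sqrt_of_sq_le
      refine le_trans ?_ (hprod a)
      have h3 : 0 ≤ min (S a true) (S a false) := le_min (hS0 _ _) (hS0 _ _)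
      rw [sq]
      exact mul_le_mul (min_le_left _ _) (min_le_right _ _) h3 (hS0 _ _)
    have hmax : max (S a true) (S a false) ≤ 1 / (2 * Fintype.card T) + (Δ a true + Δ a false) := by
      refine max_le ?_ ?_
      · have := (hSM a true).trans (hMΔ a true)
        linarith only [this, hΔ0 a false]
      · have := (hSM a false).trans (hMΔ a false)
        linarith only [hΔ0 a true, this]
    have := min_add_max (S a true) (S a false)
    linarith only [this, hmax, hmin]
  rw [hdec]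
  refine (Finset.sum_le_sum fun a _ => hfin a).trans ?_
  rw [Finset.sum_add_distrib, Finset.sum_add_distrib, Finset.sum_const, Finset.sum_const,
    nsmul_eq_mul, nsmul_eq_mul, Finset.card_univ]
  have hT : (0 : ℝ) < Fintype.card T := by exact_mod_cast Fintype.card_pos
  have e2 : (Fintype.card T : ℝ) * (1 / (2 * Fintype.card T)) = 1 / 2 := by field_simp
  rw [e2]
  linarith

/-- The mass of `{y : type y ∈ B}` under the marginal. -/
lemma marg_types [Nonempty T] (ν : Vtx K T → Vtx K T → ℝ) {ε ρ : ℝ}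
    (hm : ∑ x, |∑ y, ν x y - 1 / (Fintype.card (Vtx K T) : ℝ)| ≤ ε) (B : T → Prop)
    (hB : ((Finset.univ.filter B).card : ℝ) ≤ ρ * Fintype.card T) :
    ∑ x, (if B x.1 then ∑ y, ν x y else 0) ≤ ρ + ε := by
  set N : ℝ := (Fintype.card (Vtx K T) : ℝ) with hN
  have hKne : Nonempty (Vtx K T) := ⟨(Classical.arbitrary T, true, 0)⟩
  have hN0 : 0 < N := by rw [hN]; exact_mod_cast Fintype.card_pos
  have hT : (0 : ℝ) < Fintype.card T := by exact_mod_cast Fintype.card_pos
  have h1 : ∀ x : Vtx K T, (if B x.1 then ∑ y, ν x y else 0)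
      ≤ (if B x.1 then 1 / N else 0) + |∑ y, ν x y - 1 / N| := by
    intro x
    have := le_abs_self (∑ y, ν x y - 1 / N)
    split_ifs
    · linarith only [this]
    · have := abs_nonneg (∑ y, ν x y - 1 / N)
      linarith only [this]
  refine (Finset.sum_le_sum fun x _ => h1 x).trans ?_
  rw [Finset.sum_add_distrib]
  refine add_le_add ?_ hm
  rw [← Finset.sum_filter, Finset.sum_const, nsmul_eq_mul]
  have e1 : (Finset.univ.filter (fun x : Vtx K T => B x.1))
      = (Finset.univ.filter B) ×ˢ (Finset.univ : Finset (Bool × Matrix K K F)) := by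
    ext x
    simp only [Finset.mem_filter, Finset.mem_univ, true_and, Finset.mem_product, and_true]
  rw [e1, Finset.card_product, hN, Fintype.card_prod (α := T)]
  push_cast
  rw [Finset.card_univ]
  have hq : (0 : ℝ) < Fintype.card (Bool × Matrix K K F) := by exact_mod_cast Fintype.card_pos
  rw [mul_one_div, mul_comm (Fintype.card T : ℝ), mul_comm ((Finset.univ.filter B).card : ℝ),
    mul_div_mul_left _ _ hq.ne', div_le_iff₀ hT]
  exact hB

/-- **Final count.** If each nonadjacent cross pair cuts at most a fraction `ρ` of the types, then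
the product measure of cross-cross configurations without any cut is bounded below. -/
theorem final_count [Nonempty T] (ν : Vtx K T → Vtx K T → ℝ) (h0 : ∀ x y, 0 ≤ ν x y)
    (h1 : ∑ x, ∑ y, ν x y = 1) (hsy : ∀ x y, ν x y = ν y x)
    (h2 : ∀ x y, ν x y ≠ 0 → ¬ δ.Adj x y) {ε I ρ : ℝ}
    (hm : ∑ x, |∑ y, ν x y - 1 / (Fintype.card (Vtx K T) : ℝ)| ≤ ε)
    (hc : ∑ x, ∑ x', ∑ y, ∑ y', (if δ.Adj x y ∧ δ.Adj x y' ∧ δ.Adj x' y ∧ δ.Adj x' y'
      then ν x x' * ν y y' else 0) ≤ I)
    (Cut : Vtx K T → Vtx K T → T → Prop)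
    (hcut : ∀ x x', ν x x' ≠ 0 → x.1 ≠ x'.1 →
      ((Finset.univ.filter (fun b => Cut x x' b)).card : ℝ) ≤ ρ * Fintype.card T)
    (hρ1 : ρ ≤ 1 / 10 + ε) (hε1 : ε ≤ 1 / 2000)
    (hIε : Fintype.card T * Real.sqrt I ≤ ε) :
    1 / 40 ≤ ∑ x, ∑ x', ∑ y, ∑ y', (if x.1 ≠ x'.1 ∧ y.1 ≠ y'.1 ∧ ¬ Cut x x' y.1 ∧ ¬ Cut x x' y'.1
      ∧ ¬ Cut y y' x.1 ∧ ¬ Cut y y' x'.1 then ν x x' * ν y y' else 0) := by
  have hsame := same_mass δ ν h0 h2 hm hc
  obtain ⟨C, hC⟩ : ∃ C : Vtx K T × Vtx K T → Prop, ∀ z, C z ↔ z.1.1 ≠ z.2.1 :=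
    ⟨_, fun _ => Iff.rfl⟩
  set w : Vtx K T × Vtx K T → ℝ := fun z => ν z.1 z.2 with hw
  set m : ℝ := ∑ z, (if C z then w z else 0) with hmdef
  have hmlow : 1 / 2 - 2 * ε ≤ m := by
    have e1 : m + ∑ x : Vtx K T, ∑ x' : Vtx K T, (if x.1 = x'.1 then ν x x' else 0) = 1 := by
      rw [hmdef, Fintype.sum_prod_type, ← Finset.sum_add_distrib, ← h1]
      refine Finset.sum_congr rfl fun x _ => ?_
      rw [← Finset.sum_add_distrib]
      refine Finset.sum_congr rfl fun x' _ => ?_
      by_cases h : x.1 = x'.1 <;> simp [hC, hw, h]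
    linarith only [hIε, hsame, e1]
  have hm1 : m ≤ 1 := by
    rw [← h1, hmdef, Fintype.sum_prod_type]
    refine Finset.sum_le_sum fun x _ => Finset.sum_le_sum fun x' _ => ?_
    split_ifs
    · exact le_rfl
    · exact h0 _ _
  set c1 : Vtx K T × Vtx K T → Vtx K T × Vtx K T → Prop := fun z z' => Cut z.1 z.2 z'.1.1 with hc1
  set c2 : Vtx K T × Vtx K T → Vtx K T × Vtx K T → Prop := fun z z' => Cut z.1 z.2 z'.2.1 with hc2
  have hb1 : ∀ z, w z ≠ 0 → C z → ∑ z', (if c1 z z' then w z' else 0) ≤ ρ + ε := by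
    intro z hz hCz
    refine le_trans (le_of_eq ?_) (marg_types ν hm (fun b => Cut z.1 z.2 b) (hcut _ _ hz ((hC z).1 hCz)))
    rw [Fintype.sum_prod_type]
    refine Finset.sum_congr rfl fun x _ => ?_
    by_cases h : Cut z.1 z.2 x.1 <;> simp [hc1, hw, h]
  have hb2 : ∀ z, w z ≠ 0 → C z → ∑ z', (if c2 z z' then w z' else 0) ≤ ρ + ε := by
    intro z hz hCz
    refine le_trans (le_of_eq ?_) (marg_types ν hm (fun b => Cut z.1 z.2 b) (hcut _ _ hz ((hC z).1 hCz)))
    rw [Fintype.sum_prod_type, Finset.sum_comm]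
    refine Finset.sum_congr rfl fun x _ => ?_
    by_cases h : Cut z.1 z.2 x.1
    · simp only [hc2, hw, h, if_true]
      exact Finset.sum_congr rfl fun y _ => hsy _ _
    · simp [hc2, h]
  have hfin := count_abs w (fun z => h0 _ _) C hmdef.symm c1 c2 hb1 hb2
  have hval : 1 / 40 ≤ m * m - 4 * (m * (ρ + ε)) := by
    have e1 : m * m - 4 * (m * (ρ + ε)) = m * (m - 4 * (ρ + ε)) := by ring
    rw [e1]
    have h3 : 9 / 100 ≤ m - 4 * (ρ + ε) := by linarith only [hmlow, hε1, hρ1]
    have h4 : 49 / 100 ≤ m := by linarith only [hmlow, hε1]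
    calc (1 : ℝ) / 40 ≤ 49 / 100 * (9 / 100) := by norm_num
      _ ≤ m * (m - 4 * (ρ + ε)) := mul_le_mul h4 h3 (by norm_num) (by linarith only [hmlow, hε1])
  refine hval.trans (hfin.trans (le_of_eq ?_))
  rw [Fintype.sum_prod_type]
  refine Finset.sum_congr rfl fun x _ => Finset.sum_congr rfl fun x' _ => ?_
  rw [Fintype.sum_prod_type]
  refine Finset.sum_congr rfl fun y _ => Finset.sum_congr rfl fun y' _ => ?_
  have hiff : (C (x, x') ∧ C (y, y') ∧ ¬ c1 (x, x') (y, y') ∧ ¬ c2 (x, x') (y, y') ∧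
      ¬ c1 (y, y') (x, x') ∧ ¬ c2 (y, y') (x, x')) ↔
      (x.1 ≠ x'.1 ∧ y.1 ≠ y'.1 ∧ ¬ Cut x x' y.1 ∧ ¬ Cut x x' y'.1
      ∧ ¬ Cut y y' x.1 ∧ ¬ Cut y y' x'.1) := by
    rw [hC, hC]
  by_cases h : x.1 ≠ x'.1 ∧ y.1 ≠ y'.1 ∧ ¬ Cut x x' y.1 ∧ ¬ Cut x x' y'.1
      ∧ ¬ Cut y y' x.1 ∧ ¬ Cut y y' x'.1
  · rw [if_pos h, if_pos (hiff.2 h)]
  · rw [if_neg h, if_neg (fun h' => h (hiff.1 h'))]

end Design

end Vale.Agent.P060.HW
end
end

section

/-! Counting lemma for rank-two symmetric tensors in a subspace of matrices. -/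

namespace Vale.Agent.P060.HW

open Module Submodule

section

variable {F ι : Type*} [Field F] [Fintype ι] [DecidableEq ι]

/-- The symmetric product of two vectors, as a matrix. -/
def sm (h g : ι → F) : Matrix ι ι F := Matrix.vecMulVec h g + Matrix.vecMulVec g h

omit [DecidableEq ι] in
theorem sm_mulVec (h g v : ι → F) :
    (sm h g).mulVec v = (g ⬝ᵥ v) • h + (h ⬝ᵥ v) • g := by
  ext i
  simp only [sm, Pi.add_apply, Pi.smul_apply, smul_eq_mul, Matrix.mulVec, Matrix.add_apply,
    Matrix.vecMulVec_apply, dotProduct, Finset.sum_mul]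
  rw [← Finset.sum_add_distrib]
  exact Finset.sum_congr rfl fun j _ => by ring

/-- A separating vector for the dot product. -/
theorem exists_sep {S : Submodule F (ι → F)} {x : ι → F} (hx : x ∉ S) :
    ∃ v : ι → F, (∀ s ∈ S, s ⬝ᵥ v = 0) ∧ x ⬝ᵥ v = 1 := by
  obtain ⟨f, hf, hS⟩ := Submodule.exists_le_ker_of_notMem hx
  have key : ∀ y : ι → F, y ⬝ᵥ (fun i => f (fun j => if i = j then 1 else 0)) = f y := by
    intro y
    rw [LinearMap.pi_apply_eq_sum_univ f y]
    simp [dotProduct]
  refine ⟨(f x)⁻¹ • fun i => f (fun j => if i = j then 1 else 0), ?_, ?_⟩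
  · intro s hs
    rw [dotProduct_smul, key, LinearMap.mem_ker.1 (hS hs), smul_zero]
  · rw [dotProduct_smul, key, smul_eq_mul, inv_mul_cancel₀ hf]

/-- The span of all entries of a sequence of pairs. -/
def spn {j : ℕ} (p : Fin j → (ι → F) × (ι → F)) : Submodule F (ι → F) :=
  span F (Set.range fun x : Fin j × Bool => if x.2 then (p x.1).1 else (p x.1).2)

/-- The tensor of a sequence of pairs. -/
def tn {j : ℕ} (p : Fin j → (ι → F) × (ι → F)) : Matrix ι ι F := ∑ i, sm (p i).1 (p i).2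

omit [Fintype ι] [DecidableEq ι] in
theorem mem_spn {j : ℕ} (p : Fin j → (ι → F) × (ι → F)) (i : Fin j) :
    (p i).1 ∈ spn p ∧ (p i).2 ∈ spn p :=
  ⟨subset_span ⟨(i, true), by simp⟩, subset_span ⟨(i, false), by simp⟩⟩

omit [Fintype ι] [DecidableEq ι] in
theorem finrank_spn {j : ℕ} (p : Fin j → (ι → F) × (ι → F)) : finrank F (spn p) ≤ 2 * j := by
  refine (finrank_range_le_card _).trans ?_
  simp [mul_comm]

omit [Fintype ι] [DecidableEq ι] in
theorem tn_cons {j : ℕ} (q : (ι → F) × (ι → F)) (p : Fin j → (ι → F) × (ι → F)) :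
    tn (Fin.cons q p : Fin (j + 1) → (ι → F) × (ι → F)) = sm q.1 q.2 + tn p := by
  simp [tn, Fin.sum_univ_succ]

omit [DecidableEq ι] in
theorem tn_mulVec_zero {j : ℕ} (p : Fin j → (ι → F) × (ι → F)) {v : ι → F}
    (hv : ∀ s ∈ spn p, s ⬝ᵥ v = 0) : (tn p).mulVec v = 0 := by
  rw [tn, Matrix.sum_mulVec]
  refine Finset.sum_eq_zero fun i _ => ?_
  rw [sm_mulVec, hv _ (mem_spn p i).1, hv _ (mem_spn p i).2]
  simp

omit [DecidableEq ι] in
theorem tn_mulVec_mem {j : ℕ} (p : Fin j → (ι → F) × (ι → F)) (v : ι → F) :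
    (tn p).mulVec v ∈ spn p := by
  rw [tn, Matrix.sum_mulVec]
  refine sum_mem fun i _ => ?_
  rw [sm_mulVec]
  exact add_mem (smul_mem _ _ (mem_spn p i).1) (smul_mem _ _ (mem_spn p i).2)

/-- Freshness: every pair is independent of the later ones. -/
def Fresh : {j : ℕ} → (Fin j → (ι → F) × (ι → F)) → Prop
  | 0, _ => True
  | _ + 1, p => Fresh (Fin.tail p) ∧ (p 0).2 ∉ spn (Fin.tail p) ∧
      (p 0).1 ∉ spn (Fin.tail p) ⊔ span F {(p 0).2}

theorem fresh_mem_range {j : ℕ} : ∀ {p : Fin j → (ι → F) × (ι → F)}, Fresh p → ∀ i : Fin j,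
    (∃ v, (tn p).mulVec v = (p i).1) ∧ ∃ v, (tn p).mulVec v = (p i).2 := by
  induction j with
  | zero => intro p _ i; exact i.elim0
  | succ j ih =>
    intro p hp i
    obtain ⟨h0, h1, h2⟩ := hp
    have hT : tn p = sm (p 0).1 (p 0).2 + tn (Fin.tail p) := by
      conv_lhs => rw [← Fin.cons_self_tail p]
      exact tn_cons _ _
    have h3 : (p 0).2 ∉ spn (Fin.tail p) ⊔ span F {(p 0).1} := by
      intro h
      obtain ⟨s, hs, c, hc, hsum⟩ := Submodule.mem_sup.1 h
      obtain ⟨a, rfl⟩ := mem_span_singleton.1 hc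
      by_cases ha : a = 0
      · rw [ha, zero_smul, add_zero] at hsum
        exact h1 (hsum ▸ hs)
      · apply h2
        have : (p 0).1 = a⁻¹ • (-s) + a⁻¹ • (p 0).2 := by
          rw [← hsum, ← smul_add, neg_add_cancel_left, smul_smul, inv_mul_cancel₀ ha, one_smul]
        rw [this]
        exact add_mem (mem_sup_left (smul_mem _ _ (neg_mem hs)))
          (mem_sup_right (smul_mem _ _ (mem_span_singleton_self _)))
    have e1 : ∃ v, (tn p).mulVec v = (p 0).1 := by
      obtain ⟨v, hv, hv1⟩ := exists_sep h3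
      refine ⟨v, ?_⟩
      rw [hT, Matrix.add_mulVec, sm_mulVec, hv1,
        hv _ (mem_sup_right (mem_span_singleton_self _)),
        tn_mulVec_zero _ (fun s hs => hv s (mem_sup_left hs))]
      simp
    have e2 : ∃ v, (tn p).mulVec v = (p 0).2 := by
      obtain ⟨v, hv, hv1⟩ := exists_sep h2
      refine ⟨v, ?_⟩
      rw [hT, Matrix.add_mulVec, sm_mulVec, hv1,
        hv _ (mem_sup_right (mem_span_singleton_self _)),
        tn_mulVec_zero _ (fun s hs => hv s (mem_sup_left hs))]
      simp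
    have e3 : ∀ x, (∃ w, (tn (Fin.tail p)).mulVec w = x) → ∃ v, (tn p).mulVec v = x := by
      rintro x ⟨w, rfl⟩
      obtain ⟨v1, hv1⟩ := e1
      obtain ⟨v2, hv2⟩ := e2
      refine ⟨w - ((p 0).2 ⬝ᵥ w) • v1 - ((p 0).1 ⬝ᵥ w) • v2, ?_⟩
      rw [Matrix.mulVec_sub, Matrix.mulVec_sub, Matrix.mulVec_smul, Matrix.mulVec_smul, hv1, hv2,
        hT, Matrix.add_mulVec, sm_mulVec]
      abel
    refine Fin.cases ⟨e1, e2⟩ (fun l => ?_) i
    have := ih h0 l
    exact ⟨e3 _ this.1, e3 _ this.2⟩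

variable [Fintype F]

/-- The bad vectors `g` with respect to the space `W`. -/
def Bad (Lam : Submodule F (Matrix ι ι F)) (W : Submodule F (ι → F)) : Set (ι → F) :=
  {g | g ∉ W ∧ ∃ h, h ∉ W ⊔ span F {g} ∧ sm h g ∈ Lam}

theorem exists_fresh (Lam : Submodule F (Matrix ι ι F)) (B : ℕ) : ∀ j : ℕ,
    (∀ W : Submodule F (ι → F), finrank F W ≤ 2 * (j - 1) → B ≤ (Bad Lam W).ncard) →
    ∃ S : Finset (Fin j → (ι → F) × (ι → F)), B ^ j ≤ S.card ∧
      ∀ p ∈ S, Fresh p ∧ tn p ∈ Lam := by
  classical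
  intro j
  induction j with
  | zero =>
    intro _
    refine ⟨Finset.univ, by simp, fun p _ => ⟨trivial, ?_⟩⟩
    simp [tn, Lam.zero_mem]
  | succ j ih =>
    intro hB
    obtain ⟨S, hS, hp⟩ := ih (fun W hW => hB W (by omega))
    have hch : ∀ x : (_ : Fin j → (ι → F) × (ι → F)) × (ι → F), ∃ h : ι → F,
        x.2 ∈ Bad Lam (spn x.1) → h ∉ spn x.1 ⊔ span F {x.2} ∧ sm h x.2 ∈ Lam := by
      intro x
      by_cases hx : x.2 ∈ Bad Lam (spn x.1)
      · obtain ⟨h, hh⟩ := hx.2
        exact ⟨h, fun _ => hh⟩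
      · exact ⟨0, fun h => absurd h hx⟩
    choose H hH using hch
    let Q : Finset ((_ : Fin j → (ι → F) × (ι → F)) × (ι → F)) :=
      S.sigma fun p => (Bad Lam (spn p)).toFinset
    let f : ((_ : Fin j → (ι → F) × (ι → F)) × (ι → F)) → (Fin (j + 1) → (ι → F) × (ι → F)) :=
      fun x => Fin.cons (H x, x.2) x.1
    have hf : Function.Injective f := by
      rintro ⟨p, g⟩ ⟨p', g'⟩ h
      have h1 := congrFun h 0
      have h2 : Fin.tail (f ⟨p, g⟩) = Fin.tail (f ⟨p', g'⟩) := by rw [h]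
      simp only [f, Fin.cons_zero, Prod.mk.injEq] at h1
      simp only [f, Fin.tail_cons] at h2
      obtain rfl := h2
      obtain rfl := h1.2
      rfl
    refine ⟨Q.image f, ?_, ?_⟩
    · rw [Finset.card_image_of_injective _ hf, Finset.card_sigma, pow_succ]
      calc B ^ j * B ≤ S.card * B := Nat.mul_le_mul_right _ hS
        _ = ∑ p ∈ S, B := by rw [Finset.sum_const, smul_eq_mul]
        _ ≤ _ := by
          refine Finset.sum_le_sum fun p _ => ?_
          rw [← Set.ncard_eq_toFinset_card']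
          exact hB _ ((finrank_spn p).trans (by omega))
    · intro p hpQ
      obtain ⟨x, hx, rfl⟩ := Finset.mem_image.1 hpQ
      obtain ⟨hx1, hx2⟩ := Finset.mem_sigma.1 hx
      rw [Set.mem_toFinset] at hx2
      have h3 := hH x hx2
      have h4 := hp _ hx1
      refine ⟨?_, ?_⟩
      · refine ⟨?_, ?_, ?_⟩
        · simpa [f, Fin.tail_cons] using h4.1
        · simpa [f, Fin.tail_cons] using hx2.1
        · simpa [f, Fin.tail_cons] using h3.1
      · rw [tn_cons]
        exact add_mem h3.2 h4.2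

/-- The counting lemma. -/
theorem count (Lam : Submodule F (Matrix ι ι F)) {D j B : ℕ} (hD : finrank F Lam ≤ D)
    (hB : ∀ W : Submodule F (ι → F), finrank F W ≤ 2 * (j - 1) → B ≤ (Bad Lam W).ncard) :
    B ^ j ≤ Fintype.card F ^ (D + 4 * j ^ 2) := by
  classical
  obtain ⟨S, hS, hp⟩ := exists_fresh Lam B j hB
  have hq : 0 < Fintype.card F := Fintype.card_pos
  have hfib : ∀ T ∈ S.image tn, (S.filter fun p => tn p = T).card ≤
      Fintype.card F ^ (4 * j ^ 2) := by
    intro T hT
    obtain ⟨p0, hp0, rfl⟩ := Finset.mem_image.1 hT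
    let R : Finset (ι → F) := Finset.univ.filter fun x => x ∈ spn p0
    have hR : R.card ≤ Fintype.card F ^ (2 * j) := by
      have h1 : R.card = Fintype.card (spn p0) := by
        rw [Fintype.card_subtype]
      rw [h1, Module.card_eq_pow_finrank (K := F) (V := spn p0)]
      exact Nat.pow_le_pow_right hq (finrank_spn p0)
    have hsub : (S.filter fun p => tn p = tn p0) ⊆
        Fintype.piFinset fun _ : Fin j => R ×ˢ R := by
      intro p hpp
      obtain ⟨hpS, hpT⟩ := Finset.mem_filter.1 hpp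
      rw [Fintype.mem_piFinset]
      intro i
      obtain ⟨⟨v, hv⟩, ⟨w, hw⟩⟩ := fresh_mem_range (hp p hpS).1 i
      rw [Finset.mem_product]
      constructor
      · simp only [R, Finset.mem_filter, Finset.mem_univ, true_and]
        rw [← hv, hpT]
        exact tn_mulVec_mem _ _
      · simp only [R, Finset.mem_filter, Finset.mem_univ, true_and]
        rw [← hw, hpT]
        exact tn_mulVec_mem _ _
    refine (Finset.card_le_card hsub).trans ?_
    rw [Fintype.card_piFinset]
    simp only [Finset.card_product, Finset.prod_const, Finset.card_univ, Fintype.card_fin]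
    calc (R.card * R.card) ^ j ≤ (Fintype.card F ^ (2 * j) * Fintype.card F ^ (2 * j)) ^ j :=
          Nat.pow_le_pow_left (Nat.mul_le_mul hR hR) _
      _ = Fintype.card F ^ (4 * j ^ 2) := by
          rw [← pow_add, ← pow_mul]; congr 1; ring
  have h1 := Finset.card_le_mul_card_image (f := tn) S _ hfib
  have h2 : (S.image tn).card ≤ Fintype.card F ^ D := by
    have h3 : (S.image tn) ⊆ Finset.univ.filter fun x => x ∈ Lam := by
      intro T hT
      obtain ⟨p, hpS, rfl⟩ := Finset.mem_image.1 hT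
      exact Finset.mem_filter.2 ⟨Finset.mem_univ _, (hp p hpS).2⟩
    refine (Finset.card_le_card h3).trans ?_
    have h4 : (Finset.univ.filter fun x => x ∈ Lam).card = Fintype.card Lam := by
      rw [Fintype.card_subtype]
    rw [h4, Module.card_eq_pow_finrank (K := F) (V := Lam)]
    exact Nat.pow_le_pow_right hq hD
  calc B ^ j ≤ S.card := hS
    _ ≤ Fintype.card F ^ (4 * j ^ 2) * (S.image tn).card := h1
    _ ≤ Fintype.card F ^ (4 * j ^ 2) * Fintype.card F ^ D := Nat.mul_le_mul_left _ h2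
    _ = _ := by rw [← pow_add, add_comm]

/-- Consequence: a space `W` of bounded dimension such that, for all but few `g`, every `h`
with `h.g` in `Lam` lies in `W + <g>`. -/
theorem exists_W (Lam : Submodule F (Matrix ι ι F)) {D j B : ℕ} (hD : finrank F Lam ≤ D)
    (hj : Fintype.card F ^ (D + 4 * j ^ 2) < B ^ j) :
    ∃ (W : Submodule F (ι → F)) (E : Finset (ι → F)), finrank F W ≤ 2 * (j - 1) ∧
      E.card < B + Fintype.card F ^ (2 * (j - 1)) ∧
      ∀ g ∉ E, ∀ h, sm h g ∈ Lam → h ∈ W ⊔ span F {g} := by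
  classical
  have h1 : ∃ W : Submodule F (ι → F), finrank F W ≤ 2 * (j - 1) ∧ (Bad Lam W).ncard < B := by
    by_contra hcon
    exact absurd (count Lam hD fun W hW => not_lt.1 fun h => hcon ⟨W, hW, h⟩) (not_le.2 hj)
  obtain ⟨W, hW, hWB⟩ := h1
  refine ⟨W, (Bad Lam W).toFinset ∪ Finset.univ.filter (fun x => x ∈ W), hW, ?_, ?_⟩
  · refine (Finset.card_union_le _ _).trans_lt ?_
    have h2 : (Finset.univ.filter fun x => x ∈ W).card ≤ Fintype.card F ^ (2 * (j - 1)) := by
      have h4 : (Finset.univ.filter fun x => x ∈ W).card = Fintype.card W := by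
        rw [Fintype.card_subtype]
      rw [h4, Module.card_eq_pow_finrank (K := F) (V := W)]
      exact Nat.pow_le_pow_right Fintype.card_pos hW
    rw [← Set.ncard_eq_toFinset_card']
    omega
  · intro g hg h hh
    rw [Finset.mem_union, not_or, Set.mem_toFinset, Finset.mem_filter] at hg
    by_contra hcon
    exact hg.1 ⟨fun hgW => hg.2 ⟨Finset.mem_univ _, hgW⟩, h, hcon, hh⟩

end

end Vale.Agent.P060.HW
end

section

/-! Counting lemma for tuples of vectors. -/

namespace Vale.Agent.P060.HW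

open Module Submodule

section

variable {F ι : Type*} [Field F] [Fintype ι] [DecidableEq ι] {d : ℕ}

/-- The tensor of two tuples. -/
def smm (h g : Fin d → ι → F) : Matrix ι ι F := ∑ i, sm (h i) (g i)

omit [DecidableEq ι] in
theorem smm_mulVec (h g : Fin d → ι → F) (v : ι → F) :
    (smm h g).mulVec v = (∑ i, (g i ⬝ᵥ v) • h i) + ∑ i, (h i ⬝ᵥ v) • g i := by
  rw [smm, Matrix.sum_mulVec, ← Finset.sum_add_distrib]
  exact Finset.sum_congr rfl fun i _ => sm_mulVec _ _ _

/-- Independence modulo a subspace. -/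
def IndMod (S : Submodule F (ι → F)) (g : Fin d → ι → F) : Prop :=
  ∀ c : Fin d → F, (∑ i, c i • g i) ∈ S → c = 0

/-- Prescribed values on a tuple which is independent modulo `S`. -/
theorem exists_vals {S : Submodule F (ι → F)} {g : Fin d → ι → F} (hg : IndMod S g)
    (t : Fin d → F) : ∃ w : ι → F, (∀ s ∈ S, s ⬝ᵥ w = 0) ∧ ∀ i, g i ⬝ᵥ w = t i := by
  classical
  let P : Submodule F (ι → F) :=
    { carrier := {w | ∀ s ∈ S, s ⬝ᵥ w = 0}
      add_mem' := fun {a b} ha hb s hs => by rw [dotProduct_add, ha s hs, hb s hs, add_zero]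
      zero_mem' := fun s _ => dotProduct_zero s
      smul_mem' := fun c a ha s hs => by rw [dotProduct_smul, ha s hs, smul_zero] }
  let Φ : (ι → F) →ₗ[F] (Fin d → F) :=
    { toFun := fun w i => g i ⬝ᵥ w
      map_add' := fun a b => by ext i; simp [dotProduct_add]
      map_smul' := fun c a => by ext i; simp [dotProduct_smul] }
  have htop : P.map Φ = ⊤ := by
    by_contra hne
    obtain ⟨f, hf, hle⟩ := Submodule.exists_le_ker_of_lt_top _ (lt_top_iff_ne_top.2 hne)
    let c : Fin d → F := fun i => f (fun j => if i = j then 1 else 0)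
    have hfc : ∀ t : Fin d → F, f t = ∑ i, t i * c i := fun t => by
      rw [LinearMap.pi_apply_eq_sum_univ f t]; rfl
    have hc : c ≠ 0 := by
      intro h0
      refine hf (LinearMap.ext fun t => ?_)
      rw [hfc, h0]
      simp
    have hnot : (∑ i, c i • g i) ∉ S := fun h => hc (hg c h)
    obtain ⟨v, hv, hv1⟩ := exists_sep hnot
    have h1 : f (Φ v) = 0 := hle (Submodule.mem_map_of_mem (show v ∈ P from hv))
    rw [hfc] at h1
    have h2 : (∑ i, c i • g i) ⬝ᵥ v = ∑ i, (Φ v) i * c i := by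
      rw [sum_dotProduct]
      refine Finset.sum_congr rfl fun i _ => ?_
      rw [smul_dotProduct, smul_eq_mul, mul_comm]
      rfl
    rw [h2, h1] at hv1
    exact zero_ne_one hv1
  have ht : t ∈ P.map Φ := by rw [htop]; trivial
  obtain ⟨w, hw, hwt⟩ := ht
  exact ⟨w, hw, fun i => congrFun hwt i⟩

/-- Sequences of pairs of tuples. -/
abbrev Sq (F ι : Type*) (d j : ℕ) := Fin j → (Fin d → ι → F) × (Fin d → ι → F)

/-- The span of all entries of a sequence. -/
def spd {j : ℕ} (p : Sq F ι d j) : Submodule F (ι → F) :=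
  span F (Set.range fun x : (Fin j × Fin d) × Bool =>
    if x.2 then (p x.1.1).1 x.1.2 else (p x.1.1).2 x.1.2)

omit [Fintype ι] [DecidableEq ι] in
theorem mem_spd {j : ℕ} (p : Sq F ι d j) (l : Fin j) (i : Fin d) :
    (p l).1 i ∈ spd p ∧ (p l).2 i ∈ spd p :=
  ⟨subset_span ⟨((l, i), true), by simp⟩, subset_span ⟨((l, i), false), by simp⟩⟩

omit [Fintype ι] [DecidableEq ι] in
theorem finrank_spd {j : ℕ} (p : Sq F ι d j) : finrank F (spd p) ≤ 2 * d * j := by
  refine (finrank_range_le_card _).trans ?_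
  simp only [Fintype.card_prod, Fintype.card_fin, Fintype.card_bool]
  exact le_of_eq (by ring)

/-- The tensor of a sequence. -/
def tnd {j : ℕ} (p : Sq F ι d j) : Matrix ι ι F := ∑ l, smm (p l).1 (p l).2

omit [Fintype ι] [DecidableEq ι] in
theorem tnd_succ {j : ℕ} (p : Sq F ι d (j + 1)) :
    tnd p = smm (p 0).1 (p 0).2 + tnd (Fin.tail p) := by
  simp [tnd, Fin.sum_univ_succ, Fin.tail]

omit [DecidableEq ι] in
theorem tnd_zero {j : ℕ} (p : Sq F ι d j) {v : ι → F} (hv : ∀ s ∈ spd p, s ⬝ᵥ v = 0) :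
    (tnd p).mulVec v = 0 := by
  rw [tnd, Matrix.sum_mulVec]
  refine Finset.sum_eq_zero fun l _ => ?_
  rw [smm_mulVec, Finset.sum_eq_zero, Finset.sum_eq_zero, add_zero]
  · intro i _; rw [hv _ (mem_spd p l i).1, zero_smul]
  · intro i _; rw [hv _ (mem_spd p l i).2, zero_smul]

omit [DecidableEq ι] in
theorem tnd_mem {j : ℕ} (p : Sq F ι d j) (v : ι → F) : (tnd p).mulVec v ∈ spd p := by
  rw [tnd, Matrix.sum_mulVec]
  refine sum_mem fun l _ => ?_
  rw [smm_mulVec]
  exact add_mem (sum_mem fun i _ => smul_mem _ _ (mem_spd p l i).1)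
    (sum_mem fun i _ => smul_mem _ _ (mem_spd p l i).2)

/-- Freshness. -/
def Frd : {j : ℕ} → Sq F ι d j → Prop
  | 0, _ => True
  | _ + 1, p => Frd (Fin.tail p) ∧ IndMod (spd (Fin.tail p)) (p 0).2 ∧
      ∃ i, (p 0).1 i ∉ spd (Fin.tail p) ⊔ span F (Set.range (p 0).2)

/-- The span of the second tuples with index below `l`. -/
def low {j : ℕ} (G : Fin j → Fin d → ι → F) (l : ℕ) : Submodule F (ι → F) :=
  span F {x | ∃ m : Fin j, (m : ℕ) < l ∧ ∃ i, G m i = x}

/-- The column space. -/
def col (T : Matrix ι ι F) : Submodule F (ι → F) := LinearMap.range T.mulVecLin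

theorem key {j : ℕ} : ∀ {p : Sq F ι d j}, Frd p → ∀ l : Fin j, ∃ c : Fin d → F, c ≠ 0 ∧
    (∑ i, c i • (p l).2 i) ∈ col (tnd p) ⊔ low (fun m => (p m).2) l := by
  induction j with
  | zero => intro p _ l; exact l.elim0
  | succ j ih =>
    intro p hp l
    obtain ⟨h0, h1, i0, h2⟩ := hp
    refine Fin.cases ?_ (fun l => ?_) l
    · obtain ⟨v, hv, hv1⟩ := exists_sep h2
      refine ⟨fun i => (p 0).1 i ⬝ᵥ v, ?_, mem_sup_left ⟨v, ?_⟩⟩
      · intro h
        have := congrFun h i0
        simp only [Pi.zero_apply] at this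
        rw [hv1] at this
        exact one_ne_zero this
      · rw [Matrix.mulVecLin_apply, tnd_succ, Matrix.add_mulVec, smm_mulVec,
          tnd_zero _ (fun s hs => hv s (mem_sup_left hs)), add_zero, Finset.sum_eq_zero, zero_add]
        intro i _
        rw [hv _ (mem_sup_right (subset_span ⟨i, rfl⟩)), zero_smul]
    · obtain ⟨c, hc, hmem⟩ := ih h0 l
      refine ⟨c, hc, ?_⟩
      obtain ⟨y, ⟨w, hw⟩, z, hz, hyz⟩ := Submodule.mem_sup.1 hmem
      obtain ⟨w', hw', hw2⟩ := exists_vals h1 (fun i => -((p 0).2 i ⬝ᵥ w))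
      have e1 : (∑ i, c i • (p l.succ).2 i) = (∑ i, c i • (Fin.tail p l).2 i) := rfl
      rw [e1, ← hyz, ← hw, Matrix.mulVecLin_apply]
      have e2 : (tnd p).mulVec (w + w') = (tnd (Fin.tail p)).mulVec w +
          ∑ i, ((p 0).1 i ⬝ᵥ (w + w')) • (p 0).2 i := by
        rw [tnd_succ, Matrix.add_mulVec, smm_mulVec, Matrix.mulVec_add (tnd (Fin.tail p)),
          tnd_zero _ hw', add_zero, Finset.sum_eq_zero, zero_add, add_comm]
        intro i _
        rw [dotProduct_add, hw2, add_neg_cancel, zero_smul]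
      have e3 : (tnd (Fin.tail p)).mulVec w = (tnd p).mulVec (w + w') +
          (-∑ i, ((p 0).1 i ⬝ᵥ (w + w')) • (p 0).2 i) := by
        rw [e2]; abel
      rw [e3]
      refine add_mem (add_mem (mem_sup_left ⟨_, rfl⟩) (mem_sup_right (neg_mem ?_)))
        (mem_sup_right ?_)
      · refine sum_mem fun i _ => smul_mem _ _ (subset_span ⟨0, ?_, i, rfl⟩)
        simp
      · have hle : low (fun m => (Fin.tail p m).2) l ≤ low (fun m => (p m).2) (l.succ : ℕ) := by
          refine span_mono ?_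
          rintro x ⟨m, hm, i, rfl⟩
          refine ⟨m.succ, ?_, i, rfl⟩
          simpa using hm
        exact hle hz

variable [Fintype F]

theorem card_sub (S : Submodule F (ι → F)) [DecidablePred (· ∈ S)] {s : ℕ}
    (hs : finrank F S ≤ s) : (Finset.univ.filter (· ∈ S)).card ≤ Fintype.card F ^ s := by
  classical
  have h1 : (Finset.univ.filter (· ∈ S)).card = Fintype.card S := by
    rw [Fintype.card_subtype]
  rw [h1, Module.card_eq_pow_finrank (K := F) (V := S)]
  exact Nat.pow_le_pow_right Fintype.card_pos hs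

/-- Tuples with a nontrivial combination in a given space. -/
theorem card_dep (S : Submodule F (ι → F)) {s : ℕ} (hs : finrank F S ≤ s)
    (Q : Finset (Fin d → ι → F)) (hQ : ∀ g ∈ Q, ∃ c : Fin d → F, c ≠ 0 ∧ (∑ i, c i • g i) ∈ S) :
    Q.card ≤ Fintype.card F ^ (d + s + Fintype.card ι * (d - 1)) := by
  classical
  have hcov : Q ⊆ (Finset.univ.filter fun c : Fin d → F => c ≠ 0).biUnion
      (fun c => Finset.univ.filter fun g : Fin d → ι → F => (∑ i, c i • g i) ∈ S) := by
    intro g hg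
    obtain ⟨c, hc, hm⟩ := hQ g hg
    exact Finset.mem_biUnion.2 ⟨c, by simpa using hc, by simpa using hm⟩
  refine (Finset.card_le_card hcov).trans (Finset.card_biUnion_le.trans ?_)
  have hone : ∀ c ∈ (Finset.univ.filter fun c : Fin d → F => c ≠ 0),
      (Finset.univ.filter fun g : Fin d → ι → F => (∑ i, c i • g i) ∈ S).card ≤
        Fintype.card F ^ (s + Fintype.card ι * (d - 1)) := by
    intro c hc
    simp only [Finset.mem_filter, Finset.mem_univ, true_and] at hc
    obtain ⟨i0, hi0⟩ : ∃ i0, c i0 ≠ 0 := by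
      by_contra h
      push Not at h
      exact hc (funext h)
    let f : (Fin d → ι → F) → (ι → F) × ({i : Fin d // i ≠ i0} → ι → F) :=
      fun g => (∑ i, c i • g i, fun i => g i)
    have hmaps : ∀ g ∈ (Finset.univ.filter fun g : Fin d → ι → F => (∑ i, c i • g i) ∈ S),
        f g ∈ (Finset.univ.filter (· ∈ S)) ×ˢ
          (Finset.univ : Finset ({i : Fin d // i ≠ i0} → ι → F)) := by
      intro g hg
      simp only [Finset.mem_filter, Finset.mem_univ, true_and] at hg
      simp only [f, Finset.mem_product, Finset.mem_filter, Finset.mem_univ, true_and, and_true]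
      exact hg
    have hinj : Set.InjOn f (Finset.univ.filter fun g : Fin d → ι → F =>
        (∑ i, c i • g i) ∈ S : Finset (Fin d → ι → F)) := by
      intro g _ g' _ h
      simp only [f, Prod.mk.injEq] at h
      have h2 : ∀ i, i ≠ i0 → g i = g' i := fun i hi => congrFun h.2 ⟨i, hi⟩
      have h3 := h.1
      rw [← Finset.add_sum_erase Finset.univ (fun i => c i • g i) (Finset.mem_univ i0),
        ← Finset.add_sum_erase Finset.univ (fun i => c i • g' i) (Finset.mem_univ i0)] at h3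
      have h4 : ∑ i ∈ Finset.univ.erase i0, c i • g i =
          ∑ i ∈ Finset.univ.erase i0, c i • g' i :=
        Finset.sum_congr rfl fun i hi => by rw [h2 i (Finset.ne_of_mem_erase hi)]
      rw [h4] at h3
      have h5 : g i0 = g' i0 := smul_right_injective _ hi0 (add_right_cancel h3)
      funext i
      by_cases hi : i = i0
      · rw [hi, h5]
      · exact h2 i hi
    refine (Finset.card_le_card_of_injOn f hmaps hinj).trans ?_
    rw [Finset.card_product, pow_add]
    refine Nat.mul_le_mul (card_sub S hs) ?_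
    have hcard : Fintype.card {i : Fin d // i ≠ i0} = d - 1 := by
      rw [Fintype.card_subtype_compl]
      simp
    rw [Finset.card_univ, Fintype.card_fun, Fintype.card_fun, hcard, ← pow_mul]
  refine (Finset.sum_le_card_nsmul _ _ _ hone).trans ?_
  rw [smul_eq_mul, add_assoc, pow_add _ d]
  refine Nat.mul_le_mul_right _ ?_
  refine (Finset.card_filter_le _ _).trans ?_
  rw [Finset.card_univ, Fintype.card_fun, Fintype.card_fin]

omit [Fintype F] [Fintype ι] [DecidableEq ι] in
theorem finrank_low {j : ℕ} (G : Fin j → Fin d → ι → F) (l : ℕ) :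
    finrank F (low G l) ≤ d * j := by
  have h1 : {x | ∃ m : Fin j, (m : ℕ) < l ∧ ∃ i, G m i = x} ⊆
      Set.range (fun x : Fin j × Fin d => G x.1 x.2) := by
    rintro x ⟨m, _, i, rfl⟩
    exact ⟨(m, i), rfl⟩
  have h2 : Module.Finite F (span F (Set.range (fun x : Fin j × Fin d => G x.1 x.2))) :=
    Module.Finite.span_of_finite F (Set.finite_range _)
  have h3 : finrank F (low G l) ≤
      finrank F (span F (Set.range (fun x : Fin j × Fin d => G x.1 x.2))) :=
    Submodule.finrank_mono (span_mono h1)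
  refine h3.trans ((finrank_range_le_card _).trans ?_)
  simp [mul_comm]

/-- The number of second parts. -/
theorem card_seq (R : Submodule F (ι → F)) {ρ J : ℕ} (hR : finrank F R ≤ ρ) : ∀ j, j ≤ J →
    ∀ Q : Finset (Fin j → Fin d → ι → F),
    (∀ G ∈ Q, ∀ l : Fin j, ∃ c : Fin d → F, c ≠ 0 ∧ (∑ i, c i • G l i) ∈ R ⊔ low G l) →
    Q.card ≤ (Fintype.card F ^ (d + (ρ + d * J) + Fintype.card ι * (d - 1))) ^ j := by
  classical
  intro j
  induction j with
  | zero =>
    intro _ Q _
    rw [pow_zero]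
    exact Finset.card_le_one.2 fun a _ b _ => Subsingleton.elim a b
  | succ j ih =>
    intro hj Q hQ
    have hinit := ih (by omega) (Q.image Fin.init) (by
      intro G hG l
      obtain ⟨G', hG', rfl⟩ := Finset.mem_image.1 hG
      obtain ⟨c, hc, hm⟩ := hQ G' hG' l.castSucc
      refine ⟨c, hc, ?_⟩
      have hle : low G' (l.castSucc : ℕ) ≤ low (Fin.init G') (l : ℕ) := by
        refine span_mono ?_
        rintro x ⟨m, hm, i, rfl⟩
        have hml : (m : ℕ) < j := lt_of_lt_of_le hm (by simp)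
        exact ⟨⟨m, hml⟩, hm, i, rfl⟩
      exact sup_le_sup_left hle R hm)
    have hfib : ∀ G0 ∈ Q.image Fin.init, (Q.filter fun G => Fin.init G = G0).card ≤
        Fintype.card F ^ (d + (ρ + d * J) + Fintype.card ι * (d - 1)) := by
      intro G0 hG0
      have hinj : Set.InjOn (fun G : Fin (j + 1) → Fin d → ι → F => G (Fin.last j))
          (Q.filter fun G => Fin.init G = G0 : Finset _) := by
        intro G hG G' hG' h
        have e1 := (Finset.mem_filter.1 hG).2
        have e2 := (Finset.mem_filter.1 hG').2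
        rw [← Fin.snoc_init_self G, ← Fin.snoc_init_self G', e1, e2]
        simp only at h
        rw [h]
      rw [← Finset.card_image_of_injOn hinj]
      refine card_dep (R ⊔ span F (Set.range fun x : Fin j × Fin d => G0 x.1 x.2)) ?_ _ ?_
      · refine (Submodule.finrank_add_le_finrank_add_finrank _ _).trans
          (add_le_add hR ((finrank_range_le_card _).trans ?_))
        simp only [Fintype.card_prod, Fintype.card_fin]
        rw [mul_comm]
        exact Nat.mul_le_mul_left _ (by omega)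
      · intro g hg
        obtain ⟨G, hG, rfl⟩ := Finset.mem_image.1 hg
        obtain ⟨hGQ, hG0'⟩ := Finset.mem_filter.1 hG
        obtain ⟨c, hc, hm⟩ := hQ G hGQ (Fin.last j)
        refine ⟨c, hc, ?_⟩
        have hle : low G ((Fin.last j : Fin (j + 1)) : ℕ) ≤
            span F (Set.range fun x : Fin j × Fin d => G0 x.1 x.2) := by
          refine span_mono ?_
          rintro x ⟨m, hm, i, rfl⟩
          refine ⟨(⟨m, by simpa using hm⟩, i), ?_⟩
          rw [← hG0']
          rfl
        exact sup_le_sup_left hle R hm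
    have h1 := Finset.card_le_mul_card_image (f := Fin.init) Q _ hfib
    rw [pow_succ']
    exact h1.trans (Nat.mul_le_mul_left _ hinit)

/-- The bad tuples with respect to the space `W`. -/
def Bdd (Lam : Submodule F (Matrix ι ι F)) (W : Submodule F (ι → F)) : Set (Fin d → ι → F) :=
  {g | IndMod W g ∧ ∃ h : Fin d → ι → F, (∃ i, h i ∉ W ⊔ span F (Set.range g)) ∧ smm h g ∈ Lam}

theorem exists_frd (Lam : Submodule F (Matrix ι ι F)) (B : ℕ) : ∀ j : ℕ,
    (∀ W : Submodule F (ι → F), finrank F W ≤ 2 * d * (j - 1) →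
      B ≤ (Bdd (d := d) Lam W).ncard) →
    ∃ S : Finset (Sq F ι d j), B ^ j ≤ S.card ∧ (∀ p ∈ S, Frd p ∧ tnd p ∈ Lam) ∧
      Set.InjOn (fun (p : Sq F ι d j) l => (p l).2) S := by
  classical
  intro j
  induction j with
  | zero =>
    intro _
    refine ⟨Finset.univ, by simp, fun p _ => ⟨trivial, ?_⟩, fun a _ b _ _ =>
      Subsingleton.elim a b⟩
    simp [tnd, Lam.zero_mem]
  | succ j ih =>
    intro hB
    obtain ⟨S, hS, hp, hI⟩ := ih (fun W hW => hB W (hW.trans (Nat.mul_le_mul_left _ (by omega))))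
    have hch : ∀ x : (_ : Sq F ι d j) × (Fin d → ι → F), ∃ h : Fin d → ι → F,
        x.2 ∈ Bdd Lam (spd x.1) → (∃ i, h i ∉ spd x.1 ⊔ span F (Set.range x.2)) ∧
          smm h x.2 ∈ Lam := by
      intro x
      by_cases hx : x.2 ∈ Bdd Lam (spd x.1)
      · obtain ⟨h, hh⟩ := hx.2
        exact ⟨h, fun _ => hh⟩
      · exact ⟨0, fun h => absurd h hx⟩
    choose H hH using hch
    let Q : Finset ((_ : Sq F ι d j) × (Fin d → ι → F)) :=
      S.sigma fun p => (Bdd Lam (spd p)).toFinset
    let f : ((_ : Sq F ι d j) × (Fin d → ι → F)) → Sq F ι d (j + 1) :=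
      fun x => Fin.cons (H x, x.2) x.1
    have hf2 : Set.InjOn (fun x l => (f x l).2) (Q : Set _) := by
      rintro ⟨p, g⟩ hx ⟨p', g'⟩ hx' h
      have h1 := congrFun h 0
      simp only [f, Fin.cons_zero] at h1
      have h2 : (fun l => (p l).2) = fun l => (p' l).2 := by
        funext l
        have := congrFun h l.succ
        simpa only [f, Fin.cons_succ] using this
      have h3 : p = p' := hI (Finset.mem_sigma.1 hx).1 (Finset.mem_sigma.1 hx').1 h2
      subst h3
      subst h1
      rfl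
    have hf : Set.InjOn f (Q : Set _) := by
      intro x hx x' hx' h
      exact hf2 hx hx' (by simp only [h])
    refine ⟨Q.image f, ?_, ?_, ?_⟩
    · rw [Finset.card_image_of_injOn hf, Finset.card_sigma, pow_succ]
      calc B ^ j * B ≤ S.card * B := Nat.mul_le_mul_right _ hS
        _ = ∑ p ∈ S, B := by rw [Finset.sum_const, smul_eq_mul]
        _ ≤ _ := by
          refine Finset.sum_le_sum fun p _ => ?_
          rw [← Set.ncard_eq_toFinset_card']
          exact hB _ ((finrank_spd p).trans (by simp))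
    · intro p hpQ
      obtain ⟨x, hx, rfl⟩ := Finset.mem_image.1 hpQ
      obtain ⟨hx1, hx2⟩ := Finset.mem_sigma.1 hx
      rw [Set.mem_toFinset] at hx2
      have h3 := hH x hx2
      have h4 := hp _ hx1
      refine ⟨⟨?_, ?_, ?_⟩, ?_⟩
      · simpa [f, Fin.tail_cons] using h4.1
      · simpa [f, Fin.tail_cons] using hx2.1
      · simpa [f, Fin.tail_cons] using h3.1
      · rw [tnd_succ]
        simpa [f, Fin.tail_cons] using add_mem h3.2 h4.2
    · intro p hp1 p' hp1' h
      obtain ⟨x, hx, rfl⟩ := Finset.mem_image.1 hp1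
      obtain ⟨x', hx', rfl⟩ := Finset.mem_image.1 hp1'
      rw [hf2 hx hx' h]

/-- The counting lemma for tuples. -/
theorem countd (Lam : Submodule F (Matrix ι ι F)) {D j B : ℕ} (hD : finrank F Lam ≤ D)
    (hB : ∀ W : Submodule F (ι → F), finrank F W ≤ 2 * d * (j - 1) →
      B ≤ (Bdd (d := d) Lam W).ncard) :
    B ^ j ≤ Fintype.card F ^ (D + (d + 3 * d * j + Fintype.card ι * (d - 1)) * j) := by
  classical
  obtain ⟨S, hS, hp, hI⟩ := exists_frd Lam B j hB
  have hfib : ∀ T ∈ S.image tnd, (S.filter fun p => tnd p = T).card ≤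
      Fintype.card F ^ ((d + 3 * d * j + Fintype.card ι * (d - 1)) * j) := by
    intro T hT
    obtain ⟨p0, hp0, rfl⟩ := Finset.mem_image.1 hT
    have hR : finrank F (col (tnd p0)) ≤ 2 * d * j := by
      refine le_trans (Submodule.finrank_mono ?_) (finrank_spd p0)
      rintro _ ⟨v, rfl⟩
      exact tnd_mem p0 v
    have hinj : Set.InjOn (fun (p : Sq F ι d j) l => (p l).2)
        (S.filter fun p => tnd p = tnd p0 : Finset _) :=
      hI.mono (Finset.coe_subset.2 (Finset.filter_subset _ _))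
    rw [← Finset.card_image_of_injOn hinj]
    have h1 := card_seq (d := d) (col (tnd p0)) hR j le_rfl
      ((S.filter fun p => tnd p = tnd p0).image fun (p : Sq F ι d j) l => (p l).2) (by
        intro G hG l
        obtain ⟨p, hpp, rfl⟩ := Finset.mem_image.1 hG
        obtain ⟨hpS, hpT⟩ := Finset.mem_filter.1 hpp
        have := key (hp p hpS).1 l
        rwa [hpT] at this)
    refine h1.trans (le_of_eq ?_)
    rw [← pow_mul]
    congr 2
    ring
  have h1 := Finset.card_le_mul_card_image (f := tnd) S _ hfib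
  have h2 : (S.image tnd).card ≤ Fintype.card F ^ D := by
    have h3 : (S.image tnd) ⊆ Finset.univ.filter fun x => x ∈ Lam := by
      intro T hT
      obtain ⟨p, hpS, rfl⟩ := Finset.mem_image.1 hT
      exact Finset.mem_filter.2 ⟨Finset.mem_univ _, (hp p hpS).2⟩
    refine (Finset.card_le_card h3).trans ?_
    have h4 : (Finset.univ.filter fun x => x ∈ Lam).card = Fintype.card Lam := by
      rw [Fintype.card_subtype]
    rw [h4, Module.card_eq_pow_finrank (K := F) (V := Lam)]
    exact Nat.pow_le_pow_right Fintype.card_pos hD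
  calc B ^ j ≤ S.card := hS
    _ ≤ _ * (S.image tnd).card := h1
    _ ≤ _ * Fintype.card F ^ D := Nat.mul_le_mul_left _ h2
    _ = _ := by rw [← pow_add, add_comm]

/-- Consequence: a space `W` of bounded dimension such that, for all but few tuples `g`, every
tuple `h` with `∑ h_i . g_i` in `Lam` has all its entries in `W + span g`. -/
theorem exists_Wd (Lam : Submodule F (Matrix ι ι F)) {D j B : ℕ} (hD : finrank F Lam ≤ D)
    (hj : Fintype.card F ^ (D + (d + 3 * d * j + Fintype.card ι * (d - 1)) * j) < B ^ j) :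
    ∃ (W : Submodule F (ι → F)) (E : Finset (Fin d → ι → F)), finrank F W ≤ 2 * d * (j - 1) ∧
      E.card < B + Fintype.card F ^ (d + 2 * d * (j - 1) + Fintype.card ι * (d - 1)) ∧
      ∀ g ∉ E, IndMod W g ∧ ∀ h : Fin d → ι → F, smm h g ∈ Lam →
        ∀ i, h i ∈ W ⊔ span F (Set.range g) := by
  classical
  have h1 : ∃ W : Submodule F (ι → F), finrank F W ≤ 2 * d * (j - 1) ∧
      (Bdd (d := d) Lam W).ncard < B := by
    by_contra hcon
    exact absurd (countd Lam hD fun W hW => not_lt.1 fun h => hcon ⟨W, hW, h⟩) (not_le.2 hj)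
  obtain ⟨W, hW, hWB⟩ := h1
  refine ⟨W, (Bdd Lam W).toFinset ∪ Finset.univ.filter (fun g => ¬ IndMod W g), hW, ?_, ?_⟩
  · refine (Finset.card_union_le _ _).trans_lt ?_
    have h2 : (Finset.univ.filter fun g : Fin d → ι → F => ¬ IndMod W g).card ≤
        Fintype.card F ^ (d + 2 * d * (j - 1) + Fintype.card ι * (d - 1)) := by
      refine card_dep W hW _ fun g hg => ?_
      have h3 := (Finset.mem_filter.1 hg).2
      unfold IndMod at h3
      push Not at h3
      obtain ⟨c, hc1, hc2⟩ := h3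
      exact ⟨c, hc2, hc1⟩
    rw [← Set.ncard_eq_toFinset_card']
    omega
  · intro g hg
    rw [Finset.mem_union, not_or, Set.mem_toFinset, Finset.mem_filter] at hg
    have h5 : IndMod W g := by
      by_contra hcon
      exact hg.2 ⟨Finset.mem_univ _, hcon⟩
    refine ⟨h5, fun h hh i => ?_⟩
    by_contra hcon
    exact hg.1 ⟨h5, h, ⟨i, hcon⟩, hh⟩

end

end Vale.Agent.P060.HW
end

section

/-! Entropy deficit on the lattice of subspaces: `D G = dim G * log |K| - H (X on G)` is
nonnegative, monotone and supermodular. -/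

noncomputable section

namespace Vale.Agent.P060.HW

open Module

namespace Lat

variable {Ω : Type*} [Fintype Ω] {K : Type*} [Field K] [Finite K] {V : Type*} [AddCommGroup V]
  [Module K V] [FiniteDimensional K V]

/-- the restriction of the functional `X ω` to `G` -/
def ev (X : Ω → Dual K V) (G : Submodule K V) (ω : Ω) : Dual K G := (X ω).domRestrict G

omit [Fintype Ω] [Finite K] [FiniteDimensional K V] in
theorem ev_eq_iff {X : Ω → Dual K V} {G : Submodule K V} {ω ω' : Ω} :
    ev X G ω = ev X G ω' ↔ ∀ g ∈ G, X ω g = X ω' g := by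
  constructor
  · intro h g hg
    exact LinearMap.congr_fun h ⟨g, hg⟩
  · intro h
    ext g
    exact h g.1 g.2

omit [Fintype Ω] [Finite K] [FiniteDimensional K V] in
theorem agree_sup_iff {X : Ω → Dual K V} {G G' : Submodule K V} {ω ω' : Ω} :
    (∀ g ∈ G ⊔ G', X ω g = X ω' g) ↔ (∀ g ∈ G, X ω g = X ω' g) ∧ ∀ g ∈ G', X ω g = X ω' g := by
  constructor
  · intro h
    exact ⟨fun g hg => h g (Submodule.mem_sup_left hg), fun g hg => h g (Submodule.mem_sup_right hg)⟩
  · rintro ⟨h1, h2⟩ g hg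
    obtain ⟨a, ha, b, hb, rfl⟩ := Submodule.mem_sup.1 hg
    rw [map_add, map_add, h1 a ha, h2 b hb]

variable (P : FinProb Ω) (X : Ω → Dual K V)

/-- the entropy of `X` on `G` -/
def ent (G : Submodule K V) : ℝ := P.H (ev X G)

/-- the entropy deficit of `X` on `G` -/
def D (G : Submodule K V) : ℝ := finrank K G * Real.log (Nat.card K) - ent P X G

omit [Finite K] [FiniteDimensional K V] in
theorem ent_nonneg (G : Submodule K V) : 0 ≤ ent P X G := P.H_nonneg _

omit [Finite K] [FiniteDimensional K V] in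
theorem ent_mono {G G' : Submodule K V} (h : G ≤ G') : ent P X G ≤ ent P X G' := by
  refine P.H_le_of_det fun ω ω' hω => ?_
  rw [ev_eq_iff] at hω ⊢
  exact fun g hg => hω g (h hg)

theorem ent_le (G : Submodule K V) : ent P X G ≤ finrank K G * Real.log (Nat.card K) := by
  classical
  have hfin : Finite (Dual K G) := Module.finite_of_finite K
  have : Fintype (Dual K G) := Fintype.ofFinite _
  have h1 := P.H_le_log_card (ev X G) Finset.univ fun ω => Finset.mem_univ _
  refine h1.trans (le_of_eq ?_)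
  rw [Finset.card_univ, ← Nat.card_eq_fintype_card, Module.natCard_eq_pow_finrank (K := K),
    Subspace.dual_finrank_eq, Nat.cast_pow, Real.log_pow]

theorem D_nonneg (G : Submodule K V) : 0 ≤ D P X G := by
  have := ent_le P X G
  unfold D
  linarith

theorem D_le (G : Submodule K V) : D P X G ≤ finrank K G * Real.log (Nat.card K) := by
  have := ent_nonneg P X G
  unfold D
  linarith

omit [Finite K] [FiniteDimensional K V] in
theorem ent_submodular (G G' : Submodule K V) :
    ent P X (G ⊔ G') + ent P X (G ⊓ G') ≤ ent P X G + ent P X G' := by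
  have h := P.H_submod (ev X G) (ev X G') (ev X (G ⊓ G'))
  have e1 : P.H (fun ω => (ev X G ω, ev X G' ω, ev X (G ⊓ G') ω)) = ent P X (G ⊔ G') := by
    refine P.H_congr_det fun ω ω' => ?_
    rw [ev_eq_iff, agree_sup_iff, Prod.mk.injEq, Prod.mk.injEq, ev_eq_iff, ev_eq_iff, ev_eq_iff]
    constructor
    · rintro ⟨h1, h2⟩
      exact ⟨h1, h2, fun g hg => h1 g hg.1⟩
    · rintro ⟨h1, h2, -⟩
      exact ⟨h1, h2⟩
  have e2 : P.H (fun ω => (ev X G ω, ev X (G ⊓ G') ω)) = ent P X G := by
    refine P.H_congr_det fun ω ω' => ?_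
    rw [ev_eq_iff, Prod.mk.injEq, ev_eq_iff, ev_eq_iff]
    exact ⟨fun h1 => ⟨h1, fun g hg => h1 g hg.1⟩, fun h1 => h1.1⟩
  have e3 : P.H (fun ω => (ev X G' ω, ev X (G ⊓ G') ω)) = ent P X G' := by
    refine P.H_congr_det fun ω ω' => ?_
    rw [ev_eq_iff, Prod.mk.injEq, ev_eq_iff, ev_eq_iff]
    exact ⟨fun h1 => ⟨h1, fun g hg => h1 g hg.2⟩, fun h1 => h1.1⟩
  rw [e1, e2, e3] at h
  exact h

omit [Finite K] in
/-- supermodularity -/
theorem D_supermodular (G G' : Submodule K V) :
    D P X G + D P X G' ≤ D P X (G ⊔ G') + D P X (G ⊓ G') := by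
  have h1 := ent_submodular P X G G'
  have h2 : (finrank K (G ⊔ G' : Submodule K V) : ℝ) + finrank K (G ⊓ G' : Submodule K V) =
      finrank K G + finrank K G' := by
    exact_mod_cast Submodule.finrank_sup_add_finrank_inf_eq G G'
  have h3 := congrArg (· * Real.log (Nat.card K)) h2
  simp only [add_mul] at h3
  unfold D
  linarith

theorem ent_bot : ent P X (⊥ : Submodule K V) = 0 := by
  refine le_antisymm ?_ (ent_nonneg P X _)
  have := ent_le P X (⊥ : Submodule K V)
  rw [finrank_bot, Nat.cast_zero, zero_mul] at this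
  exact this

theorem D_bot : D P X (⊥ : Submodule K V) = 0 := by
  rw [D, ent_bot, finrank_bot, Nat.cast_zero, zero_mul, sub_zero]

theorem D_mono {G G' : Submodule K V} (h : G ≤ G') : D P X G ≤ D P X G' := by
  obtain ⟨C, hC⟩ := Submodule.exists_isCompl (Submodule.comap G'.subtype G)
  obtain ⟨C', rfl⟩ : ∃ C' : Submodule K V, C' = C.map G'.subtype := ⟨_, rfl⟩
  have h1 : G ⊔ C.map G'.subtype = G' := by
    have e1 := hC.sup_eq_top
    have e2 := congrArg (Submodule.map G'.subtype) e1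
    rw [Submodule.map_sup, Submodule.map_comap_subtype, Submodule.map_subtype_top,
      inf_eq_right.2 h] at e2
    exact e2
  have h2 : G ⊓ C.map G'.subtype = ⊥ := by
    have e1 := hC.inf_eq_bot
    have e2 := congrArg (Submodule.map G'.subtype) e1
    rw [Submodule.map_inf _ G'.injective_subtype, Submodule.map_comap_subtype,
      Submodule.map_bot, inf_eq_right.2 h] at e2
    exact e2
  have h3 := D_supermodular P X G (C.map G'.subtype)
  rw [h1, h2, D_bot] at h3
  have h4 := D_nonneg P X (C.map G'.subtype)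
  linarith

/-- the deficit of `G` given `A` -/
def Dc (G A : Submodule K V) : ℝ := D P X (G ⊔ A) - D P X A

theorem Dc_nonneg (G A : Submodule K V) : 0 ≤ Dc P X G A := by
  have := D_mono P X (le_sup_right : A ≤ G ⊔ A)
  unfold Dc
  linarith

omit [Finite K] in
/-- conditioning on more increases the deficit, if `G` meets the new conditions trivially -/
theorem Dc_mono_right {G A A' : Submodule K V} (h : A ≤ A') (hG : G ⊓ A' ≤ A) :
    Dc P X G A ≤ Dc P X G A' := by
  have h1 := D_supermodular P X (G ⊔ A) A'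
  have h2 : G ⊔ A ⊔ A' = G ⊔ A' := by rw [sup_assoc, sup_eq_right.2 h]
  have h3 : (G ⊔ A) ⊓ A' = A := by
    rw [sup_comm, sup_inf_assoc_of_le _ h]
    exact sup_eq_left.2 hG
  rw [h2, h3] at h1
  unfold Dc
  linarith

theorem Dc_mono_left {G G' A : Submodule K V} (h : G ≤ G') : Dc P X G A ≤ Dc P X G' A := by
  have := D_mono P X (sup_le_sup_right h A)
  unfold Dc
  linarith

omit [Finite K] [FiniteDimensional K V] in
/-- chain rule -/
theorem Dc_chain (G G' A : Submodule K V) :
    Dc P X (G ⊔ G') A = Dc P X G' A + Dc P X G (G' ⊔ A) := by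
  unfold Dc
  rw [sup_assoc]
  ring

omit [Finite K] [FiniteDimensional K V] in
/-- the total deficit is at least the sum of the increments -/
theorem sum_Dc (A : Submodule K V) (G : ℕ → Submodule K V) (n : ℕ) :
    ∑ i ∈ Finset.range n, Dc P X (G i) ((Finset.range i).sup G ⊔ A) =
      D P X ((Finset.range n).sup G ⊔ A) - D P X A := by
  induction n with
  | zero => simp
  | succ n ih =>
    rw [Finset.sum_range_succ, ih, Finset.range_add_one, Finset.sup_insert]
    unfold Dc
    rw [← sup_assoc]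
    ring

omit [Finite K] in
/-- superadditivity over a family of subspaces independent over `A` -/
theorem sum_Dc_le (A : Submodule K V) (G : ℕ → Submodule K V) (n : ℕ)
    (h : ∀ i < n, G i ⊓ ((Finset.range i).sup G ⊔ A) ≤ A) :
    ∑ i ∈ Finset.range n, Dc P X (G i) A ≤ D P X ((Finset.range n).sup G ⊔ A) - D P X A := by
  rw [← sum_Dc]
  refine Finset.sum_le_sum fun i hi => ?_
  exact Dc_mono_right P X le_sup_right (h i (Finset.mem_range.1 hi))

end Lat

end Vale.Agent.P060.HW
end
end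

section

/-!
P060-HW: the explicit combinatorial part of the design (no randomness).
Index sets `Om`, zero row sets `U c`, types `(i, l)`, lines.
-/

set_option autoImplicit false

namespace Vale.Agent.P060.HW.Combi

open Finset Polynomial

/-! ### Reed-Solomon words from base `Q` digits -/

section RS

variable (Q : ℕ)

/-- the `e`-th base `Q` digit of `j`, in `ZMod Q`. -/
def dig (e j : ℕ) : ZMod Q := ((j / Q ^ e : ℕ) : ZMod Q)

/-- the polynomial with the first `D` digits of `j`, evaluated at `t`. -/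
def ev (D j : ℕ) (t : ZMod Q) : ZMod Q := ∑ e ∈ range D, dig Q e j * t ^ e

lemma dig_succ (e j : ℕ) : dig Q (e + 1) j = dig Q e (j / Q) := by
  unfold dig
  rw [Nat.div_div_eq_div_mul, pow_succ, mul_comm]

lemma dig_zero (j : ℕ) : dig Q 0 j = (j : ZMod Q) := by
  simp [dig]

lemma eq_of_cast_div {j j' : ℕ} (h0 : (j : ZMod Q) = (j' : ZMod Q)) (h1 : j / Q = j' / Q) :
    j = j' := by
  have h2 : j % Q = j' % Q := (ZMod.natCast_eq_natCast_iff' j j' Q).1 h0
  rw [← Nat.div_add_mod j Q, ← Nat.div_add_mod j' Q, h1, h2]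

lemma dig_ext : ∀ (D j j' : ℕ), j < Q ^ D → j' < Q ^ D →
    (∀ e < D, dig Q e j = dig Q e j') → j = j' := by
  intro D
  induction D with
  | zero =>
    intro j j' h h' _
    simp only [pow_zero, Nat.lt_one_iff] at h h'
    omega
  | succ D ih =>
    intro j j' h h' hd
    have h0 := hd 0 (Nat.succ_pos D)
    rw [dig_zero, dig_zero] at h0
    refine eq_of_cast_div Q h0 (ih _ _ ?_ ?_ ?_)
    · exact Nat.div_lt_of_lt_mul (by rwa [pow_succ, mul_comm] at h)
    · exact Nat.div_lt_of_lt_mul (by rwa [pow_succ, mul_comm] at h')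
    · intro e he
      have := hd (e + 1) (by omega)
      rwa [dig_succ, dig_succ] at this

lemma ev_succ (D j : ℕ) (t : ZMod Q) :
    ev Q (D + 1) j t = (j : ZMod Q) + t * ev Q D (j / Q) t := by
  unfold ev
  rw [Finset.sum_range_succ']
  simp only [dig_zero, pow_zero, mul_one, dig_succ]
  rw [add_comm, Finset.mul_sum]
  congr 1
  refine Finset.sum_congr rfl fun e _ => ?_
  ring

lemma eq_of_ev_eq {D j j' : ℕ} {t : ZMod Q} (h : ev Q (D + 1) j t = ev Q (D + 1) j' t)
    (h1 : j / Q = j' / Q) : j = j' := by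
  rw [ev_succ, ev_succ, h1] at h
  exact eq_of_cast_div Q (add_right_cancel h) h1

/-- the number of `j < n` with prescribed value at `t` is at most `n / Q + 1`. -/
lemma card_ev_le (D n : ℕ) (t s : ZMod Q) :
    ((range n).filter fun j => ev Q (D + 1) j t = s).card ≤ n / Q + 1 := by
  have hinj : Set.InjOn (fun j : ℕ => j / Q)
      (((range n).filter fun j => ev Q (D + 1) j t = s : Finset ℕ) : Set ℕ) := by
    intro j hj j' hj' h
    simp only [coe_filter, mem_range, Set.mem_ofPred_eq] at hj hj'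
    exact eq_of_ev_eq Q (hj.2.trans hj'.2.symm) h
  rw [← Finset.card_image_of_injOn hinj]
  calc _ ≤ (range (n / Q + 1)).card := by
        refine Finset.card_le_card fun x hx => ?_
        simp only [mem_image, mem_filter, mem_range] at hx ⊢
        obtain ⟨j, ⟨hj, _⟩, rfl⟩ := hx
        exact Nat.lt_succ_of_le (Nat.div_le_div_right hj.le)
    _ = _ := by simp

lemma card_ev_lt (D n : ℕ) (t s : ZMod Q) (hn : 0 < n) :
    ((range n).filter fun j => ev Q (D + 1) j t = s).card ≤ (n - 1) / Q + 1 := by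
  have hinj : Set.InjOn (fun j : ℕ => j / Q)
      (((range n).filter fun j => ev Q (D + 1) j t = s : Finset ℕ) : Set ℕ) := by
    intro j hj j' hj' h
    simp only [coe_filter, mem_range, Set.mem_ofPred_eq] at hj hj'
    exact eq_of_ev_eq Q (hj.2.trans hj'.2.symm) h
  rw [← Finset.card_image_of_injOn hinj]
  calc _ ≤ (range ((n - 1) / Q + 1)).card := by
        refine Finset.card_le_card fun x hx => ?_
        simp only [mem_image, mem_filter, mem_range] at hx ⊢
        obtain ⟨j, ⟨hj, _⟩, rfl⟩ := hx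
        exact Nat.lt_succ_of_le (Nat.div_le_div_right (by omega))
    _ = _ := by simp

variable [Fact Q.Prime]

/-- two different words agree in at most `D - 1` places. -/
lemma card_agree_le (D j j' : ℕ) (hj : j < Q ^ (D + 1)) (hj' : j' < Q ^ (D + 1)) (hne : j ≠ j') :
    ((univ : Finset (ZMod Q)).filter fun t => ev Q (D + 1) j t = ev Q (D + 1) j' t).card ≤ D := by
  classical
  set p : (ZMod Q)[X] := ∑ e ∈ range (D + 1), C (dig Q e j - dig Q e j') * X ^ e with hp
  have hcoeff : ∀ e < D + 1, p.coeff e = dig Q e j - dig Q e j' := by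
    intro e he
    rw [hp, finsetSum_coeff]
    simp only [coeff_C_mul, coeff_X_pow, mul_ite, mul_one, mul_zero]
    rw [Finset.sum_ite_eq]
    simp [he]
  have hp0 : p ≠ 0 := by
    intro h0
    apply hne
    refine dig_ext Q (D + 1) j j' hj hj' fun e he => ?_
    have := hcoeff e he
    rw [h0, coeff_zero] at this
    exact (sub_eq_zero.1 this.symm)
  have hdeg : p.natDegree ≤ D := by
    rw [hp]
    refine natDegree_sum_le_of_forall_le _ _ fun e he => ?_
    refine (natDegree_C_mul_X_pow_le _ _).trans ?_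
    simp only [mem_range] at he
    omega
  have heval : ∀ t, p.eval t = ev Q (D + 1) j t - ev Q (D + 1) j' t := by
    intro t
    rw [hp, eval_finsetSum]
    unfold ev
    rw [← Finset.sum_sub_distrib]
    refine Finset.sum_congr rfl fun e _ => ?_
    simp only [eval_mul, eval_C, eval_pow, eval_X]
    ring
  calc _ ≤ p.roots.toFinset.card := by
        refine Finset.card_le_card fun t ht => ?_
        simp only [mem_filter, mem_univ, true_and] at ht
        rw [Multiset.mem_toFinset, mem_roots hp0, IsRoot.def, heval, ht, sub_self]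
    _ ≤ Multiset.card p.roots := Multiset.toFinset_card_le _
    _ ≤ p.natDegree := card_roots' p
    _ ≤ D := hdeg

end RS

/-! ### The sets `U'_i` -/

section Up

variable (Q M D N : ℕ) [Fact Q.Prime] [NeZero M] [NeZero N]

/-- the row labels of one layer -/
abbrev Om' : Type := ZMod Q × ZMod Q × ZMod M

/-- `U'_i` : graph of the word of `i / M`, together with the residue of `i` mod `M`. -/
def Up (i : ZMod N) : Finset (Om' Q M) :=
  (univ : Finset (ZMod Q)).image fun t => (t, ev Q (D + 1) (i.val / M) t, (i.val : ZMod M))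

variable {Q M D N}

lemma mem_Up {i : ZMod N} {w : Om' Q M} :
    w ∈ Up Q M D N i ↔ w.2.1 = ev Q (D + 1) (i.val / M) w.1 ∧ w.2.2 = (i.val : ZMod M) := by
  unfold Up
  simp only [mem_image, mem_univ, true_and]
  constructor
  · rintro ⟨t, rfl⟩
    exact ⟨rfl, rfl⟩
  · rintro ⟨h1, h2⟩
    exact ⟨w.1, by rw [← h1, ← h2]⟩

lemma card_Up (i : ZMod N) : (Up Q M D N i).card = Q := by
  unfold Up
  rw [Finset.card_image_of_injective _ (fun t t' h => (Prod.ext_iff.1 h).1), card_univ, ZMod.card]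

lemma cast_eq_of_mem {i j : ZMod N} {w : Om' Q M} (hi : w ∈ Up Q M D N i)
    (hj : w ∈ Up Q M D N j) : (i.val : ZMod M) = (j.val : ZMod M) :=
  (mem_Up.1 hi).2.symm.trans (mem_Up.1 hj).2

lemma card_Up_inter_le {i j : ZMod N} (hne : i ≠ j) (hN : N ≤ M * Q ^ (D + 1)) :
    (Up Q M D N i ∩ Up Q M D N j).card ≤ D := by
  classical
  by_cases hc : (i.val : ZMod M) = (j.val : ZMod M)
  · have hlt : ∀ a : ZMod N, a.val / M < Q ^ (D + 1) := fun a =>
      Nat.div_lt_of_lt_mul ((ZMod.val_lt a).trans_le hN)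
    have hq : i.val / M ≠ j.val / M := by
      intro h
      exact hne (ZMod.val_injective N (eq_of_cast_div M hc h))
    refine le_trans ?_ (card_agree_le Q D _ _ (hlt i) (hlt j) hq)
    refine Finset.card_le_card_of_injOn (fun w => w.1) ?_ ?_
    · intro w hw
      simp only [coe_inter, Set.mem_inter_iff, mem_coe] at hw
      simp only [coe_filter, mem_univ, true_and, Set.mem_ofPred_eq]
      rw [← (mem_Up.1 hw.1).1, ← (mem_Up.1 hw.2).1]
    · intro w hw w' hw' h
      simp only [coe_inter, Set.mem_inter_iff, mem_coe] at hw hw'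
      have h1 := mem_Up.1 hw.1
      have h2 := mem_Up.1 hw'.1
      simp only at h
      exact Prod.ext h (Prod.ext (by rw [h1.1, h2.1, h]) (by rw [h1.2, h2.2]))
  · rw [Finset.card_eq_zero.2 ?_]
    · exact Nat.zero_le _
    · rw [Finset.eq_empty_iff_forall_notMem]
      intro w hw
      rw [mem_inter] at hw
      exact hc (cast_eq_of_mem hw.1 hw.2)

lemma dvd_val_div (hM : M ∣ N) (i : ZMod N) : i.val / M < N / M := by
  obtain ⟨c, hc⟩ := hM
  have hMpos : 0 < M := Nat.pos_of_ne_zero (NeZero.ne M)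
  have h := ZMod.val_lt i
  subst hc
  rw [Nat.mul_div_cancel_left c hMpos]
  exact Nat.div_lt_of_lt_mul h

/-- a row belongs to few of the `U'_i`. -/
lemma card_mem_Up_le (hM : M ∣ N) (w : Om' Q M) :
    ((univ : Finset (ZMod N)).filter fun i => w ∈ Up Q M D N i).card ≤ (N / M) / Q + 1 := by
  classical
  refine le_trans ?_ (card_ev_le Q D (N / M) w.1 w.2.1)
  refine Finset.card_le_card_of_injOn (fun i : ZMod N => i.val / M) ?_ ?_
  · intro i hi
    simp only [coe_filter, mem_univ, true_and, Set.mem_ofPred_eq] at hi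
    simp only [coe_filter, mem_range, Set.mem_ofPred_eq]
    exact ⟨dvd_val_div hM i, (mem_Up.1 hi).1.symm⟩
  · intro i hi j hj h
    simp only [coe_filter, mem_univ, true_and, Set.mem_ofPred_eq] at hi hj
    exact ZMod.val_injective N (eq_of_cast_div M (cast_eq_of_mem hi hj) h)

end Up

/-! ### Types, lines, rows -/

section Types

variable {Q M D N d : ℕ} [Fact Q.Prime] [NeZero M] [NeZero N]

/-- types `(i, l)` -/
abbrev Ty (N d : ℕ) : Type := ZMod N × Fin d

/-- line number `s` of the type `c = (i, l)` is `i + s l`. -/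
def ln (c : Ty N d) (s : Fin 3) : ZMod N := c.1 + ((s.val * c.2.val : ℕ) : ZMod N)

/-- the residue of `i` mod `M` -/
def res (M : ℕ) (i : ZMod N) : ZMod M := (i.val : ZMod M)

lemma res_ln (hM : M ∣ N) (c : Ty N d) (s : Fin 3) :
    res M (ln c s) = res M c.1 + ((s.val * c.2.val : ℕ) : ZMod M) := by
  have h : ∀ i : ZMod N, res M i = ZMod.castHom hM (ZMod M) i := by
    intro i
    rw [ZMod.castHom_apply, res, ZMod.natCast_val]
  rw [h, h, ln, map_add, map_natCast]

/-- two different types share at most one line -/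
lemma eq_of_share_two (hd : 2 * d ≤ N) {c c' : Ty N d} {s s' : Fin 3} (hs : s ≠ s')
    (h : ln c s = ln c' s) (h' : ln c s' = ln c' s') : c = c' := by
  obtain ⟨i, l⟩ := c
  obtain ⟨i', l'⟩ := c'
  unfold ln at h h'
  simp only at h h'
  have hlt : ∀ a : Fin d, 2 * a.val < N := fun a => by have := a.isLt; omega
  have hlt1 : ∀ a : Fin d, a.val < N := fun a => by have := a.isLt; omega
  have key : ∀ m n : ℕ, m < N → n < N → (m : ZMod N) = (n : ZMod N) → m = n := by
    intro m n hm hn hmn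
    have := (ZMod.natCast_eq_natCast_iff' m n N).1 hmn
    rwa [Nat.mod_eq_of_lt hm, Nat.mod_eq_of_lt hn] at this
  have hl : l = l' := by
    have e1 : ((l.val : ℕ) : ZMod N) = (l'.val : ZMod N) ∨
        ((2 * l.val : ℕ) : ZMod N) = ((2 * l'.val : ℕ) : ZMod N) := by
      fin_cases s <;> fin_cases s' <;> simp at hs h h' ⊢
      · subst h; left; simpa using h'
      · subst h; right; simpa using h'
      · subst h'; left; simpa using h
      · left; linear_combination h' - h
      · subst h'; right; simpa using h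
      · left; linear_combination h - h'
    rcases e1 with e | e
    · exact Fin.ext (key _ _ (hlt1 l) (hlt1 l') e)
    · have := key _ _ (hlt l) (hlt l') e
      exact Fin.ext (by omega)
  subst hl
  rw [add_right_cancel h]

/-- same direction and a shared line : same type -/
lemma eq_of_share_of_dir {c c' : Ty N d} {s : Fin 3} (h : ln c s = ln c' s) (hl : c.2 = c'.2) :
    c = c' := by
  unfold ln at h
  rw [hl] at h
  exact Prod.ext (add_right_cancel h) hl

/-- a type `b` which shares two lines (of different families) with two types `c, c'` of the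
same direction and the same residue is equal to both. -/
lemma eq_of_share_cls (hM : M ∣ N) (hMd : 2 * d ≤ M) {b c c' : Ty N d} {s s' : Fin 3}
    (hs : s ≠ s') (hdir : c.2 = c'.2) (hres : res M c.1 = res M c'.1)
    (h : ln b s = ln c s) (h' : ln b s' = ln c' s') : b = c ∧ b = c' := by
  have hb : b.2 = c.2 := by
    have e1 := congrArg (res M) h
    have e2 := congrArg (res M) h'
    rw [res_ln hM, res_ln hM] at e1 e2
    rw [← hdir, ← hres] at e2
    have e3 : (((s.val : ℤ) - s'.val) * ((b.2.val : ℤ) - c.2.val) : ℤ) ≡ 0 [ZMOD M] := by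
      rw [← ZMod.intCast_eq_intCast_iff]
      push_cast at e1 e2 ⊢
      linear_combination e1 - e2
    have hdvd := (Int.modEq_zero_iff_dvd).1 e3
    have hb1 := b.2.isLt
    have hc1 := c.2.isLt
    have hne : ((s.val : ℤ) - s'.val) ≠ 0 := by
      intro h0
      exact hs (Fin.ext (by omega))
    have habs : |((s.val : ℤ) - s'.val) * ((b.2.val : ℤ) - c.2.val)| < M := by
      rw [abs_mul]
      have h1 : |((s.val : ℤ) - s'.val)| ≤ 2 := by
        have := s.isLt
        have := s'.isLt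
        rw [abs_le]
        constructor <;> omega
      have h2 : |((b.2.val : ℤ) - c.2.val)| < d := by
        rw [abs_lt]
        constructor <;> omega
      have h3 : (0 : ℤ) ≤ |((b.2.val : ℤ) - c.2.val)| := abs_nonneg _
      have h4 : (2 * d : ℤ) ≤ M := by exact_mod_cast hMd
      (by_contra nlg; linarith [mul_nonneg (sub_nonneg.2 h4) (sub_nonneg.2 (abs_nonneg ((s.val : ℤ) - s'.val))), mul_nonneg (le_of_lt (sub_pos.2 h2)) (sub_nonneg.2 (abs_nonneg ((s.val : ℤ) - s'.val))), mul_nonneg (sub_nonneg.2 h1) (sub_nonneg.2 h4), mul_nonneg (sub_nonneg.2 h1) (sub_nonneg.2 h3), mul_nonneg (sub_nonneg.2 h1) (le_of_lt (sub_pos.2 h2)), mul_nonneg (sub_nonneg.2 (not_lt.1 nlg)) (sub_nonneg.2 (abs_nonneg ((s.val : ℤ) - s'.val))), mul_nonneg (sub_nonneg.2 (not_lt.1 nlg)) (sub_nonneg.2 h1)])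
    have h0 := Int.eq_zero_of_abs_lt_dvd hdvd habs
    rcases mul_eq_zero.1 h0 with h0 | h0
    · exact absurd h0 hne
    · exact Fin.ext (by omega)
  exact ⟨eq_of_share_of_dir h hb, eq_of_share_of_dir h' (hb.trans hdir)⟩

/-- all row labels -/
abbrev Om (Q M d : ℕ) : Type := Fin d × Om' Q M

variable (Q M D) in
/-- the zero rows of the type `c` -/
def U (c : Ty N d) : Finset (Om Q M d) := (Up Q M D N c.1).image fun w => (c.2, w)

lemma mem_U {c : Ty N d} {w : Om Q M d} :
    w ∈ U Q M D c ↔ w.1 = c.2 ∧ w.2 ∈ Up Q M D N c.1 := by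
  unfold U
  simp only [mem_image]
  constructor
  · rintro ⟨x, hx, rfl⟩
    exact ⟨rfl, hx⟩
  · rintro ⟨h1, h2⟩
    exact ⟨w.2, h2, by rw [← h1]⟩

lemma dir_of_mem {c : Ty N d} {w : Om Q M d} (h : w ∈ U Q M D c) : c.2 = w.1 :=
  (mem_U.1 h).1.symm

lemma res_of_mem {c : Ty N d} {w : Om Q M d} (h : w ∈ U Q M D c) : res M c.1 = w.2.2.2 :=
  (mem_Up.1 (mem_U.1 h).2).2.symm

/-- `|U_c| = Q`. -/
lemma card_U (c : Ty N d) : (U Q M D c).card = Q := by
  unfold U
  rw [Finset.card_image_of_injective _ (fun a b h => (Prod.ext_iff.1 h).2), card_Up]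

/-- `|U_c ∩ U_c'| ≤ D` for `c ≠ c'`. -/
lemma card_U_inter_le {c c' : Ty N d} (hne : c ≠ c') (hN : N ≤ M * Q ^ (D + 1)) :
    (U Q M D c ∩ U Q M D c').card ≤ D := by
  classical
  by_cases hl : c.2 = c'.2
  · have hi : c.1 ≠ c'.1 := fun h => hne (Prod.ext h hl)
    refine le_trans ?_ (card_Up_inter_le (Q := Q) (M := M) (D := D) hi hN)
    refine Finset.card_le_card_of_injOn (fun w => w.2) ?_ ?_
    · intro w hw
      simp only [coe_inter, Set.mem_inter_iff, mem_coe] at hw ⊢
      exact ⟨(mem_U.1 hw.1).2, (mem_U.1 hw.2).2⟩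
    · intro w hw w' hw' h
      simp only [coe_inter, Set.mem_inter_iff, mem_coe] at hw hw'
      exact Prod.ext ((mem_U.1 hw.1).1.trans (mem_U.1 hw'.1).1.symm) h
  · rw [Finset.card_eq_zero.2 ?_]
    · exact Nat.zero_le _
    · rw [Finset.eq_empty_iff_forall_notMem]
      intro w hw
      rw [mem_inter] at hw
      exact hl ((dir_of_mem hw.1).trans (dir_of_mem hw.2).symm)

/-- different types which share a line have disjoint zero rows. -/
lemma disjoint_U_of_share {c c' : Ty N d} {s : Fin 3} (hne : c ≠ c') (h : ln c s = ln c' s) :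
    Disjoint (U Q M D c) (U Q M D c') := by
  rw [Finset.disjoint_left]
  intro w hw hw'
  exact hne (eq_of_share_of_dir h ((dir_of_mem hw).trans (dir_of_mem hw').symm))

/-- types whose zero rows meet : same direction and residue, and if they are different they
have no line in common. -/
lemma cls_of_meet {c c' : Ty N d} (h : (U Q M D c ∩ U Q M D c').Nonempty) :
    c.2 = c'.2 ∧ res M c.1 = res M c'.1 ∧ (c ≠ c' → ∀ s, ln c s ≠ ln c' s) := by
  obtain ⟨w, hw⟩ := h
  rw [mem_inter] at hw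
  refine ⟨(dir_of_mem hw.1).trans (dir_of_mem hw.2).symm,
    (res_of_mem hw.1).trans (res_of_mem hw.2).symm, fun hne s hs => ?_⟩
  exact hne (eq_of_share_of_dir hs ((dir_of_mem hw.1).trans (dir_of_mem hw.2).symm))

/-- the types with zero row `w`. -/
def A (D : ℕ) (w : Om Q M d) : Finset (Ty N d) := univ.filter fun c => w ∈ U Q M D c

lemma mem_A {w : Om Q M d} {c : Ty N d} : c ∈ A (N := N) D w ↔ w ∈ U Q M D c := by
  simp [A]

lemma card_A_le (hM : M ∣ N) (w : Om Q M d) :
    (A (N := N) D w).card ≤ (N / M) / Q + 1 := by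
  classical
  refine le_trans ?_ (card_mem_Up_le (Q := Q) (D := D) hM w.2)
  refine Finset.card_le_card_of_injOn (fun c => c.1) ?_ ?_
  · intro c hc
    simp only [mem_coe, mem_A] at hc
    simp only [coe_filter, mem_univ, true_and, Set.mem_ofPred_eq]
    exact (mem_U.1 hc).2
  · intro c hc c' hc' h
    simp only [mem_coe, mem_A] at hc hc'
    exact Prod.ext h ((dir_of_mem hc).trans (dir_of_mem hc').symm)

/-- `A_w` is line-disjoint -/
lemma A_line_disjoint {w : Om Q M d} {c c' : Ty N d} (hc : c ∈ A (N := N) D w)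
    (hc' : c' ∈ A (N := N) D w) (hne : c ≠ c') (s : Fin 3) : ln c s ≠ ln c' s := by
  rw [mem_A] at hc hc'
  intro h
  exact hne (eq_of_share_of_dir h ((dir_of_mem hc).trans (dir_of_mem hc').symm))

/-- a type outside `A_w` shares lines of at most one family with the types of `A_w`. -/
lemma A_private (hM : M ∣ N) (hMd : 2 * d ≤ M) {w : Om Q M d} {b c c' : Ty N d} {s s' : Fin 3}
    (hc : c ∈ A (N := N) D w) (hc' : c' ∈ A (N := N) D w) (hb : b ∉ A (N := N) D w)
    (h : ln b s = ln c s) (h' : ln b s' = ln c' s') : s = s' := by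
  by_contra hs
  have hcc := mem_A.1 hc
  have hcc' := mem_A.1 hc'
  have := eq_of_share_cls hM hMd hs ((dir_of_mem hcc).trans (dir_of_mem hcc').symm)
    ((res_of_mem hcc).trans (res_of_mem hcc').symm) h h'
  exact hb (this.1 ▸ hc)

/-- the types whose zero rows meet those of `a`. -/
def AA (D : ℕ) (a : Ty N d) (Q M : ℕ) [Fact Q.Prime] [NeZero M] : Finset (Ty N d) := by
  classical exact univ.filter fun c => (U Q M D a ∩ U Q M D c).Nonempty

lemma mem_AA {a c : Ty N d} : c ∈ AA D a Q M ↔ (U Q M D a ∩ U Q M D c).Nonempty := by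
  simp [AA]

lemma AA_cls {a c : Ty N d} (h : c ∈ AA D a Q M) : c.2 = a.2 ∧ res M c.1 = res M a.1 := by
  have := cls_of_meet (mem_AA.1 h)
  exact ⟨this.1.symm, this.2.1.symm⟩

lemma AA_line_disjoint {a c c' : Ty N d} (hc : c ∈ AA D a Q M) (hc' : c' ∈ AA D a Q M)
    (hne : c ≠ c') (s : Fin 3) : ln c s ≠ ln c' s := fun h =>
  hne (eq_of_share_of_dir h ((AA_cls hc).1.trans (AA_cls hc').1.symm))

lemma AA_private (hM : M ∣ N) (hMd : 2 * d ≤ M) {a b c c' : Ty N d} {s s' : Fin 3}
    (hc : c ∈ AA D a Q M) (hc' : c' ∈ AA D a Q M) (hb : b ∉ AA D a Q M)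
    (h : ln b s = ln c s) (h' : ln b s' = ln c' s') : s = s' := by
  by_contra hs
  have := eq_of_share_cls hM hMd hs ((AA_cls hc).1.trans (AA_cls hc').1.symm)
    ((AA_cls hc).2.trans (AA_cls hc').2.symm) h h'
  exact hb (this.1 ▸ hc)

lemma card_AA_le (hM : M ∣ N) (a : Ty N d) : (AA D a Q M).card ≤ N / M := by
  classical
  have h1 : (AA D a Q M).card ≤ (range (N / M)).card := by
    refine Finset.card_le_card_of_injOn (fun c => c.1.val / M) ?_ ?_
    · intro c _
      simp only [coe_range, Set.mem_Iio]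
      exact dvd_val_div hM c.1
    · intro c hc c' hc' h
      have h2 := AA_cls hc
      have h3 := AA_cls hc'
      exact Prod.ext (ZMod.val_injective N (eq_of_cast_div M (h2.2.trans h3.2.symm) h))
        (h2.1.trans h3.1.symm)
  simpa using h1

end Types

/-! ### Choice of the prime -/

lemma exists_Q (N X : ℕ) (hX : 4 * Nat.log 2 N + 4 ≤ X) :
    ∃ Q, Q.Prime ∧ X < Q ∧ Q ≤ 2 * X ∧ N ≤ Q ^ (Q / 4 + 1) ∧ 4 * (Q / 4) ≤ Q := by
  obtain ⟨Q, hQ, h1, h2⟩ := Nat.exists_prime_lt_and_le_two_mul X (by omega)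
  refine ⟨Q, hQ, h1, h2, ?_, Nat.mul_div_le Q 4⟩
  have h3 : N < 2 ^ (Nat.log 2 N + 1) := Nat.lt_pow_succ_log_self (by norm_num) N
  have h4 : Nat.log 2 N + 1 ≤ Q / 4 + 1 := by omega
  calc N ≤ 2 ^ (Nat.log 2 N + 1) := h3.le
    _ ≤ 2 ^ (Q / 4 + 1) := Nat.pow_le_pow_right (by norm_num) h4
    _ ≤ Q ^ (Q / 4 + 1) := Nat.pow_le_pow_left hQ.two_le _

end Vale.Agent.P060.HW.Combi
end

section

/-!
# Design H3: definitions

Coordinates `Co E P Om = (E ⊕ P) ⊕ Om`.  Lines `Lin N = Fin 3 × ZMod N`, types `Ty N d = ZMod N × Fin d`,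
the type `c` has the three lines `lin c s`.  A line vector system `p : Lin N → Co E P Om → F` has
prescribed values on `E`; the vector of a type is the sum of its three lines.
-/

open scoped Classical

noncomputable section

set_option linter.unusedSectionVars false

namespace Vale.Agent.P060.HW

open Module

export Combi (Ty ln)

/-- Coordinates. -/
abbrev Co (E P Om : Type) : Type := (E ⊕ P) ⊕ Om

/-- Lines. -/
abbrev Lin (N : ℕ) : Type := Fin 3 × ZMod N

/-- The lines of a type. -/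
def lin {N d : ℕ} (c : Ty N d) (s : Fin 3) : Lin N := (s, ln c s)

/-- The set of lines of a type. -/
def lins {N d : ℕ} (c : Ty N d) : Finset (Lin N) := Finset.univ.image (lin c)

/-- The set of lines of a pair of types. -/
def lins2 {N d : ℕ} (β : Ty N d × Ty N d) : Finset (Lin N) := lins β.1 ∪ lins β.2

/-- A frame: everything in the design except the random line vectors. -/
structure Frame (N d : ℕ) (E Om : Type) [Fintype Om] where
  /-- the zero rows -/
  U : Ty N d → Finset Om
  /-- the values on `E` -/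
  γ : ZMod N → E → F
  /-- a distinguished coordinate -/
  e0 : E
  q : ℕ
  hγ : ∀ i t, γ i t ∈ Y
  card_U : ∀ c, (U c).card = q
  card_inter : ∀ c c', c ≠ c' → 4 * (U c ∩ U c').card ≤ q
  share_two : ∀ (c c' : Ty N d) (s s' : Fin 3), s ≠ s' → ln c s = ln c' s → ln c s' = ln c' s' → c = c'
  /-- two types with a common zero row have no common line -/
  line_disj : ∀ (c c' : Ty N d) (w : Om), w ∈ U c → w ∈ U c' → c ≠ c' → ∀ s, ln c s ≠ ln c' s
  /-- a type without the zero row `w` shares at most one line with the types with zero row `w` -/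
  private_lines : ∀ (b c c' : Ty N d) (w : Om) (s s' : Fin 3), w ∉ U b → w ∈ U c → w ∈ U c' →
    s ≠ s' → ln b s = ln c s → ln b s' = ln c' s' → False
  /-- the zero row sets of two different types meeting a third type in a line (or equal to it) are
  disjoint -/
  star_disj : ∀ (b c c' : Ty N d) (s s' : Fin 3), c ≠ c' → ln b s = ln c s → ln b s' = ln c' s' →
    Disjoint (U c) (U c')

variable {N d : ℕ} {E P Om : Type} [Fintype E] [Fintype P] [Fintype Om] [NeZero N]

/-- The line vectors extend `γ` : family `1` has the value `γ`, the other families are zero on `E`. -/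
def Ext (fr : Frame N d E Om) (p : Lin N → Co E P Om → F) : Prop :=
  ∀ (s : Fin 3) (i : ZMod N) (t : E), p (s, i) (Sum.inl (Sum.inl t)) = if s = 1 then fr.γ i t else 0

/-- The vector of a type. -/
def gv (p : Lin N → Co E P Om → F) (c : Ty N d) : Co E P Om → F := ∑ s, p (lin c s)

lemma gv_E {fr : Frame N d E Om} {p : Lin N → Co E P Om → F} (h : Ext fr p) (c : Ty N d) (t : E) :
    gv p c (Sum.inl (Sum.inl t)) = fr.γ (ln c 1) t := by
  unfold gv
  rw [Finset.sum_apply, Finset.sum_eq_single (1 : Fin 3)]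
  · rw [lin, h, if_pos rfl]
  · intro s _ hs
    rw [lin, h, if_neg hs]
  · intro h'
    exact absurd (Finset.mem_univ _) h'

/-- The host design of a frame and line vectors. -/
def dsg (fr : Frame N d E Om) (p : Lin N → Co E P Om → F) (h : Ext fr p) :
    Design (Co E P Om) (Ty N d) where
  E := Finset.univ.image fun t : E => Sum.inl (Sum.inl t)
  e0 := Sum.inl (Sum.inl fr.e0)
  he0 := Finset.mem_image_of_mem _ (Finset.mem_univ _)
  g := gv p
  U := fun c => (fr.U c).image Sum.inr
  hU := by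
    intro a w hw h'
    obtain ⟨u, -, rfl⟩ := Finset.mem_image.1 hw
    obtain ⟨t, -, ht⟩ := Finset.mem_image.1 h'
    exact absurd ht Sum.inl_ne_inr
  hg := by
    intro a t ht
    obtain ⟨t, -, rfl⟩ := Finset.mem_image.1 ht
    rw [gv_E h]
    exact fr.hγ _ _

/-! ### Functionals on forms -/

/-- The pairing of matrices. -/
def pr {K : Type*} [Fintype K] (Q B : Matrix K K F) : F := ∑ i, ∑ j, Q i j * B i j

/-- The trivial tensors for a form of type `a` in a design. -/
def Design.Nn {K T : Type*} [Fintype K] (δ : Design K T) (a : T) : Submodule F (Matrix K K F) :=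
  Submodule.span F
    ({Q | ∃ c, ∃ w ∈ δ.U c, Q = sm (Pi.single w 1) (δ.g c)} ∪
     {Q | ∃ w ∈ δ.U a, ∃ v, Q = sm (Pi.single w 1) v} ∪
     {Q | ∃ v, Q = sm v (δ.g a)})

/-- ANN (direct part): trivial tensors vanish on the directions of type `a`. -/
def AnnDirect : Prop := ∀ (K T : Type) [Fintype K] (δ : Design K T) (a : T),
  ∀ Q ∈ δ.Nn a, ∀ B ∈ δ.Dir a, pr Q B = 0

/-- ANN (converse part): a symmetric matrix vanishing on all directions of type `a` is trivial. -/
def AnnConverse : Prop := ∀ (K T : Type) [Fintype K] (δ : Design K T) (a : T),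
  ∀ Q : Matrix K K F, Q.IsSymm → (∀ B ∈ δ.Dir a, pr Q B = 0) → Q ∈ δ.Nn a

/-- UNIF: symmetric tensors independent modulo the trivial ones are independent uniform symbols of a
uniform direction of type `a` (number of directions with prescribed values). -/
def Unif : Prop := ∀ (K T : Type) [Fintype K] (δ : Design K T) (a : T) (R : ℕ)
  (Q : Fin R → Matrix K K F), (∀ i, (Q i).IsSymm) →
  LinearIndependent F (fun i => (δ.Nn a).mkQ (Q i)) → ∀ v : Fin R → F,
  Nat.card {B : δ.Dir a // ∀ i, pr (Q i) (B : Matrix K K F) = v i} * 2521 ^ R = Nat.card (δ.Dir a)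

/-! ### The exact annihilator lemma -/

/-- the lines of all types with zero row `w` -/
def rowLines (fr : Frame N d E Om) (w : Om) : Finset (Lin N) :=
  (Finset.univ.filter fun c : Ty N d => w ∈ fr.U c).biUnion lins

/-- AN.  If `∑_{u ∈ S} z_u ⊗ p_u` is trivial for type `a` (whose lines are in `S`), and for every row
`w ∉ U a` the vectors of the lines in `S ∪ rowLines w` are independent on the coordinates in `P`,
then the `z_u` are explicitly known outside the coordinates in `U a`. -/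
def AN : Prop := ∀ (N d : ℕ) (E P Om : Type) [Fintype E] [Fintype P] [Fintype Om] [NeZero N]
  (fr : Frame N d E Om) (p : Lin N → Co E P Om → F) (h : Ext fr p) (a : Ty N d) (S : Finset (Lin N)),
  (∀ s, lin a s ∈ S) →
  LinearIndependent F (fun u : S => fun j : P => p u (Sum.inl (Sum.inr j))) →
  (∀ w ∉ fr.U a, LinearIndependent F
    (fun u : (S ∪ rowLines fr w : Finset (Lin N)) => fun j : P => p u (Sum.inl (Sum.inr j)))) →
  ∀ z : Lin N → Co E P Om → F, ∑ u ∈ S, sm (z u) (p u) ∈ (dsg fr p h).Nn a →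
  ∃ (y : Co E P Om → F) (c : Lin N → Lin N → F) (x : Om → Ty N d → F),
    (∀ u v, c u v = - c v u) ∧ (∀ u v, u ∉ S → c u v = 0) ∧
    (∀ w b, x w b ≠ 0 → w ∈ fr.U b ∧ ∀ s, lin b s ∈ S) ∧
    (∀ u ∈ S, ∀ j : E ⊕ P, z u (Sum.inl j) =
      (if u ∈ lins a then y (Sum.inl j) else 0) + ∑ v ∈ S, c u v * p v (Sum.inl j)) ∧
    (∀ u ∈ S, ∀ w ∉ fr.U a, z u (Sum.inr w) =
      (if u ∈ lins a then y (Sum.inr w) else 0) + ∑ v ∈ S, c u v * p v (Sum.inr w)
        + ∑ b, x w b * (if u ∈ lins b then 1 else 0))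

/-! ### The span of biased functionals -/

/-- RANKLEM. -/
def RankLem : Prop := ∀ (Ω : Type) [Fintype Ω] (W : Type) [AddCommGroup W] [Module F W]
  [FiniteDimensional F W] (Pr : FinProb Ω) (X : Ω → Dual F W) (ψ : AddChar F ℂ) (_ : ψ ≠ 0)
  (η : ℝ) (_ : 0 ≤ η) (Nn : Submodule F W) (R : ℕ) (Q : Fin R → W),
  LinearIndependent F (fun i => Nn.mkQ (Q i)) →
  (∀ i, η ≤ ‖∑ ω, (Pr.w ω : ℂ) * ψ (X ω (Q i))‖) →
  R * (η ^ 2 / 2) ≤ Lat.D Pr X (Nn ⊔ Submodule.span F (Set.range Q)) - Lat.D Pr X Nn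

end Vale.Agent.P060.HW
end
end

section

/-!
# Design H3: the good-design events and the statements of the blocks LS, OVERLAP, OUT-A
-/

open scoped Classical

noncomputable section

set_option linter.unusedSectionVars false

namespace Vale.Agent.P060.HW

open Module

variable {N d : ℕ} {E P Om : Type} [Fintype E] [Fintype P] [Fintype Om] [NeZero N]

/-- Restriction of a vector to the coordinates in `P` and `Z ⊆ Om` (zero elsewhere). -/
def rz (Z : Finset Om) : (Co E P Om → F) →ₗ[F] (Co E P Om → F) where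
  toFun v := fun j => match j with
    | Sum.inl (Sum.inl _) => 0
    | Sum.inl (Sum.inr i) => v (Sum.inl (Sum.inr i))
    | Sum.inr w => if w ∈ Z then v (Sum.inr w) else 0
  map_add' u v := by
    funext j
    rcases j with (j | j) | w
    · simp
    · simp
    · simp only [Pi.add_apply]; split_ifs <;> simp
  map_smul' c v := by
    funext j
    rcases j with (j | j) | w
    · simp
    · simp
    · simp only [Pi.smul_apply, RingHom.id_apply]; split_ifs <;> simp

/-- The two vectors of a pair of types. -/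
def g2 (p : Lin N → Co E P Om → F) (β : Ty N d × Ty N d) : Fin 2 → Co E P Om → F :=
  ![gv p β.1, gv p β.2]

/-- Line-disjoint families of pairs of types. -/
def LD (𝓕 : Finset (Ty N d × Ty N d)) : Prop :=
  ∀ β ∈ 𝓕, ∀ β' ∈ 𝓕, β ≠ β' → Disjoint (lins2 β) (lins2 β')

/-- GP1: small sets of lines are independent on the coordinates in `P`. -/
def Ev1 (p : Lin N → Co E P Om → F) (κ : ℕ) : Prop :=
  ∀ S : Finset (Lin N), S.card ≤ κ →
    LinearIndependent F (fun u : S => fun j : P => p u (Sum.inl (Sum.inr j)))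

/-- The space `Λ(Z, a, J, H)`: restricted tensors of the basis `J`, restricted trivial tensors. -/
def LamZ (fr : Frame N d E Om) (p : Lin N → Co E P Om → F) (Z : Finset Om) (a : Ty N d)
    (J : Finset (Ty N d × Ty N d)) (H : Ty N d × Ty N d → Fin 2 → Co E P Om → F) :
    Submodule F (Matrix (Co E P Om) (Co E P Om) F) :=
  Submodule.span F
    ({Q | ∃ β ∈ J, Q = smm (fun i => rz Z (H β i)) (fun i => rz Z (g2 p β i))} ∪
     {Q | ∃ c, ∃ w ∈ Z, w ∈ fr.U c ∧ Q = sm (Pi.single (Sum.inr w) 1) (rz Z (gv p c))} ∪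
     {Q | ∃ v, Q = sm (rz Z v) (rz Z (gv p a))})

/-- The pair `β` is bad for the space `Λ` and the small space `W`. -/
def BadZ (p : Lin N → Co E P Om → F) (Z : Finset Om)
    (Λ : Submodule F (Matrix (Co E P Om) (Co E P Om) F)) (W : Submodule F (Co E P Om → F))
    (β : Ty N d × Ty N d) : Prop :=
  ¬ IndMod W (fun i => rz Z (g2 p β i)) ∨
  ∃ h : Fin 2 → Co E P Om → F, smm (fun i => rz Z (h i)) (fun i => rz Z (g2 p β i)) ∈ Λ ∧
    ¬ ∃ w : Fin 2 → Co E P Om → F, (∀ i, w i ∈ W) ∧
      smm w (fun i => rz Z (g2 p β i)) = smm (fun i => rz Z (h i)) (fun i => rz Z (g2 p β i))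

/-- GP3, event (i): for every small set `Z` of rows, every `a` and every basis `J` with arbitrary
vectors `H` there is a space `W` of dimension `≤ s` such that every line-disjoint family of bad pairs
which avoids the lines of `a`, `J` and of the rows in `Z` has at most `m` members. -/
def EvI (fr : Frame N d E Om) (p : Lin N → Co E P Om → F) (t R s m : ℕ) : Prop :=
  ∀ Z : Finset Om, Z.card ≤ t → ∀ (a : Ty N d) (J : Finset (Ty N d × Ty N d))
    (H : Ty N d × Ty N d → Fin 2 → Co E P Om → F), J.card ≤ R →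
    ∃ W : Submodule F (Co E P Om → F), finrank F W ≤ s ∧ (∀ v ∈ W, rz Z v = v) ∧
      ∀ 𝓕 : Finset (Ty N d × Ty N d), LD 𝓕 → (∀ β ∈ 𝓕, β.1 ≠ β.2) →
        (∀ β ∈ 𝓕, Disjoint (lins2 β) (lins a)) →
        (∀ β ∈ 𝓕, ∀ β' ∈ J, Disjoint (lins2 β) (lins2 β')) →
        (∀ β ∈ 𝓕, ∀ w ∈ Z, Disjoint (lins2 β) (rowLines fr w)) →
        (∀ β ∈ 𝓕, BadZ p Z (LamZ fr p Z a J H) W β) → 𝓕.card ≤ m

/-- GP5: no `n₀` independent vectors are biased on a line-disjoint family of `m` pairs. -/
def EvB (ψ : AddChar F ℂ) (p : Lin N → Co E P Om → F) (d m n₀ : ℕ) (η : ℝ) : Prop :=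
  ∀ fam : Fin m → Ty N d × Ty N d, (∀ s, (fam s).1 ≠ (fam s).2) →
    (∀ s s', s ≠ s' → Disjoint (lins2 (fam s)) (lins2 (fam s'))) →
    ∀ y : Fin n₀ → (Fin 2 → Co E P Om → F), LinearIndependent F y →
      ∃ l, ∑ s, (ψ (∑ i, y l i ⬝ᵥ g2 p (fam s) i)).re < η * m

/-- GP6: every vector outside `D` is rarely cut. -/
def EvC (p : Lin N → Co E P Om → F) (d : ℕ) (ε : ℝ) : Prop :=
  ∀ v : Co E P Om → F, (¬ ∃ (t : E), ∃ u ∈ Y, v = Pi.single (Sum.inl (Sum.inl t)) u) →
    ((Finset.univ.filter fun b : Ty N d => v ⬝ᵥ gv p b ∈ Y).card : ℝ) ≤ (1 / 10 + ε) * (N * d)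

/-- GP7 (a property of the frame): most pairs of types have joint values onto `Y × Y`. -/
def JointOnto (fr : Frame N d E Om) (a b : Ty N d) : Prop :=
  ∀ u ∈ Y, ∀ v ∈ Y, ∃ t, fr.γ (ln a 1) t = u ∧ fr.γ (ln b 1) t = v

def EvJ (fr : Frame N d E Om) (ε : ℝ) : Prop :=
  ((Finset.univ.filter fun ab : Ty N d × Ty N d => ¬ JointOnto fr ab.1 ab.2).card : ℝ)
    ≤ ε * (N * d) ^ 2

/-- The sizes of a frame: `k = |P|`, `N ≈ D₀ k` lines in each family, few rows, small row classes. -/
structure Sizes (fr : Frame N d E Om) (P : Type) [Fintype P] (D₀ : ℕ) (θ C : ℝ) : Prop where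
  hN : D₀ * Fintype.card P ≤ N
  hN' : N ≤ 2 * D₀ * Fintype.card P
  hd : 2 * d ≤ N
  hOm : (Fintype.card Om : ℝ) ≤ θ * Fintype.card P
  hA : ∀ w, ((Finset.univ.filter fun c : Ty N d => w ∈ fr.U c).card : ℝ) ≤ θ * Fintype.card P
  hq : C * Real.log (Fintype.card P) ≤ fr.q
  /-- the values on `E` are equidistributed -/
  hγ : ∀ u : E → F, (∀ t, u t ∈ Y) →
    ((Finset.univ.filter fun i : ZMod N => fr.γ i = u).card : ℝ) * 140 ^ Fintype.card E = N

/-- Designs of a frame. -/
abbrev Dz (fr : Frame N d E Om) (P : Type) := {p : Lin N → Co E P Om → F // Ext fr p}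

/-- A rare event. -/
def Rare {X : Type*} (A : Set X) : Prop := 100 * Nat.card A ≤ Nat.card X

/-- EXISTENCE of (i). The bound `s` for the dimension depends only on `C'`, then `D₀` is large, then
`t` is arbitrary, then `θ` small and `k` large. -/
def ExI : Prop := ∀ C' : ℝ, ∃ s : ℕ, ∀ ε > (0 : ℝ), ∃ D₁ : ℕ, ∀ D₀ ≥ D₁, ∀ (d t : ℕ) (E : Type)
  [Fintype E], ∃ θ > (0 : ℝ), ∃ k₀ : ℕ, ∀ (N : ℕ) (P Om : Type) [Fintype P] [Fintype Om] [NeZero N]
  (fr : Frame N d E Om), k₀ ≤ Fintype.card P → Sizes fr P D₀ θ 0 →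
  Rare {p : Dz fr P | ¬ EvI fr p.1 t ⌊C' * Fintype.card P⌋₊ s ⌊ε * N⌋₊}

/-- EXISTENCE of GP1, with an explicit constant. -/
def Ex1 : Prop := ∀ (D₀ d : ℕ) (E : Type) [Fintype E],
  ∃ θ > (0 : ℝ), ∃ k₀ : ℕ, ∀ (N : ℕ) (P Om : Type) [Fintype P] [Fintype Om] [NeZero N]
  (fr : Frame N d E Om), k₀ ≤ Fintype.card P → Sizes fr P D₀ θ 0 →
  Rare {p : Dz fr P | ¬ ∀ κ : ℕ, κ ≤ 20 * Fintype.card P / (D₀ + 20) ^ 2 → Ev1 p.1 κ}

/-- EXISTENCE of GP5. -/
def ExB : Prop := ∀ (ψ : AddChar F ℂ), ψ ≠ 0 → ∀ (c η : ℝ), 0 < c → 0 < η → ∃ D₁ : ℕ, ∀ D₀ ≥ D₁,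
  ∀ (d : ℕ) (E : Type) [Fintype E], ∃ C₂ : ℝ, ∃ θ > (0 : ℝ), ∃ k₀ : ℕ, ∀ (N : ℕ) (P Om : Type)
  [Fintype P] [Fintype Om] [NeZero N] (fr : Frame N d E Om), k₀ ≤ Fintype.card P →
  Sizes fr P D₀ θ 0 →
  Rare {p : Dz fr P | ¬ ∀ m : ℕ, c * N ≤ m → EvB ψ p.1 d m ⌈C₂ * Real.log (Fintype.card P)⌉₊ η}

/-- EXISTENCE of GP6. -/
def ExC : Prop := ∀ ε > (0 : ℝ), ∃ D₁ : ℕ, ∀ D₀ ≥ D₁, ∀ (d : ℕ) (E : Type) [Fintype E], 0 < d →
  ∃ θ > (0 : ℝ), ∃ k₀ : ℕ, ∀ (N : ℕ) (P Om : Type) [Fintype P] [Fintype Om] [NeZero N]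
  (fr : Frame N d E Om), k₀ ≤ Fintype.card P → Sizes fr P D₀ θ 0 →
  Rare {p : Dz fr P | ¬ EvC p.1 d ε}

/-! ### Laws -/

/-- The forms of type `a` and bit `ι`. -/
def Design.Form {K T : Type*} [Fintype K] (δ : Design K T) (a : T) (ι : Bool) :
    Set (Matrix K K F) := {B | B - (if ι then δ.B0 a else 0) ∈ δ.Dir a}

/-- A law of a pair of forms of types `a, a'` and bits `ι, ι'` with joint density at most `Λ` and
marginal densities at most `M` with respect to the uniform laws. -/
structure PLaw {K T : Type*} [Fintype K] (δ : Design K T) (a a' : T) (ι ι' : Bool) (Λ M : ℝ)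
    (w : Matrix K K F → Matrix K K F → ℝ) : Prop where
  nonneg : ∀ B B', 0 ≤ w B B'
  sum_one : ∑ B, ∑ B', w B B' = 1
  supp : ∀ B B', w B B' ≠ 0 → B ∈ δ.Form a ι ∧ B' ∈ δ.Form a' ι'
  joint : ∀ B B', w B B' * (Nat.card (δ.Dir a) * Nat.card (δ.Dir a')) ≤ Λ
  left : ∀ B, (∑ B', w B B') * Nat.card (δ.Dir a) ≤ M
  right : ∀ B', (∑ B, w B B') * Nat.card (δ.Dir a') ≤ M

/-- The four test values `(B g_b, B g_b', B' g_b, B' g_b')`. -/
def tv {K : Type*} [Fintype K] (g g' : K → F) (B B' : Matrix K K F) : Fin 4 → K → F :=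
  ![B.mulVec g, B.mulVec g', B'.mulVec g, B'.mulVec g']

/-- The Fourier coefficient of the test values at `z`. -/
def coefT {K : Type*} [Fintype K] (ψ : AddChar F ℂ) (w : Matrix K K F → Matrix K K F → ℝ)
    (g g' : K → F) (z : Fin 4 → K → F) : ℂ :=
  ∑ B, ∑ B', (w B B' : ℂ) * ψ (∑ i, z i ⬝ᵥ tv g g' B B' i)

/-- Trivial functionals and cut functionals. -/
def TrivPsi {K T : Type*} [Fintype K] (δ : Design K T) (a a' b b' : T) (z : Fin 4 → K → F) : Prop :=
  (∃ c c' : F, smm ![z 0, z 1] ![δ.g b, δ.g b'] - c • sm (δ.g a') (δ.g b) - c' • sm (δ.g a') (δ.g b')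
    ∈ δ.Nn a) ∧
  (∃ c c' : F, smm ![z 2, z 3] ![δ.g b, δ.g b'] - c • sm (δ.g a) (δ.g b) - c' • sm (δ.g a) (δ.g b')
    ∈ δ.Nn a')

/-- The pair `β` has a large coefficient which is neither trivial nor a cut functional. -/
def BadC {K T : Type*} [Fintype K] (ψ : AddChar F ℂ) (δ : Design K T) (a a' : T)
    (w : Matrix K K F → Matrix K K F → ℝ) (η : ℝ) (β : T × T) : Prop :=
  ∃ z : Fin 4 → K → F, η ≤ ‖coefT ψ w (δ.g β.1) (δ.g β.2) z‖ ∧ ¬ TrivPsi δ a a' β.1 β.2 z

/-- LS: in a good design there is no line-disjoint family of `≥ c N` pairs with a large coefficient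
which is neither trivial nor a cut functional.  `Λ = 2521 ^ (C k)`, `M = k ^ C`. -/
def LS : Prop := ∀ (ψ : AddChar F ℂ), ψ ≠ 0 → ∀ (E : Type) [Fintype E] (C η c : ℝ), 0 < η → 0 < c →
  ∃ D₁ : ℕ, ∀ D₀ ≥ D₁, ∀ d : ℕ, ∃ C₁ : ℝ, ∃ θ > (0 : ℝ), ∃ k₀ : ℕ, ∀ (N : ℕ) (P Om : Type)
  [Fintype P] [Fintype Om] [NeZero N] (fr : Frame N d E Om), k₀ ≤ Fintype.card P →
  Sizes fr P D₀ θ C₁ →
  ∃ G : Set (Dz fr P), 20 * Nat.card (Gᶜ : Set (Dz fr P)) ≤ Nat.card (Dz fr P) ∧ ∀ p ∈ G, ∀ (a a' : Ty N d) (ι ι' : Bool), a ≠ a' →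
    ∀ w, PLaw (dsg fr p.1 p.2) a a' ι ι' (2521 ^ (C * Fintype.card P)) ((Fintype.card P : ℝ) ^ C) w →
    ∀ 𝓕 : Finset (Ty N d × Ty N d), LD 𝓕 → (∀ β ∈ 𝓕, β.1 ≠ β.2) →
      (∀ β ∈ 𝓕, BadC ψ (dsg fr p.1 p.2) a a' w η β) → (𝓕.card : ℝ) < c * N

end Vale.Agent.P060.HW
end
end

section

/-! Averages over cosets of submodules: a function which is nearly measurable with respect to
few functionals on the slices of three independent pasts is nearly measurable with respect to
few functionals. -/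

namespace Vale.Agent.P060.HW

open Finset Module

section Avg

variable {F V : Type*} [Field F] [AddCommGroup V] [Module F V] [Fintype V]

open Classical in
/-- The finite set of elements of a submodule. -/
noncomputable def carr (U : Submodule F V) : Finset V := univ.filter fun x => x ∈ U

theorem mem_carr {U : Submodule F V} {x : V} : x ∈ carr U ↔ x ∈ U := by
  simp [carr]

theorem carr_nonempty (U : Submodule F V) : (carr U).Nonempty := ⟨0, mem_carr.mpr U.zero_mem⟩

theorem carr_card_pos (U : Submodule F V) : (0 : ℝ) < (carr U).card :=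
  Nat.cast_pos.mpr (Finset.card_pos.mpr (carr_nonempty U))

/-- Average of `f` over the coset `x + U`. -/
noncomputable def avg (U : Submodule F V) (f : V → ℝ) (x : V) : ℝ :=
  (∑ u ∈ carr U, f (x + u)) / (carr U).card

theorem avg_comm (U W : Submodule F V) (f : V → ℝ) :
    avg U (avg W f) = avg W (avg U f) := by
  funext x
  simp only [avg]
  rw [← Finset.sum_div, ← Finset.sum_div, Finset.sum_comm, div_div, div_div, mul_comm]
  congr 1
  refine Finset.sum_congr rfl fun w _ => Finset.sum_congr rfl fun u _ => ?_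
  rw [add_right_comm]

theorem avg_of_inv {U : Submodule F V} {g : V → ℝ} (h : ∀ x, ∀ u ∈ U, g (x + u) = g x) :
    avg U g = g := by
  funext x
  rw [avg, Finset.sum_congr rfl fun u hu => h x u (mem_carr.mp hu), Finset.sum_const,
    nsmul_eq_mul, mul_div_assoc, mul_comm, div_mul_cancel₀ _ (carr_card_pos U).ne']

theorem avg_inv (U : Submodule F V) (f : V → ℝ) {x u : V} (hu : u ∈ U) :
    avg U f (x + u) = avg U f x := by
  rw [avg, avg]
  congr 1
  refine Finset.sum_bij (fun v _ => u + v) ?_ ?_ ?_ ?_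
  · intro v hv
    exact mem_carr.mpr (U.add_mem hu (mem_carr.mp hv))
  · intro v _ w _ h
    exact add_left_cancel h
  · intro w hw
    exact ⟨-u + w, mem_carr.mpr (U.add_mem (U.neg_mem hu) (mem_carr.mp hw)), by
      rw [add_neg_cancel_left]⟩
  · intro v _
    rw [add_assoc]

omit [Fintype V] in
theorem inv_sup {U W : Submodule F V} {g : V → ℝ} (h : ∀ x, ∀ u ∈ U, g (x + u) = g x)
    (h' : ∀ x, ∀ u ∈ W, g (x + u) = g x) : ∀ x, ∀ u ∈ U ⊔ W, g (x + u) = g x := by
  intro x u hu
  obtain ⟨a, ha, b, hb, rfl⟩ := Submodule.mem_sup.mp hu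
  rw [← add_assoc, h' _ _ hb, h _ _ ha]

theorem avg_avg (U W : Submodule F V) (f : V → ℝ) :
    avg U (avg W f) = avg (U ⊔ W) f := by
  have h1 : avg (U ⊔ W) (avg U (avg W f)) = avg U (avg W f) := by
    apply avg_of_inv
    apply inv_sup
    · intro x u hu
      exact avg_inv _ _ hu
    · intro x u hu
      rw [avg_comm]
      exact avg_inv _ _ hu
  rw [← h1, avg_comm (U ⊔ W) U, avg_comm (U ⊔ W) W]
  rw [avg_of_inv (U := W), avg_of_inv (U := U)]
  · intro x u hu
    exact avg_inv _ _ (Submodule.mem_sup_left hu)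
  · intro x u hu
    exact avg_inv _ _ (Submodule.mem_sup_right hu)

theorem avg_sub (U : Submodule F V) (f g : V → ℝ) (x : V) :
    avg U (fun y => f y - g y) x = avg U f x - avg U g x := by
  rw [avg, avg, avg, Finset.sum_sub_distrib, sub_div]

theorem abs_avg_le (U : Submodule F V) (f : V → ℝ) (x : V) :
    |avg U f x| ≤ avg U (fun y => |f y|) x := by
  rw [avg, avg, abs_div, abs_of_pos (carr_card_pos U)]
  exact div_le_div_of_nonneg_right (Finset.abs_sum_le_sum_abs _ _) (carr_card_pos U).le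

theorem avg_le_of_le (U : Submodule F V) {f : V → ℝ} {B : ℝ} (h : ∀ x, f x ≤ B) (x : V) :
    avg U f x ≤ B := by
  rw [avg, div_le_iff₀ (carr_card_pos U)]
  calc ∑ u ∈ carr U, f (x + u) ≤ ∑ _u ∈ carr U, B := Finset.sum_le_sum fun u _ => h _
    _ = B * (carr U).card := by rw [Finset.sum_const, nsmul_eq_mul, mul_comm]

/-- A field of submodules contained in `N` and constant on the cosets of `N`. -/
structure IsField (N : Submodule F V) (U : V → Submodule F V) : Prop where
  le : ∀ x, U x ≤ N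
  inv : ∀ x, ∀ n ∈ N, U (x + n) = U x

omit [Fintype V] in
theorem isField_const {N U : Submodule F V} (h : U ≤ N) : IsField N fun _ => U :=
  ⟨fun _ => h, fun _ _ _ => rfl⟩

omit [Fintype V] in
theorem IsField.sup {N : Submodule F V} {U W : V → Submodule F V} (hU : IsField N U)
    (hW : IsField N W) : IsField N fun x => U x ⊔ W x :=
  ⟨fun x => sup_le (hU.le x) (hW.le x), fun x n hn => by rw [hU.inv x n hn, hW.inv x n hn]⟩

omit [Fintype V] in
theorem IsField.inf_left {N : Submodule F V} {U : V → Submodule F V} (hU : IsField N U)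
    (M : Submodule F V) : IsField N fun x => U x ⊓ M :=
  ⟨fun x => inf_le_left.trans (hU.le x), fun x n hn => by rw [hU.inv x n hn]⟩

omit [Fintype V] in
theorem IsField.inf_both {N : Submodule F V} {U : V → Submodule F V} (hU : IsField N U)
    (M : Submodule F V) : IsField (N ⊓ M) fun x => U x ⊓ M :=
  ⟨fun x => inf_le_inf_right _ (hU.le x), fun x n hn => by rw [hU.inv x n hn.1]⟩

/-- Averages over the cosets `x + U x`. -/
noncomputable def favg (U : V → Submodule F V) (f : V → ℝ) (x : V) : ℝ := avg (U x) f x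

theorem favg_favg {N : Submodule F V} {U W : V → Submodule F V} (hU : IsField N U)
    (hW : IsField N W) (f : V → ℝ) :
    favg U (favg W f) = favg (fun x => U x ⊔ W x) f := by
  funext x
  have h1 : favg U (favg W f) x = avg (U x) (avg (W x) f) x := by
    rw [favg, avg, avg]
    congr 1
    refine Finset.sum_congr rfl fun u hu => ?_
    rw [favg, hW.inv x u (hU.le x (mem_carr.mp hu))]
  rw [h1, avg_avg]
  rfl

theorem sum_favg {N : Submodule F V} {U : V → Submodule F V} (hU : IsField N U) (g : V → ℝ) :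
    ∑ x, favg U g x = ∑ x, g x := by
  classical
  have h1 : ∀ x, favg U g x = ∑ u, if u ∈ U x then g (x + u) / (carr (U x)).card else 0 := by
    intro x
    rw [favg, avg, Finset.sum_div, carr, Finset.sum_filter]
  have h2 : ∀ u : V, (∑ x, if u ∈ U x then g (x + u) / (carr (U x)).card else 0) =
      ∑ y, if u ∈ U y then g y / (carr (U y)).card else 0 := by
    intro u
    refine Fintype.sum_equiv (Equiv.addRight u) _ _ fun x => ?_
    change _ = if u ∈ U (x + u) then g (x + u) / (carr (U (x + u))).card else 0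
    by_cases h : u ∈ U x
    · rw [hU.inv x u (hU.le x h)]
    · rw [if_neg h]
      by_cases h' : u ∈ U (x + u)
      · exfalso
        apply h
        have h3 := hU.inv (x + u) (-u) (N.neg_mem (hU.le _ h'))
        rw [add_neg_cancel_right] at h3
        rwa [h3]
      · rw [if_neg h']
  rw [Finset.sum_congr rfl fun x _ => h1 x, Finset.sum_comm,
    Finset.sum_congr rfl fun u _ => h2 u, Finset.sum_comm]
  refine Finset.sum_congr rfl fun y _ => ?_
  rw [← Finset.sum_filter, Finset.sum_const, nsmul_eq_mul]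
  have : (univ.filter fun u => u ∈ U y) = carr (U y) := rfl
  rw [this, mul_div_assoc', mul_comm, mul_div_assoc, div_self (carr_card_pos _).ne', mul_one]

theorem l1_favg_le {N : Submodule F V} {U : V → Submodule F V} (hU : IsField N U) (g : V → ℝ) :
    ∑ x, |favg U g x| ≤ ∑ x, |g x| := by
  rw [← sum_favg hU fun y => |g y|]
  exact Finset.sum_le_sum fun x _ => abs_avg_le _ _ _

omit [AddCommGroup V] in
theorem l1_triangle (f g h : V → ℝ) :
    ∑ x, |f x - h x| ≤ ∑ x, |f x - g x| + ∑ x, |g x - h x| := by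
  rw [← Finset.sum_add_distrib]
  exact Finset.sum_le_sum fun x _ => abs_sub_le _ _ _

theorem favg_sub (U : V → Submodule F V) (f g : V → ℝ) (x : V) :
    favg U f x - favg U g x = favg U (fun y => f y - g y) x := by
  rw [favg, favg, favg, avg_sub]

theorem l1_favg_sub_le {N : Submodule F V} {U : V → Submodule F V} (hU : IsField N U)
    (f g : V → ℝ) : ∑ x, |favg U f x - favg U g x| ≤ ∑ x, |f x - g x| := by
  rw [Finset.sum_congr rfl fun x _ => by rw [favg_sub U f g x]]
  exact l1_favg_le hU _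

/-- A smaller field of submodules doubles the error. -/
theorem l1_refine {N : Submodule F V} {U W : V → Submodule F V} (hU : IsField N U)
    (hW : IsField N W) (hWU : ∀ x, W x ≤ U x) (f : V → ℝ) {e : ℝ}
    (h : ∑ x, |f x - favg U f x| ≤ e) : ∑ x, |f x - favg W f x| ≤ 2 * e := by
  have h1 : favg W (favg U f) = favg U f := by
    rw [favg_favg hW hU]
    funext x
    rw [favg, favg, sup_eq_right.mpr (hWU x)]
  have h2 : ∑ x, |favg U f x - favg W f x| ≤ e := by
    refine le_trans ?_ h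
    calc ∑ x, |favg U f x - favg W f x| = ∑ x, |favg W f x - favg W (favg U f) x| := by
          rw [h1]
          exact Finset.sum_congr rfl fun x _ => abs_sub_comm _ _
      _ ≤ ∑ x, |f x - favg U f x| := l1_favg_sub_le hW _ _
  linarith [l1_triangle f (favg U f) (favg W f)]

/-- Two fields of submodules for the same `N`. -/
theorem l1_sup {N : Submodule F V} {U W : V → Submodule F V} (hU : IsField N U)
    (hW : IsField N W) (f : V → ℝ) {e e' : ℝ}
    (h : ∑ x, |f x - favg U f x| ≤ e) (h' : ∑ x, |f x - favg W f x| ≤ e') :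
    ∑ x, |f x - favg (fun x => U x ⊔ W x) f x| ≤ e + e' := by
  rw [← favg_favg hU hW]
  have h2 : ∑ x, |favg U f x - favg U (favg W f) x| ≤ e' :=
    (l1_favg_sub_le hU _ _).trans h'
  linarith [l1_triangle f (favg U f) (favg U (favg W f))]

end Avg

end Vale.Agent.P060.HW
end

section

/-!
# Design H3: statements TV, TVLS, OVERLAP, OUT-A
-/

open scoped Classical

noncomputable section

set_option linter.unusedSectionVars false

namespace Vale.Agent.P060.HW

open Module

/-- The law of the four test values. -/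
def tlaw {K : Type*} [Fintype K] (w : Matrix K K F → Matrix K K F → ℝ) (g g' : K → F)
    (m : Fin 4 → K → F) : ℝ := ∑ B, ∑ B', if tv g g' B B' = m then w B B' else 0

/-- The directions killed by all trivial functionals and all cut functionals. -/
def Design.Zab {K T : Type*} [Fintype K] (δ : Design K T) (a a' b b' : T) :
    Submodule F (Fin 4 → K → F) where
  carrier := {m | ∀ z, TrivPsi δ a a' b b' z → ∑ i, z i ⬝ᵥ m i = 0}
  zero_mem' := by intro z _; simp
  add_mem' := by
    intro m n hm hn z hz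
    simp only [Pi.add_apply, dotProduct_add, Finset.sum_add_distrib, hm z hz, hn z hz, add_zero]
  smul_mem' := by
    intro c m hm z hz
    simp only [Pi.smul_apply, dotProduct_smul, ← Finset.smul_sum, hm z hz, smul_zero]

/-- The L1-distance of the law of the test values to its average along `Zab`. -/
def tdist {K T : Type*} [Fintype K] (δ : Design K T) (a a' : T)
    (w : Matrix K K F → Matrix K K F → ℝ) (β : T × T) : ℝ :=
  ∑ m, |tlaw w (δ.g β.1) (δ.g β.2) m
    - avg (δ.Zab a a' β.1 β.2) (tlaw w (δ.g β.1) (δ.g β.2)) m|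

/-- A subcoupling of types with marginals at most `M₀` times uniform, without equal pairs. -/
structure TCoup {T : Type*} [Fintype T] (M₀ : ℝ) (ρ : T × T → ℝ) : Prop where
  nonneg : ∀ β, 0 ≤ ρ β
  ne : ∀ b, ρ (b, b) = 0
  left : ∀ b, (∑ b', ρ (b, b')) * Fintype.card T ≤ M₀
  right : ∀ b', (∑ b, ρ (b, b')) * Fintype.card T ≤ M₀

/-- TV: `η` depends only on `E, C, ε`; then `D₀` large, `d` large, `θ` small, `k` large: the pairs
without large nontrivial coefficient and with test values far from the average have small mass. -/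
def TV : Prop := ∀ (ψ : AddChar F ℂ), ψ ≠ 0 → ∀ (E : Type) [Fintype E] (C ε : ℝ), 0 < ε →
  ∃ η > (0 : ℝ), ∃ D₁ : ℕ, ∀ D₀ ≥ D₁, ∃ d₁ : ℕ, ∀ d ≥ d₁, ∃ C₁ : ℝ, ∃ θ > (0 : ℝ), ∃ k₀ : ℕ,
  ∀ (N : ℕ) (P Om : Type) [Fintype P] [Fintype Om] [NeZero N] (fr : Frame N d E Om),
  k₀ ≤ Fintype.card P → Sizes fr P D₀ θ C₁ →
  ∃ G : Set (Dz fr P), 20 * Nat.card (Gᶜ : Set (Dz fr P)) ≤ Nat.card (Dz fr P) ∧ ∀ p ∈ G, ∀ (a a' : Ty N d) (ι ι' : Bool), a ≠ a' →
    ∀ w, PLaw (dsg fr p.1 p.2) a a' ι ι' (2521 ^ (C * Fintype.card P)) ((Fintype.card P : ℝ) ^ C) w →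
    ∀ ρ, TCoup 8 ρ →
      ∑ β, (if ε < tdist (dsg fr p.1 p.2) a a' w β ∧ ¬ BadC ψ (dsg fr p.1 p.2) a a' w η β
        then ρ β else 0) ≤ ε

/-- TVLS: the combination of TV and LS. -/
def TVLS : Prop := ∀ (E : Type) [Fintype E] (C ε : ℝ), 0 < ε → ∃ D₁ : ℕ, ∀ D₀ ≥ D₁,
  ∃ d₁ : ℕ, ∀ d ≥ d₁, ∃ C₁ : ℝ, ∃ θ > (0 : ℝ), ∃ k₀ : ℕ,
  ∀ (N : ℕ) (P Om : Type) [Fintype P] [Fintype Om] [NeZero N] (fr : Frame N d E Om),
  k₀ ≤ Fintype.card P → Sizes fr P D₀ θ C₁ →
  ∃ G : Set (Dz fr P), 10 * Nat.card (Gᶜ : Set (Dz fr P)) ≤ Nat.card (Dz fr P) ∧ ∀ p ∈ G,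
    ∀ (a a' : Ty N d) (ι ι' : Bool), a ≠ a' →
    ∀ w, PLaw (dsg fr p.1 p.2) a a' ι ι' (2521 ^ (C * Fintype.card P)) ((Fintype.card P : ℝ) ^ C) w →
    ∀ ρ, TCoup 8 ρ → ∑ β, (if ε < tdist (dsg fr p.1 p.2) a a' w β then ρ β else 0) ≤ ε

/-- LDFAM: a set of pairs of mass `> ε` contains a line-disjoint family of `≥ ε N / 1000` pairs. -/
def LDFam : Prop := ∀ (N d : ℕ) [NeZero N], 0 < d → 2 * d ≤ N → ∀ (ρ : Ty N d × Ty N d → ℝ),
  TCoup 8 ρ → ∀ (A : Finset (Ty N d × Ty N d)) (ε : ℝ), ε < ∑ β ∈ A, ρ β →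
  ∃ 𝓕 ⊆ A, LD 𝓕 ∧ (∀ β ∈ 𝓕, β.1 ≠ β.2) ∧ ε * N / 1000 ≤ (𝓕.card : ℝ)

/-- The conflict of test values: `m` are the test values of `(x, x')` at `(b, b')`, `n` those of
`(y, y')` at `(a, a')`. -/
def ConfT {K T : Type*} [Fintype K] (δ : Design K T) (m n : Fin 4 → K → F) : Prop :=
  let D : (K → F) → Prop := fun v => ∃ t ∈ δ.E, ∃ u ∈ Y, v = Pi.single t u
  D (m 0 - n 0) ∧ D (m 1 - n 2) ∧ D (m 2 - n 1) ∧ D (m 3 - n 3)

/-- The cut functionals of test values: both values are outside `Y`. -/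
def UncutT {K : Type*} [Fintype K] (ga ga' : K → F) (m : Fin 4 → K → F) : Prop :=
  ga' ⬝ᵥ m 0 - ga ⬝ᵥ m 2 ∉ Y ∧ ga' ⬝ᵥ m 1 - ga ⬝ᵥ m 3 ∉ Y

/-- OVERLAP.  For line-disjoint pairs `(a, a')`, `(b, b')` of different types with joint values onto
`Y × Y`: if both laws of test values are close to their averages and uncut with probability at least
`1/400`, then the conflict probability is at least `2521 ^ (-(4 |K| + c))`. -/
def Overlap : Prop := ∃ c : ℕ, ∃ ε > (0 : ℝ), ∀ (N d : ℕ) (E P Om : Type) [Fintype E] [Fintype P]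
  [Fintype Om] [NeZero N] (fr : Frame N d E Om) (p : Lin N → Co E P Om → F) (h : Ext fr p)
  (κ : ℕ), 12 ≤ κ → (∀ w, 12 + (rowLines fr w).card ≤ κ) → Ev1 p κ →
  ∀ (a a' b b' : Ty N d), a ≠ a' → b ≠ b' → Disjoint (lins2 (a, a')) (lins2 (b, b')) →
  JointOnto fr a b → JointOnto fr a b' → JointOnto fr a' b → JointOnto fr a' b' →
  ∀ (ι₁ ι₁' ι₂ ι₂' : Bool) (Λ M : ℝ) (w w' : _ → _ → ℝ),
    PLaw (dsg fr p h) a a' ι₁ ι₁' Λ M w → PLaw (dsg fr p h) b b' ι₂ ι₂' Λ M w' →
    tdist (dsg fr p h) a a' w (b, b') ≤ ε → tdist (dsg fr p h) b b' w' (a, a') ≤ ε →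
    1 / 400 ≤ ∑ m, (if UncutT (gv p a) (gv p a') m then tlaw w (gv p b) (gv p b') m else 0) →
    1 / 400 ≤ ∑ n, (if UncutT (gv p b) (gv p b') n then tlaw w' (gv p a) (gv p a') n else 0) →
    ((2521 : ℝ) ^ (4 * Fintype.card (Co E P Om) + c))⁻¹ ≤
      ∑ m, ∑ n, (if ConfT (dsg fr p h) m n then tlaw w (gv p b) (gv p b') m
        * tlaw w' (gv p a) (gv p a') n else 0)

/-- OUT-A: a law `q` of vertices with bounded KL has adjacency mass at least `2521 ^ (-(2 |K|))`. -/
def NotOutA : Prop := ∀ C : ℝ, ∃ D₁ : ℕ, ∀ D₀ ≥ D₁, ∀ (d : ℕ) (E : Type) [Fintype E], 0 < d →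
  ∃ θ > (0 : ℝ), ∃ k₀ : ℕ, ∀ (N : ℕ) (P Om : Type) [Fintype P] [Fintype Om] [NeZero N]
  (fr : Frame N d E Om) (p : Lin N → Co E P Om → F) (h : Ext fr p), k₀ ≤ Fintype.card P →
  Sizes fr P D₀ θ 0 → (∀ κ : ℕ, κ ≤ 20 * Fintype.card P / (D₀ + 20) ^ 2 → Ev1 p κ) →
  (∀ w, 12 + (rowLines fr w).card ≤ 5 * Fintype.card P / (D₀ + 20) ^ 2) →
  ¬ OutA (dsg fr p h).Adj C ((2521 : ℝ) ^ (2 * Fintype.card (Co E P Om)))⁻¹

end Vale.Agent.P060.HW
end
end

section

/-!
# P060/HW: the space of tensors visible from a set of lines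

`smB` is the bilinear map `sm`; `Gu p u` is the space of the tensors `sm z (p u)`, `Gl p S` the sum
of these spaces over the lines in `S`.
-/

open scoped Classical

noncomputable section

set_option linter.unusedSectionVars false

namespace Vale.Agent.P060.HW

open Module

section SM

variable {K : Type*} [Fintype K]

/-- `sm` as a bilinear map. -/
def smB : (K → F) →ₗ[F] (K → F) →ₗ[F] Matrix K K F :=
  LinearMap.mk₂ F sm
    (fun a b c => by
      unfold sm
      rw [Matrix.add_vecMulVec, Matrix.vecMulVec_add]; abel)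
    (fun c a b => by
      unfold sm
      rw [Matrix.smul_vecMulVec, Matrix.vecMulVec_smul, smul_add])
    (fun a b c => by
      unfold sm
      rw [Matrix.vecMulVec_add, Matrix.add_vecMulVec]; abel)
    (fun c a b => by
      unfold sm
      rw [Matrix.vecMulVec_smul, Matrix.smul_vecMulVec, smul_add])

lemma smB_apply (z g : K → F) : smB z g = sm z g := rfl

lemma smB_comm (z g : K → F) : smB z g = smB g z := by
  rw [smB_apply, smB_apply]
  unfold sm
  rw [add_comm]

/-- the tensors `sm z g`, `z` arbitrary -/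
def Gr (g : K → F) : Submodule F (Matrix K K F) := LinearMap.range (smB.flip g)

lemma mem_Gr (z g : K → F) : smB z g ∈ Gr g := ⟨z, rfl⟩

lemma mem_Gr' (z g : K → F) : smB g z ∈ Gr g := by
  rw [smB_comm]; exact mem_Gr z g

variable {L : Type*} [DecidableEq L]

/-- the tensors visible from the line `u` -/
def Gu (p : L → K → F) (u : L) : Submodule F (Matrix K K F) := Gr (p u)

/-- the tensors visible from the lines in `S` -/
def Gl (p : L → K → F) (S : Finset L) : Submodule F (Matrix K K F) := S.sup (Gu p)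

lemma Gl_mono (p : L → K → F) {S S' : Finset L} (h : S ⊆ S') : Gl p S ≤ Gl p S' :=
  Finset.sup_mono h

lemma Gl_union (p : L → K → F) (S S' : Finset L) : Gl p (S ∪ S') = Gl p S ⊔ Gl p S' :=
  Finset.sup_union

lemma Gu_le_Gl (p : L → K → F) {S : Finset L} {u : L} (h : u ∈ S) : Gu p u ≤ Gl p S :=
  Finset.le_sup (f := Gu p) h

lemma smB_mem_Gl (p : L → K → F) {S : Finset L} {u : L} (h : u ∈ S) (z : K → F) :
    smB z (p u) ∈ Gl p S := Gu_le_Gl p h (mem_Gr z (p u))

lemma smB_mem_Gl' (p : L → K → F) {S : Finset L} {u : L} (h : u ∈ S) (z : K → F) :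
    smB (p u) z ∈ Gl p S := by
  rw [smB_comm]; exact smB_mem_Gl p h z

lemma exists_of_mem_Gl (p : L → K → F) {S : Finset L} {Q : Matrix K K F} (hQ : Q ∈ Gl p S) :
    ∃ z : L → K → F, (∀ u, u ∉ S → z u = 0) ∧ ∑ u ∈ S, smB (z u) (p u) = Q := by
  induction S using Finset.induction_on generalizing Q with
  | empty =>
    refine ⟨0, fun _ _ => rfl, ?_⟩
    have : Q = 0 := by simpa [Gl] using hQ
    rw [this, Finset.sum_empty]
  | insert a S ha ih =>
    rw [Gl, Finset.sup_insert, Submodule.mem_sup] at hQ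
    obtain ⟨q1, ⟨z1, rfl⟩, q2, h2, rfl⟩ := hQ
    obtain ⟨z, hz, rfl⟩ := ih h2
    refine ⟨Function.update z a z1, fun u hu => ?_, ?_⟩
    · rw [Finset.mem_insert, not_or] at hu
      rw [Function.update_of_ne hu.1]
      exact hz u hu.2
    · rw [Finset.sum_insert ha, Function.update_self]
      congr 1
      refine Finset.sum_congr rfl fun u hu => ?_
      rw [Function.update_of_ne]
      rintro rfl
      exact ha hu

end SM

/-- the tensors visible from a type pair, for the pair of forms -/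
def Gp {K L : Type*} [Fintype K] [DecidableEq L] (p : L → K → F) (S : Finset L) :
    Submodule F (Matrix K K F × Matrix K K F) := (Gl p S).prod (Gl p S)

end Vale.Agent.P060.HW
end
end

section

/-!
# P060/HW: common interface of the TV blocks

`MM K` = pairs of tensors; `XX (B, B')` = the functional `(Q, Q') ↦ pr Q B + pr Q' B'`;
`Fms δ a a' ι ι'` = the pairs of forms (a subtype); `Xf ω` = the functional of a pair of forms;
`PLaw.prob` = the probability space of a pair law; `SS K` = pairs of symmetric tensors;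
`GA fr p h a a' A` = trivial tensors and tensors visible from the lines in `A`.
The deficit is `Lat.D hw.prob Xf G`, the conditional deficit `Lat.Dc hw.prob Xf G A`.
-/

open scoped Classical

noncomputable section

set_option linter.unusedSectionVars false

namespace Vale.Agent.P060.HW

open Module

/-- Pairs of tensors. -/
abbrev MM (K : Type*) := Matrix K K F × Matrix K K F

section General

variable {K T : Type*} [Fintype K]

lemma pr_add (Q Q' B : Matrix K K F) : pr (Q + Q') B = pr Q B + pr Q' B := by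
  unfold pr
  rw [← Finset.sum_add_distrib]
  refine Finset.sum_congr rfl fun i _ => ?_
  rw [← Finset.sum_add_distrib]
  refine Finset.sum_congr rfl fun j _ => ?_
  rw [Matrix.add_apply, add_mul]

lemma pr_smul (c : F) (Q B : Matrix K K F) : pr (c • Q) B = c * pr Q B := by
  unfold pr
  rw [Finset.mul_sum]
  refine Finset.sum_congr rfl fun i _ => ?_
  rw [Finset.mul_sum]
  refine Finset.sum_congr rfl fun j _ => ?_
  rw [Matrix.smul_apply, smul_eq_mul, mul_assoc]

/-- A pair of matrices as a functional on pairs of tensors. -/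
def XX (x : MM K) : Dual F (MM K) where
  toFun Q := pr Q.1 x.1 + pr Q.2 x.2
  map_add' Q Q' := by
    rw [Prod.fst_add, Prod.snd_add, pr_add, pr_add]; ring
  map_smul' c Q := by
    rw [Prod.smul_fst, Prod.smul_snd, pr_smul, pr_smul, RingHom.id_apply, smul_eq_mul]; ring

lemma XX_apply (x Q : MM K) : XX x Q = pr Q.1 x.1 + pr Q.2 x.2 := rfl

/-- The pairs of forms of types `a, a'` and bits `ι, ι'`. -/
def Fms (δ : Design K T) (a a' : T) (ι ι' : Bool) : Type _ :=
  {x : MM K // x.1 ∈ δ.Form a ι ∧ x.2 ∈ δ.Form a' ι'}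

section FmsSec

variable {δ : Design K T} {a a' : T} {ι ι' : Bool}

/-- the underlying pair of matrices -/
def Fms.val (ω : Fms δ a a' ι ι') : MM K := Subtype.val ω

lemma Fms.mem (ω : Fms δ a a' ι ι') : ω.val.1 ∈ δ.Form a ι ∧ ω.val.2 ∈ δ.Form a' ι' :=
  Subtype.property ω

lemma Fms.val_injective : Function.Injective (Fms.val : Fms δ a a' ι ι' → MM K) :=
  Subtype.val_injective

instance : Finite (Fms δ a a' ι ι') := Finite.of_injective _ Fms.val_injective

instance : Fintype (Fms δ a a' ι ι') := Fintype.ofFinite _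

/-- The pair of forms as a functional on pairs of tensors. -/
def Xf (ω : Fms δ a a' ι ι') : Dual F (MM K) := XX ω.val

end FmsSec

/-- Symmetric tensors. -/
def Sy (K : Type*) : Submodule F (Matrix K K F) where
  carrier := {Q | Q.IsSymm}
  zero_mem' := Matrix.isSymm_zero
  add_mem' := fun h h' => h.add h'
  smul_mem' := fun c _ h => h.smul c

/-- Pairs of symmetric tensors. -/
def SS (K : Type*) : Submodule F (MM K) := (Sy K).prod (Sy K)

/-- The probability space of a pair law. -/
def PLaw.prob {δ : Design K T} {a a' : T} {ι ι' : Bool} {Λ M : ℝ}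
    {w : Matrix K K F → Matrix K K F → ℝ} (hw : PLaw δ a a' ι ι' Λ M w) :
    FinProb (Fms δ a a' ι ι') where
  w x := w x.val.1 x.val.2
  nonneg x := hw.nonneg _ _
  sum_one := by
    rw [← hw.sum_one, ← Fintype.sum_prod_type' (fun B B' => w B B')]
    refine Finset.sum_bij_ne_zero (fun x _ _ => x.val) (fun _ _ _ => Finset.mem_univ _)
      (fun x _ _ y _ _ h => Fms.val_injective h) (fun x _ hx => ?_) (fun _ _ _ => rfl)
    exact ⟨⟨x, hw.supp _ _ hx⟩, Finset.mem_univ _, hx, rfl⟩

/-- Pairs of trivial tensors. -/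
def Design.N2 (δ : Design K T) (a a' : T) : Submodule F (MM K) := (δ.Nn a).prod (δ.Nn a')

end General

variable {N d : ℕ} {E P Om : Type} [Fintype E] [Fintype P] [Fintype Om] [NeZero N]

/-- Trivial tensors and tensors visible from the lines in `A`. -/
def GA (fr : Frame N d E Om) (p : Lin N → Co E P Om → F) (h : Ext fr p) (a a' : Ty N d)
    (A : Finset (Lin N)) : Submodule F (MM (Co E P Om)) := Gp p A ⊔ (dsg fr p h).N2 a a'

/-- The mutual information of `G` and `G'` given `A` and the common part (nonnegative). -/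
def Lat.mi {Ω : Type*} [Fintype Ω] {K : Type*} [Field K] [Finite K] {V : Type*} [AddCommGroup V]
    [Module K V] [FiniteDimensional K V] (Pr : FinProb Ω) (X : Ω → Dual K V)
    (G G' A : Submodule K V) : ℝ :=
  Lat.D Pr X (A ⊔ G ⊔ G') + Lat.D Pr X ((A ⊔ G) ⊓ (A ⊔ G')) - Lat.D Pr X (A ⊔ G)
    - Lat.D Pr X (A ⊔ G')

end Vale.Agent.P060.HW
end
end

section

/-!
# LDFAM: line-disjoint families in sets of pairs of types of positive mass
-/

open scoped Classical

noncomputable section

namespace Vale.Agent.P060.HW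

open Module Finset

variable {N d : ℕ} [NeZero N]

omit [NeZero N] in
lemma ldf_card_lins (c : Ty N d) : (lins c).card ≤ 3 := by
  unfold lins
  refine Finset.card_image_le.trans ?_
  simp

omit [NeZero N] in
lemma ldf_card_lins2 (β : Ty N d × Ty N d) : (lins2 β).card ≤ 6 := by
  unfold lins2
  refine (Finset.card_union_le _ _).trans ?_
  have h1 := ldf_card_lins β.1
  have h2 := ldf_card_lins β.2
  omega

/-- A line lies in at most `d` types. -/
lemma ldf_card_types (u : Lin N) :
    ((univ : Finset (Ty N d)).filter fun c => u ∈ lins c).card ≤ d := by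
  have hinj : Set.InjOn (fun c : Ty N d => c.2)
      (((univ : Finset (Ty N d)).filter fun c => u ∈ lins c : Finset (Ty N d)) : Set (Ty N d)) := by
    intro c hc c' hc' h
    have hc1 := (Finset.mem_filter.1 (Finset.mem_coe.1 hc)).2
    have hc2 := (Finset.mem_filter.1 (Finset.mem_coe.1 hc')).2
    unfold lins at hc1 hc2
    obtain ⟨s, -, hs⟩ := Finset.mem_image.1 hc1
    obtain ⟨s', -, hs'⟩ := Finset.mem_image.1 hc2
    unfold lin at hs hs'
    have e1 : s = s' := by
      have := congrArg Prod.fst (hs.trans hs'.symm)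
      simpa using this
    subst e1
    have e2 : Combi.ln c s = Combi.ln c' s := by
      have := congrArg Prod.snd (hs.trans hs'.symm)
      simpa using this
    exact Combi.eq_of_share_of_dir e2 h
  rw [← Finset.card_image_of_injOn hinj]
  refine (Finset.card_le_univ _).trans ?_
  simp

/-- The mass of the pairs which contain a given line. -/
lemma ldf_mass {ρ : Ty N d × Ty N d → ℝ} (hρ : TCoup 8 ρ) (hd : 0 < d) (u : Lin N) :
    ∑ β, (if u ∈ lins2 β then ρ β else 0) ≤ 16 / (N : ℝ) := by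
  have hN : (0 : ℝ) < N := by exact_mod_cast Nat.pos_of_ne_zero (NeZero.ne N)
  have hd' : (0 : ℝ) < d := by exact_mod_cast hd
  have hcard : (Fintype.card (Ty N d) : ℝ) = N * d := by
    have : Fintype.card (Ty N d) = N * d := by
      show Fintype.card (ZMod N × Fin d) = N * d
      rw [Fintype.card_prod, ZMod.card, Fintype.card_fin]
    rw [this]; push_cast; rfl
  have h1 : ∀ β : Ty N d × Ty N d, (if u ∈ lins2 β then ρ β else 0)
      ≤ (if u ∈ lins β.1 then ρ β else 0) + (if u ∈ lins β.2 then ρ β else 0) := by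
    intro β
    have h0 := hρ.nonneg β
    unfold lins2
    by_cases ha : u ∈ lins β.1 <;> by_cases hb : u ∈ lins β.2 <;> simp [ha, hb, h0]
  refine (Finset.sum_le_sum fun β _ => h1 β).trans ?_
  rw [Finset.sum_add_distrib]
  have hcnt : (((univ : Finset (Ty N d)).filter fun c => u ∈ lins c).card : ℝ) ≤ d := by
    exact_mod_cast ldf_card_types u
  have hone : ∀ m : Ty N d → ℝ, (∀ c, m c * (N * d) ≤ 8) →
      ∑ c, (if u ∈ lins c then m c else 0) ≤ 8 / (N : ℝ) := by
    intro m hm
    rw [← Finset.sum_filter]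
    have h2 : ∀ c ∈ (univ : Finset (Ty N d)).filter (fun c => u ∈ lins c),
        m c ≤ 8 / ((N : ℝ) * d) := by
      intro c _
      rw [le_div_iff₀ (by positivity)]
      exact hm c
    refine (Finset.sum_le_card_nsmul _ _ _ h2).trans ?_
    rw [nsmul_eq_mul]
    calc (((univ : Finset (Ty N d)).filter fun c => u ∈ lins c).card : ℝ) * (8 / ((N : ℝ) * d))
        ≤ d * (8 / ((N : ℝ) * d)) := mul_le_mul_of_nonneg_right hcnt (by positivity)
      _ = 8 / (N : ℝ) := by field_simp
  have e1 : ∑ β : Ty N d × Ty N d, (if u ∈ lins β.1 then ρ β else 0) ≤ 8 / (N : ℝ) := by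
    rw [Fintype.sum_prod_type]
    refine (le_of_eq ?_).trans (hone (fun c => ∑ c', ρ (c, c')) fun c => by
      have := hρ.left c; rwa [hcard] at this)
    refine Finset.sum_congr rfl fun c _ => ?_
    by_cases h : u ∈ lins c <;> simp [h]
  have e2 : ∑ β : Ty N d × Ty N d, (if u ∈ lins β.2 then ρ β else 0) ≤ 8 / (N : ℝ) := by
    rw [Fintype.sum_prod_type_right]
    refine (le_of_eq ?_).trans (hone (fun c' => ∑ c, ρ (c, c')) fun c' => by
      have := hρ.right c'; rwa [hcard] at this)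
    refine Finset.sum_congr rfl fun c _ => ?_
    by_cases h : u ∈ lins c <;> simp [h]
  calc _ ≤ 8 / (N : ℝ) + 8 / (N : ℝ) := add_le_add e1 e2
    _ = 16 / (N : ℝ) := by ring

/-- **LDFAM** -/
theorem ldFam : LDFam := by
  intro N d _ hd _ ρ hρ A ε hε
  have hN : (0 : ℝ) < N := by exact_mod_cast Nat.pos_of_ne_zero (NeZero.ne N)
  set B : Finset (Ty N d × Ty N d) := A.filter fun β => β.1 ≠ β.2 with hB
  set Fam : Finset (Finset (Ty N d × Ty N d)) := B.powerset.filter LD with hFam
  have hne : Fam.Nonempty := ⟨∅, by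
    rw [hFam, Finset.mem_filter]
    exact ⟨Finset.empty_mem_powerset _, fun β hβ => absurd hβ (Finset.notMem_empty _)⟩⟩
  obtain ⟨S, hS, hmax⟩ := Finset.exists_max_image Fam Finset.card hne
  obtain ⟨hSB, hSd⟩ := Finset.mem_filter.1 hS
  rw [Finset.mem_powerset] at hSB
  refine ⟨S, hSB.trans (Finset.filter_subset _ _), hSd, fun β hβ =>
    (Finset.mem_filter.1 (hSB hβ)).2, ?_⟩
  set Ls : Finset (Lin N) := S.biUnion lins2 with hLs
  have hLc : (Ls.card : ℝ) ≤ 6 * S.card := by
    have h1 : Ls.card ≤ S.card * 6 :=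
      Finset.card_biUnion_le_card_mul _ _ _ fun β _ => ldf_card_lins2 β
    have h2 : (Ls.card : ℝ) ≤ ((S.card * 6 : ℕ) : ℝ) := by exact_mod_cast h1
    push_cast at h2
    linarith only [h2]
  have hhit : ∀ β ∈ B, ∃ u ∈ Ls, u ∈ lins2 β := by
    intro β hb
    by_contra hcon
    push Not at hcon
    have hdis : Disjoint (lins2 β) Ls := by
      rw [Finset.disjoint_left]
      intro u hu hu'
      exact hcon u hu' hu
    have hbS : β ∉ S := by
      intro hbS
      have hu : lin β.1 0 ∈ lins2 β :=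
        Finset.mem_union_left _ (Finset.mem_image_of_mem _ (mem_univ _))
      exact hcon _ (Finset.mem_biUnion.2 ⟨β, hbS, hu⟩) hu
    have hone : ∀ β' ∈ S, Disjoint (lins2 β) (lins2 β') := fun β' hb' =>
      hdis.mono_right (Finset.subset_biUnion_of_mem lins2 hb')
    have hmem : insert β S ∈ Fam := by
      rw [hFam, Finset.mem_filter, Finset.mem_powerset]
      refine ⟨Finset.insert_subset hb hSB, ?_⟩
      intro b1 h1 b2 h2 h12
      rcases Finset.mem_insert.1 h1 with rfl | h1' <;> rcases Finset.mem_insert.1 h2 with rfl | h2'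
      · exact absurd rfl h12
      · exact hone b2 h2'
      · exact (hone b1 h1').symm
      · exact hSd b1 h1' b2 h2' h12
    have := hmax _ hmem
    rw [Finset.card_insert_of_notMem hbS] at this
    omega
  have hAB : ∑ β ∈ A, ρ β = ∑ β ∈ B, ρ β := by
    rw [hB, Finset.sum_filter]
    refine Finset.sum_congr rfl fun β _ => ?_
    split_ifs with h
    · rfl
    · have hβ : β = (β.1, β.1) := by
        push Not at h
        exact Prod.ext rfl h.symm
      rw [hβ]; exact hρ.ne _
  have h1 : ∀ β ∈ B, ρ β ≤ ∑ u ∈ Ls, (if u ∈ lins2 β then ρ β else 0) := by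
    intro β hb
    have hnn : ∀ u ∈ Ls, 0 ≤ (if u ∈ lins2 β then ρ β else 0) := fun u _ => by
      split_ifs; exacts [hρ.nonneg β, le_rfl]
    obtain ⟨u, hu, hub⟩ := hhit β hb
    have := Finset.single_le_sum hnn hu
    rwa [if_pos hub] at this
  have h2 : ∑ β ∈ A, ρ β ≤ 96 / (N : ℝ) * S.card := by
    rw [hAB]
    calc ∑ β ∈ B, ρ β ≤ ∑ β ∈ B, ∑ u ∈ Ls, (if u ∈ lins2 β then ρ β else 0) :=
          Finset.sum_le_sum h1
      _ ≤ ∑ β, ∑ u ∈ Ls, (if u ∈ lins2 β then ρ β else 0) := by
          refine Finset.sum_le_sum_of_subset_of_nonneg (Finset.subset_univ _) fun β _ _ => ?_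
          refine Finset.sum_nonneg fun u _ => ?_
          split_ifs; exacts [hρ.nonneg β, le_rfl]
      _ = ∑ u ∈ Ls, ∑ β, (if u ∈ lins2 β then ρ β else 0) := Finset.sum_comm
      _ ≤ ∑ _u ∈ Ls, 16 / (N : ℝ) := Finset.sum_le_sum fun u _ => ldf_mass hρ hd u
      _ = Ls.card * (16 / (N : ℝ)) := by rw [Finset.sum_const, nsmul_eq_mul]
      _ ≤ 6 * S.card * (16 / (N : ℝ)) := mul_le_mul_of_nonneg_right hLc (by positivity)
      _ = 96 / (N : ℝ) * S.card := by ring
  have h3 : ε ≤ 96 / (N : ℝ) * S.card := (hε.le).trans h2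
  have h4 : ε * N ≤ 96 * S.card := by
    have h5 : 96 / (N : ℝ) * S.card * N = 96 * S.card := by field_simp
    calc ε * N ≤ 96 / (N : ℝ) * S.card * N := mul_le_mul_of_nonneg_right h3 hN.le
      _ = 96 * S.card := h5
  have h6 : (0 : ℝ) ≤ S.card := Nat.cast_nonneg _
  have h7 : ε * N / 1000 ≤ 96 * S.card / 1000 := by linarith only [h4]
  linarith only [h7, h6]

end Vale.Agent.P060.HW
end
end

section

/-!
# The exact annihilator lemma
-/

open scoped Classical

noncomputable section

set_option linter.unusedSectionVars false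

namespace Vale.Agent.P060.HW

open Module

/-- Dual functionals of a linearly independent family. -/
lemma an_exists_dual {ι P : Type*} [Fintype P] (S : Finset ι) (f : ι → P → F)
    (h : LinearIndependent F (fun u : S => f u)) :
    ∃ L : ι → (P → F) →ₗ[F] F, ∀ t ∈ S, ∀ u ∈ S, L t (f u) = if t = u then 1 else 0 := by
  obtain ⟨g, hg⟩ := LinearMap.exists_leftInverse_of_injective
    (Fintype.linearCombination F (fun u : S => f u))
    (LinearMap.ker_eq_bot.2 (linearIndependent_iff_injective_fintypeLinearCombination.1 h))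
  refine ⟨fun t => if ht : t ∈ S then (LinearMap.proj (⟨t, ht⟩ : S)).comp g else 0, ?_⟩
  intro t ht u hu
  have h1 := LinearMap.congr_fun hg (Pi.single (⟨u, hu⟩ : S) 1)
  rw [LinearMap.comp_apply, Fintype.linearCombination_apply_single, one_smul,
    LinearMap.id_apply] at h1
  simp only [dif_pos ht]
  rw [LinearMap.comp_apply, h1, LinearMap.proj_apply, Pi.single_apply]
  simp only [Subtype.mk.injEq]

section

variable {N d : ℕ} {E P Om : Type} [Fintype E] [Fintype P] [Fintype Om] [NeZero N]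

lemma an_lin_inj {c : Ty N d} {s s' : Fin 3} (h : lin c s = lin c s') : s = s' :=
  (Prod.mk.injEq _ _ _ _ ▸ h : _ ∧ _).1

lemma an_mem_lins {c : Ty N d} {u : Lin N} : u ∈ lins c ↔ ∃ s, lin c s = u := by
  unfold lins
  rw [Finset.mem_image]
  exact ⟨fun ⟨s, _, h⟩ => ⟨s, h⟩, fun ⟨s, h⟩ => ⟨s, Finset.mem_univ _, h⟩⟩

/-- The vector of a type as a sum over a set of lines. -/
lemma an_gv_sum (p : Lin N → Co E P Om → F) (c : Ty N d) (S : Finset (Lin N))
    (hS : ∀ s, lin c s ∈ S) (i : Co E P Om) :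
    gv p c i = ∑ u ∈ S, (if u ∈ lins c then p u i else 0) := by
  rw [← Finset.sum_filter]
  have h1 : S.filter (· ∈ lins c) = Finset.univ.image (lin c) := by
    ext u
    rw [Finset.mem_filter]
    constructor
    · exact fun h => h.2
    · intro h
      refine ⟨?_, h⟩
      obtain ⟨s, rfl⟩ := an_mem_lins.1 h
      exact hS s
  rw [h1, Finset.sum_image (fun s _ s' _ h => an_lin_inj h), gv, Finset.sum_apply]

lemma an_sm_apply {K : Type*} (h g : K → F) (i j : K) : sm h g i j = h i * g j + g i * h j := rfl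

lemma an_sgl_same {K : Type*} (inst : DecidableEq K) (w : K) :
    @Pi.single K (fun _ => F) _ inst w (1 : F) w = 1 := by
  rw [Pi.single_eq_same]

lemma an_sgl_ne {K : Type*} (inst : DecidableEq K) {w i : K} (h : i ≠ w) :
    @Pi.single K (fun _ => F) _ inst w (1 : F) i = 0 := by
  rw [Pi.single_eq_of_ne h]

/-- The entries of a trivial tensor that we need. -/
lemma Nn_entries (fr : Frame N d E Om) (p : Lin N → Co E P Om → F) (h : Ext fr p) (a : Ty N d)
    {Q : Matrix (Co E P Om) (Co E P Om) F} (hQ : Q ∈ (dsg fr p h).Nn a) :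
    ∃ (x : Om → Ty N d → F) (y : Co E P Om → F),
      (∀ w b, x w b ≠ 0 → w ∈ fr.U b) ∧
      (∀ i j : E ⊕ P, Q (Sum.inl i) (Sum.inl j) =
        y (Sum.inl i) * gv p a (Sum.inl j) + gv p a (Sum.inl i) * y (Sum.inl j)) ∧
      (∀ w ∉ fr.U a, ∀ j : E ⊕ P, Q (Sum.inr w) (Sum.inl j) =
        y (Sum.inr w) * gv p a (Sum.inl j) + gv p a (Sum.inr w) * y (Sum.inl j)
          + ∑ b, x w b * gv p b (Sum.inl j)) := by
  unfold Design.Nn at hQ
  induction hQ using Submodule.span_induction with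
  | mem Q hQ =>
    rcases hQ with (⟨c, w0, hw0, rfl⟩ | ⟨w0, hw0, v, rfl⟩) | ⟨v, rfl⟩
    · obtain ⟨w1, hw1, rfl⟩ := Finset.mem_image.1 hw0
      refine ⟨fun w b => if w = w1 ∧ b = c then 1 else 0, 0, ?_, ?_, ?_⟩
      · intro w b hwb
        by_cases hh : w = w1 ∧ b = c
        · rw [hh.1, hh.2]; exact hw1
        · exact absurd (if_neg hh) hwb
      · intro i j
        rw [an_sm_apply, an_sgl_ne _ Sum.inl_ne_inr, an_sgl_ne _ Sum.inl_ne_inr]
        simp
      · intro w _ j
        rw [an_sm_apply, an_sgl_ne _ Sum.inl_ne_inr]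
        by_cases hh : w = w1
        · subst hh
          rw [an_sgl_same]
          rw [Finset.sum_eq_single c]
          · simp [dsg]
          · intro b _ hb
            simp [hb]
          · intro h'; exact absurd (Finset.mem_univ _) h'
        · rw [an_sgl_ne _ (fun h' => hh (Sum.inr_injective h'))]
          simp [hh]
    · obtain ⟨w1, hw1, rfl⟩ := Finset.mem_image.1 hw0
      refine ⟨0, 0, ?_, ?_, ?_⟩
      · intro w b hwb
        exact absurd rfl hwb
      · intro i j
        rw [an_sm_apply, an_sgl_ne _ Sum.inl_ne_inr, an_sgl_ne _ Sum.inl_ne_inr]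
        simp
      · intro w hw j
        rw [an_sm_apply, an_sgl_ne _ Sum.inl_ne_inr, an_sgl_ne _ (fun h' => hw (by
          rw [Sum.inr_injective h']; exact hw1))]
        simp
    · refine ⟨0, v, ?_, ?_, ?_⟩
      · intro w b hwb
        exact absurd rfl hwb
      · intro i j
        rfl
      · intro w hw j
        rw [an_sm_apply]
        simp [dsg]
  | zero =>
    refine ⟨0, 0, fun w b hwb => absurd rfl hwb, fun i j => by simp, fun w _ j => by simp⟩
  | add A B _ _ hA hB =>
    obtain ⟨x, y, h1, h2, h3⟩ := hA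
    obtain ⟨x', y', h1', h2', h3'⟩ := hB
    refine ⟨x + x', y + y', ?_, ?_, ?_⟩
    · intro w b hwb
      by_cases hx : x w b = 0
      · by_cases hx' : x' w b = 0
        · rw [Pi.add_apply, Pi.add_apply, hx, hx', add_zero] at hwb
          exact absurd rfl hwb
        · exact h1' _ _ hx'
      · exact h1 _ _ hx
    · intro i j
      rw [Matrix.add_apply, h2, h2', Pi.add_apply, Pi.add_apply]
      ring
    · intro w hw j
      rw [Matrix.add_apply, h3 w hw, h3' w hw, Pi.add_apply, Pi.add_apply]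
      have e1 : ∑ b, (x + x') w b * gv p b (Sum.inl j) =
          ∑ b, x w b * gv p b (Sum.inl j) + ∑ b, x' w b * gv p b (Sum.inl j) := by
        rw [← Finset.sum_add_distrib]
        exact Finset.sum_congr rfl fun b _ => by
          rw [Pi.add_apply, Pi.add_apply, add_mul]
      rw [e1]
      ring
  | smul r A _ hA =>
    obtain ⟨x, y, h1, h2, h3⟩ := hA
    refine ⟨r • x, r • y, ?_, ?_, ?_⟩
    · intro w b hwb
      refine h1 w b fun hx => hwb ?_
      rw [Pi.smul_apply, Pi.smul_apply, hx, smul_zero]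
    · intro i j
      rw [Matrix.smul_apply, h2, Pi.smul_apply, Pi.smul_apply]
      simp only [smul_eq_mul]
      ring
    · intro w hw j
      rw [Matrix.smul_apply, h3 w hw, Pi.smul_apply, Pi.smul_apply]
      have e1 : ∑ b, (r • x) w b * gv p b (Sum.inl j) =
          r * ∑ b, x w b * gv p b (Sum.inl j) := by
        rw [Finset.mul_sum]
        exact Finset.sum_congr rfl fun b _ => by
          rw [Pi.smul_apply, Pi.smul_apply, smul_eq_mul, mul_assoc]
      rw [e1]
      simp only [smul_eq_mul]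
      ring

lemma an_sum_sm {K : Type*} (z p : Lin N → K → F) (S : Finset (Lin N)) (i j : K) :
    (∑ u ∈ S, sm (z u) (p u)) i j = ∑ u ∈ S, (z u i * p u j + p u i * z u j) := by
  rw [Matrix.sum_apply]
  rfl

end

theorem an : AN := by
  intro N d E P Om _ _ _ _ fr p h a S haS hli hli2 z hz
  obtain ⟨x, y, hx, h1, h2⟩ := Nn_entries fr p h a hz
  -- the corrected vectors
  obtain ⟨zz, hzz⟩ : ∃ zz : Lin N → Co E P Om → F,
      ∀ u i, zz u i = z u i - if u ∈ lins a then y i else 0 := ⟨_, fun u i => rfl⟩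
  have k1 : ∀ i j : Co E P Om, y i * gv p a j + gv p a i * y j =
      ∑ u ∈ S, ((if u ∈ lins a then y i else 0) * p u j + p u i * (if u ∈ lins a then y j else 0)) := by
    intro i j
    rw [an_gv_sum p a S haS, an_gv_sum p a S haS, Finset.mul_sum, Finset.sum_mul,
      ← Finset.sum_add_distrib]
    refine Finset.sum_congr rfl fun u _ => ?_
    split_ifs <;> ring
  have g1 : ∀ i j : E ⊕ P, ∑ u ∈ S, (zz u (Sum.inl i) * p u (Sum.inl j)
      + p u (Sum.inl i) * zz u (Sum.inl j)) = 0 := by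
    intro i j
    have e1 := h1 i j
    rw [an_sum_sm, k1, ← sub_eq_zero, ← Finset.sum_sub_distrib] at e1
    rw [← e1]
    refine Finset.sum_congr rfl fun u _ => ?_
    rw [hzz, hzz]
    ring
  have g2 : ∀ w ∉ fr.U a, ∀ j : E ⊕ P, ∑ u ∈ S, (zz u (Sum.inr w) * p u (Sum.inl j)
      + p u (Sum.inr w) * zz u (Sum.inl j)) = ∑ b, x w b * gv p b (Sum.inl j) := by
    intro w hw j
    have e1 := h2 w hw j
    rw [an_sum_sm, k1, ← sub_eq_iff_eq_add', ← Finset.sum_sub_distrib] at e1
    rw [← e1]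
    refine Finset.sum_congr rfl fun u _ => ?_
    rw [hzz, hzz]
    ring
  obtain ⟨L, hL⟩ := an_exists_dual S (fun u => fun j : P => p u (Sum.inl (Sum.inr j))) hli
  obtain ⟨pp, hpp⟩ : ∃ pp : Lin N → P → F, ∀ u, pp u = fun j : P => p u (Sum.inl (Sum.inr j)) :=
    ⟨_, fun u => rfl⟩
  obtain ⟨zp, hzp⟩ : ∃ zp : Lin N → P → F, ∀ u, zp u = fun j : P => zz u (Sum.inl (Sum.inr j)) :=
    ⟨_, fun u => rfl⟩
  have hL' : ∀ t ∈ S, ∀ u ∈ S, L t (pp u) = if t = u then 1 else 0 := by
    intro t ht u hu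
    rw [hpp, hL t ht u hu]
    congr
  -- the coefficients
  have g3 : ∀ v ∈ S, ∀ i : E ⊕ P, zz v (Sum.inl i) = - ∑ u ∈ S, L v (zp u) * p u (Sum.inl i) := by
    intro v hv i
    have e1 : ∑ u ∈ S, (zz u (Sum.inl i) • pp u + p u (Sum.inl i) • zp u) = 0 := by
      funext j
      rw [Finset.sum_apply, Pi.zero_apply, ← g1 i (Sum.inr j)]
      refine Finset.sum_congr rfl fun u _ => ?_
      rw [hpp, hzp]
      rfl
    have e2 := congrArg (L v) e1
    rw [map_sum, map_zero] at e2
    have e3 : ∑ u ∈ S, (L v) (zz u (Sum.inl i) • pp u + p u (Sum.inl i) • zp u) =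
        zz v (Sum.inl i) + ∑ u ∈ S, L v (zp u) * p u (Sum.inl i) := by
      rw [show zz v (Sum.inl i) = ∑ u ∈ S, zz u (Sum.inl i) * (if v = u then 1 else 0) by
        rw [Finset.sum_eq_single v]
        · rw [if_pos rfl, mul_one]
        · intro u _ hu
          rw [if_neg (Ne.symm hu), mul_zero]
        · intro h'; exact absurd hv h', ← Finset.sum_add_distrib]
      refine Finset.sum_congr rfl fun u hu => ?_
      rw [map_add, map_smul, map_smul, hL' v hv u hu, smul_eq_mul, smul_eq_mul]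
      ring
    rw [e3] at e2
    linear_combination e2
  have g4 : ∀ v ∈ S, ∀ u ∈ S, L v (zp u) = - L u (zp v) := by
    intro v hv u hu
    have e1 : zp u = - ∑ t ∈ S, L u (zp t) • pp t := by
      funext j
      rw [hzp, Pi.neg_apply, Finset.sum_apply]
      show zz u (Sum.inl (Sum.inr j)) = _
      rw [g3 u hu]
      congr 1
      refine Finset.sum_congr rfl fun t _ => ?_
      rw [hpp]
      rfl
    rw [e1, map_neg, map_sum]
    congr 1
    rw [Finset.sum_eq_single v]
    · rw [map_smul, hL' v hv v hv, if_pos rfl, smul_eq_mul, mul_one]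
    · intro t ht htv
      rw [map_smul, hL' v hv t ht, if_neg (Ne.symm htv), smul_zero]
    · intro h'; exact absurd hv h'
  obtain ⟨c, hc⟩ : ∃ c : Lin N → Lin N → F,
      ∀ u v, c u v = if u ∈ S ∧ v ∈ S then - L u (zp v) else 0 := ⟨_, fun u v => rfl⟩
  have hcanti : ∀ u v, c u v = - c v u := by
    intro u v
    rw [hc, hc]
    by_cases huv : u ∈ S ∧ v ∈ S
    · rw [if_pos huv, if_pos huv.symm, g4 u huv.1 v huv.2]
    · rw [if_neg huv, if_neg (fun h' => huv h'.symm), neg_zero]
  have g5 : ∀ v ∈ S, ∀ i : E ⊕ P, zz v (Sum.inl i) = ∑ u ∈ S, c v u * p u (Sum.inl i) := by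
    intro v hv i
    rw [g3 v hv i, ← Finset.sum_neg_distrib]
    refine Finset.sum_congr rfl fun u hu => ?_
    rw [hc, if_pos ⟨hv, hu⟩]
    ring
  -- the rows
  obtain ⟨ζ, hζ⟩ : ∃ ζ : Om → Lin N → F,
      ∀ w u, ζ w u = zz u (Sum.inr w) - ∑ v ∈ S, c u v * p v (Sum.inr w) := ⟨_, fun w u => rfl⟩
  have g6 : ∀ w ∉ fr.U a, ∀ j : E ⊕ P, ∑ u ∈ S, ζ w u * p u (Sum.inl j) =
      ∑ b, x w b * gv p b (Sum.inl j) := by
    intro w hw j
    rw [← g2 w hw j, Finset.sum_add_distrib]
    have e1 : ∑ u ∈ S, p u (Sum.inr w) * zz u (Sum.inl j) =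
        - ∑ u ∈ S, (∑ v ∈ S, c u v * p v (Sum.inr w)) * p u (Sum.inl j) := by
      have e2 : ∀ u ∈ S, p u (Sum.inr w) * zz u (Sum.inl j) =
          ∑ v ∈ S, p u (Sum.inr w) * (c u v * p v (Sum.inl j)) := by
        intro u hu
        rw [g5 u hu j, Finset.mul_sum]
      rw [Finset.sum_congr rfl e2, Finset.sum_comm, ← Finset.sum_neg_distrib]
      refine Finset.sum_congr rfl fun v _ => ?_
      rw [Finset.sum_mul, ← Finset.sum_neg_distrib]
      refine Finset.sum_congr rfl fun u _ => ?_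
      rw [hcanti u v]
      ring
    rw [e1, ← sub_eq_add_neg, ← Finset.sum_sub_distrib]
    refine Finset.sum_congr rfl fun u _ => ?_
    rw [hζ]
    ring
  have g7 : ∀ w ∉ fr.U a, ∀ t ∈ S ∪ rowLines fr w, (if t ∈ S then ζ w t else 0) =
      ∑ b, x w b * (if t ∈ lins b then 1 else 0) := by
    intro w hw t ht
    obtain ⟨L2, hL2⟩ := an_exists_dual (S ∪ rowLines fr w)
      (fun u => fun j : P => p u (Sum.inl (Sum.inr j))) (hli2 w hw)
    have hL2' : ∀ u ∈ S ∪ rowLines fr w, L2 t (pp u) = if t = u then 1 else 0 := by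
      intro u hu
      rw [hpp, hL2 t ht u hu]
      congr
    have e1 : ∑ u ∈ S, ζ w u • pp u = ∑ b, x w b • ∑ s, pp (lin b s) := by
      funext j
      rw [Finset.sum_apply, Finset.sum_apply]
      have e2 := g6 w hw (Sum.inr j)
      have e3 : ∀ u, (ζ w u • pp u) j = ζ w u * p u (Sum.inl (Sum.inr j)) := by
        intro u; rw [hpp]; rfl
      have e4 : ∀ b, (x w b • ∑ s, pp (lin b s)) j = x w b * gv p b (Sum.inl (Sum.inr j)) := by
        intro b
        rw [Pi.smul_apply, Finset.sum_apply, gv, Finset.sum_apply, smul_eq_mul]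
        congr 1
        exact Finset.sum_congr rfl fun s _ => by rw [hpp]
      rw [Finset.sum_congr rfl fun u _ => e3 u, Finset.sum_congr rfl fun b _ => e4 b]
      exact e2
    have e5 := congrArg (L2 t) e1
    rw [map_sum, map_sum] at e5
    have e6 : ∑ u ∈ S, L2 t (ζ w u • pp u) = if t ∈ S then ζ w t else 0 := by
      split_ifs with hts
      · rw [Finset.sum_eq_single t]
        · rw [map_smul, hL2' t ht, if_pos rfl, smul_eq_mul, mul_one]
        · intro u hu hut
          rw [map_smul, hL2' u (Finset.mem_union_left _ hu), if_neg (Ne.symm hut), smul_zero]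
        · intro h'; exact absurd hts h'
      · refine Finset.sum_eq_zero fun u hu => ?_
        rw [map_smul, hL2' u (Finset.mem_union_left _ hu), if_neg (fun h' : t = u => hts (h' ▸ hu)),
          smul_zero]
    rw [e6] at e5
    rw [e5]
    refine Finset.sum_congr rfl fun b _ => ?_
    rw [map_smul, smul_eq_mul]
    by_cases hxb : x w b = 0
    · rw [hxb, zero_mul, zero_mul]
    · congr 1
      rw [map_sum]
      have hmem : ∀ s, lin b s ∈ S ∪ rowLines fr w := by
        intro s
        refine Finset.mem_union_right _ (Finset.mem_biUnion.2 ⟨b, ?_, an_mem_lins.2 ⟨s, rfl⟩⟩)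
        rw [Finset.mem_filter]
        exact ⟨Finset.mem_univ _, hx w b hxb⟩
      rw [Finset.sum_congr rfl fun s _ => hL2' (lin b s) (hmem s)]
      split_ifs with htb
      · obtain ⟨s, rfl⟩ := an_mem_lins.1 htb
        rw [Finset.sum_eq_single s]
        · rw [if_pos rfl]
        · intro s' _ hs'
          rw [if_neg (fun h' => hs' (an_lin_inj h').symm)]
        · intro h'; exact absurd (Finset.mem_univ _) h'
      · refine Finset.sum_eq_zero fun s _ => ?_
        rw [if_neg (fun h' => htb (an_mem_lins.2 ⟨s, h'.symm⟩))]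
  have g8 : ∀ w ∉ fr.U a, ∀ b, x w b ≠ 0 → ∀ s, lin b s ∈ S := by
    intro w hw b hxb s
    by_contra hs
    have hmem : lin b s ∈ S ∪ rowLines fr w := by
      refine Finset.mem_union_right _ (Finset.mem_biUnion.2 ⟨b, ?_, an_mem_lins.2 ⟨s, rfl⟩⟩)
      rw [Finset.mem_filter]
      exact ⟨Finset.mem_univ _, hx w b hxb⟩
    have e1 := g7 w hw (lin b s) hmem
    rw [if_neg hs, Finset.sum_eq_single b] at e1
    · rw [if_pos (an_mem_lins.2 ⟨s, rfl⟩), mul_one] at e1
      exact hxb e1.symm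
    · intro b' _ hb'
      by_cases hxb' : x w b' = 0
      · rw [hxb', zero_mul]
      · rw [if_neg, mul_zero]
        intro hl
        obtain ⟨s', hs'⟩ := an_mem_lins.1 hl
        have hss : s' = s := (Prod.mk.injEq _ _ _ _ ▸ hs' : _ ∧ _).1
        subst hss
        have hln : ln b' s' = ln b s' := (Prod.mk.injEq _ _ _ _ ▸ hs' : _ ∧ _).2
        exact fr.line_disj b' b w (hx w b' hxb') (hx w b hxb) hb' s' hln
    · intro h'; exact absurd (Finset.mem_univ _) h'
  refine ⟨y, c, fun w b => if w ∈ fr.U a then 0 else x w b, hcanti, ?_, ?_, ?_, ?_⟩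
  · intro u v hu
    rw [hc, if_neg (fun h' => hu h'.1)]
  · intro w b hwb
    by_cases hw : w ∈ fr.U a
    · exact absurd (if_pos hw) hwb
    · have hwb' : x w b ≠ 0 := by
        have e1 : (if w ∈ fr.U a then 0 else x w b) ≠ 0 := hwb
        rwa [if_neg hw] at e1
      exact ⟨hx w b hwb', g8 w hw b hwb'⟩
  · intro u hu j
    have e1 := g5 u hu j
    rw [hzz] at e1
    linear_combination e1
  · intro u hu w hw
    have e1 := g7 w hw u (Finset.mem_union_left _ hu)
    rw [if_pos hu, hζ, hzz] at e1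
    simp only [if_neg hw]
    linear_combination e1

end Vale.Agent.P060.HW
end
end

section

/-! The three pasts lemma. -/

namespace Vale.Agent.P060.HW

open Finset Module

section Sampling

variable {F V : Type*} [Field F] [AddCommGroup V] [Module F V] [FiniteDimensional F V]

/-- Intersection of the members of a finite family with `N`. -/
def meet {Y : Type*} (N : Submodule F V) (B : Y → Submodule F V) (S : Finset Y) :
    Submodule F V := N ⊓ S.inf B

omit [FiniteDimensional F V] in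
theorem meet_insert {Y : Type*} [DecidableEq Y] (N : Submodule F V) (B : Y → Submodule F V)
    (S : Finset Y) (y : Y) : meet N B (insert y S) = meet N B S ⊓ B y := by
  rw [meet, meet, Finset.inf_insert, inf_assoc, inf_comm (B y)]

theorem finrank_meet {Y : Type*} [DecidableEq Y] (N : Submodule F V) (B : Y → Submodule F V)
    (R : ℕ) (hB : ∀ y, finrank F N ≤ finrank F (B y) + R) (hBN : ∀ y, B y ≤ N)
    (S : Finset Y) : finrank F N ≤ finrank F (meet N B S) + S.card * R := by
  induction S using Finset.induction_on with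
  | empty =>
    rw [meet, Finset.inf_empty, inf_top_eq]
    exact Nat.le_add_right _ _
  | insert y S hy ih =>
    rw [meet_insert, Finset.card_insert_of_notMem hy]
    have h1 := Submodule.finrank_sup_add_finrank_inf_eq (meet N B S) (B y)
    have h2 : finrank F ↥(meet N B S ⊔ B y) ≤ finrank F N :=
      Submodule.finrank_mono (sup_le inf_le_left (hBN y))
    have h3 := hB y
    rw [add_mul, one_mul]
    omega

/-- The greedy sampling lemma. -/
theorem sampling {X Y : Type*} [Fintype X] [Fintype Y]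
    (N : Submodule F V) (A : X → Submodule F V) (B : Y → Submodule F V) (R : ℕ)
    (hA : ∀ x, finrank F N ≤ finrank F (A x) + R) (hAN : ∀ x, A x ≤ N)
    (hB : ∀ y, finrank F N ≤ finrank F (B y) + R) (hBN : ∀ y, B y ≤ N)
    {δ : ℝ} (hδ : 0 < δ) :
    ∃ I : Submodule F V, I ≤ N ∧ (finrank F N : ℝ) ≤ finrank F I + R * (R / δ) ∧
      ∀ y, (Nat.card {x // ¬ I ≤ A x ⊔ B y} : ℝ) ≤ δ * Fintype.card X := by
  classical
  rcases isEmpty_or_nonempty X with hX | hX
  · refine ⟨N, le_rfl, ?_, ?_⟩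
    · have : (0 : ℝ) ≤ R * (R / δ) := by positivity
      linarith
    · intro y
      rw [Nat.card_eq_zero.mpr (Or.inl ⟨fun x => hX.elim x.1⟩), Fintype.card_eq_zero]
      simp
  have hXpos : (0 : ℝ) < Fintype.card X := Nat.cast_pos.mpr Fintype.card_pos
  let Φ : Finset Y → ℝ := fun S => ∑ x, (finrank F ↥(A x ⊔ meet N B S) : ℝ)
  obtain ⟨S, -, hS⟩ := Finset.exists_min_image (univ : Finset (Finset Y))
    (fun S => Φ S + δ * Fintype.card X * S.card) ⟨∅, mem_univ _⟩
  refine ⟨meet N B S, inf_le_left, ?_, ?_⟩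
  · have h1 := finrank_meet N B R hB hBN S
    have h2 := hS ∅ (mem_univ _)
    rw [Finset.card_empty, Nat.cast_zero, mul_zero, add_zero] at h2
    have h3 : Φ ∅ ≤ Φ S + R * Fintype.card X := by
      have : (R : ℝ) * Fintype.card X = ∑ _x : X, (R : ℝ) := by
        rw [Finset.sum_const, Finset.card_univ, nsmul_eq_mul, mul_comm]
      rw [this, ← Finset.sum_add_distrib]
      refine Finset.sum_le_sum fun x _ => ?_
      have h4 : finrank F ↥(A x ⊔ meet N B ∅) ≤ finrank F N :=
        Submodule.finrank_mono (sup_le (hAN x) inf_le_left)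
      have h5 : finrank F (A x) ≤ finrank F ↥(A x ⊔ meet N B S) :=
        Submodule.finrank_mono le_sup_left
      have h6 := hA x
      exact_mod_cast (by omega : finrank F ↥(A x ⊔ meet N B ∅) ≤
        finrank F ↥(A x ⊔ meet N B S) + R)
    have h7 : δ * Fintype.card X * S.card ≤ R * Fintype.card X := by linarith only [h3, h2]
    have h8 : (S.card : ℝ) ≤ R / δ := by
      rw [le_div_iff₀ hδ]
      have : (S.card : ℝ) * δ * Fintype.card X ≤ R * Fintype.card X := by linarith only [h7]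
      exact le_of_mul_le_mul_right this hXpos
    calc (finrank F N : ℝ) ≤ finrank F (meet N B S) + S.card * R := by exact_mod_cast h1
      _ ≤ finrank F (meet N B S) + R * (R / δ) := by
        have : (S.card : ℝ) * R ≤ R / δ * R := mul_le_mul_of_nonneg_right h8 (Nat.cast_nonneg _)
        linarith only [this]
  · intro y
    by_cases hy : y ∈ S
    · have h0 : ∀ x, meet N B S ≤ A x ⊔ B y := fun x =>
        (inf_le_right.trans (Finset.inf_le hy)).trans le_sup_right
      have : Nat.card {x // ¬ meet N B S ≤ A x ⊔ B y} = 0 :=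
        Nat.card_eq_zero.mpr (Or.inl ⟨fun x => x.2 (h0 x.1)⟩)
      rw [this, Nat.cast_zero]
      positivity
    · have h2 := hS (insert y S) (mem_univ _)
      rw [Finset.card_insert_of_notMem hy] at h2
      push_cast at h2
      have h3 : (Nat.card {x // ¬ meet N B S ≤ A x ⊔ B y} : ℝ) ≤ Φ S - Φ (insert y S) := by
        have h4 : (Nat.card {x // ¬ meet N B S ≤ A x ⊔ B y} : ℝ) =
            ∑ x : X, if ¬ meet N B S ≤ A x ⊔ B y then (1 : ℝ) else 0 := by
          rw [Finset.sum_boole, Nat.card_eq_fintype_card, Fintype.card_subtype]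
        rw [h4, ← Finset.sum_sub_distrib]
        refine Finset.sum_le_sum fun x _ => ?_
        have h5 : A x ⊔ meet N B (insert y S) ≤ A x ⊔ meet N B S := by
          rw [meet_insert]
          exact sup_le_sup_left inf_le_left _
        have h6 := Submodule.finrank_mono h5
        split_ifs with h7
        · have h8 : (0 : ℝ) ≤ (finrank F ↥(A x ⊔ meet N B S) : ℝ) -
              finrank F ↥(A x ⊔ meet N B (insert y S)) := by
            rw [sub_nonneg]
            exact_mod_cast h6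
          exact h8
        · have h8 : finrank F ↥(A x ⊔ meet N B (insert y S)) <
              finrank F ↥(A x ⊔ meet N B S) := by
            refine lt_of_le_of_ne h6 fun heq => h7 ?_
            have h9 := Submodule.eq_of_le_of_finrank_eq h5 heq
            calc meet N B S ≤ A x ⊔ meet N B S := le_sup_right
              _ = A x ⊔ meet N B (insert y S) := h9.symm
              _ ≤ A x ⊔ B y := by
                rw [meet_insert]
                exact sup_le_sup_left inf_le_right _
          have h10 : (finrank F ↥(A x ⊔ meet N B (insert y S)) : ℝ) + 1 ≤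
              finrank F ↥(A x ⊔ meet N B S) := by exact_mod_cast h8
          linarith only [h10]
      linarith

end Sampling

section Main

variable {F V : Type*} [Field F] [AddCommGroup V] [Module F V] [Fintype V]

open Classical in
/-- Diagonal count: if `h x y` is invariant in `x` under `N₁` and in `y` under `N₂`, and
`N₁ + N₂` is everything, the diagonal mean is at most the maximal section mean. -/
theorem diag_le {N₁ N₂ : Submodule F V} (hN : N₂ ⊔ N₁ = ⊤) (h : V → V → ℝ)
    (h₁ : ∀ y x, ∀ n ∈ N₁, h (x + n) y = h x y) (h₂ : ∀ x y, ∀ n ∈ N₂, h x (y + n) = h x y)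
    {c : ℝ} (hc : ∀ y, ∑ x, h x y ≤ c * Fintype.card V) :
    ∑ x, h x x ≤ c * Fintype.card V := by
  have hV : (0 : ℝ) < Fintype.card V := Nat.cast_pos.mpr Fintype.card_pos
  have e1 : ∀ y, avg N₂ (fun x => h x y) y ≤ c := by
    intro y
    have e2 : avg N₁ (fun x => h x y) = fun x => h x y := avg_of_inv fun x u hu => h₁ y x u hu
    rw [← e2, avg_avg, hN, avg]
    have e3 : carr (⊤ : Submodule F V) = univ := by
      ext x
      simp [mem_carr]
    rw [e3, Finset.card_univ, div_le_iff₀ hV]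
    refine le_trans (le_of_eq ?_) (hc y)
    exact Fintype.sum_equiv (Equiv.addLeft y) _ _ fun x => rfl
  have e4 : ∀ y, avg N₂ (fun x => h x y) y = avg N₂ (fun z => h z z) y := by
    intro y
    rw [avg, avg]
    congr 1
    refine Finset.sum_congr rfl fun u hu => ?_
    exact (h₂ _ _ _ (mem_carr.mp hu)).symm
  have e5 := sum_favg (isField_const (le_refl N₂)) fun z => h z z
  rw [← e5]
  calc ∑ x, favg (fun _ => N₂) (fun z => h z z) x ≤ ∑ _x : V, c := by
        refine Finset.sum_le_sum fun x _ => ?_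
        change avg N₂ (fun z => h z z) x ≤ c
        rw [← e4]
        exact e1 x
    _ = c * Fintype.card V := by
        rw [Finset.sum_const, Finset.card_univ, nsmul_eq_mul, mul_comm]

/-- Two pasts: nearly measurable on the slices of both, hence nearly measurable with respect
to few functionals besides the two pasts. -/
theorem two_pasts {N₁ N₂ : Submodule F V} (hN : N₂ ⊔ N₁ = ⊤) {U₁ U₂ : V → Submodule F V}
    (hU₁ : IsField N₁ U₁) (hU₂ : IsField N₂ U₂) (R : ℕ)
    (hr₁ : ∀ x, finrank F N₁ ≤ finrank F (U₁ x) + R)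
    (hr₂ : ∀ x, finrank F N₂ ≤ finrank F (U₂ x) + R)
    (f : V → ℝ) {e B δ : ℝ} (hδ : 0 < δ) (hB : ∀ x, |f x| ≤ B)
    (he₁ : ∑ x, |f x - favg U₁ f x| ≤ e) (he₂ : ∑ x, |f x - favg U₂ f x| ≤ e) :
    ∃ I : Submodule F V, I ≤ N₁ ⊓ N₂ ∧
      (finrank F ↥(N₁ ⊓ N₂) : ℝ) ≤ finrank F I + R * (R / δ) ∧
      ∑ x, |f x - avg I f x| ≤ 8 * e + 2 * B * (δ * Fintype.card V) := by
  classical
  have hfin : FiniteDimensional F V := by
    exact Module.Finite.of_finite
  have hB0 : 0 ≤ B := (abs_nonneg _).trans (hB 0)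
  -- the restricted fields
  have codim : ∀ {N M U : Submodule F V}, U ≤ N → finrank F N ≤ finrank F U + R →
      finrank F ↥(N ⊓ M) ≤ finrank F ↥(U ⊓ M) + R := by
    intro N M U hUN h
    have h1 := Submodule.finrank_sup_add_finrank_inf_eq U (N ⊓ M)
    have h2 : U ⊓ (N ⊓ M) = U ⊓ M := by
      rw [← inf_assoc, inf_eq_left.mpr hUN]
    have h3 : finrank F ↥(U ⊔ N ⊓ M) ≤ finrank F N :=
      Submodule.finrank_mono (sup_le hUN inf_le_left)
    rw [h2] at h1
    omega
  have hf₁ := hU₁.inf_both N₂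
  have hf₂ : IsField (N₁ ⊓ N₂) fun x => U₂ x ⊓ N₁ := by
    have := hU₂.inf_both N₁
    rwa [inf_comm N₂ N₁] at this
  have hc₁ : ∀ x, finrank F ↥(N₁ ⊓ N₂) ≤ finrank F ↥(U₁ x ⊓ N₂) + R := fun x =>
    codim (hU₁.le x) (hr₁ x)
  have hc₂ : ∀ x, finrank F ↥(N₁ ⊓ N₂) ≤ finrank F ↥(U₂ x ⊓ N₁) + R := fun x => by
    rw [inf_comm N₁ N₂]
    exact codim (hU₂.le x) (hr₂ x)
  obtain ⟨I, hI, hIr, hIc⟩ := sampling (N₁ ⊓ N₂) (fun x => U₁ x ⊓ N₂) (fun y => U₂ y ⊓ N₁) R
    hc₁ hf₁.le hc₂ hf₂.le hδ
  refine ⟨I, hI, hIr, ?_⟩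
  -- distance to the joint average
  have g₁ : ∑ x, |f x - favg (fun x => U₁ x ⊓ N₂) f x| ≤ 2 * e :=
    l1_refine hU₁ (hU₁.inf_left N₂) (fun x => inf_le_left) f he₁
  have g₂ : ∑ x, |f x - favg (fun x => U₂ x ⊓ N₁) f x| ≤ 2 * e :=
    l1_refine hU₂ (hU₂.inf_left N₁) (fun x => inf_le_left) f he₂
  set W : V → Submodule F V := fun x => U₁ x ⊓ N₂ ⊔ U₂ x ⊓ N₁ with hW
  have hWf : IsField (N₁ ⊓ N₂) W := hf₁.sup hf₂
  have g₃ : ∑ x, |f x - favg W f x| ≤ 4 * e := by
    refine (l1_sup hf₁ hf₂ f g₁ g₂).trans (le_of_eq ?_)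
    ring
  -- the bad points
  have hIf : IsField (N₁ ⊓ N₂) fun _ : V => I := isField_const hI
  have bad : ∑ x, (if ¬ I ≤ W x then (1 : ℝ) else 0) ≤ δ * Fintype.card V := by
    refine diag_le hN (fun x y => if ¬ I ≤ U₁ x ⊓ N₂ ⊔ U₂ y ⊓ N₁ then (1 : ℝ) else 0) ?_ ?_ ?_
    · intro y x n hn
      simp only [hU₁.inv x n hn]
    · intro x y n hn
      simp only [hU₂.inv y n hn]
    · intro y
      refine le_trans (le_of_eq ?_) (hIc y)
      rw [Finset.sum_boole, Nat.card_eq_fintype_card, Fintype.card_subtype]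
  have habs : ∀ (U : Submodule F V) x, |avg U f x| ≤ B := fun U x =>
    (abs_avg_le U f x).trans (avg_le_of_le U hB x)
  have g₄ : ∑ x, |favg W f x - favg (fun _ => I) (favg W f) x| ≤
      2 * B * (δ * Fintype.card V) := by
    rw [favg_favg hIf hWf]
    calc ∑ x, |favg W f x - favg (fun x => I ⊔ W x) f x|
        ≤ ∑ x, 2 * B * (if ¬ I ≤ W x then (1 : ℝ) else 0) := by
          refine Finset.sum_le_sum fun x _ => ?_
          split_ifs with h
          · rw [favg, favg, sup_eq_right.mpr h, sub_self, abs_zero, mul_zero]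
          · rw [mul_one]
            calc |favg W f x - favg (fun x => I ⊔ W x) f x|
                ≤ |favg W f x| + |favg (fun x => I ⊔ W x) f x| := abs_sub _ _
              _ ≤ B + B := add_le_add (habs _ _) (habs _ _)
              _ = 2 * B := by ring
      _ = 2 * B * ∑ x, (if ¬ I ≤ W x then (1 : ℝ) else 0) := by rw [Finset.mul_sum]
      _ ≤ 2 * B * (δ * Fintype.card V) := mul_le_mul_of_nonneg_left bad (by linarith only [hB0])
  have g₅ : ∑ x, |favg (fun _ => I) (favg W f) x - favg (fun _ => I) f x| ≤ 4 * e := by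
    refine (l1_favg_sub_le hIf _ _).trans ?_
    rw [Finset.sum_congr rfl fun x _ => abs_sub_comm _ _]
    exact g₃
  have t1 := l1_triangle f (favg W f) (favg (fun _ => I) (favg W f))
  have t2 := l1_triangle f (favg (fun _ => I) (favg W f)) (favg (fun _ => I) f)
  change ∑ x, |f x - favg (fun _ => I) f x| ≤ _
  linarith only [t2, t1, g₅, g₄, g₃]

/-- The three pasts lemma. -/
theorem three_pasts {N₁ N₂ N₃ : Submodule F V}
    (hN : N₁ ⊓ N₂ ⊔ (N₁ ⊓ N₃ ⊔ N₂ ⊓ N₃) = ⊤) {U₁ U₂ U₃ : V → Submodule F V}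
    (hU₁ : IsField N₁ U₁) (hU₂ : IsField N₂ U₂) (hU₃ : IsField N₃ U₃) (R : ℕ)
    (hr₁ : ∀ x, finrank F N₁ ≤ finrank F (U₁ x) + R)
    (hr₂ : ∀ x, finrank F N₂ ≤ finrank F (U₂ x) + R)
    (hr₃ : ∀ x, finrank F N₃ ≤ finrank F (U₃ x) + R)
    (f : V → ℝ) {e B δ : ℝ} (hδ : 0 < δ) (hB : ∀ x, |f x| ≤ B)
    (he₁ : ∑ x, |f x - favg U₁ f x| ≤ e) (he₂ : ∑ x, |f x - favg U₂ f x| ≤ e)
    (he₃ : ∑ x, |f x - favg U₃ f x| ≤ e) :
    ∃ U : Submodule F V, (finrank F V : ℝ) ≤ finrank F U + 3 * (R * (R / δ)) ∧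
      ∑ x, |f x - avg U f x| ≤ 24 * e + 6 * B * (δ * Fintype.card V) := by
  have hfin : FiniteDimensional F V := Module.Finite.of_finite
  have n12 : N₂ ⊔ N₁ = ⊤ := by
    rw [eq_top_iff, ← hN]
    exact sup_le (inf_le_left.trans le_sup_right)
      (sup_le (inf_le_left.trans le_sup_right) (inf_le_left.trans le_sup_left))
  have n13 : N₃ ⊔ N₁ = ⊤ := by
    rw [eq_top_iff, ← hN]
    exact sup_le (inf_le_left.trans le_sup_right)
      (sup_le (inf_le_left.trans le_sup_right) (inf_le_right.trans le_sup_left))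
  have n23 : N₃ ⊔ N₂ = ⊤ := by
    rw [eq_top_iff, ← hN]
    exact sup_le (inf_le_right.trans le_sup_right)
      (sup_le (inf_le_right.trans le_sup_left) (inf_le_right.trans le_sup_left))
  obtain ⟨I, hI, hIr, hIe⟩ := two_pasts n12 hU₁ hU₂ R hr₁ hr₂ f hδ hB he₁ he₂
  obtain ⟨J, hJ, hJr, hJe⟩ := two_pasts n13 hU₁ hU₃ R hr₁ hr₃ f hδ hB he₁ he₃
  obtain ⟨K, hK, hKr, hKe⟩ := two_pasts n23 hU₂ hU₃ R hr₂ hr₃ f hδ hB he₂ he₃
  have codim2 : ∀ {A A' C C' : Submodule F V}, A' ≤ A → C' ≤ C →
      finrank F ↥(A ⊔ C) + finrank F A' + finrank F C' ≤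
        finrank F ↥(A' ⊔ C') + finrank F A + finrank F C := by
    intro A A' C C' hA hC
    have h1 := Submodule.finrank_sup_add_finrank_inf_eq A C
    have h2 := Submodule.finrank_sup_add_finrank_inf_eq A' C'
    have h3 : finrank F ↥(A' ⊓ C') ≤ finrank F ↥(A ⊓ C) :=
      Submodule.finrank_mono (inf_le_inf hA hC)
    omega
  refine ⟨I ⊔ (J ⊔ K), ?_, ?_⟩
  · have h1 := codim2 hJ hK
    have h2 := codim2 hI (sup_le_sup hJ hK)
    rw [hN, finrank_top] at h2
    have h1' : (finrank F ↥(N₁ ⊓ N₃ ⊔ N₂ ⊓ N₃) : ℝ) + finrank F J + finrank F K ≤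
        finrank F ↥(J ⊔ K) + finrank F ↥(N₁ ⊓ N₃) + finrank F ↥(N₂ ⊓ N₃) := by
      exact_mod_cast h1
    have h2' : (finrank F V : ℝ) + finrank F I + finrank F ↥(J ⊔ K) ≤
        finrank F ↥(I ⊔ (J ⊔ K)) + finrank F ↥(N₁ ⊓ N₂) +
          finrank F ↥(N₁ ⊓ N₃ ⊔ N₂ ⊓ N₃) := by
      exact_mod_cast h2
    linarith only [h2', h1', hKr, hJr, hIr]
  · have k₁ : ∑ x, |f x - favg (fun _ => I) f x| ≤ 8 * e + 2 * B * (δ * Fintype.card V) := hIe
    have k₂ : ∑ x, |f x - favg (fun _ => J) f x| ≤ 8 * e + 2 * B * (δ * Fintype.card V) := hJe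
    have k₃ : ∑ x, |f x - favg (fun _ => K) f x| ≤ 8 * e + 2 * B * (δ * Fintype.card V) := hKe
    have top : ∀ U : Submodule F V, IsField ⊤ fun _ : V => U := fun U => isField_const le_top
    have k₄ := l1_sup (top J) (top K) f k₂ k₃
    have k₅ := l1_sup (top I) (top (J ⊔ K)) f k₁ k₄
    change ∑ x, |f x - favg (fun _ => I ⊔ (J ⊔ K)) f x| ≤ _
    linarith only [k₅]

end Main

end Vale.Agent.P060.HW
end

section

/-! The three pasts lemma together with a bound for the Fourier coefficients. -/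

namespace Vale.Agent.P060.HW

open Finset Module

section Fourier

variable {F V : Type*} [Field F] [Fintype F] [AddCommGroup V] [Module F V] [Fintype V]

/-- The Fourier coefficient of a real weight at a linear functional. -/
noncomputable def fc (ψ : AddChar F ℂ) (f : V → ℝ) (ξ : Dual F V) : ℂ :=
  ∑ y, (f y : ℂ) * ψ (ξ y)

theorem card_carr (U : Submodule F V) : (carr U).card = Fintype.card F ^ finrank F U := by
  classical
  rw [← Module.card_eq_pow_finrank (K := F) (V := U), Fintype.card_subtype]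
  rfl

omit [Fintype F] [Fintype V] in
open Classical in
/-- Orthogonality: the sum of the characters which are trivial on `U`. -/
theorem sum_ann {ψ : AddChar F ℂ} (hψ : ψ ≠ 0) (U : Submodule F V) (z : V)
    (D : Finset (Dual F V)) (hD : ∀ ξ, ξ ∈ D ↔ ξ ∈ U.dualAnnihilator) :
    ∑ ξ ∈ D, ψ (ξ z) = if z ∈ U then (D.card : ℂ) else 0 := by
  split_ifs with h
  · rw [Finset.sum_congr rfl fun ξ hξ => by
      rw [(Submodule.mem_dualAnnihilator ξ).mp ((hD ξ).mp hξ) z h, AddChar.map_zero_eq_one]]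
    rw [Finset.sum_const, nsmul_eq_mul, mul_one]
  · -- a functional which kills `U` and not `z`
    obtain ⟨ξ₀, hξ₀, hU⟩ : ∃ ξ₀ : Dual F V, ξ₀ z ≠ 0 ∧ ∀ u ∈ U, ξ₀ u = 0 := by
      obtain ⟨g, hg, hg'⟩ := Submodule.exists_le_ker_of_notMem h
      exact ⟨g, hg, fun u hu => hg' hu⟩
    obtain ⟨a, ha⟩ : ∃ a : F, ψ a ≠ 1 := AddChar.ne_zero_iff.mp hψ
    set ξ₁ : Dual F V := (a / ξ₀ z) • ξ₀ with hξ₁
    have h1 : ξ₁ z = a := by
      rw [hξ₁, LinearMap.smul_apply, smul_eq_mul, div_mul_cancel₀ _ hξ₀]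
    have h2 : ξ₁ ∈ U.dualAnnihilator := by
      rw [Submodule.mem_dualAnnihilator]
      intro u hu
      rw [hξ₁, LinearMap.smul_apply, hU u hu, smul_zero]
    have h3 : ∑ ξ ∈ D, ψ (ξ z) = ψ a * ∑ ξ ∈ D, ψ (ξ z) := by
      rw [Finset.mul_sum]
      symm
      refine Finset.sum_bij (fun ξ _ => ξ₁ + ξ) ?_ ?_ ?_ ?_
      · intro ξ hξ
        exact (hD _).mpr (Submodule.add_mem _ h2 ((hD ξ).mp hξ))
      · intro ξ _ ξ' _ h
        exact add_left_cancel h
      · intro ξ hξ
        refine ⟨-ξ₁ + ξ, (hD _).mpr (Submodule.add_mem _ (Submodule.neg_mem _ h2)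
          ((hD ξ).mp hξ)), ?_⟩
        rw [add_neg_cancel_left]
      · intro ξ _
        rw [LinearMap.add_apply, AddChar.map_add_eq_mul, h1]
    have h4 : (ψ a - 1) * ∑ ξ ∈ D, ψ (ξ z) = 0 := by
      rw [sub_mul, one_mul, ← h3, sub_self]
    exact (mul_eq_zero.mp h4).resolve_left (sub_ne_zero.mpr ha)

theorem card_ann [Fintype (Dual F V)] (U : Submodule F V)
    (D : Finset (Dual F V)) (hD : ∀ ξ, ξ ∈ D ↔ ξ ∈ U.dualAnnihilator) :
    D.card * (carr U).card = Fintype.card V := by
  classical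
  have hfin : FiniteDimensional F V := Module.Finite.of_finite
  have h1 : D.card = Fintype.card F ^ finrank F U.dualAnnihilator := by
    rw [← Module.card_eq_pow_finrank (K := F) (V := U.dualAnnihilator), Fintype.card_subtype]
    congr 1
    ext ξ
    rw [hD, Finset.mem_filter]
    simp
  rw [h1, card_carr, ← pow_add, Module.card_eq_pow_finrank (K := F) (V := V)]
  congr 1
  have := Subspace.finrank_add_finrank_dualAnnihilator_eq U
  omega

/-- The average over the cosets of `U` in terms of the Fourier coefficients. -/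
theorem avg_eq {ψ : AddChar F ℂ} (hψ : ψ ≠ 0) [Fintype (Dual F V)] (U : Submodule F V)
    (D : Finset (Dual F V)) (hD : ∀ ξ, ξ ∈ D ↔ ξ ∈ U.dualAnnihilator) (f : V → ℝ) (x : V) :
    (avg U f x : ℂ) = (∑ ξ ∈ D, fc ψ f ξ * ψ (-(ξ x))) / Fintype.card V := by
  classical
  have hV : (Fintype.card V : ℂ) ≠ 0 := Nat.cast_ne_zero.mpr Fintype.card_ne_zero
  have hU : ((carr U).card : ℂ) ≠ 0 := by
    have := (carr_card_pos U).ne'
    exact_mod_cast this
  have h1 : ∑ ξ ∈ D, fc ψ f ξ * ψ (-(ξ x)) = ∑ y, (f y : ℂ) * ∑ ξ ∈ D, ψ (ξ (y - x)) := by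
    simp only [fc, Finset.sum_mul, Finset.mul_sum]
    rw [Finset.sum_comm]
    refine Finset.sum_congr rfl fun y _ => Finset.sum_congr rfl fun ξ _ => ?_
    rw [map_sub, sub_eq_add_neg, AddChar.map_add_eq_mul, mul_assoc]
  rw [h1]
  have h2 : ∀ y, (f y : ℂ) * ∑ ξ ∈ D, ψ (ξ (y - x)) =
      if y - x ∈ U then (f y : ℂ) * D.card else 0 := by
    intro y
    rw [sum_ann hψ U (y - x) D hD, mul_ite, mul_zero]
  rw [Finset.sum_congr rfl fun y _ => h2 y, ← Finset.sum_filter, ← Finset.sum_mul]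
  have h3 : ∑ y ∈ univ.filter (fun y => y - x ∈ U), (f y : ℂ) = ∑ u ∈ carr U, (f (x + u) : ℂ) := by
    refine Finset.sum_bij (fun y _ => y - x) ?_ ?_ ?_ ?_
    · intro y hy
      exact mem_carr.mpr (Finset.mem_filter.mp hy).2
    · intro y _ y' _ h
      exact sub_left_injective h
    · intro u hu
      refine ⟨x + u, Finset.mem_filter.mpr ⟨mem_univ _, ?_⟩, ?_⟩
      · rw [add_sub_cancel_left]
        exact mem_carr.mp hu
      · rw [add_sub_cancel_left]
    · intro y _
      rw [add_sub_cancel]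
  rw [h3, avg, Complex.ofReal_div, Complex.ofReal_sum, Complex.ofReal_natCast]
  have h4 := card_ann U D hD
  have h5 : (D.card : ℂ) * (carr U).card = Fintype.card V := by exact_mod_cast h4
  rw [← h5]
  have hDc : (D.card : ℂ) ≠ 0 := by
    intro h
    rw [h, zero_mul] at h5
    exact hV h5.symm
  field_simp

/-- If all coefficients at functionals which kill `U` and do not kill `Z` are at most `η`, then
the averages over `U` and over `U + Z` are close. -/
theorem avg_close {ψ : AddChar F ℂ} (hψ : ψ ≠ 0) (U Z : Submodule F V) (f : V → ℝ) {η : ℝ}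
    (hη0 : 0 ≤ η)
    (hη : ∀ ξ : Dual F V, (∀ u ∈ U, ξ u = 0) → (¬ ∀ z ∈ Z, ξ z = 0) → ‖fc ψ f ξ‖ ≤ η) (c : ℕ)
    (hc : finrank F V ≤ finrank F U + c) :
    ∑ x, |avg U f x - avg (U ⊔ Z) f x| ≤ (Fintype.card F : ℝ) ^ c * η := by
  classical
  have hfin : FiniteDimensional F V := Module.Finite.of_finite
  have hfd : Finite (Dual F V) := Module.finite_of_finite F
  have : Fintype (Dual F V) := Fintype.ofFinite _
  set D : Finset (Dual F V) := univ.filter fun ξ => ξ ∈ U.dualAnnihilator with hDdef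
  have hD : ∀ ξ, ξ ∈ D ↔ ξ ∈ U.dualAnnihilator := fun ξ => by simp [hDdef]
  set E : Finset (Dual F V) := univ.filter fun ξ => ξ ∈ (U ⊔ Z).dualAnnihilator with hEdef
  have hE : ∀ ξ, ξ ∈ E ↔ ξ ∈ (U ⊔ Z).dualAnnihilator := fun ξ => by simp [hEdef]
  have hED : E ⊆ D := by
    intro ξ hξ
    rw [hD]
    exact Submodule.dualAnnihilator_anti le_sup_left ((hE ξ).mp hξ)
  have hVpos : (0 : ℝ) < Fintype.card V := Nat.cast_pos.mpr Fintype.card_pos
  have hcard : (D.card : ℝ) ≤ (Fintype.card F : ℝ) ^ c := by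
    have h1 := card_ann U D hD
    rw [card_carr, Module.card_eq_pow_finrank (K := F) (V := V)] at h1
    have hFpos : 0 < Fintype.card F := Fintype.card_pos
    have h2 : D.card * Fintype.card F ^ finrank F U ≤
        Fintype.card F ^ c * Fintype.card F ^ finrank F U := by
      rw [h1, ← pow_add]
      exact Nat.pow_le_pow_right hFpos (by omega)
    have h3 := Nat.le_of_mul_le_mul_right h2 (pow_pos hFpos _)
    exact_mod_cast h3
  have hpt : ∀ x, |avg U f x - avg (U ⊔ Z) f x| ≤
      (Fintype.card F : ℝ) ^ c * η / Fintype.card V := by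
    intro x
    have h1 : ((avg U f x - avg (U ⊔ Z) f x : ℝ) : ℂ) =
        (∑ ξ ∈ D \ E, fc ψ f ξ * ψ (-(ξ x))) / Fintype.card V := by
      rw [Complex.ofReal_sub, avg_eq hψ U D hD, avg_eq hψ (U ⊔ Z) E hE, ← sub_div,
        ← Finset.sum_sdiff hED, add_sub_cancel_right]
    rw [← Real.norm_eq_abs, ← Complex.norm_real, h1, norm_div, Complex.norm_natCast]
    refine div_le_div_of_nonneg_right ?_ hVpos.le
    calc ‖∑ ξ ∈ D \ E, fc ψ f ξ * ψ (-(ξ x))‖ ≤ ∑ ξ ∈ D \ E, ‖fc ψ f ξ * ψ (-(ξ x))‖ :=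
          norm_sum_le _ _
      _ ≤ ∑ _ξ ∈ D \ E, η := by
          refine Finset.sum_le_sum fun ξ hξ => ?_
          rw [norm_mul, AddChar.norm_apply, mul_one]
          rw [Finset.mem_sdiff, hD, hE] at hξ
          have hξU : ∀ u ∈ U, ξ u = 0 := (Submodule.mem_dualAnnihilator ξ).mp hξ.1
          refine hη ξ hξU fun hZ => hξ.2 ?_
          rw [Submodule.mem_dualAnnihilator]
          intro w hw
          obtain ⟨u, hu, z, hz, rfl⟩ := Submodule.mem_sup.mp hw
          rw [map_add, hξU u hu, hZ z hz, add_zero]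
      _ = ((D \ E).card : ℝ) * η := by rw [Finset.sum_const, nsmul_eq_mul]
      _ ≤ (Fintype.card F : ℝ) ^ c * η := by
          refine mul_le_mul_of_nonneg_right (le_trans ?_ hcard) hη0
          exact_mod_cast Finset.card_le_card Finset.sdiff_subset
  calc ∑ x, |avg U f x - avg (U ⊔ Z) f x|
      ≤ ∑ _x : V, (Fintype.card F : ℝ) ^ c * η / Fintype.card V :=
        Finset.sum_le_sum fun x _ => hpt x
    _ = (Fintype.card F : ℝ) ^ c * η := by
        rw [Finset.sum_const, Finset.card_univ, nsmul_eq_mul, mul_div_assoc',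
          mul_div_cancel_left₀ _ hVpos.ne']

/-- Three pasts: if all coefficients at functionals which do not kill `Z` are small, the weight
is close to its average over the cosets of `Z`. -/
theorem three_pasts_close {ψ : AddChar F ℂ} (hψ : ψ ≠ 0) {N₁ N₂ N₃ : Submodule F V}
    (hN : N₁ ⊓ N₂ ⊔ (N₁ ⊓ N₃ ⊔ N₂ ⊓ N₃) = ⊤) {U₁ U₂ U₃ : V → Submodule F V}
    (hU₁ : IsField N₁ U₁) (hU₂ : IsField N₂ U₂) (hU₃ : IsField N₃ U₃) (R : ℕ)
    (hr₁ : ∀ x, finrank F N₁ ≤ finrank F (U₁ x) + R)
    (hr₂ : ∀ x, finrank F N₂ ≤ finrank F (U₂ x) + R)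
    (hr₃ : ∀ x, finrank F N₃ ≤ finrank F (U₃ x) + R)
    (f : V → ℝ) {e B δ η : ℝ} (hδ : 0 < δ) (hB : ∀ x, |f x| ≤ B)
    (he₁ : ∑ x, |f x - favg U₁ f x| ≤ e) (he₂ : ∑ x, |f x - favg U₂ f x| ≤ e)
    (he₃ : ∑ x, |f x - favg U₃ f x| ≤ e) (Z : Submodule F V) (hη0 : 0 ≤ η)
    (hη : ∀ ξ : Dual F V, (¬ ∀ z ∈ Z, ξ z = 0) → ‖fc ψ f ξ‖ ≤ η) (c : ℕ)
    (hc : 3 * (R * (R / δ)) ≤ c) :
    ∑ x, |f x - avg Z f x| ≤
      2 * (24 * e + 6 * B * (δ * Fintype.card V) + (Fintype.card F : ℝ) ^ c * η) := by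
  obtain ⟨U, hU, hUe⟩ := three_pasts hN hU₁ hU₂ hU₃ R hr₁ hr₂ hr₃ f hδ hB he₁ he₂ he₃
  have h1 : finrank F V ≤ finrank F U + c := by
    have : (finrank F V : ℝ) ≤ ((finrank F U + c : ℕ) : ℝ) := by
      push_cast
      linarith only [hc, hU]
    exact_mod_cast this
  have h2 := avg_close hψ U Z f hη0 (fun ξ _ h => hη ξ h) c h1
  have h3 := l1_triangle f (avg U f) (avg (U ⊔ Z) f)
  have h4 : ∑ x, |f x - favg (fun _ => U ⊔ Z) f x| ≤
      24 * e + 6 * B * (δ * Fintype.card V) + (Fintype.card F : ℝ) ^ c * η := by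
    change ∑ x, |f x - avg (U ⊔ Z) f x| ≤ _
    linarith only [h3, h2, hUe]
  exact l1_refine (N := ⊤) (isField_const le_top) (isField_const le_top)
    (fun _ => le_sup_right) f h4

end Fourier

end Vale.Agent.P060.HW
end

section

/-!
# OUT-A: the core statement

Among many pairwise line-disjoint types with dense sets of parameters there are two different types
with many adjacent pairs.
-/

open scoped Classical

noncomputable section

set_option linter.unusedSectionVars false

namespace Vale.Agent.P060.HW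

/-- Core of OUT-A. -/
def NOACore : Prop := ∀ δ : ℝ, 0 < δ → ∃ M : ℕ, ∀ (N d : ℕ) (E P Om : Type) [Fintype E] [Fintype P]
  [Fintype Om] [NeZero N] (fr : Frame N d E Om) (p : Lin N → Co E P Om → F) (h : Ext fr p)
  (κ : ℕ), 12 ≤ κ → (∀ w, 12 + (rowLines fr w).card ≤ κ) → Ev1 p κ →
  ∀ (S : Finset (Ty N d)), M ≤ S.card → (∀ a ∈ S, ∀ b ∈ S, a ≠ b → Disjoint (lins a) (lins b)) →
  ∀ (A : Ty N d → Finset (Matrix (Co E P Om) (Co E P Om) F)) (ι : Ty N d → Bool),
    (∀ a ∈ S, δ * Fintype.card (Matrix (Co E P Om) (Co E P Om) F) ≤ ((A a).card : ℝ)) →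
    ∃ a ∈ S, ∃ b ∈ S, a ≠ b ∧
      δ ^ 2 * (Fintype.card (Matrix (Co E P Om) (Co E P Om) F) : ℝ) ^ 2 ≤
        20168 * (2521 : ℝ) ^ Fintype.card (Co E P Om) *
          (((A a ×ˢ A b).filter fun x =>
            (dsg fr p h).Adj (a, ι a, x.1) (b, ι b, x.2)).card : ℝ)

end Vale.Agent.P060.HW
end
end

section

/-!
# Annihilators of the direction spaces

`AnnDirect`, `AnnConverse`, `Unif` of `Frame.lean`.
-/

open scoped Classical

noncomputable section

namespace Vale.Agent.P060.HW

open Module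

section pairing

variable {K : Type*} [Fintype K]

lemma ann_pr_add (Q Q' B : Matrix K K F) : pr (Q + Q') B = pr Q B + pr Q' B := by
  unfold pr
  rw [← Finset.sum_add_distrib]
  refine Finset.sum_congr rfl fun i _ => ?_
  rw [← Finset.sum_add_distrib]
  exact Finset.sum_congr rfl fun j _ => by rw [Matrix.add_apply, add_mul]

lemma ann_pr_smul (c : F) (Q B : Matrix K K F) : pr (c • Q) B = c * pr Q B := by
  unfold pr
  rw [Finset.mul_sum]
  refine Finset.sum_congr rfl fun i _ => ?_
  rw [Finset.mul_sum]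
  exact Finset.sum_congr rfl fun j _ => by rw [Matrix.smul_apply, smul_eq_mul, mul_assoc]

lemma ann_pr_zero (B : Matrix K K F) : pr 0 B = 0 := by
  unfold pr
  exact Finset.sum_eq_zero fun i _ => Finset.sum_eq_zero fun j _ => by simp

lemma ann_pr_add_right (Q B B' : Matrix K K F) : pr Q (B + B') = pr Q B + pr Q B' := by
  unfold pr
  rw [← Finset.sum_add_distrib]
  refine Finset.sum_congr rfl fun i _ => ?_
  rw [← Finset.sum_add_distrib]
  exact Finset.sum_congr rfl fun j _ => by rw [Matrix.add_apply, mul_add]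

lemma ann_pr_smul_right (c : F) (Q B : Matrix K K F) : pr Q (c • B) = c * pr Q B := by
  unfold pr
  rw [Finset.mul_sum]
  refine Finset.sum_congr rfl fun i _ => ?_
  rw [Finset.mul_sum]
  exact Finset.sum_congr rfl fun j _ => by rw [Matrix.smul_apply, smul_eq_mul]; ring

/-- the pairing as a linear map in the first argument -/
def ann_prL (B : Matrix K K F) : Matrix K K F →ₗ[F] F where
  toFun := fun Q => pr Q B
  map_add' := fun Q Q' => ann_pr_add Q Q' B
  map_smul' := fun c Q => ann_pr_smul c Q B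

/-- the pairing as a linear map in the second argument -/
def ann_prR (Q : Matrix K K F) : Matrix K K F →ₗ[F] F where
  toFun := fun B => pr Q B
  map_add' := fun B B' => ann_pr_add_right Q B B'
  map_smul' := fun c B => ann_pr_smul_right c Q B

lemma ann_pr_transpose (Q B : Matrix K K F) : pr Q B.transpose = pr Q.transpose B := by
  unfold pr
  rw [Finset.sum_comm]
  exact Finset.sum_congr rfl fun i _ => Finset.sum_congr rfl fun j _ => rfl

/-- the pairing of a symmetric product with a symmetric matrix -/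
lemma ann_pr_sm {B : Matrix K K F} (hB : B.IsSymm) (u v : K → F) :
    pr (sm u v) B = 2 * (u ⬝ᵥ (B.mulVec v)) := by
  have h1 : pr (sm u v) B = (∑ i, ∑ j, u i * v j * B i j) + ∑ i, ∑ j, v i * u j * B i j := by
    unfold pr sm
    rw [← Finset.sum_add_distrib]
    refine Finset.sum_congr rfl fun i _ => ?_
    rw [← Finset.sum_add_distrib]
    refine Finset.sum_congr rfl fun j _ => ?_
    rw [Matrix.add_apply, Matrix.vecMulVec_apply, Matrix.vecMulVec_apply, add_mul]
  have h2 : (∑ i, ∑ j, v i * u j * B i j) = ∑ i, ∑ j, u i * v j * B i j := by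
    rw [Finset.sum_comm]
    refine Finset.sum_congr rfl fun i _ => Finset.sum_congr rfl fun j _ => ?_
    have h3 : B j i = B i j := by
      have := congrFun (congrFun hB i) j
      rwa [Matrix.transpose_apply] at this
    rw [h3]; ring
  have h4 : (∑ i, ∑ j, u i * v j * B i j) = u ⬝ᵥ (B.mulVec v) := by
    unfold dotProduct Matrix.mulVec dotProduct
    refine Finset.sum_congr rfl fun i _ => ?_
    rw [Finset.mul_sum]
    exact Finset.sum_congr rfl fun j _ => by ring
  rw [h1, h2, h4]; ring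

/-- every linear functional on matrices is a pairing -/
lemma ann_exists_pr (f : Matrix K K F →ₗ[F] F) : ∃ M : Matrix K K F, ∀ Q, f Q = pr Q M := by
  refine ⟨fun i j => f (Matrix.single i j 1), fun Q => ?_⟩
  conv_lhs => rw [Matrix.matrix_eq_sum_single Q]
  rw [map_sum]
  unfold pr
  refine Finset.sum_congr rfl fun i _ => ?_
  rw [map_sum]
  refine Finset.sum_congr rfl fun j _ => ?_
  have h1 : Matrix.single i j (Q i j) = Q i j • (Matrix.single i j (1 : F)) := by
    rw [Matrix.smul_single, smul_eq_mul, mul_one]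
  rw [h1, map_smul, smul_eq_mul]

end pairing

lemma ann_two_ne : (2 : F) ≠ 0 := by decide

theorem annDirect : AnnDirect := by
  intro K T _ δ a Q hQ B hB
  have hBs : B.IsSymm := hB.1.1
  have hle : δ.Nn a ≤ LinearMap.ker (ann_prL B) := by
    unfold Design.Nn
    rw [Submodule.span_le]
    rintro Q ((⟨c, w, hw, rfl⟩ | ⟨w, hw, v, rfl⟩) | ⟨v, rfl⟩)
    · show pr (sm (Pi.single w 1) (δ.g c)) B = 0
      rw [ann_pr_sm hBs, single_dotProduct, one_mul, hB.1.2 c w hw, mul_zero]
    · show pr (sm (Pi.single w 1) v) B = 0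
      rw [ann_pr_sm hBs, single_dotProduct, one_mul]
      have h1 : (B.mulVec v) w = 0 := by
        unfold Matrix.mulVec dotProduct
        refine Finset.sum_eq_zero fun j _ => ?_
        show B w j * v j = 0
        rw [hB.2.1 w hw j, zero_mul]
      rw [h1, mul_zero]
    · show pr (sm v (δ.g a)) B = 0
      rw [ann_pr_sm hBs, hB.2.2, dotProduct_zero, mul_zero]
  exact hle hQ

theorem annConverse : AnnConverse := by
  intro K T _ δ a Q hQs hQ
  by_contra hcon
  obtain ⟨f, hf, hS⟩ := Submodule.exists_le_ker_of_notMem hcon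
  obtain ⟨M, hM⟩ := ann_exists_pr f
  have hN : ∀ X ∈ δ.Nn a, pr X M = 0 := fun X hX => by
    rw [← hM]; exact LinearMap.mem_ker.1 (hS hX)
  set B : Matrix K K F := M + M.transpose with hBdef
  have hBs : B.IsSymm := by
    rw [hBdef]; exact Matrix.isSymm_add_transpose_self M
  have hpB : ∀ X : Matrix K K F, X.IsSymm → pr X B = 2 * pr X M := by
    intro X hX
    have hX' : X.transpose = X := hX
    rw [hBdef, ann_pr_add_right, ann_pr_transpose, hX', two_mul]
  have hsm : ∀ u v : K → F, (sm u v).IsSymm := by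
    intro u v
    show (sm u v).transpose = sm u v
    ext i j
    simp only [sm, Matrix.transpose_apply, Matrix.add_apply, Matrix.vecMulVec_apply]
    ring
  have hkey : ∀ u v : K → F, sm u v ∈ δ.Nn a → u ⬝ᵥ (B.mulVec v) = 0 := by
    intro u v huv
    have h1 := hpB _ (hsm u v)
    rw [hN _ huv, mul_zero, ann_pr_sm hBs] at h1
    exact (mul_eq_zero.1 h1).resolve_left ann_two_ne
  have hBD : B ∈ δ.Dir a := by
    rw [Design.mem_Dir, Design.mem_Com]
    refine ⟨⟨hBs, fun c w hw => ?_⟩, fun w hw v => ?_, ?_⟩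
    · have h1 := hkey (Pi.single w 1) (δ.g c)
        (Submodule.subset_span (Or.inl (Or.inl ⟨c, w, hw, rfl⟩)))
      rwa [single_dotProduct, one_mul] at h1
    · have h1 := hkey (Pi.single w 1) (Pi.single v 1)
        (Submodule.subset_span (Or.inl (Or.inr ⟨w, hw, _, rfl⟩)))
      rw [single_dotProduct, one_mul, Matrix.mulVec_single_one] at h1
      exact h1
    · funext i
      have h1 := hkey (Pi.single i 1) (δ.g a) (Submodule.subset_span (Or.inr ⟨_, rfl⟩))
      rwa [single_dotProduct, one_mul] at h1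
  have h2 := hQ B hBD
  rw [hpB Q hQs] at h2
  have h3 := (mul_eq_zero.1 h2).resolve_left ann_two_ne
  exact hf ((hM Q).trans h3)

/-- fibres of a surjective linear map onto `F ^ R` -/
lemma ann_card_fiber {V : Type*} [AddCommGroup V] [Module F V] (R : ℕ)
    (Φ : V →ₗ[F] (Fin R → F)) (hΦ : Function.Surjective Φ) (v : Fin R → F) :
    Nat.card {B : V // Φ B = v} * 2521 ^ R = Nat.card V := by
  obtain ⟨s, hs⟩ := Φ.exists_rightInverse_of_surjective (LinearMap.range_eq_top.2 hΦ)
  have hs' : ∀ w, Φ (s w) = w := fun w => LinearMap.congr_fun hs w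
  have e : ({B : V // Φ B = v} × (Fin R → F)) ≃ V :=
    { toFun := fun x => x.1.1 + s x.2
      invFun := fun B => (⟨B - s (Φ B - v), by rw [map_sub, hs']; abel⟩, Φ B - v)
      left_inv := by
        rintro ⟨⟨B, hB⟩, w⟩
        have h1 : Φ (B + s w) - v = w := by rw [map_add, hB, hs']; abel
        refine Prod.ext (Subtype.ext ?_) h1
        show B + s w - s (Φ (B + s w) - v) = B
        rw [h1]; abel
      right_inv := by
        intro B
        show B - s (Φ B - v) + s (Φ B - v) = B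
        abel }
  rw [← Nat.card_congr e, Nat.card_prod]
  congr 1
  rw [Nat.card_eq_fintype_card, Fintype.card_fun, ZMod.card, Fintype.card_fin]

theorem unif : Unif := by
  intro K T _ δ a R Q hQs hQ v
  let Φ : δ.Dir a →ₗ[F] (Fin R → F) :=
    LinearMap.pi fun i => (ann_prR (Q i)).comp (δ.Dir a).subtype
  have hΦ : ∀ (B : δ.Dir a) (i : Fin R), Φ B i = pr (Q i) (B : Matrix K K F) := fun B i => rfl
  have hsurj : Function.Surjective Φ := by
    rw [← LinearMap.range_eq_top]
    by_contra hne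
    obtain ⟨f, hf, hle⟩ := Submodule.exists_le_ker_of_lt_top _ (lt_top_iff_ne_top.2 hne)
    let c : Fin R → F := fun i => f (fun j => if i = j then 1 else 0)
    have hfc : ∀ t : Fin R → F, f t = ∑ i, t i * c i := fun t => by
      rw [LinearMap.pi_apply_eq_sum_univ f t]; rfl
    have hsum : (∑ i, c i • Q i) ∈ δ.Nn a := by
      refine annConverse K T δ a _ ?_ fun B hB => ?_
      · show (∑ i, c i • Q i).transpose = ∑ i, c i • Q i
        rw [Matrix.transpose_sum]
        refine Finset.sum_congr rfl fun i _ => ?_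
        rw [Matrix.transpose_smul, hQs i]
      · have h1 : Φ ⟨B, hB⟩ ∈ LinearMap.range Φ := ⟨_, rfl⟩
        have h2 : f (Φ ⟨B, hB⟩) = 0 := hle h1
        rw [hfc] at h2
        have h3 : pr (∑ i, c i • Q i) B = ∑ i, c i * pr (Q i) B := by
          have h4 : ann_prL B (∑ i, c i • Q i) = ∑ i, c i * ann_prL B (Q i) := by
            rw [map_sum]
            exact Finset.sum_congr rfl fun i _ => by rw [map_smul, smul_eq_mul]
          exact h4
        rw [h3, ← h2]
        exact Finset.sum_congr rfl fun i _ => by rw [hΦ, mul_comm]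
    have hzero : ∑ i, c i • (δ.Nn a).mkQ (Q i) = 0 := by
      have h5 : (δ.Nn a).mkQ (∑ i, c i • Q i) = 0 := by
        rw [Submodule.mkQ_apply, Submodule.Quotient.mk_eq_zero]
        exact hsum
      rw [map_sum] at h5
      rw [← h5]
      exact Finset.sum_congr rfl fun i _ => by rw [map_smul]
    have hc0 := Fintype.linearIndependent_iff.1 hQ c hzero
    refine hf (LinearMap.ext fun t => ?_)
    rw [hfc]
    simp [hc0]
  have h6 := ann_card_fiber R Φ hsurj v
  rw [← h6]
  congr 1
  refine Nat.card_congr (Equiv.subtypeEquivRight fun B => ?_)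
  constructor
  · intro h
    funext i
    rw [hΦ]; exact h i
  · intro h i
    rw [← hΦ, h]

end Vale.Agent.P060.HW
end
end

section

/-!
# The entropy budget of a law with bounded density, and the number of biased tests
-/

open scoped Classical

noncomputable section

set_option linter.unusedSectionVars false

namespace Vale.Agent.P060.HW

open Module

namespace Budget

section Abstract

theorem card_ker_range {K : Type*} [Field K] [Finite K] {V M : Type*} [AddCommGroup V]
    [Module K V] [Module.Finite K V] [AddCommGroup M] [Module K M] [Module.Finite K M]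
    (ρ : V →ₗ[K] M) :
    Nat.card V = Nat.card (LinearMap.ker ρ) * Nat.card K ^ finrank K (LinearMap.range ρ) := by
  have h1 : Nat.card (LinearMap.ker ρ) = Nat.card K ^ finrank K (LinearMap.ker ρ) :=
    Module.natCard_eq_pow_finrank
  rw [Module.natCard_eq_pow_finrank (K := K) (V := V), h1, ← pow_add,
    ← LinearMap.finrank_range_add_finrank_ker ρ, add_comm]

/-- The rank of the restriction of a pairing. -/
theorem le_rank_restrict {K : Type*} [Field K] {V W : Type*} [AddCommGroup V]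
    [Module K V] [AddCommGroup W] [Module K W] [FiniteDimensional K W]
    (pair : V →ₗ[K] Dual K W) (N G : Submodule K W)
    (hG : ∀ Q ∈ G, (∀ v, pair v Q = 0) → Q ∈ N) :
    finrank K G ≤ finrank K (LinearMap.range ((LinearMap.lcomp K K G.subtype).comp pair)) +
      finrank K N := by
  have h1 := Subspace.finrank_add_finrank_dualCoannihilator_eq
    (LinearMap.range ((LinearMap.lcomp K K G.subtype).comp pair))
  have h2 : finrank K (Submodule.map G.subtype
      (LinearMap.range ((LinearMap.lcomp K K G.subtype).comp pair)).dualCoannihilator) ≤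
      finrank K N := by
    refine Submodule.finrank_mono ?_
    rintro _ ⟨Q, hQ, rfl⟩
    refine hG Q Q.2 fun v => ?_
    exact (Submodule.mem_dualCoannihilator Q).1 hQ
      ((LinearMap.lcomp K K G.subtype).comp pair v) ⟨v, rfl⟩
  rw [Submodule.finrank_map_subtype_eq] at h2
  rw [← h1]
  exact Nat.add_le_add_left h2 _

variable {Ω : Type*} [Fintype Ω] {K : Type*} [Field K] [Finite K] {W : Type*} [AddCommGroup W]
  [Module K W] [FiniteDimensional K W]

theorem ent_const (P : FinProb Ω) (X : Ω → Dual K W) (N : Submodule K W) (x0 : Dual K W)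
    (h : ∀ ω, 0 < P.w ω → ∀ Q ∈ N, X ω Q = x0 Q) : Lat.ent P X N = 0 := by
  unfold Lat.ent FinProb.H
  refine Finset.sum_eq_zero fun ω _ => ?_
  rcases P.w_zero_or_pos ω with h0 | h0
  · rw [h0, zero_mul]
  · have h1 : P.p (Lat.ev X N) (Lat.ev X N ω) = 1 := by
      unfold FinProb.p
      rw [← P.sum_one]
      refine Finset.sum_congr rfl fun ω' _ => ?_
      rcases P.w_zero_or_pos ω' with h2 | h2
      · rw [h2, ite_self]
      · rw [if_pos]
        rw [Lat.ev_eq_iff]
        intro Q hQ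
        rw [h ω' h2 Q hQ, h ω h0 Q hQ]
    rw [h1, Real.log_one, neg_zero, mul_zero]

/-- The entropy budget: a law on an affine space `y0 + H` with density at most `Λ` has deficit at
most `log Λ` on every `G`, relative to the functionals trivial on `H`. -/
theorem deficit {V : Type*} [AddCommGroup V] [Module K V] [Fintype V] (pair : V →ₗ[K] Dual K W)
    (P : FinProb Ω) (Y : Ω → V) (H : Submodule K V) (y0 : V)
    (Λ : ℝ) (hmem : ∀ ω, 0 < P.w ω → Y ω - y0 ∈ H) (hp : ∀ y, P.p Y y * Nat.card H ≤ Λ)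
    (N G : Submodule K W) (hN : ∀ Q ∈ N, ∀ y ∈ H, pair y Q = 0)
    (hG : ∀ Q ∈ G, (∀ y ∈ H, pair y Q = 0) → Q ∈ N) :
    Lat.D P (fun ω => pair (Y ω)) G - Lat.D P (fun ω => pair (Y ω)) N ≤ Real.log Λ := by
  have hfinG : Finite (Dual K G) := Module.finite_of_finite K
  have hfinV : Module.Finite K V := Module.Finite.of_finite
  set X : Ω → Dual K W := fun ω => pair (Y ω) with hX
  -- entropy on `N`
  have hentN : Lat.ent P X N = 0 := by
    refine ent_const P X N (pair y0) fun ω hω Q hQ => ?_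
    have := hN Q hQ _ (hmem ω hω)
    rw [map_sub, LinearMap.sub_apply] at this
    exact sub_eq_zero.1 this
  -- the restriction map
  let ρ : H →ₗ[K] Dual K G := (LinearMap.lcomp K K G.subtype).comp (pair.comp H.subtype)
  have hrank : finrank K G ≤ finrank K (LinearMap.range ρ) + finrank K N :=
    le_rank_restrict (pair.comp H.subtype) N G fun Q hQ h => hG Q hQ fun y hy => h ⟨y, hy⟩
  have hcardH := card_ker_range ρ
  have hker : 0 < Nat.card (LinearMap.ker ρ) := Nat.card_pos
  have hK : 1 < Nat.card K := Finite.one_lt_card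
  have hK0 : (0 : ℝ) < Nat.card K := by exact_mod_cast (by omega : 0 < Nat.card K)
  have hcH : (0 : ℝ) < Nat.card H := by exact_mod_cast Nat.card_pos
  have hΛ : 0 < Λ := by
    obtain ⟨ω, hω⟩ : ∃ ω, 0 < P.w ω := by
      by_contra h
      push Not at h
      have h1 : ∑ ω, P.w ω ≤ 0 := Finset.sum_nonpos fun ω _ => h ω
      rw [P.sum_one] at h1
      linarith only [h1]
    exact lt_of_lt_of_le (mul_pos (P.p_pos hω Y) hcH) (hp (Y ω))
  -- the bound for the atoms of the restriction
  have hatom : ∀ e, P.p (Lat.ev X G) e ≤ Λ / (Nat.card K : ℝ) ^ finrank K (LinearMap.range ρ) := by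
    intro e
    set S : Finset V := Finset.univ.filter fun y => y - y0 ∈ H ∧
      (LinearMap.lcomp K K G.subtype).comp pair y = e with hS
    have h1 : P.p (Lat.ev X G) e ≤ ∑ y ∈ S, P.p Y y := by
      unfold FinProb.p
      rw [Finset.sum_comm]
      refine Finset.sum_le_sum fun ω _ => ?_
      rw [Finset.sum_ite_eq]
      by_cases h2 : Lat.ev X G ω = e
      · rw [if_pos h2]
        rcases P.w_zero_or_pos ω with h3 | h3
        · rw [h3]; split_ifs <;> exact le_rfl
        · rw [if_pos]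
          rw [hS, Finset.mem_filter]
          exact ⟨Finset.mem_univ _, hmem ω h3, h2⟩
      · rw [if_neg h2]
        split_ifs
        · exact P.nonneg ω
        · exact le_rfl
    have h2 : S.card ≤ Nat.card (LinearMap.ker ρ) := by
      rcases S.eq_empty_or_nonempty with h3 | ⟨φ0, hφ0⟩
      · rw [h3, Finset.card_empty]; exact Nat.zero_le _
      · rw [hS, Finset.mem_filter] at hφ0
        have hsub : ∀ φ : S, (φ : V) - φ0 ∈ H := by
          intro φ
          have h5 := (Finset.mem_filter.1 φ.2).2.1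
          have h6 := H.sub_mem h5 hφ0.2.1
          rwa [sub_sub_sub_cancel_right] at h6
        have hk : ∀ φ : S, (⟨(φ : V) - φ0, hsub φ⟩ : H) ∈ LinearMap.ker ρ := by
          intro φ
          rw [LinearMap.mem_ker]
          show (LinearMap.lcomp K K G.subtype).comp pair ((φ : V) - φ0) = 0
          rw [map_sub, (Finset.mem_filter.1 φ.2).2.2, hφ0.2.2, sub_self]
        have h4 : Nat.card S ≤ Nat.card (LinearMap.ker ρ) := by
          refine Nat.card_le_card_of_injective
            (fun φ : S => (⟨⟨(φ : V) - φ0, hsub φ⟩, hk φ⟩ : LinearMap.ker ρ)) ?_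
          intro φ φ' h5
          have h6 := congrArg (fun x : LinearMap.ker ρ => ((x : H) : V)) h5
          simp only at h6
          exact Subtype.ext (sub_left_injective h6)
        rwa [Nat.card_eq_fintype_card, Fintype.card_coe] at h4
    have h3 : ∑ φ ∈ S, P.p Y φ ≤ Nat.card (LinearMap.ker ρ) * (Λ / Nat.card H) := by
      calc ∑ φ ∈ S, P.p Y φ ≤ ∑ _φ ∈ S, Λ / Nat.card H := by
            refine Finset.sum_le_sum fun φ _ => ?_
            rw [le_div_iff₀ hcH]
            exact hp φ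
        _ = S.card * (Λ / Nat.card H) := by rw [Finset.sum_const, nsmul_eq_mul]
        _ ≤ _ := by
            refine mul_le_mul_of_nonneg_right (by exact_mod_cast h2) ?_
            exact div_nonneg hΛ.le hcH.le
    refine h1.trans (h3.trans (le_of_eq ?_))
    rw [hcardH, Nat.cast_mul, Nat.cast_pow]
    have h4 : (Nat.card (LinearMap.ker ρ) : ℝ) ≠ 0 := by exact_mod_cast hker.ne'
    have h5 : ((Nat.card K : ℝ) ^ finrank K (LinearMap.range ρ)) ≠ 0 := by positivity
    field_simp
  have hent := P.neg_log_le_H (Lat.ev X G) _ hatom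
  rw [Real.log_div hΛ.ne' (by positivity), Real.log_pow] at hent
  have hr : (finrank K G : ℝ) ≤ finrank K (LinearMap.range ρ) + finrank K N := by
    exact_mod_cast hrank
  have hlog : 0 ≤ Real.log (Nat.card K) := Real.log_nonneg (by exact_mod_cast hK.le)
  have h9 := mul_le_mul_of_nonneg_right hr hlog
  unfold Lat.D
  rw [hentN]
  unfold Lat.ent
  rw [add_mul] at h9
  linarith only [h9, hent]

end Abstract

section Spec

variable {K T : Type} [Fintype K]

/-- The probability space of a pair law. -/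
def prob {δ : Design K T} {a a' : T} {ι ι' : Bool} {Λ M : ℝ}
    {w : Matrix K K F → Matrix K K F → ℝ} (hw : PLaw δ a a' ι ι' Λ M w) :
    FinProb (Matrix K K F × Matrix K K F) where
  w := fun ω => w ω.1 ω.2
  nonneg := fun ω => hw.nonneg _ _
  sum_one := by rw [Fintype.sum_prod_type]; exact hw.sum_one

/-- The pairing of pairs of matrices. -/
def pair2 (K : Type) [Fintype K] :
    (Matrix K K F × Matrix K K F) →ₗ[F] Dual F (Matrix K K F × Matrix K K F) :=
  LinearMap.mk₂ F (fun B Q => pr Q.1 B.1 + pr Q.2 B.2)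
    (fun B B' Q => by
      simp only [Prod.fst_add, Prod.snd_add, ann_pr_add_right]; ring)
    (fun c B Q => by
      simp only [Prod.smul_fst, Prod.smul_snd, ann_pr_smul_right, smul_eq_mul]; ring)
    (fun B Q Q' => by
      simp only [Prod.fst_add, Prod.snd_add, ann_pr_add]; ring)
    (fun c B Q => by
      simp only [Prod.smul_fst, Prod.smul_snd, ann_pr_smul, smul_eq_mul]; ring)

lemma pair2_apply (B Q : Matrix K K F × Matrix K K F) :
    pair2 K B Q = pr Q.1 B.1 + pr Q.2 B.2 := rfl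

lemma card_prod (S S' : Submodule F (Matrix K K F)) :
    Nat.card (S.prod S') = Nat.card S * Nat.card S' := by
  rw [← Nat.card_prod]
  exact Nat.card_congr
    { toFun := fun x => (⟨x.1.1, x.2.1⟩, ⟨x.1.2, x.2.2⟩)
      invFun := fun x => ⟨(x.1.1, x.2.1), x.1.2, x.2.2⟩
      left_inv := fun x => rfl
      right_inv := fun x => rfl }

lemma isSymm_of_form {δ : Design K T} {a : T} {ι : Bool} {B : Matrix K K F}
    (h : B ∈ δ.Form a ι) : B.IsSymm := by
  have h1 : (B - (if ι then δ.B0 a else 0)).IsSymm := h.1.1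
  have h2 : (if ι then δ.B0 a else 0 : Matrix K K F).IsSymm := by
    split_ifs
    · exact (δ.B0_mem_Com a).1
    · exact Matrix.isSymm_zero
  have h3 := h1.add h2
  rwa [sub_add_cancel] at h3

/-- BUDGET: the deficit of a pair law relative to the trivial tensors is at most `log Λ`. -/
theorem budget {δ : Design K T} {a a' : T} {ι ι' : Bool} {Λ M : ℝ}
    {w : Matrix K K F → Matrix K K F → ℝ} (hw : PLaw δ a a' ι ι' Λ M w)
    (G : Submodule F (Matrix K K F × Matrix K K F))
    (hG : ∀ Q ∈ G, Q.1.IsSymm ∧ Q.2.IsSymm) :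
    Lat.D (prob hw) (fun ω => pair2 K ω) G -
      Lat.D (prob hw) (fun ω => pair2 K ω) ((δ.Nn a).prod (δ.Nn a')) ≤ Real.log Λ := by
  refine deficit (pair2 K) (prob hw) (fun ω => ω) ((δ.Dir a).prod (δ.Dir a'))
    (if ι then δ.B0 a else 0, if ι' then δ.B0 a' else 0) Λ ?_ ?_ _ G ?_ ?_
  · intro ω hω
    have h1 := hw.supp ω.1 ω.2 (ne_of_gt hω)
    exact ⟨h1.1, h1.2⟩
  · intro y
    have h1 : (prob hw).p (fun ω => ω) y = w y.1 y.2 := by
      unfold FinProb.p
      rw [Finset.sum_eq_single y]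
      · rw [if_pos rfl]; rfl
      · intro ω _ hω; rw [if_neg hω]
      · intro h; exact absurd (Finset.mem_univ _) h
    rw [h1, card_prod, Nat.cast_mul]
    exact hw.joint y.1 y.2
  · intro Q hQ y hy
    rw [pair2_apply, annDirect K T δ a Q.1 hQ.1 y.1 hy.1, annDirect K T δ a' Q.2 hQ.2 y.2 hy.2,
      add_zero]
  · intro Q hQ h
    refine ⟨annConverse K T δ a Q.1 (hG Q hQ).1 fun B hB => ?_,
      annConverse K T δ a' Q.2 (hG Q hQ).2 fun B hB => ?_⟩
    · have := h (B, 0) ⟨hB, Submodule.zero_mem _⟩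
      rw [pair2_apply] at this
      simpa [pr] using this
    · have := h (0, B) ⟨Submodule.zero_mem _, hB⟩
      rw [pair2_apply] at this
      simpa [pr] using this

/-- half of the tensor pair of a functional of the test values -/
def tz (g g' : K → F) (z : Fin 4 → K → F) : Matrix K K F × Matrix K K F :=
  (2⁻¹ : F) • (smm ![z 0, z 1] ![g, g'], smm ![z 2, z 3] ![g, g'])

lemma pr_smm2 {B : Matrix K K F} (hB : B.IsSymm) (u v g g' : K → F) :
    pr ((2⁻¹ : F) • smm ![u, v] ![g, g']) B = u ⬝ᵥ B.mulVec g + v ⬝ᵥ B.mulVec g' := by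
  rw [ann_pr_smul]
  have h1 : smm ![u, v] ![g, g'] = sm u g + sm v g' := by
    unfold smm
    rw [Fin.sum_univ_two]
    rfl
  rw [h1, ann_pr_add, ann_pr_sm hB, ann_pr_sm hB, ← mul_add, ← mul_assoc,
    inv_mul_cancel₀ ann_two_ne, one_mul]

/-- The functional of the test values is the pairing with `tz`. -/
lemma pair2_tz {B B' : Matrix K K F} (hB : B.IsSymm) (hB' : B'.IsSymm) (g g' : K → F)
    (z : Fin 4 → K → F) : pair2 K (B, B') (tz g g' z) = ∑ i, z i ⬝ᵥ tv g g' B B' i := by
  rw [pair2_apply]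
  show pr ((2⁻¹ : F) • smm ![z 0, z 1] ![g, g']) B + pr ((2⁻¹ : F) • smm ![z 2, z 3] ![g, g']) B'
    = _
  rw [pr_smm2 hB, pr_smm2 hB', Fin.sum_univ_four]
  simp only [tv, Matrix.cons_val_zero, Matrix.cons_val_one, Matrix.cons_val]
  ring

lemma coefT_eq {δ : Design K T} {a a' : T} {ι ι' : Bool} {Λ M : ℝ}
    {w : Matrix K K F → Matrix K K F → ℝ} (hw : PLaw δ a a' ι ι' Λ M w) (ψ : AddChar F ℂ)
    (g g' : K → F) (z : Fin 4 → K → F) :
    coefT ψ w g g' z = ∑ ω, ((prob hw).w ω : ℂ) * ψ (pair2 K ω (tz g g' z)) := by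
  unfold coefT
  rw [Fintype.sum_prod_type]
  refine Finset.sum_congr rfl fun B _ => Finset.sum_congr rfl fun B' _ => ?_
  show (w B B' : ℂ) * _ = (w B B' : ℂ) * _
  by_cases h : w B B' = 0
  · rw [h, Complex.ofReal_zero, zero_mul, zero_mul]
  · have h1 := hw.supp B B' h
    rw [pair2_tz (isSymm_of_form h1.1) (isSymm_of_form h1.2)]

lemma tz_symm (g g' : K → F) (z : Fin 4 → K → F) :
    (tz g g' z).1.IsSymm ∧ (tz g g' z).2.IsSymm := by
  have h : ∀ u v : K → F, (smm ![u, v] ![g, g']).IsSymm := by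
    intro u v
    ext i j
    rw [Matrix.transpose_apply]
    simp only [smm, sm, Fin.sum_univ_two, Matrix.add_apply, Matrix.vecMulVec_apply,
      Matrix.cons_val_zero, Matrix.cons_val_one]
    ring
  exact ⟨(h _ _).smul _, (h _ _).smul _⟩

/-- (hR), indexed form: at most `2 log Λ / η²` tests with a coefficient `≥ η` are independent
modulo the trivial tensors. -/
theorem rank_biased (hRL : RankLem) {δ : Design K T} {a a' : T} {ι ι' : Bool} {Λ M : ℝ}
    {w : Matrix K K F → Matrix K K F → ℝ} (hw : PLaw δ a a' ι ι' Λ M w) (ψ : AddChar F ℂ)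
    (hψ : ψ ≠ 0) {η : ℝ} (hη : 0 ≤ η) (R : ℕ) (g g' : Fin R → K → F)
    (z : Fin R → Fin 4 → K → F)
    (hli : LinearIndependent F (fun i => ((δ.Nn a).prod (δ.Nn a')).mkQ
      (smm ![z i 0, z i 1] ![g i, g' i], smm ![z i 2, z i 3] ![g i, g' i])))
    (hc : ∀ i, η ≤ ‖coefT ψ w (g i) (g' i) (z i)‖) :
    R * (η ^ 2 / 2) ≤ Real.log Λ := by
  have h2 : (2⁻¹ : F) ≠ 0 := inv_ne_zero ann_two_ne
  have hli' : LinearIndependent F (fun i => ((δ.Nn a).prod (δ.Nn a')).mkQ
      (tz (g i) (g' i) (z i))) := by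
    have h3 := hli.units_smul (fun _ => Units.mk0 (2⁻¹ : F) h2)
    have e : (fun i => ((δ.Nn a).prod (δ.Nn a')).mkQ (tz (g i) (g' i) (z i))) =
        (fun _ : Fin R => Units.mk0 (2⁻¹ : F) h2) • fun i => ((δ.Nn a).prod (δ.Nn a')).mkQ
      (smm ![z i 0, z i 1] ![g i, g' i], smm ![z i 2, z i 3] ![g i, g' i]) := by
      funext i
      rw [Pi.smul_apply', Units.smul_def, Units.val_mk0, ← map_smul]
      rfl
    rw [e]
    exact h3
  have h1 := hRL (Matrix K K F × Matrix K K F) (Matrix K K F × Matrix K K F) (prob hw)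
    (fun ω => pair2 K ω) ψ hψ η hη ((δ.Nn a).prod (δ.Nn a')) R
    (fun i => tz (g i) (g' i) (z i)) hli' (fun i => by rw [← coefT_eq hw]; exact hc i)
  refine h1.trans (budget hw _ ?_)
  have hsymm : ∀ (a : T) (Q : Matrix K K F), Q ∈ δ.Nn a → Q.IsSymm := by
    intro a Q hQ
    unfold Design.Nn at hQ
    induction hQ using Submodule.span_induction with
    | mem Q hQ =>
      have hsm : ∀ u v : K → F, (sm u v).IsSymm := by
        intro u v
        ext i j
        rw [Matrix.transpose_apply]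
        simp only [sm, Matrix.add_apply, Matrix.vecMulVec_apply]
        ring
      rcases hQ with (⟨c, w, hw, rfl⟩ | ⟨w, hw, v, rfl⟩) | ⟨v, rfl⟩
      · exact hsm _ _
      · exact hsm _ _
      · exact hsm _ _
    | zero => exact Matrix.isSymm_zero
    | add Q Q' _ _ h h' => exact h.add h'
    | smul c Q _ h => exact h.smul c
  let S : Submodule F (Matrix K K F × Matrix K K F) :=
    { carrier := {Q | Q.1.IsSymm ∧ Q.2.IsSymm}
      add_mem' := fun {Q Q'} h h' => ⟨h.1.add h'.1, h.2.add h'.2⟩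
      zero_mem' := ⟨Matrix.isSymm_zero, Matrix.isSymm_zero⟩
      smul_mem' := fun c Q h => ⟨h.1.smul c, h.2.smul c⟩ }
  have hle : (δ.Nn a).prod (δ.Nn a') ⊔
      Submodule.span F (Set.range fun i => tz (g i) (g' i) (z i)) ≤ S := by
    refine sup_le (fun Q hQ => ⟨hsymm a _ hQ.1, hsymm a' _ hQ.2⟩) ?_
    rw [Submodule.span_le]
    rintro _ ⟨i, rfl⟩
    exact tz_symm _ _ _
  exact fun Q hQ => hle hQ

/-- (hR) for a finite index type. -/
theorem rank_biased_fintype (hRL : RankLem) {δ : Design K T} {a a' : T} {ι ι' : Bool} {Λ M : ℝ}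
    {w : Matrix K K F → Matrix K K F → ℝ} (hw : PLaw δ a a' ι ι' Λ M w) (ψ : AddChar F ℂ)
    (hψ : ψ ≠ 0) {η : ℝ} (hη : 0 ≤ η) {I : Type*} [Fintype I] (g g' : I → K → F)
    (z : I → Fin 4 → K → F)
    (hli : LinearIndependent F (fun i => ((δ.Nn a).prod (δ.Nn a')).mkQ
      (smm ![z i 0, z i 1] ![g i, g' i], smm ![z i 2, z i 3] ![g i, g' i])))
    (hc : ∀ i, η ≤ ‖coefT ψ w (g i) (g' i) (z i)‖) :
    Fintype.card I * (η ^ 2 / 2) ≤ Real.log Λ := by
  let e := (Fintype.equivFin I).symm
  exact rank_biased hRL hw ψ hψ hη (Fintype.card I) (fun i => g (e i)) (fun i => g' (e i))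
    (fun i => z (e i)) (hli.comp e e.injective) (fun i => hc _)

/-- (hR) for finite sets of pairs of types. -/
theorem rank_biased_finset (hRL : RankLem) {δ : Design K T} {a a' : T} {ι ι' : Bool} {Λ M : ℝ}
    {w : Matrix K K F → Matrix K K F → ℝ} (hw : PLaw δ a a' ι ι' Λ M w) (ψ : AddChar F ℂ)
    (hψ : ψ ≠ 0) {η : ℝ} (hη : 0 < η) (z : T × T → Fin 4 → K → F) (J : Finset (T × T))
    (hli : LinearIndependent F (fun β : J => ((δ.Nn a).prod (δ.Nn a')).mkQ
      (smm ![z β 0, z β 1] ![δ.g (β : T × T).1, δ.g (β : T × T).2],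
        smm ![z β 2, z β 3] ![δ.g (β : T × T).1, δ.g (β : T × T).2])))
    (hc : ∀ β ∈ J, η ≤ ‖coefT ψ w (δ.g β.1) (δ.g β.2) (z β)‖) :
    (J.card : ℝ) ≤ 2 * Real.log Λ / η ^ 2 := by
  have h := rank_biased_fintype hRL hw ψ hψ hη.le (fun β : J => δ.g (β : T × T).1)
    (fun β : J => δ.g (β : T × T).2) (fun β : J => z β) hli fun β => hc β β.2
  rw [Fintype.card_coe] at h
  rw [le_div_iff₀ (by positivity)]
  linarith

end Spec

end Budget

end Vale.Agent.P060.HW
end
end

section

/-!
# The entropy budget in the notation of the TV blocks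
-/

open scoped Classical

noncomputable section

set_option linter.unusedSectionVars false

namespace Vale.Agent.P060.HW

open Module

variable {K T : Type} [Fintype K]

lemma Nn_symm {δ : Design K T} {a : T} {Q : Matrix K K F} (hQ : Q ∈ δ.Nn a) : Q.IsSymm := by
  unfold Design.Nn at hQ
  induction hQ using Submodule.span_induction with
  | mem Q hQ =>
    have hsm : ∀ u v : K → F, (sm u v).IsSymm := by
      intro u v
      ext i j
      rw [Matrix.transpose_apply]
      simp only [sm, Matrix.add_apply, Matrix.vecMulVec_apply]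
      ring
    rcases hQ with (⟨c, w, hw, rfl⟩ | ⟨w, hw, v, rfl⟩) | ⟨v, rfl⟩
    · exact hsm _ _
    · exact hsm _ _
    · exact hsm _ _
  | zero => exact Matrix.isSymm_zero
  | add Q Q' _ _ h h' => exact h.add h'
  | smul c Q _ h => exact h.smul c

lemma N2_le_SS (δ : Design K T) (a a' : T) : δ.N2 a a' ≤ SS K :=
  fun _ hQ => ⟨Nn_symm hQ.1, Nn_symm hQ.2⟩

/-- (T1) BUDGET, general form. -/
theorem tv_budget_le {δ : Design K T} {a a' : T} {ι ι' : Bool} {Λ M : ℝ}
    {w : Matrix K K F → Matrix K K F → ℝ} (hw : PLaw δ a a' ι ι' Λ M w)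
    (G : Submodule F (MM K)) (hG : G ≤ SS K) :
    Lat.D hw.prob Xf G - Lat.D hw.prob Xf (δ.N2 a a') ≤ Real.log Λ := by
  have key := Budget.deficit (Budget.pair2 K) hw.prob Fms.val
    ((δ.Dir a).prod (δ.Dir a'))
    (if ι then δ.B0 a else 0, if ι' then δ.B0 a' else 0) Λ ?_ ?_ (δ.N2 a a') G ?_ ?_
  · exact key
  · intro ω _
    exact ⟨ω.mem.1, ω.mem.2⟩
  · intro y
    have h1 : hw.prob.p Fms.val y ≤ w y.1 y.2 := by
      unfold FinProb.p
      by_cases hy : y.1 ∈ δ.Form a ι ∧ y.2 ∈ δ.Form a' ι'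
      · obtain ⟨ω0, hω0⟩ : ∃ ω0 : Fms δ a a' ι ι', ω0.val = y := ⟨⟨y, hy⟩, rfl⟩
        subst hω0
        rw [Finset.sum_eq_single ω0]
        · rw [if_pos rfl]; exact le_rfl
        · intro ω _ hω
          exact if_neg fun h => hω (Fms.val_injective h)
        · intro h; exact absurd (Finset.mem_univ _) h
      · rw [Finset.sum_eq_zero]
        · exact hw.nonneg _ _
        · intro ω _
          refine if_neg fun h => hy ?_
          rw [← h]
          exact ω.mem
    rw [Budget.card_prod, Nat.cast_mul]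
    refine le_trans (mul_le_mul_of_nonneg_right h1 (by positivity)) (hw.joint y.1 y.2)
  · intro Q hQ y hy
    rw [Budget.pair2_apply, annDirect K T δ a Q.1 hQ.1 y.1 hy.1,
      annDirect K T δ a' Q.2 hQ.2 y.2 hy.2, add_zero]
  · intro Q hQ h
    refine ⟨annConverse K T δ a Q.1 (hG hQ).1 fun B hB => ?_,
      annConverse K T δ a' Q.2 (hG hQ).2 fun B hB => ?_⟩
    · have := h (B, 0) ⟨hB, Submodule.zero_mem _⟩
      rw [Budget.pair2_apply] at this
      simpa [pr] using this
    · have := h (0, B) ⟨Submodule.zero_mem _, hB⟩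
      rw [Budget.pair2_apply] at this
      simpa [pr] using this

/-- (T1) BUDGET. -/
theorem tv_budget {δ : Design K T} {a a' : T} {ι ι' : Bool} {Λ M : ℝ}
    {w : Matrix K K F → Matrix K K F → ℝ} (hw : PLaw δ a a' ι ι' Λ M w) :
    Lat.D hw.prob Xf (SS K) - Lat.D hw.prob Xf (δ.N2 a a') ≤ Real.log Λ :=
  tv_budget_le hw _ le_rfl

/-- Functionals of the test values are pairings with `tz`. -/
lemma Xf_tz {δ : Design K T} {a a' : T} {ι ι' : Bool} (ω : Fms δ a a' ι ι') (g g' : K → F)
    (z : Fin 4 → K → F) :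
    Xf ω (Budget.tz g g' z) = ∑ i, z i ⬝ᵥ tv g g' ω.val.1 ω.val.2 i :=
  Budget.pair2_tz (Budget.isSymm_of_form ω.mem.1) (Budget.isSymm_of_form ω.mem.2) g g' z

/-- Sums over pairs of matrices and sums over pairs of forms. -/
lemma sum_fms {δ : Design K T} {a a' : T} {ι ι' : Bool} {A : Type*} [AddCommMonoid A]
    (f : MM K → A) (hf : ∀ x, f x ≠ 0 → x.1 ∈ δ.Form a ι ∧ x.2 ∈ δ.Form a' ι') :
    ∑ ω : Fms δ a a' ι ι', f ω.val = ∑ B, ∑ B', f (B, B') := by
  rw [← Fintype.sum_prod_type f]
  refine Finset.sum_bij_ne_zero (fun x _ _ => x.val) (fun _ _ _ => Finset.mem_univ _)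
    (fun x _ _ y _ _ h => Fms.val_injective h) (fun x _ hx => ?_) (fun _ _ _ => rfl)
  exact ⟨⟨x, hf x hx⟩, Finset.mem_univ _, hx, rfl⟩

/-- The law of the test values. -/
lemma tlaw_eq {δ : Design K T} {a a' : T} {ι ι' : Bool} {Λ M : ℝ}
    {w : Matrix K K F → Matrix K K F → ℝ} (hw : PLaw δ a a' ι ι' Λ M w) (g g' : K → F)
    (m : Fin 4 → K → F) :
    tlaw w g g' m = hw.prob.p (fun ω => tv g g' ω.val.1 ω.val.2) m := by
  unfold tlaw FinProb.p
  rw [← sum_fms (δ := δ) (a := a) (a' := a') (ι := ι) (ι' := ι')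
    (fun x => if tv g g' x.1 x.2 = m then w x.1 x.2 else 0) fun x hx => ?_]
  · refine Finset.sum_congr rfl fun ω _ => ?_
    by_cases h : tv g g' ω.val.1 ω.val.2 = m
    · rw [if_pos h, if_pos h]; rfl
    · rw [if_neg h, if_neg h]
  · refine hw.supp _ _ fun h => hx ?_
    simp only [h, ite_self]

/-- The coefficient of the test values. -/
lemma coefT_eq_prob {δ : Design K T} {a a' : T} {ι ι' : Bool} {Λ M : ℝ}
    {w : Matrix K K F → Matrix K K F → ℝ} (hw : PLaw δ a a' ι ι' Λ M w) (ψ : AddChar F ℂ)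
    (g g' : K → F) (z : Fin 4 → K → F) :
    coefT ψ w g g' z = ∑ ω, (hw.prob.w ω : ℂ) * ψ (Xf ω (Budget.tz g g' z)) := by
  unfold coefT
  rw [← sum_fms (δ := δ) (a := a) (a' := a') (ι := ι) (ι' := ι')
    (fun x => (w x.1 x.2 : ℂ) * ψ (∑ i, z i ⬝ᵥ tv g g' x.1 x.2 i)) fun x hx => ?_]
  · refine Finset.sum_congr rfl fun ω _ => ?_
    rw [Xf_tz]
    rfl
  · refine hw.supp _ _ fun h => hx ?_
    simp only [h, Complex.ofReal_zero, zero_mul]

end Vale.Agent.P060.HW
end
end

section

/-!
# P060/HW: the triple intersection of the spaces of visible tensors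

`t3_single`: for pairwise disjoint sets of lines `C, B₁, B₂, A` with `lins a ⊆ A` in general
position, no tensor beyond those visible from `A` (and the trivial ones for `a`) is visible from
`C ∪ A`, from `B₁ ∪ A` and from `B₂ ∪ A`.  `t3_pair`: the same for pairs of forms.
-/

open scoped Classical

noncomputable section

set_option linter.unusedSectionVars false

namespace Vale.Agent.P060.HW

open Module

variable {N d : ℕ} {E P Om : Type} [Fintype E] [Fintype P] [Fintype Om] [NeZero N]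

/-- independence on `P`, in coordinates -/
lemma li_zero {p : Lin N → Co E P Om → F} {S : Finset (Lin N)}
    (hS : LinearIndependent F (fun u : S => fun j : P => p u (Sum.inl (Sum.inr j))))
    (c : Lin N → F) (hc : ∀ j : P, ∑ v ∈ S, c v * p v (Sum.inl (Sum.inr j)) = 0) :
    ∀ v ∈ S, c v = 0 := by
  intro v hv
  have h1 := Fintype.linearIndependent_iff.1 hS (fun u : S => c u) (by
    funext j
    rw [Finset.sum_apply]
    have := hc j
    rw [← Finset.sum_coe_sort] at this
    simpa [smul_eq_mul] using this) ⟨v, hv⟩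
  exact h1

/-- the visible tensors from a set `A` of lines, together with the trivial tensors -/
def Ga (fr : Frame N d E Om) (p : Lin N → Co E P Om → F) (h : Ext fr p) (a : Ty N d)
    (A : Finset (Lin N)) : Submodule F (Matrix (Co E P Om) (Co E P Om) F) :=
  Gl p A ⊔ (dsg fr p h).Nn a

lemma gv_eq_sum_lins (p : Lin N → Co E P Om → F) (b : Ty N d) : gv p b = ∑ u ∈ lins b, p u := by
  unfold gv lins
  rw [Finset.sum_image]
  intro s _ s' _ h
  exact (Prod.ext_iff.1 h).1

/-- data of a representation obtained from `AN` -/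
lemma rep_of_mem (fr : Frame N d E Om) (p : Lin N → Co E P Om → F) (h : Ext fr p)
    (a : Ty N d) {C B A S : Finset (Lin N)} (hC : C ⊆ S) (hB : B ⊆ S) (hA : A ⊆ S)
    (ha : lins a ⊆ A)
    (hS : LinearIndependent F (fun u : S => fun j : P => p u (Sum.inl (Sum.inr j))))
    (hR : ∀ w ∉ fr.U a, LinearIndependent F
      (fun u : (S ∪ rowLines fr w : Finset (Lin N)) => fun j : P => p u (Sum.inl (Sum.inr j))))
    (z₁ z₂ : Lin N → Co E P Om → F) (hz₁ : ∀ u, u ∉ C → z₁ u = 0) (hz₂ : ∀ u, u ∉ B → z₂ u = 0)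
    (hmem : ∑ u ∈ C, smB (z₁ u) (p u) - ∑ u ∈ B, smB (z₂ u) (p u) ∈ Ga fr p h a A) :
    ∃ (c : Lin N → Lin N → F) (x : Om → Ty N d → F),
      (∀ u v, c u v = - c v u) ∧ (∀ u v, u ∉ S → c u v = 0) ∧
      (∀ w b, x w b ≠ 0 → w ∈ fr.U b ∧ ∀ s, lin b s ∈ S) ∧
      (∀ u ∈ S, u ∉ A → ∀ j : E ⊕ P, z₁ u (Sum.inl j) - z₂ u (Sum.inl j)
        = ∑ v ∈ S, c u v * p v (Sum.inl j)) ∧
      (∀ u ∈ S, u ∉ A → ∀ w ∉ fr.U a, z₁ u (Sum.inr w) - z₂ u (Sum.inr w)
        = ∑ v ∈ S, c u v * p v (Sum.inr w) + ∑ b, x w b * (if u ∈ lins b then 1 else 0)) := by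
  obtain ⟨qA, hqA, n, hn, e⟩ := Submodule.mem_sup.1 hmem
  obtain ⟨zA, hzA, rfl⟩ := exists_of_mem_Gl p hqA
  have hsub : ∀ (T : Finset (Lin N)) (z : Lin N → Co E P Om → F), T ⊆ S →
      (∀ u, u ∉ T → z u = 0) → ∑ u ∈ T, smB (z u) (p u) = ∑ u ∈ S, smB (z u) (p u) := by
    intro T z hT hz
    refine Finset.sum_subset hT fun u _ hu => ?_
    rw [hz u hu, map_zero, LinearMap.zero_apply]
  have hmem2 : ∑ u ∈ S, sm ((z₁ u - z₂ u) - zA u) (p u) ∈ (dsg fr p h).Nn a := by
    have : ∑ u ∈ S, sm ((z₁ u - z₂ u) - zA u) (p u) = n := by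
      have h1 : ∀ u, sm ((z₁ u - z₂ u) - zA u) (p u)
          = smB (z₁ u) (p u) - smB (z₂ u) (p u) - smB (zA u) (p u) := by
        intro u
        rw [← smB_apply, map_sub, map_sub, LinearMap.sub_apply, LinearMap.sub_apply]
      rw [Finset.sum_congr rfl fun u _ => h1 u, Finset.sum_sub_distrib, Finset.sum_sub_distrib,
        ← hsub C z₁ hC hz₁, ← hsub B z₂ hB hz₂, ← hsub A zA hA hzA, ← e]
      abel
    rw [this]; exact hn
  obtain ⟨y, c, x, c1, c2, c3, c4, c5⟩ := an N d E P Om fr p h a S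
    (fun s => hA (ha (an_mem_lins.2 ⟨s, rfl⟩))) hS hR _ hmem2
  refine ⟨c, x, c1, c2, c3, ?_, ?_⟩
  · intro u hu huA j
    have h1 := c4 u hu j
    have h2 : u ∉ lins a := fun h' => huA (ha h')
    rw [if_neg h2, zero_add, hzA u huA, sub_zero] at h1
    exact h1
  · intro u hu huA w hw
    have h1 := c5 u hu w hw
    have h2 : u ∉ lins a := fun h' => huA (ha h')
    rw [if_neg h2, zero_add, hzA u huA, sub_zero] at h1
    exact h1

/-- a line lies in at most one type with a given zero row -/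
lemma usum (fr : Frame N d E Om) {x : Om → Ty N d → F} {S : Finset (Lin N)}
    (hx : ∀ w b, x w b ≠ 0 → w ∈ fr.U b ∧ ∀ s, lin b s ∈ S) {w : Om} {b : Ty N d} {u : Lin N}
    (hw : w ∈ fr.U b) (hu : u ∈ lins b) :
    ∑ b', x w b' * (if u ∈ lins b' then 1 else 0) = x w b := by
  rw [Finset.sum_eq_single b]
  · rw [if_pos hu, mul_one]
  · intro b' _ hb'
    by_cases h1 : x w b' = 0
    · rw [h1, zero_mul]
    · rw [if_neg, mul_zero]
      intro h2
      obtain ⟨s, hs⟩ := an_mem_lins.1 hu
      obtain ⟨s', hs'⟩ := an_mem_lins.1 h2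
      rw [← hs'] at hs
      have h3 : s = s' := (Prod.ext_iff.1 hs).1
      subst h3
      exact fr.line_disj b b' w hw (hx w b' h1).1 (Ne.symm hb') s (Prod.ext_iff.1 hs).2
  · intro h'; exact absurd (Finset.mem_univ _) h'

theorem t3_single (fr : Frame N d E Om) (p : Lin N → Co E P Om → F) (h : Ext fr p)
    (a : Ty N d) {C B₁ B₂ A : Finset (Lin N)} (ha : lins a ⊆ A) (hCA : Disjoint C A)
    (hC₁ : Disjoint C B₁) (hC₂ : Disjoint C B₂) (h₁₂ : Disjoint B₁ B₂) (h₁A : Disjoint B₁ A)
    (h₂A : Disjoint B₂ A)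
    (hS : LinearIndependent F
      (fun u : (C ∪ B₁ ∪ B₂ ∪ A : Finset (Lin N)) => fun j : P => p u (Sum.inl (Sum.inr j))))
    (hR : ∀ w ∉ fr.U a, LinearIndependent F
      (fun u : (C ∪ B₁ ∪ B₂ ∪ A ∪ rowLines fr w : Finset (Lin N)) =>
        fun j : P => p u (Sum.inl (Sum.inr j)))) :
    (Gl p C ⊔ Ga fr p h a A) ⊓ (Gl p B₁ ⊔ Ga fr p h a A) ⊓ (Gl p B₂ ⊔ Ga fr p h a A)
      ≤ Ga fr p h a A := by
  set S := C ∪ B₁ ∪ B₂ ∪ A with hSdef
  have sC : C ⊆ S := fun u hu => by simp [hSdef, hu]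
  have s1 : B₁ ⊆ S := fun u hu => by simp [hSdef, hu]
  have s2 : B₂ ⊆ S := fun u hu => by simp [hSdef, hu]
  have sA : A ⊆ S := fun u hu => by simp [hSdef, hu]
  have hmS : ∀ u ∈ S, u ∈ C ∨ u ∈ B₁ ∨ u ∈ B₂ ∨ u ∈ A := by
    intro u hu
    simp only [hSdef, Finset.mem_union] at hu
    tauto
  rintro Q ⟨⟨hQ1, hQ2⟩, hQ3⟩
  obtain ⟨q1, hq1, a1, ha1, e1⟩ := Submodule.mem_sup.1 hQ1
  obtain ⟨q2, hq2, a2, ha2, e2⟩ := Submodule.mem_sup.1 hQ2
  obtain ⟨q3, hq3, a3, ha3, e3⟩ := Submodule.mem_sup.1 hQ3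
  obtain ⟨z₁, hz₁, rfl⟩ := exists_of_mem_Gl p hq1
  obtain ⟨z₂, hz₂, rfl⟩ := exists_of_mem_Gl p hq2
  obtain ⟨z₃, hz₃, rfl⟩ := exists_of_mem_Gl p hq3
  have m2 : ∑ u ∈ C, smB (z₁ u) (p u) - ∑ u ∈ B₁, smB (z₂ u) (p u) ∈ Ga fr p h a A := by
    have : ∑ u ∈ C, smB (z₁ u) (p u) - ∑ u ∈ B₁, smB (z₂ u) (p u) = a2 - a1 := by
      rw [sub_eq_sub_iff_add_eq_add, e1, add_comm, e2]
    rw [this]; exact Submodule.sub_mem _ ha2 ha1
  have m3 : ∑ u ∈ C, smB (z₁ u) (p u) - ∑ u ∈ B₂, smB (z₃ u) (p u) ∈ Ga fr p h a A := by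
    have : ∑ u ∈ C, smB (z₁ u) (p u) - ∑ u ∈ B₂, smB (z₃ u) (p u) = a3 - a1 := by
      rw [sub_eq_sub_iff_add_eq_add, e1, add_comm, e3]
    rw [this]; exact Submodule.sub_mem _ ha3 ha1
  obtain ⟨c, x, c1, c2, c3, c4, c5⟩ := rep_of_mem fr p h a sC s1 sA ha hS hR z₁ z₂ hz₁ hz₂ m2
  obtain ⟨c', x', c1', c2', c3', c4', c5'⟩ :=
    rep_of_mem fr p h a sC s2 sA ha hS hR z₁ z₃ hz₁ hz₃ m3
  -- disjointness in pointwise form
  have dCA : ∀ u ∈ C, u ∉ A := fun u hu h' => Finset.disjoint_left.1 hCA hu h'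
  have dC1 : ∀ u ∈ C, u ∉ B₁ := fun u hu h' => Finset.disjoint_left.1 hC₁ hu h'
  have dC2 : ∀ u ∈ C, u ∉ B₂ := fun u hu h' => Finset.disjoint_left.1 hC₂ hu h'
  have d12 : ∀ u ∈ B₁, u ∉ B₂ := fun u hu h' => Finset.disjoint_left.1 h₁₂ hu h'
  have d1A : ∀ u ∈ B₁, u ∉ A := fun u hu h' => Finset.disjoint_left.1 h₁A hu h'
  have d2A : ∀ u ∈ B₂, u ∉ A := fun u hu h' => Finset.disjoint_left.1 h₂A hu h'
  -- the coefficients
  have F1 : ∀ u ∈ B₂, ∀ v, c u v = 0 := by
    intro u hu v
    have e : z₁ u = 0 := hz₁ u fun h' => dC2 u h' hu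
    have e' : z₂ u = 0 := hz₂ u fun h' => d12 u h' hu
    by_cases hv : v ∈ S
    · refine li_zero hS (c u) (fun j => ?_) v hv
      have := c4 u (s2 hu) (d2A u hu) (Sum.inr j)
      rw [e, e'] at this
      simpa using this.symm
    · rw [c1, c2 v u hv, neg_zero]
  have F2 : ∀ u ∈ B₁, ∀ v, c' u v = 0 := by
    intro u hu v
    have e : z₁ u = 0 := hz₁ u fun h' => dC1 u h' hu
    have e' : z₃ u = 0 := hz₃ u fun h' => d12 u hu h'
    by_cases hv : v ∈ S
    · refine li_zero hS (c' u) (fun j => ?_) v hv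
      have := c4' u (s1 hu) (d1A u hu) (Sum.inr j)
      rw [e, e'] at this
      simpa using this.symm
    · rw [c1', c2' v u hv, neg_zero]
  have F3 : ∀ u ∈ C, ∀ v, c u v = c' u v := by
    intro u hu v
    have e : z₂ u = 0 := hz₂ u (dC1 u hu)
    have e' : z₃ u = 0 := hz₃ u (dC2 u hu)
    by_cases hv : v ∈ S
    · have := li_zero hS (fun v => c u v - c' u v) (fun j => ?_) v hv
      · exact sub_eq_zero.1 this
      · have h4 := c4 u (sC hu) (dCA u hu) (Sum.inr j)
        have h4' := c4' u (sC hu) (dCA u hu) (Sum.inr j)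
        rw [e] at h4
        rw [e'] at h4'
        simp only [sub_mul, Finset.sum_sub_distrib]
        rw [← h4, ← h4']
        simp
    · rw [c1, c2 v u hv, c1' u v, c2' v u hv]
  have F4 : ∀ u ∈ C, ∀ v, v ∉ C → v ∉ A → c u v = 0 := by
    intro u hu v hvC hvA
    by_cases hv : v ∈ S
    · rcases hmS v hv with h' | h' | h' | h'
      · exact absurd h' hvC
      · rw [F3 u hu v, c1', F2 v h' u, neg_zero]
      · rw [c1, F1 v h' u, neg_zero]
      · exact absurd h' hvA
    · rw [c1, c2 v u hv, neg_zero]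
  -- the row terms
  have G1 : ∀ u ∈ C, ∀ w ∉ fr.U a, ∑ b, x w b * (if u ∈ lins b then (1 : F) else 0)
      = ∑ b, x' w b * (if u ∈ lins b then (1 : F) else 0) := by
    intro u hu w hw
    have e : z₂ u = 0 := hz₂ u (dC1 u hu)
    have e' : z₃ u = 0 := hz₃ u (dC2 u hu)
    have h5 := c5 u (sC hu) (dCA u hu) w hw
    have h5' := c5' u (sC hu) (dCA u hu) w hw
    rw [e] at h5
    rw [e'] at h5'
    have h6 : ∑ v ∈ S, c u v * p v (Sum.inr w) = ∑ v ∈ S, c' u v * p v (Sum.inr w) :=
      Finset.sum_congr rfl fun v _ => by rw [F3 u hu v]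
    rw [h6] at h5
    simp only [Pi.zero_apply, sub_zero] at h5 h5'
    rw [h5] at h5'
    exact add_left_cancel h5'
  have G2 : ∀ u ∈ B₂, ∀ w ∉ fr.U a, ∑ b, x w b * (if u ∈ lins b then (1 : F) else 0) = 0 := by
    intro u hu w hw
    have e : z₁ u = 0 := hz₁ u fun h' => dC2 u h' hu
    have e' : z₂ u = 0 := hz₂ u fun h' => d12 u h' hu
    have h5 := c5 u (s2 hu) (d2A u hu) w hw
    rw [e, e'] at h5
    have h6 : ∑ v ∈ S, c u v * p v (Sum.inr w) = 0 :=
      Finset.sum_eq_zero fun v _ => by rw [F1 u hu v, zero_mul]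
    rw [h6] at h5
    simpa using h5.symm
  have G3 : ∀ u ∈ B₁, ∀ w ∉ fr.U a, ∑ b, x' w b * (if u ∈ lins b then (1 : F) else 0) = 0 := by
    intro u hu w hw
    have e : z₁ u = 0 := hz₁ u fun h' => dC1 u h' hu
    have e' : z₃ u = 0 := hz₃ u fun h' => d12 u hu h'
    have h5 := c5' u (s1 hu) (d1A u hu) w hw
    rw [e, e'] at h5
    have h6 : ∑ v ∈ S, c' u v * p v (Sum.inr w) = 0 :=
      Finset.sum_eq_zero fun v _ => by rw [F2 u hu v, zero_mul]
    rw [h6] at h5
    simpa using h5.symm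
  have G4 : ∀ w ∉ fr.U a, ∀ b, x w b ≠ 0 → ∀ u ∈ C, u ∈ lins b → lins b ⊆ C ∪ A := by
    intro w hw b hxb u hu hub v hvb
    obtain ⟨hwb, hbS⟩ := c3 w b hxb
    obtain ⟨s, rfl⟩ := an_mem_lins.1 hvb
    rcases hmS _ (hbS s) with h' | h' | h' | h'
    · exact Finset.mem_union_left _ h'
    · exfalso
      have e1 : x' w b = 0 := by
        rw [← usum fr c3' hwb hvb]; exact G3 _ h' w hw
      have e2 : x w b = x' w b := by
        rw [← usum fr c3 hwb hub, ← usum fr c3' hwb hub]; exact G1 u hu w hw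
      exact hxb (e2.trans e1)
    · exfalso
      exact hxb (by rw [← usum fr c3 hwb hvb]; exact G2 _ h' w hw)
    · exact Finset.mem_union_right _ h'
  -- conclusion
  suffices hfin : ∑ u ∈ C, smB (z₁ u) (p u) ∈ Ga fr p h a A by
    rw [← e1]; exact Submodule.add_mem _ hfin ha1
  set r : Lin N → Co E P Om → F := fun u => z₁ u - ∑ v ∈ S, c u v • p v with hr
  have hdec : ∀ u ∈ C, z₁ u = ∑ v ∈ C, c u v • p v + ∑ v ∈ A, c u v • p v + r u := by
    intro u hu
    have h1 : ∑ v ∈ S, c u v • p v = ∑ v ∈ C, c u v • p v + ∑ v ∈ A, c u v • p v := by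
      rw [← Finset.sum_union hCA]
      refine (Finset.sum_subset (Finset.union_subset sC sA) fun v _ hv => ?_).symm
      rw [Finset.mem_union, not_or] at hv
      rw [F4 u hu v hv.1 hv.2, zero_smul]
    rw [hr]; simp only
    rw [h1]; abel
  have hr0 : ∀ u ∈ C, ∀ j, r u (Sum.inl j) = 0 := by
    intro u hu j
    have h4 := c4 u (sC hu) (dCA u hu) j
    rw [hz₂ u (dC1 u hu)] at h4
    rw [hr]
    simp only [Pi.sub_apply, Finset.sum_apply, Pi.smul_apply, smul_eq_mul]
    rw [← h4]; simp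
  have hrw : ∀ u ∈ C, ∀ w ∉ fr.U a, r u (Sum.inr w)
      = ∑ b, x w b * (if u ∈ lins b then (1 : F) else 0) := by
    intro u hu w hw
    have h5 := c5 u (sC hu) (dCA u hu) w hw
    rw [hz₂ u (dC1 u hu)] at h5
    rw [hr]
    simp only [Pi.sub_apply, Finset.sum_apply, Pi.smul_apply, smul_eq_mul]
    simp only [Pi.zero_apply, sub_zero] at h5
    rw [h5]; ring
  have hsum : ∑ u ∈ C, smB (z₁ u) (p u) = ∑ u ∈ C, smB (∑ v ∈ C, c u v • p v) (p u)
      + ∑ u ∈ C, smB (∑ v ∈ A, c u v • p v) (p u) + ∑ u ∈ C, smB (r u) (p u) := by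
    rw [← Finset.sum_add_distrib, ← Finset.sum_add_distrib]
    refine Finset.sum_congr rfl fun u hu => ?_
    conv_lhs => rw [hdec u hu]
    rw [map_add, map_add, LinearMap.add_apply, LinearMap.add_apply]
  have t1 : ∑ u ∈ C, smB (∑ v ∈ C, c u v • p v) (p u) = 0 := by
    have h1 : ∀ u, smB (∑ v ∈ C, c u v • p v) (p u) = ∑ v ∈ C, c u v • smB (p v) (p u) := by
      intro u
      rw [map_sum, LinearMap.sum_apply]
      exact Finset.sum_congr rfl fun v _ => by rw [map_smul, LinearMap.smul_apply]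
    rw [Finset.sum_congr rfl fun u _ => h1 u]
    set T := ∑ u ∈ C, ∑ v ∈ C, c u v • smB (p v) (p u) with hT
    have h2 : T = -T := by
      conv_lhs => rw [hT, Finset.sum_comm]
      rw [hT, ← Finset.sum_neg_distrib]
      refine Finset.sum_congr rfl fun u _ => ?_
      rw [← Finset.sum_neg_distrib]
      refine Finset.sum_congr rfl fun v _ => ?_
      rw [c1 v u, smB_comm (p u) (p v), neg_smul]
    have h3 : (2 : F) • T = 0 := by
      rw [two_smul]
      nth_rewrite 2 [h2]
      exact add_neg_cancel T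
    exact (smul_eq_zero.1 h3).resolve_left (by decide)
  have t2 : ∑ u ∈ C, smB (∑ v ∈ A, c u v • p v) (p u) ∈ Gl p A := by
    refine Submodule.sum_mem _ fun u _ => ?_
    rw [map_sum, LinearMap.sum_apply]
    refine Submodule.sum_mem _ fun v hv => ?_
    rw [map_smul, LinearMap.smul_apply]
    exact Submodule.smul_mem _ _ (smB_mem_Gl' p hv _)
  have t3 : ∑ u ∈ C, smB (r u) (p u) ∈ Ga fr p h a A := by
    have h1 : ∀ u ∈ C, smB (r u) (p u)
        = ∑ w : Om, r u (Sum.inr w) • smB (Pi.single (Sum.inr w) 1) (p u) := by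
      intro u hu
      have h2 : r u = ∑ w : Om, r u (Sum.inr w) • (Pi.single (Sum.inr w) 1 : Co E P Om → F) := by
        funext j
        rw [Finset.sum_apply]
        rcases j with j | w
        · rw [hr0 u hu j]
          refine (Finset.sum_eq_zero fun w _ => ?_).symm
          rw [Pi.smul_apply, Pi.single_eq_of_ne Sum.inl_ne_inr, smul_zero]
        · rw [Finset.sum_eq_single w]
          · rw [Pi.smul_apply, Pi.single_eq_same, smul_eq_mul, mul_one]
          · intro w' _ hw'
            rw [Pi.smul_apply, Pi.single_eq_of_ne (by simpa using Ne.symm hw'), smul_zero]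
          · intro h'; exact absurd (Finset.mem_univ _) h'
      conv_lhs => rw [h2]
      rw [map_sum, LinearMap.sum_apply]
      exact Finset.sum_congr rfl fun w _ => by rw [map_smul, LinearMap.smul_apply]
    rw [Finset.sum_congr rfl h1, Finset.sum_comm]
    refine Submodule.sum_mem _ fun w _ => ?_
    by_cases hw : w ∈ fr.U a
    · refine Submodule.sum_mem _ fun u _ => Submodule.smul_mem _ _ ?_
      refine Submodule.mem_sup_right (Submodule.subset_span (Or.inl (Or.inr ?_)))
      exact ⟨Sum.inr w, Finset.mem_image_of_mem _ hw, p u, by rw [smB_apply]; congr; exact Subsingleton.elim _ _⟩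
    · have h2 : ∑ u ∈ C, r u (Sum.inr w) • smB (Pi.single (Sum.inr w) 1) (p u)
          = ∑ b, x w b • smB (Pi.single (Sum.inr w) 1) (∑ u ∈ C ∩ lins b, p u) := by
        have h3 : ∀ u ∈ C, r u (Sum.inr w) • smB (Pi.single (Sum.inr w) 1) (p u)
            = ∑ b, (x w b * (if u ∈ lins b then (1 : F) else 0)) •
              smB (Pi.single (Sum.inr w) 1) (p u) := by
          intro u hu
          rw [hrw u hu w hw, Finset.sum_smul]
        rw [Finset.sum_congr rfl h3, Finset.sum_comm]
        refine Finset.sum_congr rfl fun b _ => ?_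
        rw [map_sum, Finset.smul_sum, ← Finset.filter_mem_eq_inter, Finset.sum_filter]
        refine Finset.sum_congr rfl fun u _ => ?_
        split_ifs
        · rw [mul_one]
        · rw [mul_zero, zero_smul]
      rw [h2]
      refine Submodule.sum_mem _ fun b _ => ?_
      by_cases hxb : x w b = 0
      · rw [hxb, zero_smul]; exact Submodule.zero_mem _
      · refine Submodule.smul_mem _ _ ?_
        by_cases hne : (C ∩ lins b).Nonempty
        · obtain ⟨u, hu⟩ := hne
          rw [Finset.mem_inter] at hu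
          have hsub := G4 w hw b hxb u hu.1 hu.2
          have h4 : ∑ u ∈ C ∩ lins b, p u = gv p b - ∑ u ∈ A ∩ lins b, p u := by
            rw [gv_eq_sum_lins, eq_sub_iff_add_eq, ← Finset.sum_union]
            · refine Finset.sum_congr ?_ fun _ _ => rfl
              rw [← Finset.union_inter_distrib_right]
              exact Finset.inter_eq_right.2 hsub
            · exact Disjoint.mono Finset.inter_subset_left Finset.inter_subset_left hCA
          rw [h4, map_sub]
          refine Submodule.sub_mem _ ?_ ?_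
          · refine Submodule.mem_sup_right (Submodule.subset_span (Or.inl (Or.inl ?_)))
            exact ⟨b, Sum.inr w, Finset.mem_image_of_mem _ (c3 w b hxb).1, by
              rw [smB_apply]; congr; exact Subsingleton.elim _ _⟩
          · rw [map_sum]
            refine Submodule.sum_mem _ fun v hv => ?_
            exact Submodule.mem_sup_left (smB_mem_Gl p (Finset.mem_of_mem_inter_left hv) _)
        · rw [Finset.not_nonempty_iff_eq_empty] at hne
          rw [hne, Finset.sum_empty, map_zero]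
          exact Submodule.zero_mem _
  rw [hsum, t1, zero_add]
  exact Submodule.add_mem _ (Submodule.mem_sup_left t2) t3

/-- the pairs of tensors visible from `A`, together with the trivial ones -/
def Gaa (fr : Frame N d E Om) (p : Lin N → Co E P Om → F) (h : Ext fr p) (a a' : Ty N d)
    (A : Finset (Lin N)) :
    Submodule F (Matrix (Co E P Om) (Co E P Om) F × Matrix (Co E P Om) (Co E P Om) F) :=
  (Ga fr p h a A).prod (Ga fr p h a' A)

/-- **TRI** for pairs of forms. -/
theorem t3_pair (fr : Frame N d E Om) (p : Lin N → Co E P Om → F) (h : Ext fr p)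
    (a a' : Ty N d) {C B₁ B₂ A : Finset (Lin N)} (ha : lins a ⊆ A) (ha' : lins a' ⊆ A)
    (hCA : Disjoint C A)
    (hC₁ : Disjoint C B₁) (hC₂ : Disjoint C B₂) (h₁₂ : Disjoint B₁ B₂) (h₁A : Disjoint B₁ A)
    (h₂A : Disjoint B₂ A)
    (hS : LinearIndependent F
      (fun u : (C ∪ B₁ ∪ B₂ ∪ A : Finset (Lin N)) => fun j : P => p u (Sum.inl (Sum.inr j))))
    (hR : ∀ w, LinearIndependent F
      (fun u : (C ∪ B₁ ∪ B₂ ∪ A ∪ rowLines fr w : Finset (Lin N)) =>
        fun j : P => p u (Sum.inl (Sum.inr j)))) :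
    (Gp p C ⊔ Gaa fr p h a a' A) ⊓ (Gp p B₁ ⊔ Gaa fr p h a a' A) ⊓ (Gp p B₂ ⊔ Gaa fr p h a a' A)
      ≤ Gaa fr p h a a' A := by
  unfold Gp Gaa
  rw [Submodule.prod_sup_prod, Submodule.prod_sup_prod, Submodule.prod_sup_prod,
    Submodule.prod_inf_prod, Submodule.prod_inf_prod]
  exact Submodule.prod_mono
    (t3_single fr p h a ha hCA hC₁ hC₂ h₁₂ h₁A h₂A hS fun w _ => hR w)
    (t3_single fr p h a' ha' hCA hC₁ hC₂ h₁₂ h₁A h₂A hS fun w _ => hR w)

end Vale.Agent.P060.HW
end
end

section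

/-!
P060-HW (TV part): the strong graph on the lines and the grouping of an adversarial pair of types.

`line : Ty → Fin 3 → L` : the three lines of a type; linear hypergraph (two types which have two
lines in common are equal).  `S` is the relation strongly correlated on the lines.
-/

set_option autoImplicit false

namespace Vale.Agent.P060.HW.Strong

open Finset

section Matching

/-- a partial matching between two 3-sets extends to a bijection. -/
lemma exists_perm_of_matching (R : Fin 3 → Fin 3 → Prop)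
    (h1 : ∀ s t t', R s t → R s t' → t = t') (h2 : ∀ s s' t, R s t → R s' t → s = s') :
    ∃ σ : Equiv.Perm (Fin 3), ∀ s t, R s t → t = σ s := by
  classical
  let dom : Finset (Fin 3) := univ.filter fun s => ∃ t, R s t
  let f : Fin 3 → Fin 3 := fun s => if h : ∃ t, R s t then h.choose else s
  have hf : ∀ s t, R s t → f s = t := by
    intro s t hst
    have hex : ∃ t, R s t := ⟨t, hst⟩
    have : f s = hex.choose := by simp only [f, dif_pos hex]
    rw [this]
    exact h1 s _ _ hex.choose_spec hst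
  have hinj : Set.InjOn f (dom : Set (Fin 3)) := by
    intro s hs s' hs' h
    simp only [dom, coe_filter, mem_univ, true_and, Set.mem_ofPred_eq] at hs hs'
    obtain ⟨t, ht⟩ := hs
    obtain ⟨t', ht'⟩ := hs'
    rw [hf s t ht, hf s' t' ht'] at h
    subst h
    exact h2 s s' t ht ht'
  obtain ⟨g, hg⟩ := Finset.exists_equiv_extend_of_card_eq (f := f) (s := dom)
    (t := (univ : Finset (Fin 3))) (by simp) (subset_univ _) hinj
  refine ⟨Equiv.ofBijective (fun s => (g s : Fin 3)) ?_, ?_⟩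
  · rw [Finite.injective_iff_bijective.symm]
    intro s s' h
    exact g.injective (Subtype.ext h)
  · intro s t hst
    have hs : s ∈ dom := by
      simp only [dom, mem_filter, mem_univ, true_and]
      exact ⟨t, hst⟩
    rw [Equiv.ofBijective_apply, hg s hs, hf s t hst]

end Matching

section Count

variable {L Ty : Type*} [Fintype L] [DecidableEq L] [Fintype Ty] [DecidableEq Ty]
variable (line : Ty → Fin 3 → L) (S : L → L → Prop) [DecidableRel S]

/-- the strong neighbours of a line -/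
def nbr (u : L) : Finset L := univ.filter fun v => S u v

/-- number of (ordered) strong pairs -/
def strongPairs : Finset (L × L) := univ.filter fun p => S p.1 p.2

lemma sum_card_nbr : ∑ u, (nbr S u).card = (strongPairs S).card := by
  unfold nbr strongPairs
  rw [Finset.card_filter, Fintype.sum_prod_type]
  refine Finset.sum_congr rfl fun u _ => ?_
  rw [Finset.card_filter]

/-- types with a line of large strong degree -/
def bad1 (D : ℕ) : Finset Ty := univ.filter fun c => ∃ s, D < (nbr S (line c s)).card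

/-- types with two strongly correlated lines -/
def bad2 : Finset Ty := univ.filter fun c => ∃ s s', s ≠ s' ∧ S (line c s) (line c s')

/-- types with two lines strongly correlated to the same line of small degree -/
def bad3 (D : ℕ) : Finset Ty :=
  univ.filter fun c => ∃ u, (nbr S u).card ≤ D ∧ ∃ s s', s ≠ s' ∧ S u (line c s) ∧ S u (line c s')

variable {line S}

/-- at most one type contains a given ordered pair of lines in different places -/
lemma card_types_le_one
    (hlin : ∀ c c' s s' t t', s ≠ s' → line c s = line c' t → line c s' = line c' t' → c = c')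
    (v v' : L) :
    (univ.filter fun c => ∃ s s', s ≠ s' ∧ line c s = v ∧ line c s' = v').card ≤ 1 := by
  rw [Finset.card_le_one]
  intro c hc c' hc'
  simp only [mem_filter, mem_univ, true_and] at hc hc'
  obtain ⟨s, s', hs, h1, h2⟩ := hc
  obtain ⟨t, t', _, h3, h4⟩ := hc'
  exact hlin c c' s s' t t' hs (h1.trans h3.symm) (h2.trans h4.symm)

lemma card_bad2_le
    (hlin : ∀ c c' s s' t t', s ≠ s' → line c s = line c' t → line c s' = line c' t' → c = c') :
    (bad2 line S).card ≤ (strongPairs S).card := by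
  have hsub : bad2 line S ⊆ (strongPairs S).biUnion fun p =>
      univ.filter fun c => ∃ s s', s ≠ s' ∧ line c s = p.1 ∧ line c s' = p.2 := by
    intro c hc
    simp only [bad2, mem_filter, mem_univ, true_and] at hc
    obtain ⟨s, s', hs, h⟩ := hc
    rw [mem_biUnion]
    refine ⟨(line c s, line c s'), ?_, ?_⟩
    · simp only [strongPairs, mem_filter, mem_univ, true_and]; exact h
    · simp only [mem_filter, mem_univ, true_and]
      exact ⟨s, s', hs, rfl, rfl⟩
  refine (Finset.card_le_card hsub).trans (Finset.card_biUnion_le.trans ?_)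
  calc _ ≤ ∑ _p ∈ strongPairs S, 1 :=
        Finset.sum_le_sum fun p _ => card_types_le_one hlin p.1 p.2
    _ = _ := by simp

lemma card_bad3_le
    (hlin : ∀ c c' s s' t t', s ≠ s' → line c s = line c' t → line c s' = line c' t' → c = c')
    (D : ℕ) : (bad3 line S D).card ≤ Fintype.card L * D ^ 2 := by
  have hsub : bad3 line S D ⊆ ((univ : Finset L).filter fun u => (nbr S u).card ≤ D).biUnion
      fun u => (nbr S u ×ˢ nbr S u).biUnion fun p =>
      univ.filter fun c => ∃ s s', s ≠ s' ∧ line c s = p.1 ∧ line c s' = p.2 := by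
    intro c hc
    simp only [bad3, mem_filter, mem_univ, true_and] at hc
    obtain ⟨u, hu, s, s', hs, h, h'⟩ := hc
    rw [mem_biUnion]
    refine ⟨u, by simpa using hu, ?_⟩
    rw [mem_biUnion]
    refine ⟨(line c s, line c s'), ?_, ?_⟩
    · simp only [mem_product, nbr, mem_filter, mem_univ, true_and]; exact ⟨h, h'⟩
    · simp only [mem_filter, mem_univ, true_and]
      exact ⟨s, s', hs, rfl, rfl⟩
  refine (Finset.card_le_card hsub).trans (Finset.card_biUnion_le.trans ?_)
  calc _ ≤ ∑ _u ∈ (univ : Finset L).filter fun u => (nbr S u).card ≤ D, D ^ 2 := by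
        refine Finset.sum_le_sum fun u hu => Finset.card_biUnion_le.trans ?_
        calc _ ≤ ∑ _p ∈ nbr S u ×ˢ nbr S u, 1 :=
              Finset.sum_le_sum fun p _ => card_types_le_one hlin p.1 p.2
          _ = (nbr S u).card ^ 2 := by simp [sq]
          _ ≤ D ^ 2 := Nat.pow_le_pow_left (by simpa using hu) 2
    _ ≤ ∑ _u : L, D ^ 2 := Finset.sum_le_sum_of_subset (Finset.filter_subset _ _)
    _ = _ := by simp

/-- `|bad1| D ≤ dmax * (number of strong pairs)`. -/
lemma card_bad1_mul_le (dmax D : ℕ)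
    (hd : ∀ u, (univ.filter fun c : Ty => ∃ s, line c s = u).card ≤ dmax) :
    (bad1 line S D).card * D ≤ dmax * (strongPairs S).card := by
  set B : Finset L := univ.filter fun u => D < (nbr S u).card with hB
  have h1 : (bad1 line S D).card ≤ B.card * dmax := by
    have hsub : bad1 line S D ⊆ B.biUnion fun u => univ.filter fun c : Ty => ∃ s, line c s = u := by
      intro c hc
      simp only [bad1, mem_filter, mem_univ, true_and] at hc
      obtain ⟨s, hs⟩ := hc
      rw [mem_biUnion]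
      exact ⟨line c s, by simpa [hB] using hs, by simp⟩
    refine (Finset.card_le_card hsub).trans (Finset.card_biUnion_le.trans ?_)
    calc _ ≤ ∑ _u ∈ B, dmax := Finset.sum_le_sum fun u _ => hd u
      _ = _ := by simp
  have h2 : B.card * D ≤ (strongPairs S).card := by
    rw [← sum_card_nbr]
    calc B.card * D = ∑ _u ∈ B, D := by simp
      _ ≤ ∑ u ∈ B, (nbr S u).card := Finset.sum_le_sum fun u hu => by
          simp only [hB, mem_filter, mem_univ, true_and] at hu
          exact hu.le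
      _ ≤ _ := Finset.sum_le_sum_of_subset (Finset.filter_subset _ _)
  calc (bad1 line S D).card * D ≤ B.card * dmax * D := Nat.mul_le_mul_right D h1
    _ = dmax * (B.card * D) := by ring
    _ ≤ _ := Nat.mul_le_mul_left dmax h2

/-- the bad types -/
def bad (line : Ty → Fin 3 → L) (S : L → L → Prop) [DecidableRel S] (D : ℕ) : Finset Ty :=
  bad1 line S D ∪ bad2 line S ∪ bad3 line S D

/-- two different good types : the lines of `b` and `b'` can be matched such that only matched
lines are equal or strongly correlated; no two lines of `b` (of `b'`) are strongly correlated. -/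
theorem exists_grouping (hsymm : ∀ u v, S u v → S v u)
    (hinj : ∀ c, Function.Injective (line c)) (D : ℕ) {b b' : Ty}
    (hb : b ∉ bad line S D) (hb' : b' ∉ bad line S D) :
    (∀ s s', s ≠ s' → ¬ S (line b s) (line b s')) ∧
    (∀ s s', s ≠ s' → ¬ S (line b' s) (line b' s')) ∧
    ∃ σ : Equiv.Perm (Fin 3), ∀ s t,
      (line b s = line b' t ∨ S (line b s) (line b' t)) → t = σ s := by
  have key : ∀ c, c ∉ bad line S D → (∀ s, (nbr S (line c s)).card ≤ D) ∧
      (∀ s s', s ≠ s' → ¬ S (line c s) (line c s')) ∧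
      (∀ u, (nbr S u).card ≤ D → ∀ s s', s ≠ s' → S u (line c s) → ¬ S u (line c s')) := by
    intro c hc
    simp only [bad, mem_union, not_or] at hc
    obtain ⟨⟨hc1, hc2⟩, hc3⟩ := hc
    simp only [bad1, bad2, bad3, mem_filter, mem_univ, true_and] at hc1 hc2 hc3
    push Not at hc1 hc2 hc3
    exact ⟨hc1, hc2, fun u hu s s' hs h => hc3 u hu s s' hs h⟩
  obtain ⟨b1, b2, b3⟩ := key b hb
  obtain ⟨c1, c2, c3⟩ := key b' hb'
  refine ⟨b2, c2, exists_perm_of_matching _ ?_ ?_⟩
  · intro s t t' h h'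
    by_contra hne
    rcases h with h | h <;> rcases h' with h' | h'
    · exact hne (hinj b' (h.symm.trans h'))
    · rw [h] at h'; exact c2 t t' hne h'
    · rw [h'] at h; exact c2 t' t (Ne.symm hne) h
    · exact c3 _ (b1 s) t t' hne h h'
  · intro s s' t h h'
    by_contra hne
    rcases h with h | h <;> rcases h' with h' | h'
    · exact hne (hinj b (h.trans h'.symm))
    · rw [← h] at h'; exact b2 s' s (Ne.symm hne) h'
    · rw [← h'] at h; exact b2 s s' hne h
    · exact b3 _ (c1 t) s s' hne (hsymm _ _ h) (hsymm _ _ h')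

/-- the mass of the pairs with a bad member, for a law with bounded marginals. -/
theorem mass_bad_le (Bd : Finset Ty) (Q : Ty → Ty → ℝ) (m : ℝ) (hQ : ∀ b b', 0 ≤ Q b b')
    (h1 : ∀ b, ∑ b', Q b b' ≤ m) (h2 : ∀ b', ∑ b, Q b b' ≤ m) :
    ∑ b, ∑ b', (if b ∈ Bd ∨ b' ∈ Bd then Q b b' else 0) ≤ 2 * m * Bd.card := by
  have h3 : ∀ b b', (if b ∈ Bd ∨ b' ∈ Bd then Q b b' else 0) ≤
      (if b ∈ Bd then Q b b' else 0) + (if b' ∈ Bd then Q b b' else 0) := by
    intro b b'
    have := hQ b b'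
    split_ifs <;> first | linarith | tauto
  calc _ ≤ ∑ b, ∑ b', ((if b ∈ Bd then Q b b' else 0) + (if b' ∈ Bd then Q b b' else 0)) :=
        Finset.sum_le_sum fun b _ => Finset.sum_le_sum fun b' _ => h3 b b'
    _ = ∑ b, (if b ∈ Bd then ∑ b', Q b b' else 0) + ∑ b', (if b' ∈ Bd then ∑ b, Q b b' else 0) := by
        simp only [Finset.sum_add_distrib]
        congr 1
        · refine Finset.sum_congr rfl fun b _ => ?_
          split_ifs <;> simp
        · rw [Finset.sum_comm]
          refine Finset.sum_congr rfl fun b _ => ?_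
          split_ifs <;> simp
    _ ≤ ∑ b, (if b ∈ Bd then m else 0) + ∑ b', (if b' ∈ Bd then m else 0) := by
        refine add_le_add (Finset.sum_le_sum fun b _ => ?_) (Finset.sum_le_sum fun b _ => ?_)
        · split_ifs
          · exact h1 b
          · exact le_rfl
        · split_ifs
          · exact h2 b
          · exact le_rfl
    _ = _ := by
        simp only [Finset.sum_ite_mem, univ_inter, sum_const, nsmul_eq_mul]
        ring

end Count

end Vale.Agent.P060.HW.Strong
end

section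

/-!
# P060/HW: from entropies to convolutions

Pinsker and truncation: nearly independent variables of bounded conditional relative entropy give
laws which satisfy the hypotheses of `conv2_field` and `conv3_field`.
-/

open scoped Classical
open Finset Module

noncomputable section

set_option linter.unusedSectionVars false

namespace Vale.Agent.P060.HW

lemma ec_aux_mono :
    MonotoneOn (fun h : ℝ => (h + 1) * Real.log h - 2 * (h - 1)) (Set.Ioi 0) := by
  have hd : ∀ h : ℝ, 0 < h → HasDerivAt (fun h : ℝ => (h + 1) * Real.log h - 2 * (h - 1))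
      (1 * Real.log h + (h + 1) * h⁻¹ - 2 * 1) h := by
    intro h hh
    exact ((((hasDerivAt_id h).add_const 1).mul (Real.hasDerivAt_log hh.ne')).sub
      (((hasDerivAt_id h).sub_const 1).const_mul 2))
  apply monotoneOn_of_deriv_nonneg (convex_Ioi 0)
  · intro h hh
    exact (hd h hh).continuousAt.continuousWithinAt
  · intro h hh
    rw [interior_Ioi] at hh
    exact (hd h hh).differentiableAt.differentiableWithinAt
  · intro h hh
    rw [interior_Ioi] at hh
    rw [(hd h hh).deriv]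
    have h1 := Real.one_sub_inv_le_log_of_pos hh
    have hh' : (0 : ℝ) < h := hh
    have h2 : (h + 1) * h⁻¹ = 1 + h⁻¹ := by field_simp
    rw [h2]
    linarith only [h1]

lemma ec_pt (h : ℝ) (hh : 0 ≤ h) :
    3 * (h - 1) ^ 2 ≤ (2 * h + 4) * (h * Real.log h - h + 1) := by
  rcases hh.eq_or_lt with rfl | hpos
  · norm_num
  set g : ℝ → ℝ := fun h => (2 * h + 4) * (h * Real.log h - h + 1) - 3 * (h - 1) ^ 2 with hg
  have hd : ∀ h : ℝ, 0 < h → HasDerivAt g (4 * ((h + 1) * Real.log h - 2 * (h - 1))) h := by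
    intro h hh
    have h1 : HasDerivAt (fun h : ℝ => 2 * h + 4) (2 * 1) h :=
      ((hasDerivAt_id h).const_mul 2).add_const 4
    have h2 : HasDerivAt (fun h : ℝ => h * Real.log h - h + 1)
        (1 * Real.log h + h * h⁻¹ - 1) h :=
      (((hasDerivAt_id h).mul (Real.hasDerivAt_log hh.ne')).sub (hasDerivAt_id h)).add_const 1
    have h3 : HasDerivAt (fun h : ℝ => 3 * (h - 1) ^ 2) (3 * ((2 : ℕ) * (h - 1) ^ (2 - 1) * 1)) h :=
      (((hasDerivAt_id h).sub_const 1).pow 2).const_mul 3
    have h4 := (h1.mul h2).sub h3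
    have e : 2 * 1 * (h * Real.log h - h + 1) + (2 * h + 4) * (1 * Real.log h + h * h⁻¹ - 1)
        - 3 * (((2 : ℕ) : ℝ) * (h - 1) ^ (2 - 1) * 1)
        = 4 * ((h + 1) * Real.log h - 2 * (h - 1)) := by
      rw [mul_inv_cancel₀ hh.ne']
      norm_num
      ring
    rw [e] at h4
    exact h4
  have hk1 : (fun h : ℝ => (h + 1) * Real.log h - 2 * (h - 1)) 1 = 0 := by norm_num
  have hg1 : g 1 = 0 := by simp [hg]
  have key : 0 ≤ g h := by
    rcases le_total 1 h with h1 | h1
    · have hm : MonotoneOn g (Set.Ici 1) := by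
        apply monotoneOn_of_deriv_nonneg (convex_Ici 1)
        · intro y hy
          exact (hd y (lt_of_lt_of_le one_pos hy)).continuousAt.continuousWithinAt
        · intro y hy
          rw [interior_Ici] at hy
          exact (hd y (lt_trans one_pos hy)).differentiableAt.differentiableWithinAt
        · intro y hy
          rw [interior_Ici] at hy
          have hy0 : (0 : ℝ) < y := lt_trans one_pos hy
          rw [(hd y hy0).deriv]
          have := ec_aux_mono (Set.mem_Ioi.2 one_pos) (Set.mem_Ioi.2 hy0) hy.le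
          rw [hk1] at this
          have h5 : 0 ≤ (y + 1) * Real.log y - 2 * (y - 1) := this
          linarith
      have := hm (Set.mem_Ici.2 le_rfl) (Set.mem_Ici.2 h1) h1
      rw [hg1] at this
      exact this
    · have hm : AntitoneOn g (Set.Ioc 0 1) := by
        apply antitoneOn_of_deriv_nonpos (convex_Ioc 0 1)
        · intro y hy
          exact (hd y hy.1).continuousAt.continuousWithinAt
        · intro y hy
          rw [interior_Ioc] at hy
          exact (hd y hy.1).differentiableAt.differentiableWithinAt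
        · intro y hy
          rw [interior_Ioc] at hy
          rw [(hd y hy.1).deriv]
          have := ec_aux_mono (Set.mem_Ioi.2 hy.1) (Set.mem_Ioi.2 one_pos) hy.2.le
          rw [hk1] at this
          have h5 : (y + 1) * Real.log y - 2 * (y - 1) ≤ 0 := this
          linarith
      have := hm (Set.mem_Ioc.2 ⟨hpos, h1⟩) (Set.mem_Ioc.2 ⟨one_pos, le_rfl⟩) h1
      rw [hg1] at this
      exact this
  have : g h = (2 * h + 4) * (h * Real.log h - h + 1) - 3 * (h - 1) ^ 2 := rfl
  linarith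

lemma ec_pt_nonneg (h : ℝ) (hh : 0 ≤ h) : 0 ≤ h * Real.log h - h + 1 := by
  have h1 := ec_pt h hh
  have h2 : 0 ≤ (2 * h + 4) * (h * Real.log h - h + 1) := le_trans (by positivity) h1
  exact nonneg_of_mul_nonneg_right h2 (by linarith)

/-- **Pinsker's inequality.** -/
theorem pinsker_fin {α : Type*} [Fintype α] (p q : α → ℝ) (hp : ∀ a, 0 ≤ p a) (hq : ∀ a, 0 ≤ q a)
    (hp1 : ∑ a, p a = 1) (hq1 : ∑ a, q a = 1) (hac : ∀ a, q a = 0 → p a = 0) :
    (∑ a, |p a - q a|) ^ 2 ≤ 2 * ∑ a, p a * (Real.log (p a) - Real.log (q a)) := by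
  have e1 : ∑ a, (2 * p a + 4 * q a) / 3 = 2 := by
    have : ∀ a, (2 * p a + 4 * q a) / 3 = (2 / 3) * p a + (4 / 3) * q a := fun a => by ring
    rw [Finset.sum_congr rfl fun a _ => this a, Finset.sum_add_distrib, ← Finset.mul_sum,
      ← Finset.mul_sum, hp1, hq1]
    norm_num
  have e2 : ∑ a, (p a * (Real.log (p a) - Real.log (q a)) - p a + q a)
      = ∑ a, p a * (Real.log (p a) - Real.log (q a)) := by
    rw [Finset.sum_add_distrib, Finset.sum_sub_distrib, hp1, hq1]
    ring
  have hh : ∀ a, q a ≠ 0 → q a * (p a / q a * Real.log (p a / q a) - p a / q a + 1)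
      = p a * (Real.log (p a) - Real.log (q a)) - p a + q a := by
    intro a ha
    rcases (hp a).eq_or_lt with h0 | h0
    · rw [← h0]; simp
    · rw [Real.log_div h0.ne' ha]
      field_simp
  rw [← e1, ← e2]
  apply Finset.sum_sq_le_sum_mul_sum_of_sq_le_mul
  · intro a _
    have := hp a
    have := hq a
    positivity
  · intro a _
    by_cases ha : q a = 0
    · rw [hac a ha, ha]; simp
    · rw [← hh a ha]
      exact mul_nonneg (hq a) (ec_pt_nonneg _ (div_nonneg (hp a) (hq a)))
  · intro a _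
    by_cases ha : q a = 0
    · rw [hac a ha, ha]; simp
    · have hq0 : 0 < q a := lt_of_le_of_ne (hq a) (Ne.symm ha)
      have h1 := ec_pt (p a / q a) (div_nonneg (hp a) (hq a))
      have h2 : |p a - q a| ^ 2 = q a ^ 2 * (p a / q a - 1) ^ 2 := by
        rw [sq_abs]; field_simp
      rw [h2, ← hh a ha]
      have h3 : (2 * p a + 4 * q a) / 3 * (q a * (p a / q a * Real.log (p a / q a) - p a / q a + 1))
          = q a ^ 2 * ((2 * (p a / q a) + 4) * (p a / q a * Real.log (p a / q a) - p a / q a + 1) / 3)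
          := by field_simp
      rw [h3]
      refine mul_le_mul_of_nonneg_left ?_ (sq_nonneg _)
      linarith only [h1]

namespace FinProb

variable {Ω : Type*} [Fintype Ω] (P : FinProb Ω) {α β τ V : Type*}

lemma sum_p_mul [Fintype α] (f : Ω → α) (φ : α → ℝ) :
    ∑ a, P.p f a * φ a = ∑ ω, P.w ω * φ (f ω) := by
  unfold p
  simp only [Finset.sum_mul, ite_mul, zero_mul]
  rw [Finset.sum_comm]
  refine Finset.sum_congr rfl fun ω _ => ?_
  rw [Finset.sum_ite_eq]
  simp

lemma sum_p [Fintype α] (f : Ω → α) : ∑ a, P.p f a = 1 := by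
  have := P.sum_p_mul f (fun _ => 1)
  simpa [P.sum_one] using this

/-- The product law of the conditional laws. -/
def pl {k : ℕ} (U : Fin k → Ω → V) (T : Ω → τ) (x : (Fin k → V) × τ) : ℝ :=
  P.p T x.2 * ∏ i, P.cond (U i) T x.2 (x.1 i)

/-- Pinsker for the joint law against the product of the conditional laws. -/
theorem tv_prod [Fintype V] [Fintype τ] {k : ℕ} (U : Fin k → Ω → V) (T : Ω → τ) {δ : ℝ}
    (hδ : ∑ i, (P.H (fun ω => (U i ω, T ω)) - P.H T)
      - (P.H (fun ω => ((fun i => U i ω : Fin k → V), T ω)) - P.H T) ≤ δ) :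
    ∑ x, |P.p (fun ω => ((fun i => U i ω : Fin k → V), T ω)) x - P.pl U T x|
      ≤ Real.sqrt (2 * δ) := by
  set f : Ω → (Fin k → V) × τ := fun ω => ((fun i => U i ω : Fin k → V), T ω) with hf
  apply Real.le_sqrt_of_sq_le
  have hq1 : ∑ x, P.pl U T x = 1 := by
    rw [Fintype.sum_prod_type_right]
    have : ∀ t, ∑ u : Fin k → V, P.pl U T (u, t) = P.p T t := by
      intro t
      unfold pl
      simp only
      rw [← Finset.mul_sum, ← Fintype.piFinset_univ, ← Finset.prod_univ_sum]
      by_cases h0 : P.p T t = 0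
      · rw [h0, zero_mul]
      · rw [Finset.prod_eq_one fun i _ => P.sum_cond (U i) T h0, mul_one]
    rw [Finset.sum_congr rfl fun t _ => this t, P.sum_p T]
  have hpos : ∀ ω, 0 < P.w ω → (0 < P.p T (T ω)) ∧ ∀ i, 0 < P.cond (U i) T (T ω) (U i ω) := by
    intro ω h0
    have a0 : 0 < P.p T (T ω) := P.p_pos h0 T
    exact ⟨a0, fun i => div_pos (P.p_pos h0 (fun ω => (U i ω, T ω))) a0⟩
  have hac : ∀ x, P.pl U T x = 0 → P.p f x = 0 := by
    intro x hx
    by_contra h
    obtain ⟨ω, h1, h2⟩ := P.exists_of_p_ne_zero h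
    obtain ⟨a0, b0⟩ := hpos ω h2
    have : 0 < P.pl U T x := by
      rw [← h1]
      unfold pl
      exact mul_pos a0 (Finset.prod_pos fun i _ => b0 i)
    linarith only [this, hx]
  refine (pinsker_fin (P.p f) (P.pl U T) (fun x => P.p_nonneg f x)
    (fun x => mul_nonneg (P.p_nonneg _ _) (Finset.prod_nonneg fun i _ => P.cond_nonneg _ _ _ _))
    (P.sum_p f) hq1 hac).trans ?_
  refine mul_le_mul_of_nonneg_left (le_trans (le_of_eq ?_) hδ) zero_le_two
  rw [P.sum_p_mul f (fun x => Real.log (P.p f x) - Real.log (P.pl U T x))]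
  have h1 : ∀ ω, P.w ω * (Real.log (P.p f (f ω)) - Real.log (P.pl U T (f ω)))
      = (∑ i, P.w ω * (-Real.log (P.p (fun ω => (U i ω, T ω)) (U i ω, T ω))
          - -Real.log (P.p T (T ω))))
        - (P.w ω * (-Real.log (P.p f (f ω))) - P.w ω * (-Real.log (P.p T (T ω)))) := by
    intro ω
    rcases P.w_zero_or_pos ω with h0 | h0
    · simp [h0]
    · obtain ⟨a0, b0⟩ := hpos ω h0
      have h2 : Real.log (P.pl U T (f ω)) = Real.log (P.p T (T ω))
          + ∑ i, (Real.log (P.p (fun ω => (U i ω, T ω)) (U i ω, T ω)) - Real.log (P.p T (T ω))) := by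
        unfold pl
        rw [hf]
        simp only
        rw [Real.log_mul a0.ne' (Finset.prod_ne_zero_iff.mpr fun i _ => (b0 i).ne'),
          Real.log_prod fun i _ => (b0 i).ne']
        congr 1
        refine Finset.sum_congr rfl fun i _ => ?_
        unfold cond
        rw [Real.log_div (P.p_pos h0 (fun ω => (U i ω, T ω))).ne' a0.ne']
      rw [h2]
      have h3 : ∑ i, P.w ω * (-Real.log (P.p (fun ω => (U i ω, T ω)) (U i ω, T ω))
          - -Real.log (P.p T (T ω)))
          = -(P.w ω * ∑ i, (Real.log (P.p (fun ω => (U i ω, T ω)) (U i ω, T ω))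
            - Real.log (P.p T (T ω)))) := by
        rw [Finset.mul_sum, ← Finset.sum_neg_distrib]
        exact Finset.sum_congr rfl fun i _ => by ring
      rw [h3]
      ring
  rw [Finset.sum_congr rfl fun ω _ => h1 ω, Finset.sum_sub_distrib, Finset.sum_comm,
    Finset.sum_sub_distrib]
  congr 1
  refine Finset.sum_congr rfl fun i _ => ?_
  unfold H
  rw [← Finset.sum_sub_distrib]
  exact Finset.sum_congr rfl fun ω _ => by ring

end FinProb

end Vale.Agent.P060.HW
end
end

section

/-! Greedy splitting: a large class of tests on which every row is almost constant. -/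

namespace Vale.Agent.P060.HW

open Finset

section Energy

variable {T O A A₀ : Type*} [Fintype T] [Fintype O]

open Classical in
/-- The tests with the same base label and the same rows in `Z`. -/
noncomputable def cls (c₀ : T → A₀) (h : T → O → A) (Z : Finset O) (t : T) : Finset T :=
  univ.filter fun s => c₀ s = c₀ t ∧ ∀ w ∈ Z, h s w = h t w

/-- The sum of the squares of the sizes of the classes. -/
noncomputable def energy (c₀ : T → A₀) (h : T → O → A) (Z : Finset O) : ℝ :=
  ∑ t, ((cls c₀ h Z t).card : ℝ)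

theorem mem_cls {c₀ : T → A₀} {h : T → O → A} {Z : Finset O} {t s : T} :
    s ∈ cls c₀ h Z t ↔ c₀ s = c₀ t ∧ ∀ w ∈ Z, h s w = h t w := by
  simp [cls]

theorem self_mem_cls (c₀ : T → A₀) (h : T → O → A) (Z : Finset O) (t : T) :
    t ∈ cls c₀ h Z t := mem_cls.mpr ⟨rfl, fun _ _ => rfl⟩

theorem cls_eq {c₀ : T → A₀} {h : T → O → A} {Z : Finset O} {t s : T}
    (hs : s ∈ cls c₀ h Z t) : cls c₀ h Z s = cls c₀ h Z t := by
  obtain ⟨h1, h2⟩ := mem_cls.mp hs
  ext u
  rw [mem_cls, mem_cls, h1]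
  refine and_congr_right fun _ => forall₂_congr fun w hw => ?_
  rw [h2 w hw]

theorem cls_insert_subset [DecidableEq O] (c₀ : T → A₀) (h : T → O → A) (Z : Finset O) (w : O)
    (t : T) : cls c₀ h (insert w Z) t ⊆ cls c₀ h Z t := by
  intro s hs
  obtain ⟨h1, h2⟩ := mem_cls.mp hs
  exact mem_cls.mpr ⟨h1, fun v hv => h2 v (mem_insert_of_mem hv)⟩

open Classical in
/-- Greedy splitting. -/
theorem greedy [Nonempty T] (c₀ : T → A₀) (h : T → O → A) {κ π : ℝ} (hκ : 0 < κ)
    (hbig : ∀ Z : Finset O, κ * Z.card ≤ 1 → ∃ t, π * Fintype.card T ≤ (cls c₀ h Z t).card) :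
    ∃ (T₁ : Finset T) (t₁ : T), t₁ ∈ T₁ ∧ π * Fintype.card T ≤ T₁.card ∧
      (∀ s ∈ T₁, c₀ s = c₀ t₁) ∧
      ∀ w, ∃ a : A, ((T₁.filter fun s => h s w ≠ a).card : ℝ) * π ≤ κ * Fintype.card T := by
  have hn : (0 : ℝ) < Fintype.card T := Nat.cast_pos.mpr Fintype.card_pos
  set n : ℝ := (Fintype.card T : ℝ) with hndef
  obtain ⟨Z, -, hZ⟩ := Finset.exists_min_image (univ : Finset (Finset O))
    (fun Z => energy c₀ h Z + κ * n ^ 2 * Z.card) ⟨∅, mem_univ _⟩
  have hle : ∀ Z t, ((cls c₀ h Z t).card : ℝ) ≤ n := fun Z t => by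
    rw [hndef]
    exact_mod_cast Finset.card_le_univ _
  have hE0 : 0 ≤ energy c₀ h Z := Finset.sum_nonneg fun t _ => Nat.cast_nonneg _
  have hE1 : energy c₀ h ∅ ≤ n ^ 2 := by
    calc energy c₀ h ∅ ≤ ∑ _t : T, n := Finset.sum_le_sum fun t _ => hle _ _
      _ = n ^ 2 := by rw [Finset.sum_const, card_univ, nsmul_eq_mul, ← hndef, sq]
  have hZc : κ * Z.card ≤ 1 := by
    have h1 := hZ ∅ (mem_univ _)
    rw [Finset.card_empty, Nat.cast_zero, mul_zero, add_zero] at h1
    have h2 : κ * Z.card * n ^ 2 ≤ 1 * n ^ 2 := by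
      have : κ * n ^ 2 * Z.card = κ * Z.card * n ^ 2 := by ring
      linarith
    exact le_of_mul_le_mul_right h2 (by positivity)
  obtain ⟨t, ht⟩ := hbig Z hZc
  set C := cls c₀ h Z t with hC
  have htC : t ∈ C := self_mem_cls _ _ _ _
  have hCpos : (0 : ℝ) < C.card := Nat.cast_pos.mpr (card_pos.mpr ⟨t, htC⟩)
  refine ⟨C, t, htC, ht, fun s hs => (mem_cls.mp hs).1, fun w => ?_⟩
  -- the most popular value of the row `w` on the class
  obtain ⟨s₀, hs₀, hmax⟩ := Finset.exists_max_image C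
    (fun s => (C.filter fun u => h u w = h s w).card) ⟨t, htC⟩
  refine ⟨h s₀ w, ?_⟩
  set m : ℝ := ((C.filter fun u => h u w = h s₀ w).card : ℝ) with hm
  have hsplit : ((C.filter fun s => h s w ≠ h s₀ w).card : ℝ) = C.card - m := by
    have h1 := Finset.card_filter_add_card_filter_not (s := C) (fun u => h u w = h s₀ w)
    have h2 : (((C.filter fun u => h u w = h s₀ w).card : ℝ)) +
        ((C.filter fun s => h s w ≠ h s₀ w).card : ℝ) = C.card := by exact_mod_cast h1
    rw [hm]
    linarith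
  rw [hsplit]
  have hmC : m ≤ C.card := by
    rw [hm]
    exact_mod_cast Finset.card_le_card (Finset.filter_subset _ _)
  by_cases hw : w ∈ Z
  · have h1 : m = C.card := by
      rw [hm]
      congr 2
      refine Finset.filter_true_of_mem fun u hu => ?_
      rw [(mem_cls.mp hu).2 w hw, (mem_cls.mp hs₀).2 w hw]
    rw [h1, sub_self, zero_mul]
    positivity
  · -- the energy drops by at least `C.card * (C.card - m)`
    have h1 := hZ (insert w Z) (mem_univ _)
    rw [Finset.card_insert_of_notMem hw] at h1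
    push_cast at h1
    have h2 : energy c₀ h (insert w Z) + C.card * (C.card - m) ≤ energy c₀ h Z := by
      have h3 : (C.card : ℝ) * (C.card - m) ≤
          ∑ s ∈ C, (((cls c₀ h Z s).card : ℝ) - (cls c₀ h (insert w Z) s).card) := by
        rw [← nsmul_eq_mul]
        refine Finset.card_nsmul_le_sum _ _ _ fun s hs => ?_
        rw [cls_eq hs]
        have h4 : cls c₀ h (insert w Z) s ⊆ C.filter fun u => h u w = h s w := by
          intro u hu
          refine Finset.mem_filter.mpr ⟨?_, (mem_cls.mp hu).2 w (mem_insert_self _ _)⟩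
          have h5 := cls_insert_subset c₀ h Z w s hu
          rwa [cls_eq hs] at h5
        have h5 : ((cls c₀ h (insert w Z) s).card : ℝ) ≤ m := by
          refine le_trans ?_ (Nat.cast_le.mpr (hmax s hs))
          exact_mod_cast Finset.card_le_card h4
        linarith
      have h6 : ∑ s ∈ C, (((cls c₀ h Z s).card : ℝ) - (cls c₀ h (insert w Z) s).card) ≤
          ∑ s, (((cls c₀ h Z s).card : ℝ) - (cls c₀ h (insert w Z) s).card) := by
        refine Finset.sum_le_sum_of_subset_of_nonneg (Finset.subset_univ _) fun s _ _ => ?_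
        rw [sub_nonneg]
        exact_mod_cast Finset.card_le_card (cls_insert_subset c₀ h Z w s)
      have h7 : ∑ s, (((cls c₀ h Z s).card : ℝ) - (cls c₀ h (insert w Z) s).card) =
          energy c₀ h Z - energy c₀ h (insert w Z) := Finset.sum_sub_distrib _ _
      linarith only [h7, h6, h3]
    have h7 : (C.card : ℝ) * (C.card - m) ≤ κ * n ^ 2 := by linarith
    have h8 : π * n * (C.card - m) ≤ κ * n ^ 2 := by
      refine le_trans ?_ h7
      exact mul_le_mul_of_nonneg_right ht (by linarith)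
    have h9 : (C.card - m) * π * n ≤ κ * n * n := by
      have e1 : π * n * (C.card - m) = (C.card - m) * π * n := by ring
      have e2 : κ * n ^ 2 = κ * n * n := by ring
      rw [← e1, ← e2]
      exact h8
    exact le_of_mul_le_mul_right h9 hn

open Classical in
/-- Greedy splitting, when all but `ε` of the tests take at most `M` values. -/
theorem greedy_of_values [Nonempty T] (c₀ : T → A₀) (h : T → O → A) {κ ε : ℝ} {M : ℕ}
    (hκ : 0 < κ) (hε : ε < 1) (hM : 0 < M)
    (hval : ∀ Z : Finset O, κ * Z.card ≤ 1 → ∃ G : Finset T,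
      (1 - ε) * Fintype.card T ≤ G.card ∧
        (G.image fun t => (c₀ t, fun w : Z => h t w)).card ≤ M) :
    ∃ (T₁ : Finset T) (t₁ : T), t₁ ∈ T₁ ∧ (1 - ε) / M * Fintype.card T ≤ T₁.card ∧
      (∀ s ∈ T₁, c₀ s = c₀ t₁) ∧
      ∀ w, ∃ a : A, ((T₁.filter fun s => h s w ≠ a).card : ℝ) * ((1 - ε) / M) ≤
        κ * Fintype.card T := by
  have hMpos : (0 : ℝ) < M := Nat.cast_pos.mpr hM
  refine greedy c₀ h hκ fun Z hZ => ?_
  obtain ⟨G, hG, hGM⟩ := hval Z hZ
  set f : T → A₀ × (Z → A) := fun t => (c₀ t, fun w : Z => h t w) with hf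
  have hn : (0 : ℝ) < Fintype.card T := Nat.cast_pos.mpr Fintype.card_pos
  have hGne : G.Nonempty := by
    rw [← Finset.card_pos]
    have : (0 : ℝ) < G.card := lt_of_lt_of_le (mul_pos (by linarith only [hε]) hn) hG
    exact_mod_cast this
  obtain ⟨y, hy, hmax⟩ := Finset.exists_max_image (G.image f)
    (fun y => (G.filter fun t => f t = y).card) (hGne.image f)
  obtain ⟨t, ht, rfl⟩ := Finset.mem_image.mp hy
  refine ⟨t, ?_⟩
  have h1 : G.card ≤ M * (G.filter fun s => f s = f t).card := by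
    rw [Finset.card_eq_sum_card_image f G]
    refine (Finset.sum_le_card_nsmul _ _ _ fun y hy => hmax y hy).trans ?_
    rw [smul_eq_mul]
    exact Nat.mul_le_mul_right _ hGM
  have h2 : (G.filter fun s => f s = f t) ⊆ cls c₀ h Z t := by
    intro s hs
    have h3 := (Finset.mem_filter.mp hs).2
    rw [hf, Prod.mk.injEq] at h3
    exact mem_cls.mpr ⟨h3.1, fun w hw => congrFun h3.2 ⟨w, hw⟩⟩
  have h4 : (G.card : ℝ) ≤ M * (cls c₀ h Z t).card := by
    exact_mod_cast h1.trans (Nat.mul_le_mul_left _ (Finset.card_le_card h2))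
  rw [div_mul_eq_mul_div, div_le_iff₀ hMpos]
  linarith only [h4, hG]

end Energy

end Vale.Agent.P060.HW
end
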