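import Mathlib
import Vale.Agent.P060.Bd3.B1
import Vale.Agent.P060.Defs

set_option linter.all false

section

/-!
# P060/HW: statements of the three parts of the TV theorem

`TvK2`: bounded conditional deficit of most pairs of types given every small past.
`TvSel`: selection of the alignment and of three disjoint pasts for most pairs.
`TvLoc`: one good pair.
-/

open scoped Classical

noncomputable section

set_option linter.unusedSectionVars false

namespace Vale.Agent.P060.HW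

open Module

/-- The deficit of a pair law on a space of pairs of tensors (`Lat.D` elaborated for general `K`:
no clash of decidability instances). -/
def PLaw.Dd {K T : Type*} [Fintype K] {δ : Design K T} {a a' : T} {ι ι' : Bool} {Λ M : ℝ}
    {w : Matrix K K F → Matrix K K F → ℝ} (hw : PLaw δ a a' ι ι' Λ M w)
    (G : Submodule F (MM K)) : ℝ := Lat.D hw.prob Xf G

variable {N d : ℕ} {E P Om : Type} [Fintype E] [Fintype P] [Fintype Om] [NeZero N]

/-- The type of pair laws. -/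
abbrev WL (E P Om : Type) : Type :=
  Matrix (Co E P Om) (Co E P Om) F → Matrix (Co E P Om) (Co E P Om) F → ℝ

/-- The deficit of the law `hw` on the space of the tensors visible from the lines in `A` (and the
trivial tensors). -/
def PLaw.dA {fr : Frame N d E Om} {p : Lin N → Co E P Om → F} {h : Ext fr p} {a a' : Ty N d}
    {ι ι' : Bool} {Λ M : ℝ} {w : WL E P Om} (hw : PLaw (dsg fr p h) a a' ι ι' Λ M w)
    (A : Finset (Lin N)) : ℝ := hw.Dd (GA fr p h a a' A)

/-- The mutual information of the lines in `B` and the lines in `B'`, given the lines in `A` and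
everything visible both from `A ∪ B` and from `A ∪ B'`. -/
def PLaw.miA {fr : Frame N d E Om} {p : Lin N → Co E P Om → F} {h : Ext fr p} {a a' : Ty N d}
    {ι ι' : Bool} {Λ M : ℝ} {w : WL E P Om} (hw : PLaw (dsg fr p h) a a' ι ι' Λ M w)
    (B B' A : Finset (Lin N)) : ℝ :=
  hw.dA (A ∪ B ∪ B') + hw.Dd (GA fr p h a a' (A ∪ B) ⊓ GA fr p h a a' (A ∪ B'))
    - hw.dA (A ∪ B) - hw.dA (A ∪ B')

/-- A past of admissible size: at most `|P| / (D₀ + 20) ^ 2` lines. -/
def Small (P : Type) [Fintype P] (D₀ : ℕ) (A : Finset (Lin N)) : Prop :=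
  A.card * (D₀ + 20) ^ 2 ≤ Fintype.card P

/-- A good pair of types `β = (b, b')` for the law `hw`: an alignment (third lines `lin b q`,
`lin b' q'`) and three disjoint pasts. -/
def GoodB {fr : Frame N d E Om} {p : Lin N → Co E P Om → F} {h : Ext fr p} {a a' : Ty N d}
    {ι ι' : Bool} {Λ M : ℝ} {w : WL E P Om} (hw : PLaw (dsg fr p h) a a' ι ι' Λ M w)
    (D₀ : ℕ) (lam d₀ : ℝ) (β : Ty N d × Ty N d) : Prop :=
  β.1 ≠ β.2 ∧ Disjoint (lins2 β) (lins2 (a, a')) ∧
  (∀ c : Ty N d, lins c ⊆ lins2 (a, a') ∪ lins2 β → c = a ∨ c = a' ∨ c = β.1 ∨ c = β.2) ∧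
  hw.dA (lins2 (a, a') ∪ lins2 β) - hw.dA (lins2 (a, a')) ≤ lam ∧
  ∃ (i j q i' j' q' : Fin 3), i ≠ j ∧ i ≠ q ∧ j ≠ q ∧ i' ≠ j' ∧ i' ≠ q' ∧ j' ≠ q' ∧
    (∀ s t, lin β.1 s = lin β.2 t → s = q ∧ t = q') ∧
    ∃ S : Fin 3 → Finset (Lin N), (∀ l, Small P D₀ (S l)) ∧
      (∀ l l', l ≠ l' → Disjoint (S l) (S l')) ∧
      (∀ l, Disjoint (S l) (lins2 (a, a') ∪ lins2 β)) ∧
      (∀ l, hw.dA (S l ∪ lins2 (a, a') ∪ lins2 β) - hw.dA (S l ∪ lins2 (a, a')) ≤ lam) ∧
      (∀ l, hw.miA {lin β.1 i, lin β.2 i'} {lin β.1 j, lin β.2 j'}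
        (S l ∪ lins2 (a, a') ∪ {lin β.1 q, lin β.2 q'}) ≤ d₀)

/-- `K₂` for the past `A`: the pairs with large conditional deficit have mass at most `ε`. -/
def K2At {fr : Frame N d E Om} {p : Lin N → Co E P Om → F} {h : Ext fr p} {a a' : Ty N d}
    {ι ι' : Bool} {Λ M : ℝ} {w : WL E P Om} (hw : PLaw (dsg fr p h) a a' ι ι' Λ M w)
    (lam ε : ℝ) (ρ : Ty N d × Ty N d → ℝ) (A : Finset (Lin N)) : Prop :=
  ∑ β, (if Disjoint (lins2 β) (A ∪ lins2 (a, a')) ∧
      lam < hw.dA (A ∪ lins2 (a, a') ∪ lins2 β) - hw.dA (A ∪ lins2 (a, a'))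
    then ρ β else 0) ≤ ε

/-- TvK2 (helper72, helper503).  `lam` depends only on `C` and `ε`. -/
def TvK2 : Prop := ∀ C ε : ℝ, 0 < ε → ∃ lam : ℝ, 0 ≤ lam ∧ ∃ D₁ : ℕ, ∀ D₀ ≥ D₁, ∀ (d : ℕ)
  (E : Type) [Fintype E], ∃ θ > (0 : ℝ), ∃ k₀ : ℕ, ∀ (N : ℕ) (P Om : Type) [Fintype P]
  [Fintype Om] [NeZero N] (fr : Frame N d E Om), k₀ ≤ Fintype.card P → Sizes fr P D₀ θ 0 →
  ∃ G : Set (Dz fr P), 40 * Nat.card (Gᶜ : Set (Dz fr P)) ≤ Nat.card (Dz fr P) ∧
  ∀ p ∈ G, ∀ (a a' : Ty N d) (ι ι' : Bool), a ≠ a' →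
  ∀ (M : ℝ) (w : WL E P Om)
    (hw : PLaw (dsg fr p.1 p.2) a a' ι ι' (2521 ^ (C * Fintype.card P)) M w),
  ∀ ρ, TCoup 8 ρ → ∀ A : Finset (Lin N), Small P D₀ A → Disjoint A (lins2 (a, a')) →
    K2At hw lam ε ρ A

/-- TvSel (helper797).  `ε₁` depends only on `ε`; `d₁` depends on `C, ε, lam, d₀, D₀`. -/
def TvSel : Prop := ∀ ε : ℝ, 0 < ε → ∃ ε₁ > (0 : ℝ), ∀ C lam d₀ : ℝ, 0 ≤ lam → 0 < d₀ →
  ∀ D₀ : ℕ, 0 < D₀ → ∃ d₁ : ℕ, ∀ d ≥ d₁, ∀ (E : Type) [Fintype E], ∃ θ > (0 : ℝ), ∃ k₀ : ℕ,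
  ∀ (N : ℕ) (P Om : Type) [Fintype P] [Fintype Om] [NeZero N] (fr : Frame N d E Om)
    (p : Lin N → Co E P Om → F) (h : Ext fr p), k₀ ≤ Fintype.card P → Sizes fr P D₀ θ 0 →
  (∀ κ : ℕ, κ ≤ 20 * Fintype.card P / (D₀ + 20) ^ 2 → Ev1 p κ) →
  ∀ (a a' : Ty N d) (ι ι' : Bool), a ≠ a' →
  ∀ (M : ℝ) (w : WL E P Om)
    (hw : PLaw (dsg fr p h) a a' ι ι' (2521 ^ (C * Fintype.card P)) M w),
  ∀ ρ, TCoup 8 ρ →
  (∀ A : Finset (Lin N), Small P D₀ A → Disjoint A (lins2 (a, a')) → K2At hw lam ε₁ ρ A) →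
    ∑ β, (if ¬ GoodB hw D₀ lam d₀ β then ρ β else 0) ≤ ε

/-- TvLoc (helper743). -/
def TvLoc : Prop := ∀ (ψ : AddChar F ℂ), ψ ≠ 0 → ∀ ε lam : ℝ, 0 < ε → 0 ≤ lam →
  ∃ d₀ > (0 : ℝ), ∃ η > (0 : ℝ), ∀ (D₀ N d : ℕ) (E P Om : Type) [Fintype E] [Fintype P]
    [Fintype Om] [NeZero N] (fr : Frame N d E Om) (p : Lin N → Co E P Om → F) (h : Ext fr p),
  (∀ κ : ℕ, κ ≤ 20 * Fintype.card P / (D₀ + 20) ^ 2 → Ev1 p κ) →
  30 ≤ Fintype.card P / (D₀ + 20) ^ 2 →
  (∀ w, 30 + (rowLines fr w).card ≤ Fintype.card P / (D₀ + 20) ^ 2) →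
  ∀ (a a' : Ty N d) (ι ι' : Bool), a ≠ a' →
  ∀ (Λ M : ℝ) (w : WL E P Om) (hw : PLaw (dsg fr p h) a a' ι ι' Λ M w) (β : Ty N d × Ty N d),
    GoodB hw D₀ lam d₀ β →
      tdist (dsg fr p h) a a' w β ≤ ε ∨ BadC ψ (dsg fr p h) a a' w η β

end Vale.Agent.P060.HW
end
end

section

/-!
# P060/HW: Fourier analysis on finite dual pairs, projection on spans, three pasts lemma

`CharSys X G` : a finite dual pair: `X` an additive group of labels, `G` a finite set,
`e x g` unimodular, multiplicative in `x`, and `𝔼 g, e x g = 0` for `x ≠ 0`.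
-/

open Finset
open scoped BigOperators ComplexConjugate

namespace Vale.Agent.P060.HW

/-- A finite dual pair. -/
structure CharSys (X G : Type*) [AddCommGroup X] [Fintype G] where
  e : X → G → ℂ
  add : ∀ x y g, e (x + y) g = e x g * e y g
  norm : ∀ x g, ‖e x g‖ = 1
  orth : ∀ x, x ≠ 0 → 𝔼 g, e x g = 0

namespace CharSys

variable {X G : Type*} [AddCommGroup X] [Fintype G] (S : CharSys X G)

lemma e_ne (x : X) (g : G) : S.e x g ≠ 0 := by
  intro h
  have := S.norm x g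
  rw [h, norm_zero] at this
  exact zero_ne_one this

lemma e_zero (g : G) : S.e 0 g = 1 := by
  have h := S.add 0 0 g
  rw [add_zero] at h
  have h2 := S.e_ne 0 g
  exact (mul_left_cancel₀ h2 (by rw [mul_one]; exact h)).symm

lemma conj_e (x : X) (g : G) : conj (S.e x g) = S.e (-x) g := by
  have h := S.add x (-x) g
  rw [add_neg_cancel, S.e_zero] at h
  have h2 : S.e x g * conj (S.e x g) = 1 := by
    rw [Complex.mul_conj, Complex.normSq_eq_norm_sq, S.norm]; norm_num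
  exact mul_left_cancel₀ (S.e_ne x g) (h2.trans h)

lemma e_mul_conj (x y : X) (g : G) : S.e x g * conj (S.e y g) = S.e (x - y) g := by
  rw [S.conj_e, ← S.add, sub_eq_add_neg]

lemma norm_conj (x : X) (g : G) : ‖conj (S.e x g)‖ = 1 := by
  rw [RCLike.norm_conj, S.norm]

/-- Fourier coefficient. -/
noncomputable def coef (f : G → ℂ) (x : X) : ℂ := 𝔼 g, f g * conj (S.e x g)

lemma orth' [Nonempty G] [DecidableEq X] (x y : X) :
    𝔼 g, S.e x g * conj (S.e y g) = if x = y then 1 else 0 := by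
  simp only [S.e_mul_conj]
  split_ifs with h
  · subst h
    simp [sub_self, S.e_zero]
  · exact S.orth _ (sub_ne_zero.mpr h)

lemma norm_coef_le (f : G → ℂ) (x : X) : ‖S.coef f x‖ ≤ 𝔼 g, ‖f g‖ := by
  unfold coef
  refine (RCLike.norm_expect_le (K := ℂ)).trans (le_of_eq ?_)
  refine expect_congr rfl fun g _ => ?_
  rw [norm_mul, S.norm_conj, mul_one]

lemma coef_sub (f h : G → ℂ) (x : X) :
    S.coef (fun g => f g - h g) x = S.coef f x - S.coef h x := by
  unfold coef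
  rw [← expect_sub_distrib]
  refine expect_congr rfl fun g _ => ?_
  ring

lemma coef_sum [Nonempty G] {s : Finset X} (a : X → ℂ) (x : X) [Decidable (x ∈ s)] :
    S.coef (fun g => ∑ y ∈ s, a y * S.e y g) x = if x ∈ s then a x else 0 := by
  classical
  unfold coef
  have : ∀ g, (∑ y ∈ s, a y * S.e y g) * conj (S.e x g)
      = ∑ y ∈ s, a y * (S.e y g * conj (S.e x g)) := by
    intro g
    rw [Finset.sum_mul]
    exact Finset.sum_congr rfl fun y _ => by ring
  rw [expect_congr rfl fun g _ => this g, expect_sum_comm]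
  have h2 : ∀ y ∈ s, 𝔼 g, a y * (S.e y g * conj (S.e x g)) = if y = x then a y else 0 := by
    intro y _
    rw [← mul_expect, S.orth']
    split_ifs <;> simp
  rw [Finset.sum_congr rfl h2, Finset.sum_ite_eq' s x a]
  split_ifs <;> rfl

/-- Parseval for finite sums. -/
lemma parseval [Nonempty G] (s : Finset X) (a : X → ℂ) :
    𝔼 g, ‖∑ y ∈ s, a y * S.e y g‖ ^ 2 = ∑ y ∈ s, ‖a y‖ ^ 2 := by
  classical
  have h1 : ((𝔼 g, ‖∑ y ∈ s, a y * S.e y g‖ ^ 2 : ℝ) : ℂ) = ((∑ y ∈ s, ‖a y‖ ^ 2 : ℝ) : ℂ) := by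
    rw [Complex.ofReal_expect, Complex.ofReal_sum]
    have : ∀ g, ((‖∑ y ∈ s, a y * S.e y g‖ ^ 2 : ℝ) : ℂ)
        = ∑ x ∈ s, conj (a x) * ((∑ y ∈ s, a y * S.e y g) * conj (S.e x g)) := by
      intro g
      rw [Complex.ofReal_pow, ← Complex.mul_conj', map_sum, Finset.mul_sum]
      refine Finset.sum_congr rfl fun x _ => ?_
      rw [map_mul]; ring
    rw [expect_congr rfl fun g _ => this g, expect_sum_comm]
    refine Finset.sum_congr rfl fun x hx => ?_
    rw [← mul_expect]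
    have := S.coef_sum (s := s) a x
    unfold coef at this
    rw [this, if_pos hx, mul_comm, Complex.mul_conj']
    norm_cast
  exact_mod_cast h1

end CharSys

lemma expect_le_sqrt {G : Type*} [Fintype G] [Nonempty G] (u : G → ℝ) :
    𝔼 g, u g ≤ Real.sqrt (𝔼 g, u g ^ 2) := by
  apply Real.le_sqrt_of_sq_le
  have h : 0 ≤ 𝔼 g, (u g - 𝔼 g, u g) ^ 2 := expect_nonneg fun _ _ => sq_nonneg _
  have h2 : 𝔼 g, (u g - 𝔼 g, u g) ^ 2 = 𝔼 g, u g ^ 2 - (𝔼 g, u g) ^ 2 := by
    set c := 𝔼 g, u g with hc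
    have : ∀ g, (u g - c) ^ 2 = u g ^ 2 - (2 * c) * u g + c ^ 2 := fun g => by ring
    rw [expect_congr rfl fun g _ => this g, expect_add_distrib, expect_sub_distrib, ← mul_expect,
      Fintype.expect_const, ← hc]
    ring
  rw [h2] at h
  linarith


namespace CharSys

variable {X G : Type*} [AddCommGroup X] [Fintype G] (S : CharSys X G)

/-- Projection on a finite set of labels. -/
noncomputable def proj (P : Finset X) (f : G → ℂ) (g : G) : ℂ := ∑ x ∈ P, S.coef f x * S.e x g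

/-- Reproducing kernel. -/
noncomputable def ker (P : Finset X) (g g' : G) : ℂ := ∑ x ∈ P, S.e x g * conj (S.e x g')

lemma proj_eq (P : Finset X) (f : G → ℂ) (g : G) :
    S.proj P f g = 𝔼 g', f g' * S.ker P g g' := by
  unfold proj ker coef
  have : ∀ g', f g' * ∑ x ∈ P, S.e x g * conj (S.e x g')
      = ∑ x ∈ P, (f g' * conj (S.e x g')) * S.e x g := by
    intro g'
    rw [Finset.mul_sum]
    exact Finset.sum_congr rfl fun x _ => by ring
  rw [expect_congr rfl fun g' _ => this g', expect_sum_comm]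
  exact Finset.sum_congr rfl fun x _ => by rw [← expect_mul]

lemma ker_eq_norm (P : AddSubgroup X) (Q : Finset X) (hQ : ∀ x, x ∈ Q ↔ x ∈ P) (g g' : G) :
    S.ker Q g g' = (‖S.ker Q g g'‖ : ℂ) := by
  classical
  set c : X → ℂ := fun x => S.e x g * conj (S.e x g') with hc
  have hadd : ∀ x y, c (x + y) = c x * c y := by
    intro x y
    simp only [hc, S.add, map_mul]; ring
  have hk : S.ker Q g g' = ∑ x ∈ Q, c x := rfl
  by_cases h : ∀ x ∈ Q, c x = 1
  · rw [hk, Finset.sum_congr rfl h]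
    simp
  · push Not at h
    obtain ⟨x0, hx0, hx1⟩ := h
    have : ∑ x ∈ Q, c x = c x0 * ∑ x ∈ Q, c x := by
      rw [Finset.mul_sum]
      refine Finset.sum_nbij' (fun x => x - x0) (fun x => x0 + x) ?_ ?_ ?_ ?_ ?_
      · intro x hx
        rw [hQ] at hx hx0 ⊢
        exact P.sub_mem hx hx0
      · intro x hx
        rw [hQ] at hx hx0 ⊢
        exact P.add_mem hx0 hx
      · intro x _; abel
      · intro x _; abel
      · intro x _
        rw [← hadd, add_sub_cancel]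
    have h0 : (1 - c x0) * ∑ x ∈ Q, c x = 0 := by
      rw [sub_mul, one_mul, ← this, sub_self]
    rcases mul_eq_zero.mp h0 with h1 | h1
    · exact absurd (sub_eq_zero.mp h1).symm hx1
    · rw [hk, h1]; simp

lemma expect_norm_ker [Nonempty G] (P : AddSubgroup X) (Q : Finset X) (hQ : ∀ x, x ∈ Q ↔ x ∈ P) (g' : G) :
    𝔼 g, ‖S.ker Q g g'‖ = 1 := by
  classical
  have h1 : ((𝔼 g, ‖S.ker Q g g'‖ : ℝ) : ℂ) = 1 := by
    rw [Complex.ofReal_expect, expect_congr rfl fun g _ => (S.ker_eq_norm P Q hQ g g').symm]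
    unfold ker
    rw [expect_sum_comm]
    have : ∀ x ∈ Q, 𝔼 g, S.e x g * conj (S.e x g') = if x = 0 then 1 else 0 := by
      intro x _
      rw [← expect_mul]
      split_ifs with h
      · subst h
        simp [S.e_zero]
      · rw [S.orth x h, zero_mul]
    rw [Finset.sum_congr rfl this, Finset.sum_ite_eq' Q 0, if_pos]
    rw [hQ]; exact P.zero_mem
  exact_mod_cast h1

lemma expect_norm_proj_le [Nonempty G] (P : AddSubgroup X) (Q : Finset X) (hQ : ∀ x, x ∈ Q ↔ x ∈ P)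
    (f : G → ℂ) : 𝔼 g, ‖S.proj Q f g‖ ≤ 𝔼 g, ‖f g‖ := by
  have h1 : ∀ g, ‖S.proj Q f g‖ ≤ 𝔼 g', ‖f g'‖ * ‖S.ker Q g g'‖ := by
    intro g
    rw [proj_eq]
    refine (RCLike.norm_expect_le (K := ℂ)).trans (le_of_eq ?_)
    exact expect_congr rfl fun g' _ => norm_mul _ _
  calc 𝔼 g, ‖S.proj Q f g‖ ≤ 𝔼 g, 𝔼 g', ‖f g'‖ * ‖S.ker Q g g'‖ :=
        expect_le_expect fun g _ => h1 g
    _ = 𝔼 g', 𝔼 g, ‖f g'‖ * ‖S.ker Q g g'‖ := expect_comm _ _ _
    _ = 𝔼 g', ‖f g'‖ := by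
        refine expect_congr rfl fun g' _ => ?_
        rw [← mul_expect, S.expect_norm_ker P Q hQ, mul_one]

lemma proj_sub (Q : Finset X) (f h : G → ℂ) (g : G) :
    S.proj Q (fun g => f g - h g) g = S.proj Q f g - S.proj Q h g := by
  unfold proj
  rw [← Finset.sum_sub_distrib]
  exact Finset.sum_congr rfl fun x _ => by rw [S.coef_sub]; ring

lemma proj_sum [Nonempty G] (T Q : Finset X) (hTQ : T ⊆ Q) (a : X → ℂ) (g : G) :
    S.proj Q (fun g => ∑ y ∈ T, a y * S.e y g) g = ∑ y ∈ T, a y * S.e y g := by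
  classical
  unfold proj
  have : ∀ x ∈ Q, S.coef (fun g => ∑ y ∈ T, a y * S.e y g) x * S.e x g
      = if x ∈ T then a x * S.e x g else 0 := by
    intro x _
    rw [S.coef_sum]
    split_ifs <;> simp
  rw [Finset.sum_congr rfl this, Finset.sum_ite_mem, Finset.inter_eq_right.mpr hTQ]

/-- A function which is `L¹`-close to a function of small Fourier weight is close to a sum of
boundedly many characters. -/
theorem sparse_close [Nonempty G] [Fintype X]
    (f : G → ℂ) (a : X → ℂ) {m W p t : ℝ} (hm : 0 ≤ m) (hp : 0 < p)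
    (hW : ∑ x, ‖a x‖ ≤ W * m) (ht : 𝔼 g, ‖f g - ∑ x, a x * S.e x g‖ ≤ t) :
    ∃ T : Finset X, T.card ≤ ⌊W / p⌋₊ ∧
      𝔼 g, ‖f g - ∑ x ∈ T, a x * S.e x g‖ ≤ t + m * Real.sqrt (p * W) := by
  classical
  set T : Finset X := univ.filter fun x => p * m < ‖a x‖ with hT
  have hcard : T.card ≤ ⌊W / p⌋₊ := by
    have h1 : (T.card : ℝ) * (p * m) ≤ W * m := by
      calc (T.card : ℝ) * (p * m) = ∑ x ∈ T, (p * m) := by rw [Finset.sum_const, nsmul_eq_mul]
        _ ≤ ∑ x ∈ T, ‖a x‖ := Finset.sum_le_sum fun x hx => by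
            rw [hT, Finset.mem_filter] at hx; exact hx.2.le
        _ ≤ ∑ x, ‖a x‖ := Finset.sum_le_sum_of_subset_of_nonneg (Finset.subset_univ _)
            fun _ _ _ => norm_nonneg _
        _ ≤ W * m := hW
    rcases hm.eq_or_lt with h0 | h0
    · have : T = ∅ := by
        rw [hT, Finset.filter_eq_empty_iff]
        intro x _
        have h2 : ‖a x‖ ≤ ∑ x, ‖a x‖ :=
          Finset.single_le_sum (f := fun x => ‖a x‖) (fun _ _ => norm_nonneg _) (Finset.mem_univ x)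
        have h3 := h2.trans hW
        rw [← h0, mul_zero] at h3
        rw [← h0, mul_zero]
        exact not_lt.mpr h3
      rw [this]; simp
    · apply Nat.le_floor
      rw [le_div_iff₀ hp]
      have : ((T.card : ℝ) * p) * m ≤ W * m := by linarith
      exact le_of_mul_le_mul_right this h0
  refine ⟨T, hcard, ?_⟩
  set hT' : G → ℂ := fun g => ∑ y ∈ T, a y * S.e y g with hhT
  have hsplit : ∀ g, ∑ x, a x * S.e x g - hT' g = ∑ x ∈ univ \ T, a x * S.e x g := by
    intro g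
    rw [hhT, sub_eq_iff_eq_add]
    exact (Finset.sum_sdiff (Finset.subset_univ T)).symm
  have hsmall : 𝔼 g, ‖∑ x, a x * S.e x g - hT' g‖ ≤ m * Real.sqrt (p * W) := by
    refine (expect_le_sqrt _).trans ?_
    have h1 : 𝔼 g, ‖∑ x, a x * S.e x g - hT' g‖ ^ 2 = ∑ x ∈ univ \ T, ‖a x‖ ^ 2 := by
      rw [← S.parseval]
      exact expect_congr rfl fun g _ => by rw [hsplit]
    rw [h1]
    have h2 : ∑ x ∈ univ \ T, ‖a x‖ ^ 2 ≤ m ^ 2 * (p * W) := by
      calc ∑ x ∈ univ \ T, ‖a x‖ ^ 2 ≤ ∑ x ∈ univ \ T, (p * m) * ‖a x‖ := by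
            refine Finset.sum_le_sum fun x hx => ?_
            have : ‖a x‖ ≤ p * m := by
              rw [hT] at hx
              simp at hx
              exact hx
            rw [sq]
            exact mul_le_mul_of_nonneg_right this (norm_nonneg _)
        _ ≤ ∑ x, (p * m) * ‖a x‖ := Finset.sum_le_sum_of_subset_of_nonneg (Finset.subset_univ _)
            fun _ _ _ => mul_nonneg (mul_nonneg hp.le hm) (norm_nonneg _)
        _ = (p * m) * ∑ x, ‖a x‖ := by rw [Finset.mul_sum]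
        _ ≤ (p * m) * (W * m) := mul_le_mul_of_nonneg_left hW (mul_nonneg hp.le hm)
        _ = m ^ 2 * (p * W) := by ring
    calc Real.sqrt (∑ x ∈ univ \ T, ‖a x‖ ^ 2) ≤ Real.sqrt (m ^ 2 * (p * W)) :=
          Real.sqrt_le_sqrt h2
      _ = m * Real.sqrt (p * W) := by rw [Real.sqrt_mul (sq_nonneg m), Real.sqrt_sq hm]
  calc 𝔼 g, ‖f g - hT' g‖ ≤ 𝔼 g, (‖f g - ∑ x, a x * S.e x g‖
        + ‖∑ x, a x * S.e x g - hT' g‖) := expect_le_expect fun g _ => by
          have := norm_add_le (f g - ∑ x, a x * S.e x g) (∑ x, a x * S.e x g - hT' g)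
          rwa [sub_add_sub_cancel] at this
    _ = 𝔼 g, ‖f g - ∑ x, a x * S.e x g‖ + 𝔼 g, ‖∑ x, a x * S.e x g - hT' g‖ :=
        expect_add_distrib _ _ _
    _ ≤ _ := add_le_add ht hsmall

/-- A function which is `L¹`-close to a function of small Fourier weight is close to its projection
on a bounded subspace of labels. -/
theorem proj_close [Nonempty G] {K : Type*} [Field K] [Fintype K] [Module K X] [Fintype X]
    (f : G → ℂ) (a : X → ℂ) {m W p t : ℝ} (hm : 0 ≤ m) (hp : 0 < p)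
    (hW : ∑ x, ‖a x‖ ≤ W * m) (ht : 𝔼 g, ‖f g - ∑ x, a x * S.e x g‖ ≤ t) :
    ∃ Q : Finset X, Q.card ≤ Fintype.card K ^ ⌊W / p⌋₊ ∧ 0 ∈ Q ∧
      𝔼 g, ‖f g - S.proj Q f g‖ ≤ 2 * (t + m * Real.sqrt (p * W)) := by
  classical
  obtain ⟨T, hcard, hclose⟩ := S.sparse_close f a hm hp hW ht
  set P : Submodule K X := Submodule.span K (T : Set X) with hP
  set Q : Finset X := univ.filter fun x => x ∈ P with hQ
  have hQP : ∀ x, x ∈ Q ↔ x ∈ P.toAddSubgroup := by
    intro x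
    rw [hQ, Finset.mem_filter]
    simp
  have hQcard : Q.card ≤ Fintype.card K ^ ⌊W / p⌋₊ := by
    have h1 : Q.card = Fintype.card P := by
      rw [hQ, Fintype.card_subtype]
    have h2 : Module.finrank K P ≤ T.card := finrank_span_finset_le_card (R := K) T
    have h3 : Fintype.card P = Fintype.card K ^ Module.finrank K P := Module.card_eq_pow_finrank
    rw [h1, h3]
    exact Nat.pow_le_pow_right Fintype.card_pos (h2.trans hcard)
  have hTQ : T ⊆ Q := by
    intro x hx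
    rw [hQ, Finset.mem_filter]
    exact ⟨Finset.mem_univ _, Submodule.subset_span (by exact_mod_cast hx)⟩
  refine ⟨Q, hQcard, by rw [hQP]; exact zero_mem _, ?_⟩
  set hT' : G → ℂ := fun g => ∑ y ∈ T, a y * S.e y g with hhT
  calc 𝔼 g, ‖f g - S.proj Q f g‖
      ≤ 𝔼 g, (‖f g - hT' g‖ + ‖S.proj Q (fun g => f g - hT' g) g‖) := by
        refine expect_le_expect fun g _ => ?_
        have h1 : f g - S.proj Q f g = (f g - hT' g) - S.proj Q (fun g => f g - hT' g) g := by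
          rw [S.proj_sub, hhT, S.proj_sum T Q hTQ]; ring
        rw [h1]
        exact norm_sub_le _ _
    _ = 𝔼 g, ‖f g - hT' g‖ + 𝔼 g, ‖S.proj Q (fun g => f g - hT' g) g‖ := expect_add_distrib _ _ _
    _ ≤ 𝔼 g, ‖f g - hT' g‖ + 𝔼 g, ‖f g - hT' g‖ :=
        add_le_add le_rfl (S.expect_norm_proj_le P.toAddSubgroup Q hQP _)
    _ ≤ 2 * (t + m * Real.sqrt (p * W)) := by linarith only [hclose]

end CharSys

end Vale.Agent.P060.HW
end

section

/-!
# P060/HW: from convolutions of bounded densities to averages over a field of submodules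

`conv_field`: a mixture of laws, each carried by one coset of `N` and close to the convolution of
two laws of density `≤ L / |N|`, is nearly invariant under a field of subspaces of `N` of bounded
codimension.
-/

open Finset Module
open scoped BigOperators ComplexConjugate

namespace Vale.Agent.P060.HW

section Bridge

variable {F V : Type*} [Field F] [Fintype F] [AddCommGroup V] [Module F V] [Fintype V]

/-- The dual of a finite space is finite. -/
@[reducible] noncomputable def dualFintype (N : Submodule F V) : Fintype (Dual F N) := by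
  classical
  haveI : Finite (Dual F N) := DFunLike.finite _
  exact Fintype.ofFinite _

attribute [local instance] dualFintype

open Classical in
/-- The elements of a submodule form a finite type. -/
@[reducible] noncomputable def subFintype (N : Submodule F V) : Fintype N :=
  inferInstance

attribute [local instance] subFintype

/-- The dual pair of a subspace. -/
noncomputable def dualSys (ψ : AddChar F ℂ) (hψ : ψ ≠ 0) (N : Submodule F V) :
    CharSys (Dual F N) N where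
  e ξ n := ψ (ξ n)
  add ξ η n := by rw [LinearMap.add_apply, AddChar.map_add_eq_mul]
  norm ξ n := AddChar.norm_apply ψ (ξ n)
  orth ξ hξ := by
    obtain ⟨n0, hn0⟩ : ∃ n, ξ n ≠ 0 := by
      by_contra h
      push Not at h
      exact hξ (LinearMap.ext h)
    obtain ⟨t, ht⟩ : ∃ t, ψ t ≠ 1 := by
      by_contra h
      push Not at h
      exact hψ (DFunLike.ext _ _ fun x => by rw [h x]; rfl)
    set χ : AddChar N ℂ := ψ.compAddMonoidHom ξ.toAddMonoidHom with hχ
    have hne : χ ≠ 0 := by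
      intro h0
      apply ht
      have h1 := DFunLike.congr_fun h0 ((t / ξ n0) • n0)
      have h2 : χ ((t / ξ n0) • n0) = ψ (ξ ((t / ξ n0) • n0)) := rfl
      rw [h2, map_smul, smul_eq_mul, div_mul_cancel₀ _ hn0] at h1
      rw [h1]; rfl
    exact AddChar.expect_eq_zero_iff_ne_zero.mpr hne

lemma dualSys_e (ψ : AddChar F ℂ) (hψ : ψ ≠ 0) (N : Submodule F V) (ξ : Dual F N) (n : N) :
    (dualSys ψ hψ N).e ξ n = ψ (ξ n) := rfl

/-- `h` is carried by one coset of `N` and has Fourier weight at most `B` there. -/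
def HasWeight (ψ : AddChar F ℂ) (N : Submodule F V) (h : V → ℂ) (B : ℝ) : Prop :=
  ∃ v : V, (∀ x, x - v ∉ N → h x = 0) ∧ ∃ c : Dual F N → ℂ, ∑ ξ, ‖c ξ‖ ≤ B ∧
    ∀ n : N, h (v + n) = ∑ ξ, c ξ * ψ (ξ n)

/-- Representative of a coset. -/
noncomputable def rep (N : Submodule F V) (k : V ⧸ N) : V := Quotient.out k

omit [Fintype F] [Fintype V] in
lemma mk_rep (N : Submodule F V) (k : V ⧸ N) : Submodule.Quotient.mk (rep N k) = k :=
  Quotient.out_eq k

omit [Fintype F] [Fintype V] in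
lemma sub_rep_mem (N : Submodule F V) (x : V) :
    x - rep N (Submodule.Quotient.mk x) ∈ N := by
  rw [← Submodule.Quotient.eq, mk_rep]

/-- Decomposition of the space into cosets. -/
noncomputable def cosetEquiv (N : Submodule F V) : (V ⧸ N) × N ≃ V where
  toFun p := rep N p.1 + p.2
  invFun x := (Submodule.Quotient.mk x, ⟨x - rep N (Submodule.Quotient.mk x), sub_rep_mem N x⟩)
  left_inv p := by
    obtain ⟨k, n⟩ := p
    have h1 : (Submodule.Quotient.mk (rep N k + n) : V ⧸ N) = k := by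
      rw [Submodule.Quotient.mk_add, mk_rep, (Submodule.Quotient.mk_eq_zero N).mpr n.2, add_zero]
    refine Prod.ext h1 (Subtype.ext ?_)
    show rep N k + (n : V) - rep N (Submodule.Quotient.mk (rep N k + (n : V))) = n
    rw [h1]; abel
  right_inv x := by
    show rep N (Submodule.Quotient.mk x) + (x - rep N (Submodule.Quotient.mk x)) = x
    abel

/-- Cosets are finitely many. -/
@[reducible] noncomputable def quotFintype (N : Submodule F V) : Fintype (V ⧸ N) := by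
  classical
  haveI : Finite (V ⧸ N) := Quotient.finite _
  exact Fintype.ofFinite _

attribute [local instance] quotFintype

omit [Fintype F] in
lemma sum_coset (N : Submodule F V) (f : V → ℝ) :
    ∑ x, f x = ∑ k : V ⧸ N, ∑ n : N, f (rep N k + n) := by
  rw [← (cosetEquiv N).sum_comp f, Fintype.sum_prod_type]
  rfl

omit [Fintype F] in
lemma card_eq_carr (N : Submodule F V) : (Fintype.card N : ℝ) = (carr N).card := by
  congr 1
  classical
  rw [carr, Fintype.card_subtype]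

/-- Change of base point. -/
lemma HasWeight.at_rep {ψ : AddChar F ℂ} {N : Submodule F V} {h : V → ℂ} {B : ℝ}
    (hB : HasWeight ψ N h B) : ∃ k0 : V ⧸ N, ∀ k, ∃ c : Dual F N → ℂ,
      (k ≠ k0 → c = 0) ∧ ∑ ξ, ‖c ξ‖ ≤ B ∧ ∀ n : N, h (rep N k + n) = ∑ ξ, c ξ * ψ (ξ n) := by
  classical
  obtain ⟨v, hv, c, hc, hn⟩ := hB
  have hB0 : 0 ≤ B := le_trans (Finset.sum_nonneg fun _ _ => norm_nonneg _) hc
  refine ⟨Submodule.Quotient.mk v, fun k => ?_⟩
  by_cases hk : k = Submodule.Quotient.mk v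
  · have hm : rep N k - v ∈ N := by
      rw [← Submodule.Quotient.eq, mk_rep, hk]
    refine ⟨fun ξ => c ξ * ψ (ξ ⟨_, hm⟩), fun h => absurd hk h, ?_, fun n => ?_⟩
    · refine le_trans (le_of_eq ?_) hc
      exact Finset.sum_congr rfl fun ξ _ => by rw [norm_mul, AddChar.norm_apply, mul_one]
    · have h1 : rep N k + (n : V) = v + ((⟨_, hm⟩ + n : N) : V) := by
        push_cast; abel
      rw [h1, hn]
      refine Finset.sum_congr rfl fun ξ _ => ?_
      rw [map_add, AddChar.map_add_eq_mul]; ring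
  · refine ⟨0, fun _ => rfl, by simpa using hB0, fun n => ?_⟩
    simp only [Pi.zero_apply, zero_mul, Finset.sum_const_zero]
    apply hv
    intro hmem
    apply hk
    rw [← Submodule.Quotient.eq, Submodule.Quotient.mk_add, mk_rep,
      (Submodule.Quotient.mk_eq_zero N).mpr n.2, add_zero] at hmem
    exact hmem

/-- **Bridge**: a function which is `L¹`-close to a sum of functions of small Fourier weight
(each carried by one coset of `N`) is nearly invariant under a field of subspaces of `N` of bounded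
codimension. -/
theorem weight_field (ψ : AddChar F ℂ) (hψ : ψ ≠ 0) (N : Submodule F V) {ι : Type*} [Fintype ι]
    (w : ι → ℝ) (hw : ∀ i, 0 ≤ w i) (hw1 : ∑ i, w i ≤ 1) {L p e : ℝ} (hp : 0 < p)
    (h : ι → V → ℂ) (hh : ∀ i, HasWeight ψ N (h i) (L / (carr N).card * w i))
    (P : V → ℝ) (he : ∑ x, ‖(P x : ℂ) - ∑ i, h i x‖ ≤ e) :
    ∃ U : V → Submodule F V, IsField N U ∧
      (∀ x, finrank F N ≤ finrank F (U x) + ⌊L / p⌋₊) ∧
      ∑ x, |P x - favg U P x| ≤ 2 * (e + Real.sqrt (p * L)) := by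
  classical
  have hN0 : (0 : ℝ) < (carr N).card := carr_card_pos N
  choose k0 c hc0 hcB hcn using fun i => (hh i).at_rep
  -- coefficients on the coset `k`
  set a : V ⧸ N → Dual F N → ℂ := fun k ξ => ∑ i, c i k ξ with ha
  set m : V ⧸ N → ℝ := fun k => ∑ i, if k = k0 i then w i else 0 with hm
  have hm0 : ∀ k, 0 ≤ m k := fun k => Finset.sum_nonneg fun i _ => by
    split_ifs
    · exact hw i
    · exact le_rfl
  have hmsum : ∑ k, m k ≤ 1 := by
    rw [hm, Finset.sum_comm]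
    refine le_trans (le_of_eq ?_) hw1
    exact Finset.sum_congr rfl fun i _ => by rw [Finset.sum_ite_eq' univ (k0 i)]; simp
  have haW : ∀ k, ∑ ξ, ‖a k ξ‖ ≤ L * (m k / (carr N).card) := by
    intro k
    calc ∑ ξ, ‖a k ξ‖ ≤ ∑ ξ, ∑ i, ‖c i k ξ‖ := Finset.sum_le_sum fun ξ _ => norm_sum_le _ _
      _ = ∑ i, ∑ ξ, ‖c i k ξ‖ := Finset.sum_comm
      _ ≤ ∑ i, L / (carr N).card * (if k = k0 i then w i else 0) := by
          refine Finset.sum_le_sum fun i _ => ?_
          split_ifs with hk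
          · exact hcB i k
          · rw [hc0 i k hk]; simp
      _ = L * (m k / (carr N).card) := by rw [← Finset.mul_sum, hm]; ring
  have hPn : ∀ k (n : N), ∑ i, h i (rep N k + n) = ∑ ξ, a k ξ * ψ (ξ n) := by
    intro k n
    rw [Finset.sum_congr rfl fun i _ => hcn i k n, Finset.sum_comm]
    exact Finset.sum_congr rfl fun ξ _ => by rw [ha, Finset.sum_mul]
  set S := dualSys ψ hψ N with hS
  set t : V ⧸ N → ℝ := fun k => 𝔼 n : N, ‖(P (rep N k + n) : ℂ) - ∑ ξ, a k ξ * S.e ξ n‖ with ht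
  have htsum : ∑ k, (carr N).card * t k ≤ e := by
    refine le_trans (le_of_eq ?_) he
    rw [sum_coset N]
    refine Finset.sum_congr rfl fun k _ => ?_
    rw [← card_eq_carr, ht]
    simp only
    rw [Fintype.card_mul_expect]
    refine Finset.sum_congr rfl fun n _ => ?_
    rw [hPn]
    rfl
  choose T hT hTc using fun k => S.sparse_close (fun n : N => (P (rep N k + n) : ℂ)) (a k)
    (m := m k / (carr N).card) (W := L) (p := p) (t := t k)
    (div_nonneg (hm0 k) hN0.le) hp (haW k) le_rfl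
  set A : V ⧸ N → Submodule F N := fun k =>
    (Submodule.span F (T k : Set (Dual F N))).dualCoannihilator with hA
  have hAmem : ∀ k (n : N), n ∈ A k → ∀ ξ ∈ T k, ξ n = 0 := by
    intro k n hn ξ hξ
    rw [hA, Submodule.mem_dualCoannihilator] at hn
    exact hn ξ (Submodule.subset_span (by exact_mod_cast hξ))
  have hAdim : ∀ k, finrank F N ≤ finrank F (A k) + ⌊L / p⌋₊ := by
    intro k
    have h1 := Subspace.finrank_add_finrank_dualCoannihilator_eq
      (Submodule.span F (T k : Set (Dual F N)))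
    have h2 : finrank F (Submodule.span F (T k : Set (Dual F N))) ≤ (T k).card :=
      finrank_span_finset_le_card (R := F) (T k)
    have h3 := hT k
    rw [hA]
    simp only
    omega
  set U : V → Submodule F V := fun x =>
    (A (Submodule.Quotient.mk x)).map N.subtype with hU
  have hUf : IsField N U := by
    refine ⟨fun x => Submodule.map_subtype_le _ _, fun x n hn => ?_⟩
    have : (Submodule.Quotient.mk (x + n) : V ⧸ N) = Submodule.Quotient.mk x := by
      rw [Submodule.Quotient.mk_add, (Submodule.Quotient.mk_eq_zero N).mpr hn, add_zero]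
    rw [hU]; simp only [this]
  refine ⟨U, hUf, fun x => ?_, ?_⟩
  · rw [hU]
    simp only
    rw [Submodule.finrank_map_subtype_eq]
    exact hAdim _
  -- the approximating function
  set g : V → ℝ := fun x => (∑ ξ ∈ T (Submodule.Quotient.mk x),
    a (Submodule.Quotient.mk x) ξ * ψ (ξ ⟨x - rep N (Submodule.Quotient.mk x), sub_rep_mem N x⟩)).re
    with hg
  have hgrep : ∀ k (n : N), g (rep N k + n) = (∑ ξ ∈ T k, a k ξ * S.e ξ n).re := by
    intro k n
    have h1 : (Submodule.Quotient.mk (rep N k + (n : V)) : V ⧸ N) = k := by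
      rw [Submodule.Quotient.mk_add, mk_rep, (Submodule.Quotient.mk_eq_zero N).mpr n.2, add_zero]
    have h2 : ∀ (k' : V ⧸ N) (hk' : k' = k) (hmem : rep N k + (n : V) - rep N k' ∈ N),
        (∑ ξ ∈ T k', a k' ξ * ψ (ξ ⟨rep N k + (n : V) - rep N k', hmem⟩)).re
        = (∑ ξ ∈ T k, a k ξ * S.e ξ n).re := by
      intro k' hk' hmem
      subst hk'
      congr 1
      refine Finset.sum_congr rfl fun ξ _ => ?_
      have h3 : (⟨rep N k' + (n : V) - rep N k', hmem⟩ : N) = n := Subtype.ext (by simp)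
      rw [h3]; rfl
    exact h2 _ h1 _
  have hginv : ∀ x, ∀ u ∈ U x, g (x + u) = g x := by
    intro x u hu
    rw [hU] at hu
    obtain ⟨u', hu', rfl⟩ := Submodule.mem_map.mp hu
    obtain ⟨⟨k, n⟩, hkn⟩ := (cosetEquiv N).surjective x
    have hx : x = rep N k + n := hkn.symm
    have hkx : (Submodule.Quotient.mk x : V ⧸ N) = k := by
      rw [hx, Submodule.Quotient.mk_add, mk_rep, (Submodule.Quotient.mk_eq_zero N).mpr n.2,
        add_zero]
    rw [hkx] at hu'
    have h1 : x + N.subtype u' = rep N k + ((n + u' : N) : V) := by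
      rw [hx]; push_cast; rw [add_assoc]; rfl
    rw [h1, hx, hgrep, hgrep]
    congr 1
    refine Finset.sum_congr rfl fun ξ hξ => ?_
    rw [hS, dualSys_e, dualSys_e, map_add, hAmem k u' hu' ξ hξ, add_zero]
  have hfg : favg U g = g := by
    funext x
    rw [favg, avg, Finset.sum_congr rfl fun u hu => hginv x u (mem_carr.mp hu), Finset.sum_const,
      nsmul_eq_mul, mul_div_assoc, mul_comm, div_mul_cancel₀ _ (carr_card_pos _).ne']
  have hPg : ∑ x, |P x - g x| ≤ e + Real.sqrt (p * L) := by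
    rw [sum_coset N]
    calc ∑ k : V ⧸ N, ∑ n : N, |P (rep N k + n) - g (rep N k + n)|
        ≤ ∑ k : V ⧸ N, ((carr N).card * t k + m k * Real.sqrt (p * L)) := by
          refine Finset.sum_le_sum fun k _ => ?_
          have h1 : ∀ n : N, |P (rep N k + n) - g (rep N k + n)|
              ≤ ‖(P (rep N k + n) : ℂ) - ∑ ξ ∈ T k, a k ξ * S.e ξ n‖ := by
            intro n
            rw [hgrep]
            have := Complex.abs_re_le_norm ((P (rep N k + n) : ℂ) - ∑ ξ ∈ T k, a k ξ * S.e ξ n)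
            rwa [Complex.sub_re, Complex.ofReal_re] at this
          calc ∑ n : N, |P (rep N k + n) - g (rep N k + n)|
              ≤ ∑ n : N, ‖(P (rep N k + n) : ℂ) - ∑ ξ ∈ T k, a k ξ * S.e ξ n‖ :=
                Finset.sum_le_sum fun n _ => h1 n
            _ = (carr N).card * 𝔼 n : N, ‖(P (rep N k + n) : ℂ) - ∑ ξ ∈ T k, a k ξ * S.e ξ n‖ := by
                rw [← card_eq_carr, Fintype.card_mul_expect]
            _ ≤ (carr N).card * (t k + m k / (carr N).card * Real.sqrt (p * L)) :=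
                mul_le_mul_of_nonneg_left (hTc k) hN0.le
            _ = (carr N).card * t k + m k * Real.sqrt (p * L) := by
                field_simp
      _ = ∑ k : V ⧸ N, (carr N).card * t k + (∑ k, m k) * Real.sqrt (p * L) := by
          rw [Finset.sum_add_distrib, Finset.sum_mul]
      _ ≤ e + 1 * Real.sqrt (p * L) :=
          add_le_add htsum (mul_le_mul_of_nonneg_right hmsum (Real.sqrt_nonneg _))
      _ = e + Real.sqrt (p * L) := by rw [one_mul]
  have h2 : ∑ x, |g x - favg U P x| ≤ e + Real.sqrt (p * L) := by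
    calc ∑ x, |g x - favg U P x| = ∑ x, |favg U g x - favg U P x| := by rw [hfg]
      _ ≤ ∑ x, |g x - P x| := l1_favg_sub_le hUf _ _
      _ = ∑ x, |P x - g x| := Finset.sum_congr rfl fun x _ => abs_sub_comm _ _
      _ ≤ _ := hPg
  linarith only [l1_triangle P g (favg U P), h2, hPg]

end Bridge

end Vale.Agent.P060.HW
end

section

/-!
# P060/HW: convolutions of laws of bounded density

`conv2_field`, `conv3_field`: mixtures of convolutions of two (three) laws of bounded density are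
nearly invariant under a field of subspaces of bounded codimension.
-/

open Finset Module
open scoped BigOperators ComplexConjugate

namespace Vale.Agent.P060.HW

namespace CharSys

variable {X G : Type*} [AddCommGroup X] [Fintype G] (S : CharSys X G)

/-- Bessel's inequality. -/
lemma bessel [Nonempty G] (s : Finset X) (f : G → ℂ) :
    ∑ x ∈ s, ‖S.coef f x‖ ^ 2 ≤ 𝔼 g, ‖f g‖ ^ 2 := by
  classical
  have h0 : 0 ≤ 𝔼 g, ‖f g - S.proj s f g‖ ^ 2 := expect_nonneg fun _ _ => sq_nonneg _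
  have h1 : 𝔼 g, ‖f g - S.proj s f g‖ ^ 2
      = 𝔼 g, ‖f g‖ ^ 2 - ∑ x ∈ s, ‖S.coef f x‖ ^ 2 := by
    have hg : ∀ g, ‖f g - S.proj s f g‖ ^ 2 = ‖f g‖ ^ 2 + ‖S.proj s f g‖ ^ 2
        - 2 * (f g * conj (S.proj s f g)).re := by
      intro g
      have := Complex.normSq_sub (f g) (S.proj s f g)
      rw [Complex.normSq_eq_norm_sq, Complex.normSq_eq_norm_sq, Complex.normSq_eq_norm_sq] at this
      exact this
    have hcross : 𝔼 g, (f g * conj (S.proj s f g)).re = ∑ x ∈ s, ‖S.coef f x‖ ^ 2 := by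
      have h2 : ((𝔼 g, (f g * conj (S.proj s f g)) : ℂ)) = ((∑ x ∈ s, ‖S.coef f x‖ ^ 2 : ℝ) : ℂ) := by
        have h3 : ∀ g, f g * conj (S.proj s f g)
            = ∑ x ∈ s, conj (S.coef f x) * (f g * conj (S.e x g)) := by
          intro g
          unfold proj
          rw [map_sum, Finset.mul_sum]
          exact Finset.sum_congr rfl fun x _ => by rw [map_mul]; ring
        rw [expect_congr rfl fun g _ => h3 g, expect_sum_comm, Complex.ofReal_sum]
        refine Finset.sum_congr rfl fun x _ => ?_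
        rw [← mul_expect]
        change conj (S.coef f x) * S.coef f x = _
        rw [mul_comm, Complex.mul_conj']
        norm_cast
      have h4 := congrArg Complex.re h2
      rw [Complex.ofReal_re] at h4
      rw [← h4]
      exact (Complex.re_expect _ _).symm
    have hpar : 𝔼 g, ‖S.proj s f g‖ ^ 2 = ∑ x ∈ s, ‖S.coef f x‖ ^ 2 := S.parseval s _
    rw [expect_congr rfl fun g _ => hg g, expect_sub_distrib, expect_add_distrib, ← mul_expect,
      hcross, hpar]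
    ring
  rw [h1] at h0
  linarith

end CharSys

section Conv

variable {F V : Type*} [Field F] [Fintype F] [AddCommGroup V] [Module F V] [Fintype V]

attribute [local instance] dualFintype subFintype quotFintype

lemma card_dual (N : Submodule F V) : Fintype.card (Dual F N) = Fintype.card N := by
  have h1 : Fintype.card (Dual F N) = Fintype.card F ^ finrank F (Dual F N) :=
    Module.card_eq_pow_finrank
  have h2 : Fintype.card N = Fintype.card F ^ finrank F N := Module.card_eq_pow_finrank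
  rw [h1, h2, Subspace.dual_finrank_eq]

open Classical in
/-- Completeness of the characters. -/
lemma sum_dual (ψ : AddChar F ℂ) (hψ : ψ ≠ 0) (N : Submodule F V) (n : N) :
    ∑ ξ : Dual F N, ψ (ξ n) = if n = 0 then (Fintype.card N : ℂ) else 0 := by
  split_ifs with h
  · subst h
    simp only [map_zero, AddChar.map_zero_eq_one, Finset.sum_const, nsmul_eq_mul, mul_one,
      Finset.card_univ]
    rw [card_dual]
  · obtain ⟨t, ht⟩ : ∃ t, ψ t ≠ 1 := by
      by_contra h'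
      push Not at h'
      exact hψ (DFunLike.ext _ _ fun x => by rw [h' x]; rfl)
    obtain ⟨ξ0, hξ0⟩ : ∃ ξ : Dual F N, ξ n ≠ 0 := by
      by_contra h'
      push Not at h'
      exact h ((Module.forall_dual_apply_eq_zero_iff F n).mp h')
    set ξ1 : Dual F N := (t / ξ0 n) • ξ0 with hξ1
    have h1 : ξ1 n = t := by
      rw [hξ1, LinearMap.smul_apply, smul_eq_mul, div_mul_cancel₀ _ hξ0]
    have h2 : ∑ ξ : Dual F N, ψ (ξ n) = ψ t * ∑ ξ : Dual F N, ψ (ξ n) := by
      rw [Finset.mul_sum]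
      refine (Fintype.sum_equiv (Equiv.addLeft ξ1) _ _ fun ξ => ?_).symm
      change ψ t * ψ (ξ n) = ψ ((ξ1 + ξ) n)
      rw [LinearMap.add_apply, h1, AddChar.map_add_eq_mul]
    have h3 : (1 - ψ t) * ∑ ξ : Dual F N, ψ (ξ n) = 0 := by
      rw [sub_mul, one_mul, ← h2, sub_self]
    rcases mul_eq_zero.mp h3 with h4 | h4
    · exact absurd (sub_eq_zero.mp h4).symm ht
    · exact h4

/-- Fourier inversion on `N`. -/
lemma inversion (ψ : AddChar F ℂ) (hψ : ψ ≠ 0) (N : Submodule F V) (f : N → ℂ) (n : N) :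
    f n = ∑ ξ : Dual F N, (dualSys ψ hψ N).coef f ξ * ψ (ξ n) := by
  classical
  have h1 : ∀ ξ : Dual F N, (dualSys ψ hψ N).coef f ξ * ψ (ξ n)
      = 𝔼 m, f m * ψ (ξ (n - m)) := by
    intro ξ
    unfold CharSys.coef
    rw [expect_mul]
    refine expect_congr rfl fun m _ => ?_
    rw [CharSys.conj_e, dualSys_e, mul_assoc, ← AddChar.map_add_eq_mul]
    congr 2
    rw [LinearMap.neg_apply, map_sub]; ring
  rw [Finset.sum_congr rfl fun ξ _ => h1 ξ, ← expect_sum_comm]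
  have h2 : ∀ m : N, ∑ ξ : Dual F N, f m * ψ (ξ (n - m))
      = if n = m then f m * (Fintype.card N : ℂ) else 0 := by
    intro m
    rw [← Finset.mul_sum, sum_dual ψ hψ, mul_ite, mul_zero]
    simp only [sub_eq_zero]
  rw [expect_congr rfl fun m _ => h2 m, Fintype.expect_eq_sum_div_card, Finset.sum_ite_eq]
  simp

/-- A subprobability carried by one coset of `N`. -/
structure IsLaw (N : Submodule F V) (ρ : V → ℝ) (a : V) : Prop where
  nonneg : ∀ x, 0 ≤ ρ x
  mass : ∑ x, ρ x ≤ 1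
  supp : ∀ x, ρ x ≠ 0 → x - a ∈ N

/-- Convolution. -/
noncomputable def cnv (ρ₁ ρ₂ : V → ℝ) (x : V) : ℝ := ∑ u, ρ₁ u * ρ₂ (x - u)

omit [Fintype F] in
lemma IsLaw.conv {N : Submodule F V} {ρ₁ ρ₂ : V → ℝ} {a₁ a₂ : V} (h₁ : IsLaw N ρ₁ a₁)
    (h₂ : IsLaw N ρ₂ a₂) : IsLaw N (cnv ρ₁ ρ₂) (a₁ + a₂) := by
  refine ⟨fun x => Finset.sum_nonneg fun u _ => mul_nonneg (h₁.nonneg _) (h₂.nonneg _), ?_, ?_⟩
  · unfold cnv
    rw [Finset.sum_comm]
    have : ∀ u, ∑ x, ρ₁ u * ρ₂ (x - u) = ρ₁ u * ∑ x, ρ₂ x := by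
      intro u
      rw [← Finset.mul_sum]
      congr 1
      exact Fintype.sum_equiv (Equiv.subRight u) _ _ fun x => rfl
    rw [Finset.sum_congr rfl fun u _ => this u, ← Finset.sum_mul]
    calc (∑ u, ρ₁ u) * ∑ x, ρ₂ x ≤ 1 * 1 :=
          mul_le_mul h₁.mass h₂.mass (Finset.sum_nonneg fun x _ => h₂.nonneg x) zero_le_one
      _ = 1 := one_mul 1
  · intro x hx
    unfold cnv at hx
    obtain ⟨u, _, hu⟩ := Finset.exists_ne_zero_of_sum_ne_zero hx
    have h3 := h₁.supp u (left_ne_zero_of_mul hu)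
    have h4 := h₂.supp _ (right_ne_zero_of_mul hu)
    have : x - (a₁ + a₂) = (u - a₁) + (x - u - a₂) := by abel
    rw [this]
    exact N.add_mem h3 h4

omit [Fintype F] in
lemma sum_on_coset {β : Type*} [AddCommMonoid β] (N : Submodule F V) (G : V → β) (a : V)
    (hG : ∀ x, G x ≠ 0 → x - a ∈ N) : ∑ x, G x = ∑ m : N, G (a + m) := by
  classical
  have h1 : ∑ m : N, G (a + m) = ∑ x ∈ univ.filter (fun x => x - a ∈ N), G x := by
    refine Finset.sum_bij (fun m _ => a + (m : V)) ?_ ?_ ?_ ?_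
    · intro m _
      simp
    · intro m _ m' _ h
      exact Subtype.ext (add_left_cancel h)
    · intro x hx
      rw [Finset.mem_filter] at hx
      exact ⟨⟨x - a, hx.2⟩, Finset.mem_univ _, by simp⟩
    · intro m _
      rfl
  rw [h1]
  refine (Finset.sum_subset (Finset.filter_subset _ _) fun x _ hx => ?_).symm
  by_contra h
  exact hx (Finset.mem_filter.mpr ⟨Finset.mem_univ _, hG x h⟩)

/-- Unnormalised Fourier transform of a law on a coset of `N`. -/
noncomputable def ft (ψ : AddChar F ℂ) (hψ : ψ ≠ 0) (N : Submodule F V) (ρ : V → ℝ) (a : V)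
    (ξ : Dual F N) : ℂ :=
  (Fintype.card N : ℂ) * (dualSys ψ hψ N).coef (fun m : N => (ρ (a + m) : ℂ)) ξ

lemma ft_eq (ψ : AddChar F ℂ) (hψ : ψ ≠ 0) (N : Submodule F V) (ρ : V → ℝ) (a : V)
    (ξ : Dual F N) : ft ψ hψ N ρ a ξ = ∑ m : N, (ρ (a + m) : ℂ) * ψ (-ξ m) := by
  unfold ft CharSys.coef
  rw [Fintype.card_mul_expect]
  refine Finset.sum_congr rfl fun m _ => ?_
  rw [CharSys.conj_e, dualSys_e, LinearMap.neg_apply]

lemma norm_ft_le (ψ : AddChar F ℂ) (hψ : ψ ≠ 0) {N : Submodule F V} {ρ : V → ℝ} {a : V}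
    (h : IsLaw N ρ a) (ξ : Dual F N) : ‖ft ψ hψ N ρ a ξ‖ ≤ 1 := by
  rw [ft_eq]
  refine (norm_sum_le _ _).trans ?_
  have h1 : ∀ m : N, ‖(ρ (a + m) : ℂ) * ψ (-ξ m)‖ = ρ (a + m) := by
    intro m
    rw [norm_mul, AddChar.norm_apply, mul_one, Complex.norm_real, Real.norm_eq_abs,
      abs_of_nonneg (h.nonneg _)]
  rw [Finset.sum_congr rfl fun m _ => h1 m, ← sum_on_coset N ρ a h.supp]
  exact h.mass

lemma ft_cnv (ψ : AddChar F ℂ) (hψ : ψ ≠ 0) {N : Submodule F V} {ρ₁ ρ₂ : V → ℝ} {a₁ a₂ : V}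
    (h₁ : IsLaw N ρ₁ a₁) (ξ : Dual F N) :
    ft ψ hψ N (cnv ρ₁ ρ₂) (a₁ + a₂) ξ = ft ψ hψ N ρ₁ a₁ ξ * ft ψ hψ N ρ₂ a₂ ξ := by
  rw [ft_eq, ft_eq, ft_eq, Finset.sum_mul_sum, Finset.sum_comm' (t' := univ) (s' := fun _ => univ)
    (by simp)]
  rw [Finset.sum_comm]
  have h1 : ∀ n : N, ((cnv ρ₁ ρ₂ (a₁ + a₂ + n) : ℝ) : ℂ)
      = ∑ m : N, (ρ₁ (a₁ + m) : ℂ) * (ρ₂ (a₂ + (n - m : N)) : ℂ) := by
    intro n
    unfold cnv
    rw [sum_on_coset N _ a₁ fun u hu => h₁.supp u (left_ne_zero_of_mul hu)]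
    push_cast
    refine Finset.sum_congr rfl fun m _ => ?_
    congr 3
    abel
  have h2 : ∀ n : N, ((cnv ρ₁ ρ₂ (a₁ + a₂ + n) : ℝ) : ℂ) * ψ (-ξ n)
      = ∑ m : N, ((ρ₁ (a₁ + m) : ℂ) * ψ (-ξ m)) * ((ρ₂ (a₂ + (n - m : N)) : ℂ) * ψ (-ξ (n - m))) := by
    intro n
    rw [h1, Finset.sum_mul]
    refine Finset.sum_congr rfl fun m _ => ?_
    have : ψ (-ξ n) = ψ (-ξ m) * ψ (-ξ (n - m)) := by
      rw [← AddChar.map_add_eq_mul]
      congr 1
      rw [map_sub]; ring
    rw [this]; ring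
  rw [Finset.sum_congr rfl fun n _ => h2 n, Finset.sum_comm]
  refine Finset.sum_congr rfl fun m _ => ?_
  exact Fintype.sum_equiv (Equiv.subRight m) _ _ fun n => rfl

lemma sum_ft_sq_le (ψ : AddChar F ℂ) (hψ : ψ ≠ 0) {N : Submodule F V} {ρ : V → ℝ} {a : V} {B : ℝ}
    (h : IsLaw N ρ a) (hB0 : 0 ≤ B) (hB : ∀ x, ρ x ≤ B / (carr N).card) :
    ∑ ξ, ‖ft ψ hψ N ρ a ξ‖ ^ 2 ≤ B := by
  classical
  have hN0 : (0 : ℝ) < Fintype.card N := by rw [card_eq_carr]; exact carr_card_pos N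
  have h1 : ∑ ξ, ‖ft ψ hψ N ρ a ξ‖ ^ 2 = (Fintype.card N : ℝ) ^ 2 *
      ∑ ξ, ‖(dualSys ψ hψ N).coef (fun m : N => (ρ (a + m) : ℂ)) ξ‖ ^ 2 := by
    rw [Finset.mul_sum]
    refine Finset.sum_congr rfl fun ξ _ => ?_
    unfold ft
    rw [norm_mul, mul_pow, Complex.norm_natCast]
  have h2 := (dualSys ψ hψ N).bessel univ (fun m : N => (ρ (a + m) : ℂ))
  have h3 : 𝔼 m : N, ‖(ρ (a + m) : ℂ)‖ ^ 2 ≤ B / (Fintype.card N : ℝ) ^ 2 := by
    rw [Fintype.expect_eq_sum_div_card, div_le_div_iff₀ hN0 (by positivity)]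
    have h4 : ∑ m : N, ‖(ρ (a + m) : ℂ)‖ ^ 2 ≤ B / Fintype.card N := by
      calc ∑ m : N, ‖(ρ (a + m) : ℂ)‖ ^ 2 ≤ ∑ m : N, B / Fintype.card N * ρ (a + m) := by
            refine Finset.sum_le_sum fun m _ => ?_
            rw [Complex.norm_real, Real.norm_eq_abs, sq_abs, sq]
            refine mul_le_mul_of_nonneg_right ?_ (h.nonneg _)
            rw [card_eq_carr]; exact hB _
        _ = B / Fintype.card N * ∑ x, ρ x := by
            rw [← Finset.mul_sum, ← sum_on_coset N ρ a h.supp]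
        _ ≤ B / Fintype.card N * 1 := mul_le_mul_of_nonneg_left h.mass (by positivity)
        _ = B / Fintype.card N := mul_one _
    calc (∑ m : N, ‖(ρ (a + m) : ℂ)‖ ^ 2) * (Fintype.card N : ℝ) ^ 2
        ≤ B / Fintype.card N * (Fintype.card N : ℝ) ^ 2 :=
          mul_le_mul_of_nonneg_right h4 (by positivity)
      _ = B * Fintype.card N := by field_simp
  rw [h1]
  calc (Fintype.card N : ℝ) ^ 2 * ∑ ξ, ‖(dualSys ψ hψ N).coef (fun m : N => (ρ (a + m) : ℂ)) ξ‖ ^ 2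
      ≤ (Fintype.card N : ℝ) ^ 2 * (B / (Fintype.card N : ℝ) ^ 2) :=
        mul_le_mul_of_nonneg_left (h2.trans h3) (by positivity)
    _ = B := by field_simp

/-- Inversion for a law. -/
lemma law_inversion (ψ : AddChar F ℂ) (hψ : ψ ≠ 0) (N : Submodule F V) (ρ : V → ℝ) (a : V)
    (n : N) : (ρ (a + n) : ℂ)
      = ∑ ξ : Dual F N, ((Fintype.card N : ℂ)⁻¹ * ft ψ hψ N ρ a ξ) * ψ (ξ n) := by
  have hN0 : (Fintype.card N : ℂ) ≠ 0 := by
    exact_mod_cast Fintype.card_ne_zero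
  rw [inversion ψ hψ N (fun m : N => (ρ (a + m) : ℂ)) n]
  refine Finset.sum_congr rfl fun ξ _ => ?_
  unfold ft
  rw [inv_mul_cancel_left₀ hN0]

/-- The convolution of two laws of density `≤ L / |N|` has Fourier weight `≤ L / |N|`. -/
theorem cnv_weight (ψ : AddChar F ℂ) (hψ : ψ ≠ 0) {N : Submodule F V} {ρ₁ ρ₂ : V → ℝ}
    {a₁ a₂ : V} {L : ℝ} (hL0 : 0 ≤ L) (h₁ : IsLaw N ρ₁ a₁) (h₂ : IsLaw N ρ₂ a₂)
    (hL₁ : ∀ x, ρ₁ x ≤ L / (carr N).card) (hL₂ : ∀ x, ρ₂ x ≤ L / (carr N).card) :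
    HasWeight ψ N (fun x => ((cnv ρ₁ ρ₂ x : ℝ) : ℂ)) (L / (carr N).card) := by
  classical
  have hN0 : (0 : ℝ) < Fintype.card N := by rw [card_eq_carr]; exact carr_card_pos N
  refine ⟨a₁ + a₂, fun x hx => ?_, fun ξ => (Fintype.card N : ℂ)⁻¹ *
    ft ψ hψ N (cnv ρ₁ ρ₂) (a₁ + a₂) ξ, ?_, fun n => law_inversion ψ hψ N _ _ n⟩
  · by_contra h
    apply hx
    apply (h₁.conv h₂).supp
    intro h0
    exact h (by simp only [h0]; simp)
  · have h3 : ∀ ξ, ‖(Fintype.card N : ℂ)⁻¹ * ft ψ hψ N (cnv ρ₁ ρ₂) (a₁ + a₂) ξ‖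
        = (Fintype.card N : ℝ)⁻¹ * (‖ft ψ hψ N ρ₁ a₁ ξ‖ * ‖ft ψ hψ N ρ₂ a₂ ξ‖) := by
      intro ξ
      rw [ft_cnv ψ hψ h₁, norm_mul, norm_mul, norm_inv, Complex.norm_natCast]
    rw [Finset.sum_congr rfl fun ξ _ => h3 ξ, ← Finset.mul_sum, ← card_eq_carr, div_eq_inv_mul]
    refine mul_le_mul_of_nonneg_left ?_ (inv_nonneg.mpr hN0.le)
    have h4 := sum_ft_sq_le ψ hψ h₁ hL0 hL₁
    have h5 := sum_ft_sq_le ψ hψ h₂ hL0 hL₂
    calc ∑ ξ, ‖ft ψ hψ N ρ₁ a₁ ξ‖ * ‖ft ψ hψ N ρ₂ a₂ ξ‖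
        ≤ ∑ ξ, (‖ft ψ hψ N ρ₁ a₁ ξ‖ ^ 2 + ‖ft ψ hψ N ρ₂ a₂ ξ‖ ^ 2) / 2 := by
          refine Finset.sum_le_sum fun ξ _ => ?_
          linarith only [sq_nonneg (‖ft ψ hψ N ρ₁ a₁ ξ‖ - ‖ft ψ hψ N ρ₂ a₂ ξ‖)]
      _ = (∑ ξ, ‖ft ψ hψ N ρ₁ a₁ ξ‖ ^ 2 + ∑ ξ, ‖ft ψ hψ N ρ₂ a₂ ξ‖ ^ 2) / 2 := by
          rw [← Finset.sum_add_distrib, Finset.sum_div]
      _ ≤ L := by linarith

/-- Triple convolution: `L¹`-close to a function of bounded Fourier weight, provided the pairwise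
convolutions have bounded density. -/
theorem cnv3_weight (ψ : AddChar F ℂ) (hψ : ψ ≠ 0) {N : Submodule F V} {ρ₁ ρ₂ ρ₃ : V → ℝ}
    {a₁ a₂ a₃ : V} {B θ : ℝ} (hB0 : 0 ≤ B) (hθ : 0 < θ) (h₁ : IsLaw N ρ₁ a₁) (h₂ : IsLaw N ρ₂ a₂)
    (h₃ : IsLaw N ρ₃ a₃)
    (h12 : ∀ x, cnv ρ₁ ρ₂ x ≤ B / (carr N).card) (h23 : ∀ x, cnv ρ₂ ρ₃ x ≤ B / (carr N).card)
    (h13 : ∀ x, cnv ρ₁ ρ₃ x ≤ B / (carr N).card) :
    ∃ g : V → ℂ, HasWeight ψ N g (B / θ ^ 4 / (carr N).card) ∧
      ∑ x, ‖((cnv ρ₁ (cnv ρ₂ ρ₃) x : ℝ) : ℂ) - g x‖ ≤ Real.sqrt (3 * θ ^ 2 * B) := by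
  classical
  have hN0 : (0 : ℝ) < Fintype.card N := by rw [card_eq_carr]; exact carr_card_pos N
  set f₁ := fun ξ => ft ψ hψ N ρ₁ a₁ ξ with hf1
  set f₂ := fun ξ => ft ψ hψ N ρ₂ a₂ ξ with hf2
  set f₃ := fun ξ => ft ψ hψ N ρ₃ a₃ ξ with hf3
  have e12 : ∑ ξ, (‖f₁ ξ‖ * ‖f₂ ξ‖) ^ 2 ≤ B := by
    have := sum_ft_sq_le ψ hψ (h₁.conv h₂) hB0 h12
    refine le_trans (le_of_eq (Finset.sum_congr rfl fun ξ _ => ?_)) this
    rw [ft_cnv ψ hψ h₁, norm_mul]
  have e23 : ∑ ξ, (‖f₂ ξ‖ * ‖f₃ ξ‖) ^ 2 ≤ B := by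
    have := sum_ft_sq_le ψ hψ (h₂.conv h₃) hB0 h23
    refine le_trans (le_of_eq (Finset.sum_congr rfl fun ξ _ => ?_)) this
    rw [ft_cnv ψ hψ h₂, norm_mul]
  have e13 : ∑ ξ, (‖f₁ ξ‖ * ‖f₃ ξ‖) ^ 2 ≤ B := by
    have := sum_ft_sq_le ψ hψ (h₁.conv h₃) hB0 h13
    refine le_trans (le_of_eq (Finset.sum_congr rfl fun ξ _ => ?_)) this
    rw [ft_cnv ψ hψ h₁, norm_mul]
  have b1 : ∀ ξ, ‖f₁ ξ‖ ≤ 1 := fun ξ => norm_ft_le ψ hψ h₁ ξ
  have b2 : ∀ ξ, ‖f₂ ξ‖ ≤ 1 := fun ξ => norm_ft_le ψ hψ h₂ ξ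
  have b3 : ∀ ξ, ‖f₃ ξ‖ ≤ 1 := fun ξ => norm_ft_le ψ hψ h₃ ξ
  have hT : ∀ ξ, ft ψ hψ N (cnv ρ₁ (cnv ρ₂ ρ₃)) (a₁ + (a₂ + a₃)) ξ = f₁ ξ * (f₂ ξ * f₃ ξ) := by
    intro ξ
    rw [ft_cnv ψ hψ h₁, ft_cnv ψ hψ h₂]
  set A : Finset (Dual F N) := univ.filter fun ξ => θ ≤ ‖f₁ ξ‖ ∧ θ ≤ ‖f₂ ξ‖ ∧ θ ≤ ‖f₃ ξ‖ with hA
  set c : Dual F N → ℂ := fun ξ => (Fintype.card N : ℂ)⁻¹ * (f₁ ξ * (f₂ ξ * f₃ ξ)) with hc
  set c' : Dual F N → ℂ := fun ξ => if ξ ∈ A then c ξ else 0 with hc'
  have hcn : ∀ ξ, ‖c ξ‖ = (Fintype.card N : ℝ)⁻¹ * (‖f₁ ξ‖ * (‖f₂ ξ‖ * ‖f₃ ξ‖)) := by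
    intro ξ
    rw [hc]; simp only
    rw [norm_mul, norm_mul, norm_mul, norm_inv, Complex.norm_natCast]
  set v := a₁ + (a₂ + a₃) with hv
  set g : V → ℂ := fun x => if hx : x - v ∈ N then ∑ ξ, c' ξ * ψ (ξ ⟨x - v, hx⟩) else 0 with hg
  have hgn : ∀ n : N, g (v + n) = ∑ ξ, c' ξ * ψ (ξ n) := by
    intro n
    rw [hg]; simp only
    have hmem : v + (n : V) - v ∈ N := by rw [add_sub_cancel_left]; exact n.2
    rw [dif_pos hmem]
    refine Finset.sum_congr rfl fun ξ _ => ?_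
    have h0 : (⟨v + (n : V) - v, hmem⟩ : N) = n := Subtype.ext (by simp)
    rw [h0]
  refine ⟨g, ⟨v, fun x hx => by rw [hg]; simp only; rw [dif_neg hx], c', ?_, hgn⟩, ?_⟩
  · -- weight
    have hcard : (A.card : ℝ) ≤ B / θ ^ 4 := by
      rw [le_div_iff₀ (by positivity)]
      calc (A.card : ℝ) * θ ^ 4 = ∑ ξ ∈ A, θ ^ 4 := by rw [Finset.sum_const, nsmul_eq_mul]
        _ ≤ ∑ ξ ∈ A, (‖f₁ ξ‖ * ‖f₂ ξ‖) ^ 2 := by
            refine Finset.sum_le_sum fun ξ hξ => ?_
            rw [hA, Finset.mem_filter] at hξ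
            have : θ * θ ≤ ‖f₁ ξ‖ * ‖f₂ ξ‖ :=
              mul_le_mul hξ.2.1 hξ.2.2.1 hθ.le (norm_nonneg _)
            calc θ ^ 4 = (θ * θ) ^ 2 := by ring
              _ ≤ _ := by gcongr
        _ ≤ ∑ ξ, (‖f₁ ξ‖ * ‖f₂ ξ‖) ^ 2 := Finset.sum_le_sum_of_subset_of_nonneg
            (Finset.subset_univ _) fun _ _ _ => sq_nonneg _
        _ ≤ B := e12
    calc ∑ ξ, ‖c' ξ‖ = ∑ ξ ∈ A, ‖c ξ‖ := by
          rw [hc']
          simp only [apply_ite norm, norm_zero]
          rw [Finset.sum_ite_mem, Finset.univ_inter]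
      _ ≤ ∑ ξ ∈ A, (Fintype.card N : ℝ)⁻¹ := by
          refine Finset.sum_le_sum fun ξ _ => ?_
          rw [hcn]
          have : ‖f₁ ξ‖ * (‖f₂ ξ‖ * ‖f₃ ξ‖) ≤ 1 * (1 * 1) :=
            mul_le_mul (b1 ξ) (mul_le_mul (b2 ξ) (b3 ξ) (norm_nonneg _) zero_le_one)
              (by (clear * -; positivity)) zero_le_one
          calc _ ≤ (Fintype.card N : ℝ)⁻¹ * (1 * (1 * 1)) :=
                mul_le_mul_of_nonneg_left this (inv_nonneg.mpr hN0.le)
            _ = _ := by ring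
      _ = A.card * (Fintype.card N : ℝ)⁻¹ := by rw [Finset.sum_const, nsmul_eq_mul]
      _ ≤ B / θ ^ 4 * (Fintype.card N : ℝ)⁻¹ :=
          mul_le_mul_of_nonneg_right hcard (inv_nonneg.mpr hN0.le)
      _ = B / θ ^ 4 / (carr N).card := by rw [← card_eq_carr]; rfl
  · -- error
    have hsupp : ∀ x, ‖((cnv ρ₁ (cnv ρ₂ ρ₃) x : ℝ) : ℂ) - g x‖ ≠ 0 → x - v ∈ N := by
      intro x hx
      by_contra h
      apply hx
      have h1 : cnv ρ₁ (cnv ρ₂ ρ₃) x = 0 := by
        by_contra h2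
        exact h ((h₁.conv (h₂.conv h₃)).supp x h2)
      have h2 : g x = 0 := by rw [hg]; simp only; rw [dif_neg h]
      rw [h1, h2]; simp
    rw [sum_on_coset N _ v hsupp]
    have h5 : ∀ n : N, ((cnv ρ₁ (cnv ρ₂ ρ₃) (v + n) : ℝ) : ℂ) - g (v + n)
        = ∑ ξ ∈ univ \ A, c ξ * (dualSys ψ hψ N).e ξ n := by
      intro n
      rw [hgn, law_inversion ψ hψ N _ v n, ← Finset.sum_sub_distrib]
      have h6 : ∀ ξ, (Fintype.card N : ℂ)⁻¹ * ft ψ hψ N (cnv ρ₁ (cnv ρ₂ ρ₃)) v ξ * ψ (ξ n)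
          - c' ξ * ψ (ξ n) = if ξ ∈ univ \ A then c ξ * (dualSys ψ hψ N).e ξ n else 0 := by
        intro ξ
        rw [hv, hT, dualSys_e, hc']
        simp only [Finset.mem_sdiff, Finset.mem_univ, true_and]
        by_cases h7 : ξ ∈ A
        · rw [if_pos h7, if_neg (not_not.mpr h7), hc]; ring
        · rw [if_neg h7, if_pos h7, hc]; ring
      rw [Finset.sum_congr rfl fun ξ _ => h6 ξ, Finset.sum_ite_mem, Finset.univ_inter]
    rw [Finset.sum_congr rfl fun n _ => by rw [h5 n]]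
    have h7 : ∑ n : N, ‖∑ ξ ∈ univ \ A, c ξ * (dualSys ψ hψ N).e ξ n‖
        = Fintype.card N * 𝔼 n : N, ‖∑ ξ ∈ univ \ A, c ξ * (dualSys ψ hψ N).e ξ n‖ := by
      rw [Fintype.card_mul_expect]
    rw [h7]
    have h8 : 𝔼 n : N, ‖∑ ξ ∈ univ \ A, c ξ * (dualSys ψ hψ N).e ξ n‖
        ≤ Real.sqrt (∑ ξ ∈ univ \ A, ‖c ξ‖ ^ 2) := by
      refine (expect_le_sqrt _).trans (le_of_eq ?_)
      rw [(dualSys ψ hψ N).parseval]
    have h9 : ∑ ξ ∈ univ \ A, ‖c ξ‖ ^ 2 ≤ (Fintype.card N : ℝ)⁻¹ ^ 2 * (3 * θ ^ 2 * B) := by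
      have h10 : ∀ ξ ∈ univ \ A, ‖c ξ‖ ^ 2 ≤ (Fintype.card N : ℝ)⁻¹ ^ 2 *
          (θ ^ 2 * ((‖f₁ ξ‖ * ‖f₂ ξ‖) ^ 2 + (‖f₂ ξ‖ * ‖f₃ ξ‖) ^ 2 + (‖f₁ ξ‖ * ‖f₃ ξ‖) ^ 2)) := by
        intro ξ hξ
        rw [hcn, mul_pow]
        refine mul_le_mul_of_nonneg_left ?_ (by positivity)
        have hor : ‖f₁ ξ‖ ≤ θ ∨ ‖f₂ ξ‖ ≤ θ ∨ ‖f₃ ξ‖ ≤ θ := by
          by_contra h
          push Not at h
          rw [Finset.mem_sdiff] at hξ
          exact hξ.2 (Finset.mem_filter.mpr ⟨Finset.mem_univ _, h.1.le, h.2.1.le, h.2.2.le⟩)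
        have p1 := norm_nonneg (f₁ ξ)
        have p2 := norm_nonneg (f₂ ξ)
        have p3 := norm_nonneg (f₃ ξ)
        rcases hor with h | h | h
        · calc (‖f₁ ξ‖ * (‖f₂ ξ‖ * ‖f₃ ξ‖)) ^ 2 = ‖f₁ ξ‖ ^ 2 * (‖f₂ ξ‖ * ‖f₃ ξ‖) ^ 2 := by ring
            _ ≤ θ ^ 2 * (‖f₂ ξ‖ * ‖f₃ ξ‖) ^ 2 := by gcongr
            _ ≤ _ := by
              refine mul_le_mul_of_nonneg_left ?_ (by positivity)
              linarith only [sq_nonneg (‖f₁ ξ‖ * ‖f₃ ξ‖), sq_nonneg (‖f₁ ξ‖ * ‖f₂ ξ‖)]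
        · calc (‖f₁ ξ‖ * (‖f₂ ξ‖ * ‖f₃ ξ‖)) ^ 2 = ‖f₂ ξ‖ ^ 2 * (‖f₁ ξ‖ * ‖f₃ ξ‖) ^ 2 := by ring
            _ ≤ θ ^ 2 * (‖f₁ ξ‖ * ‖f₃ ξ‖) ^ 2 := by gcongr
            _ ≤ _ := by
              refine mul_le_mul_of_nonneg_left ?_ (by positivity)
              linarith only [sq_nonneg (‖f₂ ξ‖ * ‖f₃ ξ‖), sq_nonneg (‖f₁ ξ‖ * ‖f₂ ξ‖)]
        · calc (‖f₁ ξ‖ * (‖f₂ ξ‖ * ‖f₃ ξ‖)) ^ 2 = ‖f₃ ξ‖ ^ 2 * (‖f₁ ξ‖ * ‖f₂ ξ‖) ^ 2 := by ring
            _ ≤ θ ^ 2 * (‖f₁ ξ‖ * ‖f₂ ξ‖) ^ 2 := by gcongr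
            _ ≤ _ := by
              refine mul_le_mul_of_nonneg_left ?_ (by positivity)
              linarith only [sq_nonneg (‖f₁ ξ‖ * ‖f₃ ξ‖), sq_nonneg (‖f₂ ξ‖ * ‖f₃ ξ‖)]
      refine (Finset.sum_le_sum h10).trans ?_
      rw [← Finset.mul_sum, ← Finset.mul_sum]
      refine mul_le_mul_of_nonneg_left ?_ (by positivity)
      have h11 : ∑ ξ ∈ univ \ A, ((‖f₁ ξ‖ * ‖f₂ ξ‖) ^ 2 + (‖f₂ ξ‖ * ‖f₃ ξ‖) ^ 2
          + (‖f₁ ξ‖ * ‖f₃ ξ‖) ^ 2) ≤ 3 * B := by
        calc _ ≤ ∑ ξ, ((‖f₁ ξ‖ * ‖f₂ ξ‖) ^ 2 + (‖f₂ ξ‖ * ‖f₃ ξ‖) ^ 2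
              + (‖f₁ ξ‖ * ‖f₃ ξ‖) ^ 2) := Finset.sum_le_sum_of_subset_of_nonneg
                (Finset.subset_univ _) fun _ _ _ => by (clear * -; positivity)
          _ ≤ 3 * B := by
            rw [Finset.sum_add_distrib, Finset.sum_add_distrib]
            linarith
      calc θ ^ 2 * _ ≤ θ ^ 2 * (3 * B) := mul_le_mul_of_nonneg_left h11 (by positivity)
        _ = 3 * θ ^ 2 * B := by ring
    calc (Fintype.card N : ℝ) * 𝔼 n : N, ‖∑ ξ ∈ univ \ A, c ξ * (dualSys ψ hψ N).e ξ n‖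
        ≤ Fintype.card N * Real.sqrt ((Fintype.card N : ℝ)⁻¹ ^ 2 * (3 * θ ^ 2 * B)) :=
          mul_le_mul_of_nonneg_left (h8.trans (Real.sqrt_le_sqrt h9)) hN0.le
      _ = Real.sqrt (3 * θ ^ 2 * B) := by
          rw [Real.sqrt_mul (sq_nonneg _), Real.sqrt_sq (inv_nonneg.mpr hN0.le)]
          field_simp

lemma HasWeight.smul {ψ : AddChar F ℂ} {N : Submodule F V} {h : V → ℂ} {B : ℝ}
    (hB : HasWeight ψ N h B) {w : ℝ} (hw : 0 ≤ w) :
    HasWeight ψ N (fun x => (w : ℂ) * h x) (B * w) := by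
  obtain ⟨v, hv, c, hc, hn⟩ := hB
  refine ⟨v, fun x hx => by simp only [hv x hx, mul_zero], fun ξ => (w : ℂ) * c ξ, ?_, fun n => ?_⟩
  · have : ∀ ξ, ‖(w : ℂ) * c ξ‖ = w * ‖c ξ‖ := fun ξ => by
      rw [norm_mul, Complex.norm_real, Real.norm_eq_abs, abs_of_nonneg hw]
    rw [Finset.sum_congr rfl fun ξ _ => this ξ, ← Finset.mul_sum, mul_comm]
    exact mul_le_mul_of_nonneg_right hc hw
  · simp only [hn, Finset.mul_sum]
    exact Finset.sum_congr rfl fun ξ _ => by ring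

/-- **Two groups.** A mixture of convolutions of pairs of laws of density `≤ L / |N|`. -/
theorem conv2_field (ψ : AddChar F ℂ) (hψ : ψ ≠ 0) (N : Submodule F V) {ι : Type*} [Fintype ι]
    (w : ι → ℝ) (hw : ∀ i, 0 ≤ w i) (hw1 : ∑ i, w i ≤ 1) {L p e : ℝ} (hL : 0 ≤ L) (hp : 0 < p)
    (ρ₁ ρ₂ : ι → V → ℝ) (a₁ a₂ : ι → V) (h₁ : ∀ i, IsLaw N (ρ₁ i) (a₁ i))
    (h₂ : ∀ i, IsLaw N (ρ₂ i) (a₂ i)) (hL₁ : ∀ i x, ρ₁ i x ≤ L / (carr N).card)
    (hL₂ : ∀ i x, ρ₂ i x ≤ L / (carr N).card)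
    (P : V → ℝ) (he : ∑ x, |P x - ∑ i, w i * cnv (ρ₁ i) (ρ₂ i) x| ≤ e) :
    ∃ U : V → Submodule F V, IsField N U ∧
      (∀ x, finrank F N ≤ finrank F (U x) + ⌊L / p⌋₊) ∧
      ∑ x, |P x - favg U P x| ≤ 2 * (e + Real.sqrt (p * L)) := by
  refine weight_field ψ hψ N w hw hw1 hp
    (fun i x => (w i : ℂ) * ((cnv (ρ₁ i) (ρ₂ i) x : ℝ) : ℂ))
    (fun i => (cnv_weight ψ hψ hL (h₁ i) (h₂ i) (hL₁ i) (hL₂ i)).smul (hw i)) P ?_
  refine le_trans (le_of_eq (Finset.sum_congr rfl fun x _ => ?_)) he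
  rw [← Real.norm_eq_abs, ← Complex.norm_real]
  push_cast
  rfl

/-- **Three groups.** A mixture of triple convolutions whose pairwise convolutions have density
`≤ B / |N|`. -/
theorem conv3_field (ψ : AddChar F ℂ) (hψ : ψ ≠ 0) (N : Submodule F V) {ι : Type*} [Fintype ι]
    (w : ι → ℝ) (hw : ∀ i, 0 ≤ w i) (hw1 : ∑ i, w i ≤ 1) {B p e θ : ℝ} (hB : 0 ≤ B) (hp : 0 < p)
    (hθ : 0 < θ) (ρ₁ ρ₂ ρ₃ : ι → V → ℝ) (a₁ a₂ a₃ : ι → V) (h₁ : ∀ i, IsLaw N (ρ₁ i) (a₁ i))
    (h₂ : ∀ i, IsLaw N (ρ₂ i) (a₂ i)) (h₃ : ∀ i, IsLaw N (ρ₃ i) (a₃ i))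
    (h12 : ∀ i x, cnv (ρ₁ i) (ρ₂ i) x ≤ B / (carr N).card)
    (h23 : ∀ i x, cnv (ρ₂ i) (ρ₃ i) x ≤ B / (carr N).card)
    (h13 : ∀ i x, cnv (ρ₁ i) (ρ₃ i) x ≤ B / (carr N).card)
    (P : V → ℝ) (he : ∑ x, |P x - ∑ i, w i * cnv (ρ₁ i) (cnv (ρ₂ i) (ρ₃ i)) x| ≤ e) :
    ∃ U : V → Submodule F V, IsField N U ∧
      (∀ x, finrank F N ≤ finrank F (U x) + ⌊B / θ ^ 4 / p⌋₊) ∧
      ∑ x, |P x - favg U P x| ≤
        2 * ((e + Real.sqrt (3 * θ ^ 2 * B)) + Real.sqrt (p * (B / θ ^ 4))) := by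
  choose g hg hge using fun i => cnv3_weight ψ hψ hB hθ (h₁ i) (h₂ i) (h₃ i) (h12 i) (h23 i) (h13 i)
  refine weight_field ψ hψ N w hw hw1 hp (fun i x => (w i : ℂ) * g i x)
    (fun i => (hg i).smul (hw i)) P ?_
  calc ∑ x, ‖(P x : ℂ) - ∑ i, (w i : ℂ) * g i x‖
      ≤ ∑ x, (|P x - ∑ i, w i * cnv (ρ₁ i) (cnv (ρ₂ i) (ρ₃ i)) x|
        + ∑ i, w i * ‖((cnv (ρ₁ i) (cnv (ρ₂ i) (ρ₃ i)) x : ℝ) : ℂ) - g i x‖) := by
        refine Finset.sum_le_sum fun x _ => ?_
        have h1 : (P x : ℂ) - ∑ i, (w i : ℂ) * g i x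
            = ((P x - ∑ i, w i * cnv (ρ₁ i) (cnv (ρ₂ i) (ρ₃ i)) x : ℝ) : ℂ)
              + ∑ i, (w i : ℂ) * (((cnv (ρ₁ i) (cnv (ρ₂ i) (ρ₃ i)) x : ℝ) : ℂ) - g i x) := by
          push_cast
          simp only [mul_sub, Finset.sum_sub_distrib]
          ring
        rw [h1]
        refine (norm_add_le _ _).trans (add_le_add (le_of_eq ?_) ?_)
        · rw [Complex.norm_real, Real.norm_eq_abs]
        · refine (norm_sum_le _ _).trans (le_of_eq (Finset.sum_congr rfl fun i _ => ?_))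
          rw [norm_mul, Complex.norm_real, Real.norm_eq_abs, abs_of_nonneg (hw i)]
    _ = ∑ x, |P x - ∑ i, w i * cnv (ρ₁ i) (cnv (ρ₂ i) (ρ₃ i)) x|
        + ∑ i, w i * ∑ x, ‖((cnv (ρ₁ i) (cnv (ρ₂ i) (ρ₃ i)) x : ℝ) : ℂ) - g i x‖ := by
        rw [Finset.sum_add_distrib, Finset.sum_comm]
        simp only [Finset.mul_sum]
    _ ≤ e + ∑ i, w i * Real.sqrt (3 * θ ^ 2 * B) :=
        add_le_add he (Finset.sum_le_sum fun i _ => mul_le_mul_of_nonneg_left (hge i) (hw i))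
    _ ≤ e + 1 * Real.sqrt (3 * θ ^ 2 * B) := by
        rw [← Finset.sum_mul]
        exact add_le_add le_rfl (mul_le_mul_of_nonneg_right hw1 (Real.sqrt_nonneg _))
    _ = e + Real.sqrt (3 * θ ^ 2 * B) := by rw [one_mul]

end Conv

end Vale.Agent.P060.HW
end

section

/-!
# P060/HW: from entropies to fields of subspaces (two groups)

Truncation, and the combination of Pinsker, truncation and `conv2_field`.
-/

open scoped Classical
open Finset Module

noncomputable section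

set_option linter.unusedSectionVars false

namespace Vale.Agent.P060.HW

lemma xlogx_trunc {L x : ℝ} (hL : 1 ≤ L) (hx : 0 ≤ x) :
    Real.log L * (if L < x then x else 0) - 1 ≤ x * Real.log x := by
  have hlog : 0 ≤ Real.log L := Real.log_nonneg hL
  split_ifs with h
  · have h1 : Real.log L ≤ Real.log x := Real.log_le_log (by linarith) h.le
    have h2 := mul_le_mul_of_nonneg_right h1 hx
    linarith
  · rcases hx.eq_or_lt with h0 | h0
    · rw [← h0]; simp
    · have h3 := Real.one_sub_inv_le_log_of_pos h0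
      have h4 := mul_le_mul_of_nonneg_left h3 h0.le
      rw [mul_sub, mul_one, mul_inv_cancel₀ h0.ne'] at h4
      linarith

lemma sum_cnv {V : Type*} [AddCommGroup V] [Fintype V] (ρ₁ ρ₂ : V → ℝ) :
    ∑ x, cnv ρ₁ ρ₂ x = (∑ x, ρ₁ x) * ∑ x, ρ₂ x := by
  unfold cnv
  rw [Finset.sum_comm, Finset.sum_mul]
  refine Finset.sum_congr rfl fun u _ => ?_
  rw [← Finset.mul_sum]
  congr 1
  exact Fintype.sum_equiv (Equiv.subRight u) _ _ fun x => rfl

namespace FinProb

variable {Ω : Type*} [Fintype Ω] (P : FinProb Ω) {α β τ V : Type*}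

/-- The average mass of the points of large conditional density. -/
theorem trunc_mass [Fintype α] (f : Ω → α) (T : Ω → τ) (S : τ → Finset α) {M L K : ℝ} (hM : 0 < M)
    (hL : 1 < L) (hS : ∀ ω, 0 < P.w ω → f ω ∈ S (T ω)) (hc : ∀ t, ((S t).card : ℝ) ≤ M)
    (hK : Real.log M - (P.H (fun ω => (f ω, T ω)) - P.H T) ≤ K) :
    ∑ ω, P.w ω * (∑ y, if L / M < P.cond f T (T ω) y then P.cond f T (T ω) y else 0)
      ≤ (K + 1) / Real.log L := by
  have hlog : 0 < Real.log L := Real.log_pos hL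
  rw [le_div_iff₀ hlog]
  have h1 := P.avg_kl f T hM
  have h2 : ∀ ω, P.w ω * (Real.log L *
      (∑ y, if L / M < P.cond f T (T ω) y then P.cond f T (T ω) y else 0) - 1)
      ≤ P.w ω * ∑ y, P.cond f T (T ω) y * Real.log (P.cond f T (T ω) y * M) := by
    intro ω
    refine mul_le_mul_of_nonneg_left ?_ (P.nonneg ω)
    have hsupp : ∀ y, y ∉ S (T ω) → P.cond f T (T ω) y = 0 := by
      intro y hy
      by_contra h0
      obtain ⟨ω', e1, e2, e3⟩ := P.exists_of_cond_ne_zero h0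
      apply hy
      rw [← e1, ← e2]
      exact hS ω' e3
    have e1 : (∑ y, if L / M < P.cond f T (T ω) y then P.cond f T (T ω) y else 0)
        = ∑ y ∈ S (T ω), if L / M < P.cond f T (T ω) y then P.cond f T (T ω) y else 0 := by
      symm
      refine Finset.sum_subset (Finset.subset_univ _) fun y _ hy => ?_
      rw [hsupp y hy]; simp
    have e2 : (∑ y, P.cond f T (T ω) y * Real.log (P.cond f T (T ω) y * M))
        = ∑ y ∈ S (T ω), P.cond f T (T ω) y * Real.log (P.cond f T (T ω) y * M) := by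
      symm
      refine Finset.sum_subset (Finset.subset_univ _) fun y _ hy => ?_
      rw [hsupp y hy]; simp
    rw [e1, e2]
    have e3 : ∀ y ∈ S (T ω), Real.log L *
        (if L / M < P.cond f T (T ω) y then P.cond f T (T ω) y else 0) - 1 / M
        ≤ P.cond f T (T ω) y * Real.log (P.cond f T (T ω) y * M) := by
      intro y _
      have h0 := P.cond_nonneg f T (T ω) y
      have h3 := xlogx_trunc (L := L) (x := P.cond f T (T ω) y * M) hL.le (by positivity)
      have h4 := div_le_div_of_nonneg_right h3 hM.le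
      have h5 : (L < P.cond f T (T ω) y * M) ↔ (L / M < P.cond f T (T ω) y) := by
        rw [div_lt_iff₀ hM]
      have h6 : (P.cond f T (T ω) y * M * Real.log (P.cond f T (T ω) y * M)) / M
          = P.cond f T (T ω) y * Real.log (P.cond f T (T ω) y * M) := by
        field_simp
      rw [h6] at h4
      refine le_trans (le_of_eq ?_) h4
      by_cases h7 : L / M < P.cond f T (T ω) y
      · rw [if_pos h7, if_pos (h5.2 h7)]
        field_simp
      · rw [if_neg h7, if_neg (fun h => h7 (h5.1 h))]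
        field_simp
        ring
    have e4 := Finset.sum_le_sum e3
    rw [Finset.sum_sub_distrib, ← Finset.mul_sum, Finset.sum_const, nsmul_eq_mul] at e4
    have e5 : ((S (T ω)).card : ℝ) * (1 / M) ≤ 1 := by
      rw [mul_one_div, div_le_one hM]
      exact hc _
    linarith only [e5, e4]
  have h3 := Finset.sum_le_sum (s := Finset.univ) fun ω _ => h2 ω
  rw [h1] at h3
  have h4 : ∑ ω, P.w ω * (Real.log L *
      (∑ y, if L / M < P.cond f T (T ω) y then P.cond f T (T ω) y else 0) - 1)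
      = (∑ ω, P.w ω * (∑ y, if L / M < P.cond f T (T ω) y then P.cond f T (T ω) y else 0))
        * Real.log L - 1 := by
    have h5 : ∀ ω, P.w ω * (Real.log L *
        (∑ y, if L / M < P.cond f T (T ω) y then P.cond f T (T ω) y else 0) - 1)
        = P.w ω * (∑ y, if L / M < P.cond f T (T ω) y then P.cond f T (T ω) y else 0) * Real.log L
          - P.w ω := fun ω => by ring
    rw [Finset.sum_congr rfl fun ω _ => h5 ω, Finset.sum_sub_distrib, P.sum_one, Finset.sum_mul]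
  rw [h4] at h3
  linarith only [h3, hK]

/-- The truncated conditional law. -/
def tr (f : Ω → α) (T : Ω → τ) (c : ℝ) (t : τ) (y : α) : ℝ :=
  if c < P.cond f T t y then 0 else P.cond f T t y

lemma tr_nonneg (f : Ω → α) (T : Ω → τ) (c : ℝ) (t : τ) (y : α) : 0 ≤ P.tr f T c t y := by
  unfold tr
  split_ifs
  exacts [le_rfl, P.cond_nonneg _ _ _ _]

lemma tr_le (f : Ω → α) (T : Ω → τ) (c : ℝ) (t : τ) (y : α) : P.tr f T c t y ≤ P.cond f T t y := by
  unfold tr
  split_ifs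
  exacts [P.cond_nonneg _ _ _ _, le_rfl]

lemma tr_le_c (f : Ω → α) (T : Ω → τ) {c : ℝ} (hc : 0 ≤ c) (t : τ) (y : α) :
    P.tr f T c t y ≤ c := by
  unfold tr
  split_ifs with h
  · exact hc
  · exact not_lt.1 h

lemma sum_cond_le [Fintype α] (f : Ω → α) (T : Ω → τ) (t : τ) : ∑ y, P.cond f T t y ≤ 1 := by
  by_cases h : P.p T t = 0
  · unfold cond
    rw [h]; simp
  · rw [P.sum_cond f T h]

lemma sum_cond_sub_tr [Fintype α] (f : Ω → α) (T : Ω → τ) (c : ℝ) (t : τ) :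
    ∑ y, (P.cond f T t y - P.tr f T c t y)
      = ∑ y, if c < P.cond f T t y then P.cond f T t y else 0 := by
  refine Finset.sum_congr rfl fun y _ => ?_
  unfold tr
  split_ifs <;> simp

lemma tr_law [AddCommGroup V] [Fintype V] {F : Type*} [Field F] [Module F V] (f : Ω → V)
    (T : Ω → τ) (N : Submodule F V) (a : τ → V) (hN : ∀ ω, 0 < P.w ω → f ω - a (T ω) ∈ N) (c : ℝ)
    (t : τ) : IsLaw N (P.tr f T c t) (a t) := by
  refine ⟨P.tr_nonneg f T c t, ?_, ?_⟩
  · exact (Finset.sum_le_sum fun y _ => P.tr_le f T c t y).trans (P.sum_cond_le f T t)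
  · intro x hx
    have h1 : P.cond f T t x ≠ 0 := by
      intro h0
      apply hx
      unfold tr
      rw [h0]; simp
    obtain ⟨ω, e1, e2, e3⟩ := P.exists_of_cond_ne_zero h1
    rw [← e1, ← e2]
    exact hN ω e3

/-- Push forward of a law. -/
lemma p_comp [Fintype α] (f : Ω → α) (g : α → β) (b : β) :
    P.p (fun ω => g (f ω)) b = ∑ a, if g a = b then P.p f a else 0 := by
  have := P.sum_p_mul f (fun a => if g a = b then 1 else 0)
  simp only [mul_ite, mul_one, mul_zero] at this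
  rw [this]
  rfl

/-- **Two groups**: the law of `X₁ + X₂ + c(T)` is close to a mixture of convolutions of laws of
bounded density. -/
theorem near_conv2 [AddCommGroup V] [Fintype V] [Fintype τ] {F : Type*} [Field F] [Module F V]
    (N : Submodule F V) (T : Ω → τ) (X₁ X₂ : Ω → V) (a₁ a₂ c : τ → V)
    (h₁ : ∀ ω, 0 < P.w ω → X₁ ω - a₁ (T ω) ∈ N) (h₂ : ∀ ω, 0 < P.w ω → X₂ ω - a₂ (T ω) ∈ N)
    {L K₁ K₂ δ : ℝ} (hL : 1 < L)
    (hK₁ : Real.log (carr N).card - (P.H (fun ω => (X₁ ω, T ω)) - P.H T) ≤ K₁)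
    (hK₂ : Real.log (carr N).card - (P.H (fun ω => (X₂ ω, T ω)) - P.H T) ≤ K₂)
    (hI : P.H (fun ω => (X₁ ω, T ω)) + P.H (fun ω => (X₂ ω, T ω))
      - P.H (fun ω => (X₁ ω, X₂ ω, T ω)) - P.H T ≤ δ) :
    ∃ ρ₁ ρ₂ : τ → V → ℝ, (∀ t, IsLaw N (ρ₁ t) (a₁ t)) ∧ (∀ t, IsLaw N (ρ₂ t) (a₂ t + c t)) ∧
      (∀ t x, ρ₁ t x ≤ L / (carr N).card) ∧ (∀ t x, ρ₂ t x ≤ L / (carr N).card) ∧
      ∑ x, |P.p (fun ω => X₁ ω + X₂ ω + c (T ω)) x - ∑ t, P.p T t * cnv (ρ₁ t) (ρ₂ t) x|
        ≤ Real.sqrt (2 * δ) + ((K₁ + 1) / Real.log L + (K₂ + 1) / Real.log L) := by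
  have hM : (0 : ℝ) < (carr N).card := carr_card_pos N
  have hc0 : 0 ≤ L / (carr N).card := by (clear * - hL hM; positivity)
  set c₀ : ℝ := L / (carr N).card with hc₀
  have hsh : ∀ (ρ : V → ℝ) (s : V), ∑ x, ρ (x - s) = ∑ x, ρ x := fun ρ s =>
    Fintype.sum_equiv (Equiv.subRight s) _ _ fun x => rfl
  refine ⟨fun t => P.tr X₁ T c₀ t, fun t x => P.tr X₂ T c₀ t (x - c t),
    fun t => P.tr_law X₁ T N a₁ h₁ c₀ t, fun t => ?_, fun t x => P.tr_le_c _ _ hc0 _ _,
    fun t x => P.tr_le_c _ _ hc0 _ _, ?_⟩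
  · have h := P.tr_law X₂ T N a₂ h₂ c₀ t
    refine ⟨fun x => h.nonneg _, ?_, fun x hx => ?_⟩
    · rw [hsh (fun x => P.tr X₂ T c₀ t x) (c t)]
      exact h.mass
    · have := h.supp _ hx
      rw [sub_sub, add_comm (c t)] at this
      exact this
  -- the joint law
  set f : Ω → (Fin 2 → V) × τ := fun ω => ((fun i => (![X₁, X₂] i) ω : Fin 2 → V), T ω) with hf
  have htv : ∑ x, |P.p f x - P.pl ![X₁, X₂] T x| ≤ Real.sqrt (2 * δ) := by
    apply P.tv_prod ![X₁, X₂] T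
    have e1 : P.H (fun ω => ((fun i => (![X₁, X₂] i) ω : Fin 2 → V), T ω))
        = P.H (fun ω => (X₁ ω, X₂ ω, T ω)) := by
      apply P.H_congr_det
      intro ω ω'
      constructor
      · intro h
        have h1 := Prod.ext_iff.1 h
        have h2 := Prod.ext_iff.1 h1.2
        refine Prod.ext ?_ h2.2
        funext i
        fin_cases i
        · exact h1.1
        · exact h2.1
      · intro h
        have h1 := Prod.ext_iff.1 h
        exact Prod.ext (congrFun h1.1 0) (Prod.ext (congrFun h1.1 1) h1.2)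
    rw [Fin.sum_univ_two, e1]
    simp only [Matrix.cons_val_zero, Matrix.cons_val_one]
    linarith only [hI]
  set g : (Fin 2 → V) × τ → V := fun a => a.1 0 + a.1 1 + c a.2 with hg
  have hpush : ∀ x, P.p (fun ω => X₁ ω + X₂ ω + c (T ω)) x
      = ∑ a, if g a = x then P.p f a else 0 := fun x => P.p_comp f g x
  have hmix : ∀ x, ∑ t, P.p T t * cnv (fun y => P.cond X₁ T t y)
      (fun y => P.cond X₂ T t (y - c t)) x = ∑ a, if g a = x then P.pl ![X₁, X₂] T a else 0 := by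
    intro x
    rw [Fintype.sum_prod_type_right]
    refine Finset.sum_congr rfl fun t _ => ?_
    rw [← (finTwoArrowEquiv V).symm.sum_comp, Fintype.sum_prod_type]
    unfold cnv
    rw [Finset.mul_sum]
    refine Finset.sum_congr rfl fun u _ => ?_
    rw [Finset.sum_eq_single (x - u - c t)]
    · have : g ((finTwoArrowEquiv V).symm (u, x - u - c t), t) = x := by
        simp only [hg, finTwoArrowEquiv_symm_apply, Matrix.cons_val_zero, Matrix.cons_val_one]
        abel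
      rw [if_pos this]
      simp [pl, Fin.prod_univ_two]
    · intro v _ hv
      rw [if_neg]
      intro h
      apply hv
      simp only [hg, finTwoArrowEquiv_symm_apply, Matrix.cons_val_zero, Matrix.cons_val_one] at h
      rw [← h]
      abel
    · intro h
      exact absurd (Finset.mem_univ _) h
  have h1 : ∑ x, |P.p (fun ω => X₁ ω + X₂ ω + c (T ω)) x
      - ∑ t, P.p T t * cnv (fun y => P.cond X₁ T t y) (fun y => P.cond X₂ T t (y - c t)) x|
      ≤ Real.sqrt (2 * δ) := by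
    refine le_trans ?_ htv
    calc ∑ x, |P.p (fun ω => X₁ ω + X₂ ω + c (T ω)) x
          - ∑ t, P.p T t * cnv (fun y => P.cond X₁ T t y) (fun y => P.cond X₂ T t (y - c t)) x|
        ≤ ∑ x, ∑ a, (if g a = x then |P.p f a - P.pl ![X₁, X₂] T a| else 0) := by
          refine Finset.sum_le_sum fun x _ => ?_
          rw [hpush, hmix, ← Finset.sum_sub_distrib]
          refine (Finset.abs_sum_le_sum_abs _ _).trans (Finset.sum_le_sum fun a _ => ?_)
          split_ifs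
          · exact le_rfl
          · simp
      _ = ∑ a, |P.p f a - P.pl ![X₁, X₂] T a| := by
          rw [Finset.sum_comm]
          refine Finset.sum_congr rfl fun a _ => ?_
          rw [Finset.sum_ite_eq]
          simp
  have h2 : ∑ x, |∑ t, P.p T t * cnv (fun y => P.cond X₁ T t y)
        (fun y => P.cond X₂ T t (y - c t)) x
      - ∑ t, P.p T t * cnv (fun y => P.tr X₁ T c₀ t y) (fun y => P.tr X₂ T c₀ t (y - c t)) x|
      ≤ (K₁ + 1) / Real.log L + (K₂ + 1) / Real.log L := by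
    have hmono : ∀ t x, cnv (fun y => P.tr X₁ T c₀ t y) (fun y => P.tr X₂ T c₀ t (y - c t)) x
        ≤ cnv (fun y => P.cond X₁ T t y) (fun y => P.cond X₂ T t (y - c t)) x := by
      intro t x
      refine Finset.sum_le_sum fun u _ => ?_
      exact mul_le_mul (P.tr_le _ _ _ _ _) (P.tr_le _ _ _ _ _) (P.tr_nonneg _ _ _ _ _)
        (P.cond_nonneg _ _ _ _)
    have h3 : ∀ x, |∑ t, P.p T t * cnv (fun y => P.cond X₁ T t y)
        (fun y => P.cond X₂ T t (y - c t)) x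
        - ∑ t, P.p T t * cnv (fun y => P.tr X₁ T c₀ t y) (fun y => P.tr X₂ T c₀ t (y - c t)) x|
        = ∑ t, P.p T t * (cnv (fun y => P.cond X₁ T t y)
        (fun y => P.cond X₂ T t (y - c t)) x - cnv (fun y => P.tr X₁ T c₀ t y)
          (fun y => P.tr X₂ T c₀ t (y - c t)) x) := by
      intro x
      rw [← Finset.sum_sub_distrib, abs_of_nonneg]
      · exact Finset.sum_congr rfl fun t _ => by ring
      · refine Finset.sum_nonneg fun t _ => ?_
        rw [← mul_sub]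
        exact mul_nonneg (P.p_nonneg _ _) (sub_nonneg.2 (hmono t x))
    rw [Finset.sum_congr rfl fun x _ => h3 x, Finset.sum_comm]
    have h4 : ∀ t, ∑ x, P.p T t * (cnv (fun y => P.cond X₁ T t y)
        (fun y => P.cond X₂ T t (y - c t)) x - cnv (fun y => P.tr X₁ T c₀ t y)
          (fun y => P.tr X₂ T c₀ t (y - c t)) x)
        ≤ P.p T t * (∑ y, if c₀ < P.cond X₁ T t y then P.cond X₁ T t y else 0)
          + P.p T t * (∑ y, if c₀ < P.cond X₂ T t y then P.cond X₂ T t y else 0) := by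
      intro t
      rw [← Finset.mul_sum, ← mul_add]
      refine mul_le_mul_of_nonneg_left ?_ (P.p_nonneg _ _)
      rw [Finset.sum_sub_distrib, sum_cnv, sum_cnv, hsh (fun y => P.cond X₂ T t y) (c t),
        hsh (fun y => P.tr X₂ T c₀ t y) (c t), ← P.sum_cond_sub_tr X₁ T c₀ t,
        ← P.sum_cond_sub_tr X₂ T c₀ t, Finset.sum_sub_distrib, Finset.sum_sub_distrib]
      have b1 := P.sum_cond_le X₁ T t
      have b2 := P.sum_cond_le X₂ T t
      have b3 : ∑ y, P.tr X₁ T c₀ t y ≤ ∑ y, P.cond X₁ T t y :=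
        Finset.sum_le_sum fun y _ => P.tr_le _ _ _ _ _
      have b4 : ∑ y, P.tr X₂ T c₀ t y ≤ ∑ y, P.cond X₂ T t y :=
        Finset.sum_le_sum fun y _ => P.tr_le _ _ _ _ _
      have b5 : 0 ≤ ∑ y, P.tr X₁ T c₀ t y := Finset.sum_nonneg fun y _ => P.tr_nonneg _ _ _ _ _
      linarith only [mul_nonneg (sub_nonneg.2 b3) (sub_nonneg.2 b4), mul_nonneg (sub_nonneg.2 b2) (sub_nonneg.2 b3), mul_nonneg (sub_nonneg.2 b1) (sub_nonneg.2 b4)]
    refine (Finset.sum_le_sum fun t _ => h4 t).trans ?_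
    rw [Finset.sum_add_distrib]
    have hN : ∀ (a : τ → V) (t : τ),
        (((carr N).image fun n => n + a t).card : ℝ) ≤ (carr N).card := by
      intro a t
      exact_mod_cast Finset.card_image_le
    have hNS : ∀ (X : Ω → V) (a : τ → V), (∀ ω, 0 < P.w ω → X ω - a (T ω) ∈ N) →
        ∀ ω, 0 < P.w ω → X ω ∈ (carr N).image fun n => n + a (T ω) := by
      intro X a h ω hω
      exact Finset.mem_image.2 ⟨X ω - a (T ω), mem_carr.2 (h ω hω), by abel⟩
    refine add_le_add ?_ ?_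
    · rw [P.sum_p_mul T]
      exact P.trunc_mass X₁ T (fun t => (carr N).image fun n => n + a₁ t) hM hL
        (hNS X₁ a₁ h₁) (hN a₁) hK₁
    · rw [P.sum_p_mul T]
      exact P.trunc_mass X₂ T (fun t => (carr N).image fun n => n + a₂ t) hM hL
        (hNS X₂ a₂ h₂) (hN a₂) hK₂
  calc ∑ x, |P.p (fun ω => X₁ ω + X₂ ω + c (T ω)) x
        - ∑ t, P.p T t * cnv (fun y => P.tr X₁ T c₀ t y) (fun y => P.tr X₂ T c₀ t (y - c t)) x|
      ≤ ∑ x, (|P.p (fun ω => X₁ ω + X₂ ω + c (T ω)) x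
      - ∑ t, P.p T t * cnv (fun y => P.cond X₁ T t y) (fun y => P.cond X₂ T t (y - c t)) x|
        + |∑ t, P.p T t * cnv (fun y => P.cond X₁ T t y)
        (fun y => P.cond X₂ T t (y - c t)) x
      - ∑ t, P.p T t * cnv (fun y => P.tr X₁ T c₀ t y) (fun y => P.tr X₂ T c₀ t (y - c t)) x|) :=
        Finset.sum_le_sum fun x _ => abs_sub_le _ _ _
    _ ≤ _ := by
        rw [Finset.sum_add_distrib]
        exact add_le_add h1 h2

/-- **Two groups, final form.** If `X₁, X₂` take values in cosets of `N` determined by `T`, have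
bounded conditional deficit relative to `N` and small conditional mutual information, then the law
of `X₁ + X₂ + c(T)` is close to its average over a field of subspaces of `N` of bounded
codimension. -/
theorem near_field2 [AddCommGroup V] [Fintype V] {τ : Type*} [Fintype τ] {F : Type*} [Field F]
    [Fintype F] [Module F V] (ψ : AddChar F ℂ) (hψ : ψ ≠ 0)
    (N : Submodule F V) (T : Ω → τ) (X₁ X₂ : Ω → V) (c : τ → V)
    (h₁ : ∀ ω ω', T ω = T ω' → X₁ ω - X₁ ω' ∈ N) (h₂ : ∀ ω ω', T ω = T ω' → X₂ ω - X₂ ω' ∈ N)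
    {L K₁ K₂ δ p : ℝ} (hL : 1 < L) (hp : 0 < p)
    (hK₁ : Real.log (carr N).card - (P.H (fun ω => (X₁ ω, T ω)) - P.H T) ≤ K₁)
    (hK₂ : Real.log (carr N).card - (P.H (fun ω => (X₂ ω, T ω)) - P.H T) ≤ K₂)
    (hI : P.H (fun ω => (X₁ ω, T ω)) + P.H (fun ω => (X₂ ω, T ω))
      - P.H (fun ω => (X₁ ω, X₂ ω, T ω)) - P.H T ≤ δ) :
    ∃ U : V → Submodule F V, IsField N U ∧
      (∀ x, finrank F N ≤ finrank F (U x) + ⌊L / p⌋₊) ∧
      ∑ x, |P.p (fun ω => X₁ ω + X₂ ω + c (T ω)) x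
          - favg U (P.p (fun ω => X₁ ω + X₂ ω + c (T ω))) x|
        ≤ 2 * (Real.sqrt (2 * δ) + ((K₁ + 1) / Real.log L + (K₂ + 1) / Real.log L)
          + Real.sqrt (p * L)) := by
  have key : ∀ X : Ω → V, (∀ ω ω', T ω = T ω' → X ω - X ω' ∈ N) →
      ∃ a : τ → V, ∀ ω, 0 < P.w ω → X ω - a (T ω) ∈ N := by
    intro X h
    refine ⟨fun t => if ht : ∃ ω, T ω = t then X ht.choose else 0, fun ω _ => ?_⟩
    have ht : ∃ ω', T ω' = T ω := ⟨ω, rfl⟩
    simp only [dif_pos ht]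
    exact h _ _ ht.choose_spec.symm
  obtain ⟨a₁, ha₁⟩ := key X₁ h₁
  obtain ⟨a₂, ha₂⟩ := key X₂ h₂
  obtain ⟨ρ₁, ρ₂, l1, l2, b1, b2, e⟩ := P.near_conv2 N T X₁ X₂ a₁ a₂ c ha₁ ha₂ hL hK₁ hK₂ hI
  exact conv2_field ψ hψ N (fun t => P.p T t) (fun t => P.p_nonneg T t) (P.sum_p T).le
    (by linarith) hp ρ₁ ρ₂ _ _ l1 l2 b1 b2 _ e

end FinProb

section Coarsen

variable {F V : Type*} [Field F] [Fintype F] [AddCommGroup V] [Module F V] [Fintype V]

/-- Codimensions of finite intersections. -/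
lemma codim_finset_inf {ι : Type*} (N : Submodule F V) (s : Finset ι) (U : ι → Submodule F V)
    {R : ℕ} (hR : ∀ i ∈ s, finrank F N ≤ finrank F (U i) + R) (hU : ∀ i ∈ s, U i ≤ N) :
    finrank F N ≤ finrank F (N ⊓ s.inf U : Submodule F V) + s.card * R := by
  have : FiniteDimensional F V := Module.Finite.of_finite
  induction s using Finset.induction_on with
  | empty => rw [Finset.inf_empty, inf_top_eq]; simp
  | insert i s hi ih =>
    have h1 := ih (fun j hj => hR j (Finset.mem_insert_of_mem hj))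
      (fun j hj => hU j (Finset.mem_insert_of_mem hj))
    have h2 := hR i (Finset.mem_insert_self i s)
    have h3 := hU i (Finset.mem_insert_self i s)
    rw [Finset.inf_insert, Finset.card_insert_of_notMem hi]
    have h4 : N ⊓ (U i ⊓ s.inf U) = U i ⊓ (N ⊓ s.inf U) := by
      rw [← inf_assoc, ← inf_assoc, inf_comm N]
    have h5 := Submodule.finrank_sup_add_finrank_inf_eq (U i) (N ⊓ s.inf U)
    have h6 : finrank F (U i ⊔ (N ⊓ s.inf U) : Submodule F V) ≤ finrank F N :=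
      Submodule.finrank_mono (sup_le h3 inf_le_left)
    rw [h4]
    have h7 : (s.card + 1) * R = s.card * R + R := by ring
    rw [h7]
    omega

/-- **Coarsening**: a field which is constant on the cosets of `N` can be replaced by a smaller one
which is constant on the cosets of `N'`, if `N` has bounded codimension in `N'`. -/
theorem IsField.coarsen {N N' : Submodule F V} (hN : N ≤ N') {U : V → Submodule F V}
    (hU : IsField N U) {R c : ℕ} (hR : ∀ x, finrank F N ≤ finrank F (U x) + R)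
    (hc : finrank F N' ≤ finrank F N + c) :
    ∃ U' : V → Submodule F V, IsField N' U' ∧ (∀ x, U' x ≤ U x) ∧
      ∀ x, finrank F N' ≤ finrank F (U' x) + (c + Fintype.card F ^ c * R) := by
  have : FiniteDimensional F V := Module.Finite.of_finite
  -- representatives of the cosets of `N` in `N'`
  obtain ⟨s, hs1, hs2, hs3⟩ : ∃ s : Finset V, (∀ r ∈ s, r ∈ N') ∧
      (∀ n ∈ N', ∃ r ∈ s, n - r ∈ N) ∧ s.card ≤ Fintype.card F ^ c := by
    classical
    set q : V → V ⧸ N := fun v => Submodule.Quotient.mk v with hq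
    let _ : Fintype (V ⧸ N) := quotFintype N
    set t : Finset (V ⧸ N) := (carr N').image q with ht
    refine ⟨t.image (fun k => if h : ∃ n ∈ N', q n = k then h.choose else 0), ?_, ?_, ?_⟩
    · intro r hr
      obtain ⟨k, hk, rfl⟩ := Finset.mem_image.1 hr
      obtain ⟨n, hn, hnk⟩ := Finset.mem_image.1 hk
      have h : ∃ n ∈ N', q n = k := ⟨n, mem_carr.1 hn, hnk⟩
      rw [dif_pos h]
      exact h.choose_spec.1
    · intro n hn
      have h : ∃ m ∈ N', q m = q n := ⟨n, hn, rfl⟩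
      refine ⟨h.choose, Finset.mem_image.2 ⟨q n, Finset.mem_image_of_mem _ (mem_carr.2 hn), ?_⟩, ?_⟩
      · rw [dif_pos h]
      · exact (Submodule.Quotient.eq N).1 h.choose_spec.2.symm
    · refine Finset.card_image_le.trans ?_
      have h1 : t = univ.filter fun k => k ∈ N'.map N.mkQ := by
        ext k
        simp only [ht, Finset.mem_image, mem_carr, Finset.mem_filter, Finset.mem_univ, true_and,
          Submodule.mem_map]
        rfl
      have h2 : t.card = Fintype.card F ^ finrank F (N'.map N.mkQ) := by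
        rw [← Module.card_eq_pow_finrank (K := F), Fintype.card_subtype, h1]
      rw [h2]
      refine Nat.pow_le_pow_right Fintype.card_pos ?_
      have h3 := LinearMap.finrank_range_add_finrank_ker (N.mkQ.domRestrict N')
      have h4 : finrank F (LinearMap.ker (N.mkQ.domRestrict N')) = finrank F N := by
        have : LinearMap.ker (N.mkQ.domRestrict N') = N.comap N'.subtype := by
          ext x
          simp [LinearMap.domRestrict_apply]
        rw [this]
        exact LinearEquiv.finrank_eq (Submodule.comapSubtypeEquivOfLe hN)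
      have h5 : LinearMap.range (N.mkQ.domRestrict N') = N'.map N.mkQ := by
        rw [LinearMap.domRestrict, LinearMap.range_comp, Submodule.range_subtype]
      rw [h4, h5] at h3
      omega
  refine ⟨fun x => N ⊓ s.inf fun r => U (x + r), ⟨fun x => inf_le_left.trans hN, ?_⟩, ?_, ?_⟩
  · intro x n hn
    apply le_antisymm
    · refine le_inf inf_le_left (Finset.le_inf fun r hr => ?_)
      obtain ⟨r', hr', hm⟩ := hs2 (r - n) (N'.sub_mem (hs1 r hr) hn)
      have e : x + n + r' = x + r + -(r - n - r') := by abel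
      have e2 : U (x + n + r') = U (x + r) := by
        rw [e, hU.inv _ _ (N.neg_mem hm)]
      rw [← e2]
      exact inf_le_right.trans (Finset.inf_le hr')
    · refine le_inf inf_le_left (Finset.le_inf fun r hr => ?_)
      obtain ⟨r', hr', hm⟩ := hs2 (n + r) (N'.add_mem hn (hs1 r hr))
      have e : x + n + r = x + r' + (n + r - r') := by abel
      have e2 : U (x + n + r) = U (x + r') := by
        rw [e, hU.inv _ _ hm]
      rw [e2]
      exact inf_le_right.trans (Finset.inf_le hr')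
  · intro x
    obtain ⟨r, hr, hm⟩ := hs2 0 N'.zero_mem
    have e : x = x + r + (0 - r) := by abel
    have e2 : U x = U (x + r) := by
      conv_lhs => rw [e, hU.inv _ _ hm]
    rw [e2]
    exact inf_le_right.trans (Finset.inf_le hr)
  · intro x
    have h1 := codim_finset_inf N s (fun r => U (x + r)) (R := R) (fun r _ => hR _)
      (fun r _ => hU.le _)
    have h2 : s.card * R ≤ Fintype.card F ^ c * R := Nat.mul_le_mul_right _ hs3
    simp only
    omega

end Coarsen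

end Vale.Agent.P060.HW
end
end

section

/-! The three pasts lemma when the three pasts know finitely many common functionals. -/

namespace Vale.Agent.P060.HW

open Finset Module

section Common

variable {F V : Type*} [Field F] [AddCommGroup V] [Module F V] [Fintype V]

/-- Intersection of the members of a field over the translates by `T`. -/
noncomputable def tfield (T N : Submodule F V) (U : V → Submodule F V) (x : V) :
    Submodule F V := meet N (fun t => U (x + t)) (carr T)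

theorem tfield_le (T N : Submodule F V) (U : V → Submodule F V) (x : V) :
    tfield T N U x ≤ N := inf_le_left

theorem tfield_le_apply (T N : Submodule F V) (U : V → Submodule F V) (x : V) :
    tfield T N U x ≤ U x := by
  refine inf_le_right.trans ((Finset.inf_le (mem_carr.mpr T.zero_mem)).trans ?_)
  rw [add_zero]

theorem tfield_inv {T N : Submodule F V} {U : V → Submodule F V} (hU : IsField N U) (x n : V)
    (hn : n ∈ N ⊔ T) : tfield T N U (x + n) = tfield T N U x := by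
  obtain ⟨m, hm, s, hs, rfl⟩ := Submodule.mem_sup.mp hn
  have key : ∀ t, U (x + (m + s) + t) = U (x + (s + t)) := by
    intro t
    rw [show x + (m + s) + t = x + (s + t) + m by abel]
    exact hU.inv _ m hm
  unfold tfield meet
  congr 1
  refine le_antisymm ?_ ?_
  · refine Finset.le_inf fun t ht => ?_
    refine (Finset.inf_le (b := t - s)
      (mem_carr.mpr (T.sub_mem (mem_carr.mp ht) hs))).trans ?_
    rw [key, add_sub_cancel]
  · refine Finset.le_inf fun t ht => ?_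
    refine (Finset.inf_le (b := s + t)
      (mem_carr.mpr (T.add_mem hs (mem_carr.mp ht)))).trans ?_
    rw [key]

theorem isField_tfield {T N : Submodule F V} {U : V → Submodule F V} (hU : IsField N U) :
    IsField N (tfield T N U) :=
  ⟨tfield_le T N U, fun x n hn => tfield_inv hU x n (Submodule.mem_sup_left hn)⟩

theorem isField_tfield_sup {T N : Submodule F V} {U : V → Submodule F V} (hU : IsField N U) :
    IsField (N ⊔ T) (tfield T N U) :=
  ⟨fun x => (tfield_le T N U x).trans le_sup_left, fun x n hn => tfield_inv hU x n hn⟩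

theorem finrank_tfield {T N : Submodule F V} {U : V → Submodule F V} (hU : IsField N U) {R : ℕ}
    (hr : ∀ x, finrank F N ≤ finrank F (U x) + R) (x : V) :
    finrank F ↥(N ⊔ T) ≤ finrank F (tfield T N U x) + (finrank F T + (carr T).card * R) := by
  classical
  have hfin : FiniteDimensional F V := Module.Finite.of_finite
  have h1 := finrank_meet N (fun t => U (x + t)) R (fun t => hr _) (fun t => hU.le _) (carr T)
  have h2 := Submodule.finrank_sup_add_finrank_inf_eq N T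
  unfold tfield
  omega

theorem favg_tfield {T N : Submodule F V} {U : V → Submodule F V} (hU : IsField N U)
    (f : V → ℝ) {e : ℝ} (h : ∑ x, |f x - favg U f x| ≤ e) :
    ∑ x, |f x - favg (tfield T N U) f x| ≤ 2 * e :=
  l1_refine hU (isField_tfield hU) (tfield_le_apply T N U) f h

/-- The three pasts lemma; the hypothesis on the `N i` holds only up to a small subspace `T`. -/
theorem three_pasts_common {N₁ N₂ N₃ T : Submodule F V}
    (hN : N₁ ⊓ N₂ ⊔ (N₁ ⊓ N₃ ⊔ N₂ ⊓ N₃) ⊔ T = ⊤) {U₁ U₂ U₃ : V → Submodule F V}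
    (hU₁ : IsField N₁ U₁) (hU₂ : IsField N₂ U₂) (hU₃ : IsField N₃ U₃) (R R' : ℕ)
    (hR' : finrank F T + (carr T).card * R ≤ R')
    (hr₁ : ∀ x, finrank F N₁ ≤ finrank F (U₁ x) + R)
    (hr₂ : ∀ x, finrank F N₂ ≤ finrank F (U₂ x) + R)
    (hr₃ : ∀ x, finrank F N₃ ≤ finrank F (U₃ x) + R)
    (f : V → ℝ) {e B δ : ℝ} (hδ : 0 < δ) (hB : ∀ x, |f x| ≤ B)
    (he₁ : ∑ x, |f x - favg U₁ f x| ≤ e) (he₂ : ∑ x, |f x - favg U₂ f x| ≤ e)
    (he₃ : ∑ x, |f x - favg U₃ f x| ≤ e) :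
    ∃ U : Submodule F V, (finrank F V : ℝ) ≤ finrank F U + 3 * (R' * (R' / δ)) ∧
      ∑ x, |f x - avg U f x| ≤ 48 * e + 6 * B * (δ * Fintype.card V) := by
  have hN' : (N₁ ⊔ T) ⊓ (N₂ ⊔ T) ⊔ ((N₁ ⊔ T) ⊓ (N₃ ⊔ T) ⊔ (N₂ ⊔ T) ⊓ (N₃ ⊔ T)) = ⊤ := by
    rw [eq_top_iff, ← hN]
    refine sup_le (sup_le ?_ (sup_le ?_ ?_)) ?_
    · exact (inf_le_inf le_sup_left le_sup_left).trans le_sup_left
    · exact (inf_le_inf le_sup_left le_sup_left).trans (le_sup_left.trans le_sup_right)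
    · exact (inf_le_inf le_sup_left le_sup_left).trans (le_sup_right.trans le_sup_right)
    · exact (le_inf le_sup_right le_sup_right).trans le_sup_left
  obtain ⟨U, hU, hUe⟩ := three_pasts hN' (isField_tfield_sup hU₁) (isField_tfield_sup hU₂)
    (isField_tfield_sup hU₃) R' (fun x => (finrank_tfield hU₁ hr₁ x).trans (by omega))
    (fun x => (finrank_tfield hU₂ hr₂ x).trans (by omega))
    (fun x => (finrank_tfield hU₃ hr₃ x).trans (by omega)) f hδ hB (favg_tfield hU₁ f he₁)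
    (favg_tfield hU₂ f he₂) (favg_tfield hU₃ f he₃)
  exact ⟨U, hU, by linarith only [hUe]⟩

variable [Fintype F]

/-- `three_pasts_close` with finitely many common functionals (kernel of codimension `≤ s`). -/
theorem three_pasts_close_common {ψ : AddChar F ℂ} (hψ : ψ ≠ 0) {N₁ N₂ N₃ : Submodule F V}
    (s : ℕ) (hN : finrank F V ≤ finrank F ↥(N₁ ⊓ N₂ ⊔ (N₁ ⊓ N₃ ⊔ N₂ ⊓ N₃)) + s)
    {U₁ U₂ U₃ : V → Submodule F V}
    (hU₁ : IsField N₁ U₁) (hU₂ : IsField N₂ U₂) (hU₃ : IsField N₃ U₃) (R R' : ℕ)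
    (hR' : s + Fintype.card F ^ s * R ≤ R')
    (hr₁ : ∀ x, finrank F N₁ ≤ finrank F (U₁ x) + R)
    (hr₂ : ∀ x, finrank F N₂ ≤ finrank F (U₂ x) + R)
    (hr₃ : ∀ x, finrank F N₃ ≤ finrank F (U₃ x) + R)
    (f : V → ℝ) {e B δ η : ℝ} (hδ : 0 < δ) (hB : ∀ x, |f x| ≤ B)
    (he₁ : ∑ x, |f x - favg U₁ f x| ≤ e) (he₂ : ∑ x, |f x - favg U₂ f x| ≤ e)
    (he₃ : ∑ x, |f x - favg U₃ f x| ≤ e) (Z : Submodule F V) (hη0 : 0 ≤ η)
    (hη : ∀ ξ : Dual F V, (¬ ∀ z ∈ Z, ξ z = 0) → ‖fc ψ f ξ‖ ≤ η) (c : ℕ)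
    (hc : 3 * (R' * (R' / δ)) ≤ c) :
    ∑ x, |f x - avg Z f x| ≤
      2 * (48 * e + 6 * B * (δ * Fintype.card V) + (Fintype.card F : ℝ) ^ c * η) := by
  have hfin : FiniteDimensional F V := Module.Finite.of_finite
  obtain ⟨T, hT⟩ := Submodule.exists_isCompl (N₁ ⊓ N₂ ⊔ (N₁ ⊓ N₃ ⊔ N₂ ⊓ N₃))
  have hT1 := hT.codisjoint.eq_top
  have hT2 : finrank F T ≤ s := by
    have := Submodule.finrank_add_eq_of_isCompl hT
    omega
  have hT3 : finrank F T + (carr T).card * R ≤ R' := by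
    refine le_trans ?_ hR'
    rw [card_carr]
    exact Nat.add_le_add hT2 (Nat.mul_le_mul_right _
      (Nat.pow_le_pow_right Fintype.card_pos hT2))
  obtain ⟨U, hU, hUe⟩ := three_pasts_common hT1 hU₁ hU₂ hU₃ R R' hT3 hr₁ hr₂ hr₃ f hδ hB
    he₁ he₂ he₃
  have h1 : finrank F V ≤ finrank F U + c := by
    have : (finrank F V : ℝ) ≤ ((finrank F U + c : ℕ) : ℝ) := by
      push_cast
      linarith only [hU, hc]
    exact_mod_cast this
  have h2 := avg_close hψ U Z f hη0 (fun ξ _ h => hη ξ h) c h1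
  have h3 := l1_triangle f (avg U f) (avg (U ⊔ Z) f)
  have h4 : ∑ x, |f x - favg (fun _ => U ⊔ Z) f x| ≤
      48 * e + 6 * B * (δ * Fintype.card V) + (Fintype.card F : ℝ) ^ c * η := by
    change ∑ x, |f x - avg (U ⊔ Z) f x| ≤ _
    linarith only [h3, h2, hUe]
  exact l1_refine (N := ⊤) (isField_const le_top) (isField_const le_top)
    (fun _ => le_sup_right) f h4

end Common

end Vale.Agent.P060.HW
end

section

/-!
# P060/HW: the analytic part of the TV theorem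

Three pasts, two nearly independent groups of bounded deficit for each past, small Fourier
coefficients at the functionals which do not kill `Z`: then the law is close to its average over
the cosets of `Z`. Everything relative to a subspace `W` whose coset carries the law.
-/

open scoped Classical
open Finset Module

noncomputable section

set_option linter.unusedSectionVars false

namespace Vale.Agent.P060.HW

section Trunc

variable {F V : Type*} [Field F] [Fintype F] [AddCommGroup V] [Module F V] [Fintype V]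

/-- `three_pasts_close_common` for a function which is bounded up to a small `ℓ¹` error. -/
theorem tva_top {ψ : AddChar F ℂ} (hψ : ψ ≠ 0) {N₁ N₂ N₃ : Submodule F V}
    (s : ℕ) (hN : finrank F V ≤ finrank F ↥(N₁ ⊓ N₂ ⊔ (N₁ ⊓ N₃ ⊔ N₂ ⊓ N₃)) + s)
    {U₁ U₂ U₃ : V → Submodule F V}
    (hU₁ : IsField N₁ U₁) (hU₂ : IsField N₂ U₂) (hU₃ : IsField N₃ U₃) (R R' : ℕ)
    (hR' : s + Fintype.card F ^ s * R ≤ R')
    (hr₁ : ∀ x, finrank F N₁ ≤ finrank F (U₁ x) + R)
    (hr₂ : ∀ x, finrank F N₂ ≤ finrank F (U₂ x) + R)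
    (hr₃ : ∀ x, finrank F N₃ ≤ finrank F (U₃ x) + R)
    (f f₁ : V → ℝ) {e B δ η t : ℝ} (hδ : 0 < δ) (hB : ∀ x, |f₁ x| ≤ B)
    (ht : ∑ x, |f x - f₁ x| ≤ t)
    (he₁ : ∑ x, |f x - favg U₁ f x| ≤ e) (he₂ : ∑ x, |f x - favg U₂ f x| ≤ e)
    (he₃ : ∑ x, |f x - favg U₃ f x| ≤ e) (Z : Submodule F V) (hη0 : 0 ≤ η)
    (hη : ∀ ξ : Dual F V, (¬ ∀ z ∈ Z, ξ z = 0) → ‖fc ψ f ξ‖ ≤ η) (c : ℕ)
    (hc : 3 * (R' * (R' / δ)) ≤ c) :
    ∑ x, |f x - avg Z f x| ≤
      2 * (48 * (e + 2 * t) + 6 * B * (δ * Fintype.card V) + 2 * t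
        + (Fintype.card F : ℝ) ^ c * η) := by
  have hfin : FiniteDimensional F V := Module.Finite.of_finite
  obtain ⟨T, hT⟩ := Submodule.exists_isCompl (N₁ ⊓ N₂ ⊔ (N₁ ⊓ N₃ ⊔ N₂ ⊓ N₃))
  have hT1 := hT.codisjoint.eq_top
  have hT2 : finrank F T ≤ s := by
    have := Submodule.finrank_add_eq_of_isCompl hT
    omega
  have hT3 : finrank F T + (carr T).card * R ≤ R' := by
    refine le_trans ?_ hR'
    rw [card_carr]
    exact Nat.add_le_add hT2 (Nat.mul_le_mul_right _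
      (Nat.pow_le_pow_right Fintype.card_pos hT2))
  -- closeness for the truncated function
  have ht' : ∑ x, |f₁ x - f x| ≤ t := by
    refine le_trans (le_of_eq (Finset.sum_congr rfl fun x _ => abs_sub_comm _ _)) ht
  have key : ∀ {N : Submodule F V} {U : V → Submodule F V}, IsField N U →
      ∑ x, |f x - favg U f x| ≤ e → ∑ x, |f₁ x - favg U f₁ x| ≤ e + 2 * t := by
    intro N U hU he
    have h1 := l1_triangle f₁ f (favg U f₁)
    have h2 := l1_triangle f (favg U f) (favg U f₁)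
    have h3 := l1_favg_sub_le hU f f₁
    linarith only [h3, h2, h1, he, ht', ht]
  obtain ⟨U, hU, hUe⟩ := three_pasts_common hT1 hU₁ hU₂ hU₃ R R' hT3 hr₁ hr₂ hr₃ f₁ hδ hB
    (key hU₁ he₁) (key hU₂ he₂) (key hU₃ he₃)
  have h1 : finrank F V ≤ finrank F U + c := by
    have : (finrank F V : ℝ) ≤ ((finrank F U + c : ℕ) : ℝ) := by
      push_cast
      linarith only [hU, hc]
    exact_mod_cast this
  have h2 := avg_close hψ U Z f hη0 (fun ξ _ h => hη ξ h) c h1
  have h5 : ∑ x, |f x - avg U f x| ≤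
      48 * (e + 2 * t) + 6 * B * (δ * Fintype.card V) + 2 * t := by
    have g1 := l1_triangle f f₁ (avg U f)
    have g2 := l1_triangle f₁ (avg U f₁) (avg U f)
    have g3 : ∑ x, |avg U f₁ x - avg U f x| ≤ ∑ x, |f₁ x - f x| :=
      l1_favg_sub_le (N := ⊤) (U := fun _ => U) (isField_const le_top) f₁ f
    linarith only [g3, g2, g1, hUe, ht', ht]
  have h3 := l1_triangle f (avg U f) (avg (U ⊔ Z) f)
  have h4 : ∑ x, |f x - favg (fun _ => U ⊔ Z) f x| ≤
      48 * (e + 2 * t) + 6 * B * (δ * Fintype.card V) + 2 * t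
        + (Fintype.card F : ℝ) ^ c * η := by
    change ∑ x, |f x - avg (U ⊔ Z) f x| ≤ _
    linarith only [h3, h5, h2]
  exact l1_refine (N := ⊤) (isField_const le_top) (isField_const le_top)
    (fun _ => le_sup_right) f h4

end Trunc

section Rel

variable {F V : Type*} [Field F] [Fintype F] [AddCommGroup V] [Module F V] [Fintype V]

/-- the function on the subspace -/
def shf (W : Submodule F V) (m₀ : V) (f : V → ℝ) (w : W) : ℝ := f (m₀ + w)

lemma sum_shf (W : Submodule F V) (m₀ : V) {β : Type*} [AddCommMonoid β] (G : V → β)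
    (hG : ∀ x, G x ≠ 0 → x - m₀ ∈ W) : ∑ w : W, G (m₀ + w) = ∑ x, G x := by
  have h1 : ∑ w : W, G (m₀ + w) = ∑ v ∈ carr W, G (m₀ + v) := by
    refine Finset.sum_bij (fun (w : W) _ => (w : V)) (fun w _ => mem_carr.2 w.2)
      (fun a _ b _ h => Subtype.ext h) (fun b hb => ⟨⟨b, mem_carr.1 hb⟩, Finset.mem_univ _, rfl⟩)
      (fun w _ => rfl)
  have h2 : ∑ v ∈ carr W, G (m₀ + v) = ∑ v, G (m₀ + v) := by
    refine Finset.sum_subset (Finset.subset_univ _) fun v _ hv => ?_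
    by_contra h
    have := hG _ h
    rw [add_sub_cancel_left] at this
    exact hv (mem_carr.2 this)
  rw [h1, h2]
  exact Fintype.sum_equiv (Equiv.addLeft m₀) _ _ fun x => rfl

lemma avg_shf (W U : Submodule F V) (hU : U ≤ W) (m₀ : V) (f : V → ℝ) (w : W) :
    avg (U.comap W.subtype) (shf W m₀ f) w = avg U f (m₀ + w) := by
  have h1 : ∀ g : V → ℝ, ∑ u ∈ carr (U.comap W.subtype), g (u : V) = ∑ u ∈ carr U, g u := by
    intro g
    refine Finset.sum_bij (fun (u : W) _ => (u : V)) (fun u hu => ?_)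
      (fun a _ b _ h => Subtype.ext h) (fun b hb => ?_) (fun w _ => rfl)
    · have h0 : u ∈ U.comap W.subtype := mem_carr.1 hu
      exact mem_carr.2 (show (u : V) ∈ U from h0)
    · have h0 : b ∈ U := mem_carr.1 hb
      exact ⟨⟨b, hU h0⟩, mem_carr.2 (show (⟨b, hU h0⟩ : W) ∈ U.comap W.subtype from h0), rfl⟩
  have h2 : ((carr (U.comap W.subtype)).card : ℝ) = (carr U).card := by
    have := h1 (fun _ => 1)
    simpa using this
  unfold avg
  rw [h2, ← h1 (fun u => f (m₀ + w + u))]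
  congr 1
  refine Finset.sum_congr rfl fun u _ => ?_
  unfold shf
  rw [Submodule.coe_add, add_assoc]

lemma isField_comap {W N : Submodule F V} {U : V → Submodule F V} (hU : IsField N U) (m₀ : V) :
    IsField (N.comap W.subtype) (fun w : W => (U (m₀ + w)).comap W.subtype) := by
  refine ⟨fun w => Submodule.comap_mono (hU.le _), fun w n hn => ?_⟩
  have h1 : U (m₀ + ((w + n : W) : V)) = U (m₀ + w) := by
    rw [Submodule.coe_add, ← add_assoc]
    exact hU.inv _ _ hn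
  simp only [h1]

lemma finrank_comap {W U : Submodule F V} (hU : U ≤ W) :
    finrank F (U.comap W.subtype) = finrank F U :=
  LinearEquiv.finrank_eq (Submodule.comapSubtypeEquivOfLe hU)

/-- The relative version. -/
theorem tva_rel {ψ : AddChar F ℂ} (hψ : ψ ≠ 0) (W : Submodule F V) (m₀ : V)
    {N₁ N₂ N₃ : Submodule F V} (hW₁ : N₁ ≤ W) (hW₂ : N₂ ≤ W) (hW₃ : N₃ ≤ W)
    (s : ℕ) (hN : finrank F W ≤ finrank F ↥(N₁ ⊓ N₂ ⊔ (N₁ ⊓ N₃ ⊔ N₂ ⊓ N₃)) + s)
    {U₁ U₂ U₃ : V → Submodule F V}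
    (hU₁ : IsField N₁ U₁) (hU₂ : IsField N₂ U₂) (hU₃ : IsField N₃ U₃) (R R' : ℕ)
    (hR' : s + Fintype.card F ^ s * R ≤ R')
    (hr₁ : ∀ x, finrank F N₁ ≤ finrank F (U₁ x) + R)
    (hr₂ : ∀ x, finrank F N₂ ≤ finrank F (U₂ x) + R)
    (hr₃ : ∀ x, finrank F N₃ ≤ finrank F (U₃ x) + R)
    (f f₁ : V → ℝ) (hf : ∀ x, f x ≠ 0 → x - m₀ ∈ W) (hf₁ : ∀ x, f₁ x ≠ 0 → x - m₀ ∈ W)
    {e B δ η t : ℝ} (hδ : 0 < δ) (hB : ∀ x, |f₁ x| ≤ B)
    (ht : ∑ x, |f x - f₁ x| ≤ t)
    (he₁ : ∑ x, |f x - favg U₁ f x| ≤ e) (he₂ : ∑ x, |f x - favg U₂ f x| ≤ e)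
    (he₃ : ∑ x, |f x - favg U₃ f x| ≤ e) (Z : Submodule F V) (hZ : Z ≤ W) (hη0 : 0 ≤ η)
    (hη : ∀ ξ : Dual F V, (¬ ∀ z ∈ Z, ξ z = 0) → ‖fc ψ f ξ‖ ≤ η) (c : ℕ)
    (hc : 3 * (R' * (R' / δ)) ≤ c) :
    ∑ x, |f x - avg Z f x| ≤
      2 * (48 * (e + 2 * t) + 6 * B * (δ * (carr W).card) + 2 * t
        + (Fintype.card F : ℝ) ^ c * η) := by
  have hfin : FiniteDimensional F V := Module.Finite.of_finite
  have hcard : (Fintype.card W : ℝ) = (carr W).card := by
    have := sum_shf W (0 : V) (fun x => if x ∈ W then (1 : ℝ) else 0) (by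
      intro x hx
      rw [sub_zero]
      by_contra h
      exact hx (if_neg h))
    simp only [zero_add, Submodule.coe_mem, if_true, Finset.sum_const, Finset.card_univ,
      nsmul_eq_mul, mul_one] at this
    rw [this, Finset.sum_boole]
    rfl
  have havg0 : ∀ (U : Submodule F V) (g : V → ℝ), U ≤ W → (∀ x, g x ≠ 0 → x - m₀ ∈ W) →
      ∀ x, avg U g x ≠ 0 → x - m₀ ∈ W := by
    intro U g hU hg x hx
    by_contra h
    apply hx
    unfold avg
    rw [Finset.sum_eq_zero, zero_div]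
    intro u hu
    by_contra h0
    apply h
    have h1 := hg _ h0
    have h2 := hU (mem_carr.1 hu)
    have : x - m₀ = (x + u - m₀) - u := by abel
    rw [this]
    exact W.sub_mem h1 h2
  have hfield : ∀ {N : Submodule F V} {U : V → Submodule F V}, N ≤ W → IsField N U →
      ∑ x, |f x - favg U f x| ≤ e →
      ∑ w : W, |shf W m₀ f w - favg (fun w : W => (U (m₀ + w)).comap W.subtype) (shf W m₀ f) w|
        ≤ e := by
    intro N U hNW hU he
    have h1 : ∀ w : W, favg (fun w : W => (U (m₀ + w)).comap W.subtype) (shf W m₀ f) w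
        = favg U f (m₀ + w) := fun w => avg_shf W (U (m₀ + w)) ((hU.le _).trans hNW) m₀ f w
    refine le_trans (le_of_eq ?_) he
    simp only [h1]
    refine sum_shf W m₀ (fun x => |f x - favg U f x|) ?_
    intro x hx
    by_contra h
    apply hx
    have h2 : f x = 0 := by
      by_contra h0; exact h (hf x h0)
    have h3 : favg U f x = 0 := by
      by_contra h0
      exact h (havg0 (U x) f ((hU.le _).trans hNW) hf x h0)
    simp only [h2, h3, sub_zero, abs_zero]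
  have hNs : finrank F W ≤ finrank F ↥(N₁.comap W.subtype ⊓ N₂.comap W.subtype ⊔
      (N₁.comap W.subtype ⊓ N₃.comap W.subtype ⊔ N₂.comap W.subtype ⊓ N₃.comap W.subtype)) + s := by
    refine hN.trans (Nat.add_le_add_right ?_ s)
    have hle : N₁ ⊓ N₂ ⊔ (N₁ ⊓ N₃ ⊔ N₂ ⊓ N₃) ≤ W :=
      sup_le (inf_le_left.trans hW₁) (sup_le (inf_le_left.trans hW₁) (inf_le_left.trans hW₂))
    rw [← finrank_comap hle]
    apply Submodule.finrank_mono
    intro x hx
    have hx' : (x : V) ∈ N₁ ⊓ N₂ ⊔ (N₁ ⊓ N₃ ⊔ N₂ ⊓ N₃) := hx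
    obtain ⟨a, ha, y, hy, hxy⟩ := Submodule.mem_sup.1 hx'
    obtain ⟨b, hb, c, hc, hbc⟩ := Submodule.mem_sup.1 hy
    have haW := hW₁ ha.1
    have hbW := hW₁ hb.1
    have hcW := hW₂ hc.1
    refine Submodule.mem_sup.2 ⟨⟨a, haW⟩, ha, ⟨b + c, W.add_mem hbW hcW⟩, ?_, ?_⟩
    · exact Submodule.mem_sup.2 ⟨⟨b, hbW⟩, hb, ⟨c, hcW⟩, hc, rfl⟩
    · apply Subtype.ext
      show a + (b + c) = x
      rw [hbc, hxy]
  have main := tva_top (V := W) hψ s hNs (isField_comap hU₁ m₀) (isField_comap hU₂ m₀)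
    (isField_comap hU₃ m₀) R R' hR'
    (fun x => by rw [finrank_comap hW₁, finrank_comap ((hU₁.le _).trans hW₁)]; exact hr₁ _)
    (fun x => by rw [finrank_comap hW₂, finrank_comap ((hU₂.le _).trans hW₂)]; exact hr₂ _)
    (fun x => by rw [finrank_comap hW₃, finrank_comap ((hU₃.le _).trans hW₃)]; exact hr₃ _)
    (shf W m₀ f) (shf W m₀ f₁) (t := t) hδ (fun w => hB _) (by
      refine le_trans (le_of_eq ?_) ht
      refine sum_shf W m₀ (fun x => |f x - f₁ x|) ?_
      intro x hx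
      by_contra h
      apply hx
      have h2 : f x = 0 := by
        by_contra h0; exact h (hf x h0)
      have h3 : f₁ x = 0 := by
        by_contra h0; exact h (hf₁ x h0)
      simp only [h2, h3, sub_zero, abs_zero])
    (hfield hW₁ hU₁ he₁) (hfield hW₂ hU₂ he₂) (hfield hW₃ hU₃ he₃) (Z.comap W.subtype) hη0 (by
      intro ξ' hξ'
      obtain ⟨ξ, hξ⟩ := LinearMap.exists_extend ξ'
      have hξ2 : ∀ w : W, ξ (w : V) = ξ' w := fun w => LinearMap.congr_fun hξ w
      have h1 : ¬ ∀ z ∈ Z, ξ z = 0 := by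
        intro h
        apply hξ'
        intro z hz
        rw [← hξ2]
        exact h z hz
      have h2 := hη ξ h1
      have h3 : fc ψ f ξ = ψ (ξ m₀) * fc ψ (shf W m₀ f) ξ' := by
        unfold fc
        rw [← sum_shf W m₀ (fun x => (f x : ℂ) * ψ (ξ x)), Finset.mul_sum]
        · refine Finset.sum_congr rfl fun w _ => ?_
          unfold shf
          rw [map_add, AddChar.map_add_eq_mul, hξ2]
          ring
        · intro x hx
          apply hf
          intro h0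
          apply hx
          rw [h0]; simp
      rw [h3, norm_mul, AddChar.norm_apply, one_mul] at h2
      exact h2) c hc
  rw [hcard] at main
  refine le_trans (le_of_eq ?_) main
  have h1 : ∀ w : W, avg (Z.comap W.subtype) (shf W m₀ f) w = avg Z f (m₀ + w) :=
    fun w => avg_shf W Z hZ m₀ f w
  simp only [h1]
  refine (sum_shf W m₀ (fun x => |f x - avg Z f x|) ?_).symm
  intro x hx
  by_contra h
  apply hx
  have h2 : f x = 0 := by
    by_contra h0; exact h (hf x h0)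
  have h3 : avg Z f x = 0 := by
    by_contra h0
    exact h (havg0 Z f hZ hf x h0)
  simp only [h2, h3, sub_zero, abs_zero]

end Rel

namespace FinProb

variable {Ω : Type*} [Fintype Ω] (P : FinProb Ω)

lemma p_const {τ : Type*} (t : τ) : P.p (fun _ => t) t = 1 := by
  unfold p
  simp only [if_true]
  exact P.sum_one

/-- Unconditional truncation. -/
theorem trunc_mass' {α : Type*} [Fintype α] (f : Ω → α) (S : Finset α) {L K : ℝ}
    (hL : 1 < L) (hS : ∀ ω, 0 < P.w ω → f ω ∈ S) (hne : 0 < S.card)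
    (hK : Real.log S.card - P.H f ≤ K) :
    ∑ y, (if L / S.card < P.p f y then P.p f y else 0) ≤ (K + 1) / Real.log L := by
  have h1 : P.H (fun ω => (f ω, (fun _ : Ω => ()) ω)) = P.H f :=
    P.H_congr_det fun ω ω' => ⟨fun h => by simp [h], fun h => (Prod.ext_iff.1 h).1⟩
  have h2 : P.H (fun _ : Ω => ()) = 0 := by
    unfold H
    refine Finset.sum_eq_zero fun ω _ => ?_
    rw [P.p_const ()]
    simp
  have h3 := P.trunc_mass f (fun _ => ()) (fun _ => S) (M := S.card) (L := L) (K := K)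
    (by exact_mod_cast hne) hL hS (fun _ => le_rfl) (by
      have h4 : P.H (fun ω => (f ω, (fun _ : Ω => ()) ω)) - P.H (fun _ : Ω => ()) = P.H f := by
        rw [h1, h2, sub_zero]
      simp only at h4
      rw [h4]
      exact hK)
  refine le_trans (le_of_eq ?_) h3
  have h5 : ∀ y, P.cond f (fun _ => ()) () y = P.p f y := by
    intro y
    unfold cond
    rw [P.p_const (), div_one]
    unfold p
    refine Finset.sum_congr rfl fun ω _ => ?_
    simp
  simp only [h5]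
  rw [← Finset.sum_mul, P.sum_one, one_mul]

end FinProb

section Assembly

universe u v w x

variable (F : Type u) [Field F] [Fintype F]

/-- **Analytic TV theorem.** -/
theorem tv_assembly (ψ : AddChar F ℂ) (hψ : ψ ≠ 0) {ε K : ℝ} (hε : 0 < ε) (hK : 0 ≤ K) (s : ℕ) :
    ∃ d₀ : ℝ, 0 < d₀ ∧ ∃ η₀ : ℝ, 0 < η₀ ∧
    ∀ (V : Type v) [AddCommGroup V] [Module F V] [Fintype V] (Ω : Type w) [Fintype Ω]
      (P : FinProb Ω) (M : Ω → V) (W : Submodule F V) (m₀ : V)
      (_ : ∀ ω, 0 < P.w ω → M ω - m₀ ∈ W) (_ : Real.log (carr W).card - P.H M ≤ K)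
      (τ : Fin 3 → Type x) [∀ l, Fintype (τ l)] (T : ∀ l, Ω → τ l) (X₁ X₂ : Fin 3 → Ω → V)
      (c : ∀ l, τ l → V) (_ : ∀ l ω, M ω = X₁ l ω + X₂ l ω + c l (T l ω))
      (N : Fin 3 → Submodule F V) (_ : ∀ l, N l ≤ W)
      (_ : ∀ l ω ω', T l ω = T l ω' → X₁ l ω - X₁ l ω' ∈ N l)
      (_ : ∀ l ω ω', T l ω = T l ω' → X₂ l ω - X₂ l ω' ∈ N l)
      (_ : ∀ l, Real.log (carr (N l)).card - (P.H (fun ω => (X₁ l ω, T l ω)) - P.H (T l)) ≤ K)
      (_ : ∀ l, Real.log (carr (N l)).card - (P.H (fun ω => (X₂ l ω, T l ω)) - P.H (T l)) ≤ K)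
      (_ : ∀ l, P.H (fun ω => (X₁ l ω, T l ω)) + P.H (fun ω => (X₂ l ω, T l ω))
        - P.H (fun ω => (X₁ l ω, X₂ l ω, T l ω)) - P.H (T l) ≤ d₀)
      (_ : finrank F W ≤ finrank F ↥(N 0 ⊓ N 1 ⊔ (N 0 ⊓ N 2 ⊔ N 1 ⊓ N 2)) + s)
      (Z : Submodule F V) (_ : Z ≤ W)
      (_ : ∀ ξ : Dual F V, (¬ ∀ z ∈ Z, ξ z = 0) →
        ‖∑ ω, (P.w ω : ℂ) * ψ (ξ (M ω))‖ ≤ η₀),
      ∑ x, |P.p M x - avg Z (P.p M) x| ≤ ε := by
  set e₀ : ℝ := ε / 1000 with he₀
  have he₀' : 0 < e₀ := by positivity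
  set L : ℝ := Real.exp ((K + 1) / e₀) with hL
  have hL1 : 1 < L := by
    rw [hL]
    exact Real.one_lt_exp_iff.2 (by positivity)
  have hlog : Real.log L = (K + 1) / e₀ := Real.log_exp _
  have hKL : (K + 1) / Real.log L = e₀ := by
    rw [hlog]
    field_simp
  have hL0 : 0 < L := by linarith
  set p : ℝ := e₀ ^ 2 / L with hp
  have hp0 : 0 < p := by positivity
  have hpL : Real.sqrt (p * L) = e₀ := by
    rw [hp, div_mul_cancel₀ _ hL0.ne']
    exact Real.sqrt_sq he₀'.le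
  set R : ℕ := ⌊L / p⌋₊ with hR
  set R' : ℕ := s + Fintype.card F ^ s * R with hR'
  set δ : ℝ := e₀ / L with hδ
  have hδ0 : 0 < δ := by positivity
  set c : ℕ := ⌈3 * ((R' : ℝ) * (R' / δ))⌉₊ with hc
  have hFc : 0 < (Fintype.card F : ℝ) ^ c := by
    have : 0 < Fintype.card F := Fintype.card_pos
    positivity
  refine ⟨e₀ ^ 2 / 2, by positivity, e₀ / (Fintype.card F : ℝ) ^ c, by positivity, ?_⟩
  intro V _ _ _ Ω _ P M W m₀ hM hKM τ _ T X₁ X₂ cc hsum N hNW h₁ h₂ hK₁ hK₂ hI hs Z hZ hco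
  have hfield : ∀ l, ∃ U : V → Submodule F V, IsField (N l) U ∧
      (∀ x, finrank F (N l) ≤ finrank F (U x) + R) ∧
      ∑ x, |P.p M x - favg U (P.p M) x| ≤ 8 * e₀ := by
    intro l
    obtain ⟨U, a, b, c⟩ := P.near_field2 ψ hψ (N l) (T l) (X₁ l) (X₂ l) (cc l) (h₁ l) (h₂ l)
      hL1 hp0 (hK₁ l) (hK₂ l) (hI l)
    have h3 : (fun ω => X₁ l ω + X₂ l ω + cc l (T l ω)) = M := funext fun ω => (hsum l ω).symm
    rw [h3] at c
    refine ⟨U, a, b, c.trans (le_of_eq ?_)⟩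
    rw [hKL, hpL]
    have : (2 : ℝ) * (e₀ ^ 2 / 2) = e₀ ^ 2 := by ring
    rw [this, Real.sqrt_sq he₀'.le]
    ring
  obtain ⟨U₀, a₀, b₀, c₀⟩ := hfield 0
  obtain ⟨U₁, a₁, b₁, c₁⟩ := hfield 1
  obtain ⟨U₂, a₂, b₂, c₂⟩ := hfield 2
  have hW := carr_card_pos W
  have hsupp : ∀ x, P.p M x ≠ 0 → x - m₀ ∈ W := by
    intro x hx
    obtain ⟨ω, rfl, h0⟩ := P.exists_of_p_ne_zero hx
    exact hM ω h0
  set f₁ : V → ℝ := fun x => if L / (carr W).card < P.p M x then 0 else P.p M x with hf₁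
  have ht : ∑ x, |P.p M x - f₁ x| ≤ e₀ := by
    have h3 := P.trunc_mass' M ((carr W).image fun v => v + m₀) (L := L) (K := K) hL1
      (fun ω h => Finset.mem_image.2 ⟨M ω - m₀, mem_carr.2 (hM ω h), by abel⟩)
      (Finset.card_pos.2 ((carr_nonempty W).image _)) (by
        rw [Finset.card_image_of_injective _ (add_left_injective m₀)]
        exact hKM)
    rw [Finset.card_image_of_injective _ (add_left_injective m₀), hKL] at h3
    refine le_trans (le_of_eq (Finset.sum_congr rfl fun x _ => ?_)) h3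
    rw [hf₁]
    simp only
    split_ifs
    · rw [sub_zero, abs_of_nonneg (P.p_nonneg _ _)]
    · rw [sub_self, abs_zero]
  have hB : ∀ x, |f₁ x| ≤ L / (carr W).card := by
    intro x
    rw [hf₁]
    simp only
    split_ifs with h
    · rw [abs_zero]; (clear * - hW; positivity)
    · rw [abs_of_nonneg (P.p_nonneg _ _)]; exact not_lt.1 h
  have main := tva_rel hψ W m₀ (hNW 0) (hNW 1) (hNW 2) s hs a₀ a₁ a₂ R R' le_rfl b₀ b₁ b₂
    (P.p M) f₁ hsupp (fun x hx => hsupp x (fun h0 => hx (by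
      rw [hf₁]; simp only; rw [h0]; simp))) hδ0 hB ht c₀ c₁ c₂ Z hZ
    (η := e₀ / (Fintype.card F : ℝ) ^ c) (by positivity) (by
      intro ξ hξ
      refine le_trans (le_of_eq ?_) (hco ξ hξ)
      congr 1
      unfold fc
      have h5 : ∀ x, (P.p M x : ℂ) * ψ (ξ x)
          = ∑ ω, (if M ω = x then (P.w ω : ℂ) * ψ (ξ (M ω)) else 0) := by
        intro x
        unfold FinProb.p
        push_cast
        rw [Finset.sum_mul]
        refine Finset.sum_congr rfl fun ω _ => ?_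
        split_ifs with h
        · rw [h]
        · simp
      rw [Finset.sum_congr rfl fun x _ => h5 x, Finset.sum_comm]
      refine Finset.sum_congr rfl fun ω _ => ?_
      rw [Finset.sum_ite_eq]
      simp) c (Nat.le_ceil _)
  refine main.trans ?_
  have e1 : 6 * (L / (carr W).card) * (δ * (carr W).card) = 6 * e₀ := by
    rw [hδ]
    field_simp
  have e2 : (Fintype.card F : ℝ) ^ c * (e₀ / (Fintype.card F : ℝ) ^ c) = e₀ := by
    field_simp
  rw [e1, e2]
  linarith only [he₀', he₀]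

end Assembly

end Vale.Agent.P060.HW
end
end

section

/-!
# P060/HW: the bridge from the lattice of functionals to the analytic TV theorem
-/

open scoped Classical
open Finset Module

noncomputable section

set_option linter.unusedSectionVars false

namespace Vale.Agent.P060.HW

namespace Lat

variable {Ω : Type*} [Fintype Ω] {K : Type*} [Field K] [Finite K] {V : Type*} [AddCommGroup V]
  [Module K V] [FiniteDimensional K V] (P : FinProb Ω) (X : Ω → Dual K V)

omit [Finite K] in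
/-- Data processing and conditioning on functions of one side. -/
theorem info_bridge {R₁ R₂ G₁ G₂ P₁ P₂ S : Submodule K V} (hG₁ : G₁ ≤ R₁) (hG₂ : G₂ ≤ R₂)
    (hS : S = R₁ ⊓ R₂ ⊔ (G₁ ⊔ G₂)) (hP₁ : P₁ ≤ R₁ ⊔ S) (hP₂ : P₂ ≤ R₂ ⊔ S)
    :
    ent P X P₁ + ent P X P₂ - ent P X (P₁ ⊔ P₂) - ent P X S ≤
      ent P X R₁ + ent P X R₂ - ent P X (R₁ ⊔ R₂) - ent P X (R₁ ⊓ R₂) := by
  have hSle : S ≤ R₁ ⊔ R₂ := by
    rw [hS]
    exact sup_le (inf_le_left.trans le_sup_left)
      (sup_le (hG₁.trans le_sup_left) (hG₂.trans le_sup_right))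
  -- data processing, first variable
  have h1 := ent_submodular P X (R₁ ⊔ S) (P₁ ⊔ P₂)
  have h1a : ent P X P₁ ≤ ent P X ((R₁ ⊔ S) ⊓ (P₁ ⊔ P₂)) :=
    ent_mono P X (le_inf hP₁ le_sup_left)
  have h1b : R₁ ⊔ S ⊔ (P₁ ⊔ P₂) = R₁ ⊔ S ⊔ P₂ := by
    rw [← sup_assoc, sup_eq_left.2 hP₁]
  rw [h1b] at h1
  -- second variable
  have h2 := ent_submodular P X (R₂ ⊔ S) (R₁ ⊔ S ⊔ P₂)
  have h2a : ent P X P₂ ≤ ent P X ((R₂ ⊔ S) ⊓ (R₁ ⊔ S ⊔ P₂)) :=
    ent_mono P X (le_inf hP₂ le_sup_right)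
  have h2b : R₂ ⊔ S ⊔ (R₁ ⊔ S ⊔ P₂) = R₁ ⊔ R₂ := by
    apply le_antisymm
    · refine sup_le (sup_le le_sup_right hSle) (sup_le (sup_le le_sup_left hSle) ?_)
      exact hP₂.trans (sup_le le_sup_right hSle)
    · exact sup_le (le_sup_left.trans (le_sup_left.trans le_sup_right))
        (le_sup_left.trans le_sup_left)
  rw [h2b] at h2
  -- conditioning on `G₂`, a function of the second variable
  have h3 := ent_submodular P X R₁ S
  have h3a : ent P X (R₁ ⊓ R₂ ⊔ G₁) ≤ ent P X (R₁ ⊓ S) := by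
    refine ent_mono P X (le_inf (sup_le inf_le_left hG₁) ?_)
    rw [hS]
    exact sup_le le_sup_left (le_sup_left.trans le_sup_right)
  have h4 := ent_submodular P X R₂ (R₁ ⊓ R₂ ⊔ G₁)
  have h4a : ent P X (R₁ ⊓ R₂) ≤ ent P X (R₂ ⊓ (R₁ ⊓ R₂ ⊔ G₁)) :=
    ent_mono P X (le_inf inf_le_right le_sup_left)
  have h4b : R₂ ⊔ (R₁ ⊓ R₂ ⊔ G₁) = R₂ ⊔ S := by
    rw [hS]
    apply le_antisymm
    · exact sup_le le_sup_left (sup_le (le_sup_left.trans le_sup_right)
        ((le_sup_left.trans le_sup_right).trans le_sup_right))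
    · exact sup_le le_sup_left (sup_le (le_sup_left.trans le_sup_right)
        (sup_le (le_sup_right.trans le_sup_right) (hG₂.trans le_sup_left)))
  rw [h4b] at h4
  linarith

/-- The same in terms of the deficit. -/
theorem info_bridge_D {R₁ R₂ G₁ G₂ P₁ P₂ S : Submodule K V} (hG₁ : G₁ ≤ R₁) (hG₂ : G₂ ≤ R₂)
    (hS : S = R₁ ⊓ R₂ ⊔ (G₁ ⊔ G₂)) (hP₁ : P₁ ≤ R₁ ⊔ S) (hP₂ : P₂ ≤ R₂ ⊔ S)
    :
    ent P X P₁ + ent P X P₂ - ent P X (P₁ ⊔ P₂) - ent P X S ≤
      D P X (R₁ ⊔ R₂) + D P X (R₁ ⊓ R₂) - D P X R₁ - D P X R₂ := by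
  refine (info_bridge P X hG₁ hG₂ hS hP₁ hP₂).trans (le_of_eq ?_)
  have h2 : (finrank K (R₁ ⊔ R₂ : Submodule K V) : ℝ) + finrank K (R₁ ⊓ R₂ : Submodule K V) =
      finrank K R₁ + finrank K R₂ := by
    exact_mod_cast Submodule.finrank_sup_add_finrank_inf_eq R₁ R₂
  have h3 := congrArg (· * Real.log (Nat.card K)) h2
  simp only [add_mul] at h3
  unfold D
  linarith

omit [Fintype Ω] in
/-- Dimension of the range modulo `S`. -/
theorem finrank_range_sup {T : Type*} [AddCommGroup T] [Module K T] [FiniteDimensional K T]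
    (e : T →ₗ[K] V) (S : Submodule K V) :
    finrank K (LinearMap.range e ⊔ S : Submodule K V) + finrank K (S.comap e)
      = finrank K S + finrank K T := by
  have h1 := LinearMap.finrank_range_add_finrank_ker (S.mkQ.comp e)
  have h2 : LinearMap.ker (S.mkQ.comp e) = S.comap e := by
    rw [LinearMap.ker_comp, Submodule.ker_mkQ]
  have h3 : LinearMap.range (S.mkQ.comp e) = (LinearMap.range e).map S.mkQ :=
    LinearMap.range_comp _ _
  rw [h2, h3] at h1
  have h4 : (LinearMap.range e ⊔ S).map S.mkQ = (LinearMap.range e).map S.mkQ := by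
    rw [Submodule.map_sup, Submodule.mkQ_map_self, sup_bot_eq]
  have h5 := LinearMap.finrank_range_add_finrank_ker (S.mkQ.domRestrict (LinearMap.range e ⊔ S))
  have h6 : LinearMap.range (S.mkQ.domRestrict (LinearMap.range e ⊔ S))
      = (LinearMap.range e ⊔ S).map S.mkQ := by
    rw [LinearMap.domRestrict, LinearMap.range_comp, Submodule.range_subtype]
  have h7 : finrank K (LinearMap.ker (S.mkQ.domRestrict (LinearMap.range e ⊔ S)))
      = finrank K S := by
    have : LinearMap.ker (S.mkQ.domRestrict (LinearMap.range e ⊔ S))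
        = S.comap (LinearMap.range e ⊔ S).subtype := by
      rw [LinearMap.domRestrict, LinearMap.ker_comp, Submodule.ker_mkQ]
    rw [this]
    exact LinearEquiv.finrank_eq (Submodule.comapSubtypeEquivOfLe le_sup_right)
  rw [h6, h7, h4] at h5
  omega

end Lat

section Bridge

universe u v w x

variable (F : Type u) [Field F] [Fintype F]

/-- **Bridge.** The law of the observed value `M`, whose functionals are `X ∘ τ`, is close to its
average over `Z` if for three pasts `A l` the functionals split into two groups `e₁ l, e₂ l` of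
bounded deficit and small mutual information given the past, and if all functionals which do not
kill `Z` have small Fourier coefficients. `Kn l` contains the functionals one of whose group parts is
known from the past and the other group. -/
theorem tv_bridge (ψ : AddChar F ℂ) (hψ : ψ ≠ 0) {ε κ : ℝ} (hε : 0 < ε) (hκ : 0 ≤ κ) (s : ℕ) :
    ∃ d₀ : ℝ, 0 < d₀ ∧ ∃ η₀ : ℝ, 0 < η₀ ∧
    ∀ (V : Type v) [AddCommGroup V] [Module F V] [Fintype V] (Ω : Type w) [Fintype Ω]
      (P : FinProb Ω) (L : Type x) [AddCommGroup L] [Module F L] [FiniteDimensional F L]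
      (X : Ω → Dual F L) (M : Ω → V) (τ : Dual F V →ₗ[F] L)
      (_ : ∀ ω (ξ : Dual F V), ξ (M ω) = X ω (τ ξ)) (L₀ : Submodule F L)
      (_ : ∀ ω ω', 0 < P.w ω → 0 < P.w ω' → ∀ t ∈ L₀, X ω t = X ω' t)
      (_ : Lat.D P X (LinearMap.range τ ⊔ L₀) - Lat.D P X L₀ ≤ κ)
      (A E₁ E₂ : Fin 3 → Submodule F L) (_ : ∀ l, L₀ ≤ A l)
      (e₁ e₂ : Fin 3 → Dual F V →ₗ[F] L) (_ : ∀ l ξ, e₁ l ξ ∈ A l ⊔ E₁ l)
      (_ : ∀ l ξ, e₂ l ξ ∈ A l ⊔ E₂ l) (_ : ∀ l ξ, τ ξ - e₁ l ξ - e₂ l ξ ∈ A l)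
      (Kn : Fin 3 → Submodule F (Dual F V)) (_ : ∀ l ξ, e₁ l ξ ∈ A l ⊔ E₂ l → ξ ∈ Kn l)
      (_ : ∀ l ξ, e₂ l ξ ∈ A l ⊔ E₁ l → ξ ∈ Kn l)
      (_ : ∀ l, Lat.D P X (A l ⊔ E₁ l ⊔ (A l ⊔ E₂ l)) - Lat.D P X (A l) ≤ κ)
      (_ : ∀ l, Lat.D P X (A l ⊔ E₁ l ⊔ (A l ⊔ E₂ l))
        + Lat.D P X ((A l ⊔ E₁ l) ⊓ (A l ⊔ E₂ l))
        - Lat.D P X (A l ⊔ E₁ l) - Lat.D P X (A l ⊔ E₂ l) ≤ d₀)
      (_ : finrank F ↥((Kn 0 ⊔ Kn 1) ⊓ ((Kn 0 ⊔ Kn 2) ⊓ (Kn 1 ⊔ Kn 2)))
        ≤ finrank F (L₀.comap τ) + s)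
      (Z : Submodule F V) (_ : ∀ ξ, τ ξ ∈ L₀ → ∀ z ∈ Z, ξ z = 0)
      (_ : ∀ ξ : Dual F V, (¬ ∀ z ∈ Z, ξ z = 0) →
        ‖∑ ω, (P.w ω : ℂ) * ψ (ξ (M ω))‖ ≤ η₀),
      ∑ x, |P.p M x - avg Z (P.p M) x| ≤ ε := by
  obtain ⟨d₀, hd₀, η₀, hη₀, main⟩ := tv_assembly.{u, v, w, max u x} F ψ hψ hε hκ s
  refine ⟨d₀, hd₀, η₀, hη₀, ?_⟩
  intro V _ _ _ Ω _ P L _ _ _ X M τ hM L₀ hc hdef A E₁ E₂ hA e₁ e₂ he₁ he₂ he Kn hK₁ hK₂ hD hI hs
    Z hZ hco
  have hfV : FiniteDimensional F V := Module.Finite.of_finite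
  -- elements with prescribed functionals
  set dd : Dual F (Dual F V) → V := fun φ => (evalEquiv F V).symm φ with hdd
  have dd_spec : ∀ (φ : Dual F (Dual F V)) (ξ : Dual F V), ξ (dd φ) = φ ξ :=
    fun φ ξ => apply_evalEquiv_symm_apply F V ξ φ
  have hsep : ∀ a b : V, (∀ ξ : Dual F V, ξ a = ξ b) → a = b := by
    intro a b h
    apply (evalEquiv F V).injective
    ext ξ
    exact h ξ
  -- the support
  obtain ⟨ω₀, hω₀⟩ : ∃ ω₀, 0 < P.w ω₀ := by
    by_contra h
    push Not at h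
    have h1 : ∑ ω, P.w ω ≤ 0 := Finset.sum_nonpos fun ω _ => h ω
    rw [P.sum_one] at h1
    linarith
  set W : Submodule F V := (L₀.comap τ).dualCoannihilator with hW
  have hlogc : ∀ U : Submodule F V, Real.log ((carr U).card : ℝ)
      = finrank F U * Real.log (Nat.card F) := by
    intro U
    rw [card_carr, Nat.card_eq_fintype_card]
    push_cast
    rw [Real.log_pow]
  have hnc : ∀ Φ : Submodule F (Dual F V), finrank F Φ + finrank F Φ.dualCoannihilator
      = finrank F V := fun Φ => Subspace.finrank_add_finrank_dualCoannihilator_eq Φ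
  have hdualV : finrank F (Dual F V) = finrank F V := Subspace.dual_finrank_eq
  -- the known spaces
  set R₁ : Fin 3 → Submodule F L := fun l => A l ⊔ E₁ l with hR₁
  set R₂ : Fin 3 → Submodule F L := fun l => A l ⊔ E₂ l with hR₂
  set S : Fin 3 → Submodule F L := fun l =>
    R₁ l ⊓ R₂ l ⊔ ((Kn l).map (e₁ l) ⊔ (Kn l).map (e₂ l)) with hSdef
  have hAS : ∀ l, A l ≤ S l := fun l =>
    (le_inf le_sup_left le_sup_left).trans le_sup_left
  have he₁' : ∀ l, LinearMap.range (e₁ l) ≤ R₁ l := by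
    rintro l _ ⟨ξ, rfl⟩
    exact he₁ l ξ
  have he₂' : ∀ l, LinearMap.range (e₂ l) ≤ R₂ l := by
    rintro l _ ⟨ξ, rfl⟩
    exact he₂ l ξ
  have hG₁ : ∀ l, (Kn l).map (e₁ l) ≤ R₁ l := fun l =>
    (LinearMap.map_le_range).trans (he₁' l)
  have hG₂ : ∀ l, (Kn l).map (e₂ l) ≤ R₂ l := fun l =>
    (LinearMap.map_le_range).trans (he₂' l)
  have hSR : ∀ l, S l ≤ R₁ l ⊔ R₂ l := fun l =>
    sup_le (inf_le_left.trans le_sup_left)
      (sup_le ((hG₁ l).trans le_sup_left) ((hG₂ l).trans le_sup_right))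
  -- the functionals known after conditioning
  have hcomap₁ : ∀ l, (S l).comap (e₁ l) = Kn l := by
    intro l
    apply le_antisymm
    · intro ξ hξ
      have hξ' : e₁ l ξ ∈ S l := hξ
      obtain ⟨t, ht, y, hy, hty⟩ := Submodule.mem_sup.1 hξ'
      obtain ⟨_, ⟨k₁, hk₁, rfl⟩, _, ⟨k₂, hk₂, rfl⟩, rfl⟩ := Submodule.mem_sup.1 hy
      have h1 : e₁ l (ξ - k₁) = t + e₂ l k₂ := by
        rw [map_sub, ← hty]
        abel
      have h2 : ξ - k₁ ∈ Kn l := by
        apply hK₁ l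
        rw [h1]
        exact Submodule.add_mem _ ht.2 (he₂ l k₂)
      have h3 := (Kn l).add_mem h2 hk₁
      rwa [sub_add_cancel] at h3
    · intro ξ hξ
      exact Submodule.mem_sup_right (Submodule.mem_sup_left ⟨ξ, hξ, rfl⟩)
  have hcomap₂ : ∀ l, (S l).comap (e₂ l) = Kn l := by
    intro l
    apply le_antisymm
    · intro ξ hξ
      have hξ' : e₂ l ξ ∈ S l := hξ
      obtain ⟨t, ht, y, hy, hty⟩ := Submodule.mem_sup.1 hξ'
      obtain ⟨_, ⟨k₁, hk₁, rfl⟩, _, ⟨k₂, hk₂, rfl⟩, rfl⟩ := Submodule.mem_sup.1 hy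
      have h1 : e₂ l (ξ - k₂) = t + e₁ l k₁ := by
        rw [map_sub, ← hty]
        abel
      have h2 : ξ - k₂ ∈ Kn l := by
        apply hK₂ l
        rw [h1]
        exact Submodule.add_mem _ ht.1 (he₁ l k₁)
      have h3 := (Kn l).add_mem h2 hk₂
      rwa [sub_add_cancel] at h3
    · intro ξ hξ
      exact Submodule.mem_sup_right (Submodule.mem_sup_right ⟨ξ, hξ, rfl⟩)
  -- variables
  set T : ∀ l, Ω → Dual F (S l) := fun l ω => Lat.ev X (S l) ω with hT
  set X₁ : Fin 3 → Ω → V := fun l ω => dd ((X ω).comp (e₁ l)) with hX₁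
  set X₂ : Fin 3 → Ω → V := fun l ω => dd ((X ω).comp (e₂ l)) with hX₂
  have hX₁s : ∀ l ω (ξ : Dual F V), ξ (X₁ l ω) = X ω (e₁ l ξ) := fun l ω ξ => dd_spec _ _
  have hX₂s : ∀ l ω (ξ : Dual F V), ξ (X₂ l ω) = X ω (e₂ l ξ) := fun l ω ξ => dd_spec _ _
  let rest : ∀ l, Dual F V →ₗ[F] (S l) := fun l =>
    LinearMap.codRestrict (S l) (τ - e₁ l - e₂ l) (fun ξ => hAS l (he l ξ))
  have hrest : ∀ l (ξ : Dual F V), ((rest l ξ : S l) : L) = τ ξ - e₁ l ξ - e₂ l ξ :=
    fun l ξ => rfl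
  let c : ∀ l, Dual F (S l) → V := fun l φ => dd (φ.comp (rest l))
  have hfinD : ∀ l, Fintype (Dual F (S l)) := fun l =>
    @Fintype.ofFinite _ (Module.finite_of_finite F)
  -- entropies of the variables
  have hH : ∀ l, P.H (T l) = Lat.ent P X (S l) := fun l => rfl
  have hHX : ∀ (G : Submodule F L) (e : Dual F V →ₗ[F] L) (Y : Ω → V),
      (∀ ω (ξ : Dual F V), ξ (Y ω) = X ω (e ξ)) →
      P.H (fun ω => (Y ω, Lat.ev X G ω)) = Lat.ent P X (LinearMap.range e ⊔ G) := by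
    intro G e Y hY
    refine P.H_congr_det fun ω ω' => ?_
    rw [Lat.ev_eq_iff, Lat.agree_sup_iff, Prod.mk.injEq, Lat.ev_eq_iff]
    refine and_congr ?_ Iff.rfl
    constructor
    · intro h
      apply hsep
      intro ξ
      rw [hY, hY]
      exact h _ ⟨ξ, rfl⟩
    · rintro h _ ⟨ξ, rfl⟩
      rw [← hY, ← hY, h]
  have hHXX : ∀ l, P.H (fun ω => (X₁ l ω, X₂ l ω, T l ω))
      = Lat.ent P X (LinearMap.range (e₁ l) ⊔ S l ⊔ (LinearMap.range (e₂ l) ⊔ S l)) := by
    intro l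
    refine P.H_congr_det fun ω ω' => ?_
    rw [Lat.ev_eq_iff, Lat.agree_sup_iff (G := LinearMap.range (e₁ l) ⊔ S l)
      (G' := LinearMap.range (e₂ l) ⊔ S l), Lat.agree_sup_iff (G := LinearMap.range (e₁ l))
      (G' := S l), Lat.agree_sup_iff (G := LinearMap.range (e₂ l)) (G' := S l), Prod.mk.injEq,
      Prod.mk.injEq, hT]
    simp only
    rw [Lat.ev_eq_iff]
    constructor
    · rintro ⟨⟨h1, h2⟩, h3, -⟩
      refine ⟨hsep _ _ fun ξ => ?_, hsep _ _ fun ξ => ?_, h2⟩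
      · rw [hX₁s, hX₁s]; exact h1 _ ⟨ξ, rfl⟩
      · rw [hX₂s, hX₂s]; exact h3 _ ⟨ξ, rfl⟩
    · rintro ⟨h1, h2, h3⟩
      refine ⟨⟨?_, h3⟩, ?_, h3⟩
      · rintro _ ⟨ξ, rfl⟩
        rw [← hX₁s, ← hX₁s, h1]
      · rintro _ ⟨ξ, rfl⟩
        rw [← hX₂s, ← hX₂s, h2]
  have hKnle : ∀ l, L₀.comap τ ≤ Kn l := by
    intro l ξ hξ
    have hξ' : τ ξ ∈ L₀ := hξ
    apply hK₁ l
    have h1 : e₁ l ξ = τ ξ - (τ ξ - e₁ l ξ - e₂ l ξ) - e₂ l ξ := by abel
    rw [h1]
    exact Submodule.sub_mem _ (Submodule.sub_mem _ (Submodule.mem_sup_left (hA l hξ'))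
      (Submodule.mem_sup_left (he l ξ))) (he₂ l ξ)
  have hdefic : ∀ l (e : Dual F V →ₗ[F] L) (Y : Ω → V), (∀ ω (ξ : Dual F V), ξ (Y ω) = X ω (e ξ)) →
      (S l).comap e = Kn l → LinearMap.range e ⊔ S l ≤ R₁ l ⊔ R₂ l →
      Real.log (carr (Kn l).dualCoannihilator).card
        - (P.H (fun ω => (Y ω, T l ω)) - P.H (T l)) ≤ κ := by
    intro l e Y hY hce hle
    have h1 : P.H (fun ω => (Y ω, T l ω)) = Lat.ent P X (LinearMap.range e ⊔ S l) :=
      hHX (S l) e Y hY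
    rw [h1, hH, hlogc]
    have h2 := Lat.finrank_range_sup e (S l)
    rw [hce, hdualV] at h2
    have h3 := hnc (Kn l)
    have h4 : finrank F (LinearMap.range e ⊔ S l : Submodule F L)
        = finrank F (S l) + finrank F (Kn l).dualCoannihilator := by omega
    have h5 : (finrank F (LinearMap.range e ⊔ S l : Submodule F L) : ℝ)
        = finrank F (S l) + finrank F (Kn l).dualCoannihilator := by exact_mod_cast h4
    have h6 := Lat.D_mono P X hle
    have h7 := Lat.D_mono P X (hAS l)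
    have h8 := hD l
    have h9 : Lat.D P X (LinearMap.range e ⊔ S l) - Lat.D P X (S l) ≤ κ := by
      have : Lat.D P X (A l ⊔ E₁ l ⊔ (A l ⊔ E₂ l)) = Lat.D P X (R₁ l ⊔ R₂ l) := rfl
      linarith only [h8, h7, h6]
    unfold Lat.D at h9
    rw [h5] at h9
    linarith only [h9]
  refine main V Ω P M W (M ω₀) ?_ ?_ (fun l => Dual F (S l)) T X₁ X₂ c ?_
    (fun l => (Kn l).dualCoannihilator) ?_ ?_ ?_ ?_ ?_ ?_ ?_ Z ?_ hco
  · intro ω hω
    rw [hW, Submodule.mem_dualCoannihilator]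
    intro ξ hξ
    rw [map_sub, hM, hM, hc ω ω₀ hω hω₀ _ hξ, sub_self]
  · -- unconditional deficit
    have h1 := Lat.finrank_range_sup τ L₀
    rw [hdualV] at h1
    have h2 := hnc (L₀.comap τ)
    have h3 : finrank F (LinearMap.range τ ⊔ L₀ : Submodule F L)
        = finrank F L₀ + finrank F W := by rw [hW]; omega
    have h4 : (finrank F (LinearMap.range τ ⊔ L₀ : Submodule F L) : ℝ)
        = finrank F L₀ + finrank F W := by exact_mod_cast h3
    have h5 : P.H M = Lat.ent P X (LinearMap.range τ) := by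
      refine P.H_congr_det fun ω ω' => ?_
      rw [Lat.ev_eq_iff]
      constructor
      · intro h
        apply hsep
        intro ξ
        rw [hM, hM]
        exact h _ ⟨ξ, rfl⟩
      · rintro h _ ⟨ξ, rfl⟩
        rw [← hM, ← hM, h]
    have h6 := Lat.ent_submodular P X (LinearMap.range τ) L₀
    have h7 := Lat.ent_nonneg P X (LinearMap.range τ ⊓ L₀)
    rw [hlogc, h5]
    unfold Lat.D at hdef
    rw [h4] at hdef
    linarith only [h7, h6, hdef]
  · intro l ω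
    apply hsep
    intro ξ
    rw [map_add, map_add, hX₁s, hX₂s]
    have h1 : ξ (c l (T l ω)) = X ω (τ ξ - e₁ l ξ - e₂ l ξ) := by
      have h2 : ξ (c l (T l ω)) = (T l ω) (rest l ξ) := dd_spec _ _
      rw [h2, ← hrest]
      rfl
    rw [h1, hM, map_sub, map_sub]
    ring
  · intro l
    rw [hW]
    intro v hv
    rw [Submodule.mem_dualCoannihilator] at hv ⊢
    exact fun ξ hξ => hv ξ (hKnle l hξ)
  · intro l ω ω' h
    rw [Submodule.mem_dualCoannihilator]
    intro ξ hξ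
    rw [map_sub, hX₁s, hX₁s, sub_eq_zero]
    have h1 := (Lat.ev_eq_iff (X := X) (G := S l)).1 h
    apply h1
    exact Submodule.mem_sup_right (Submodule.mem_sup_left ⟨ξ, hξ, rfl⟩)
  · intro l ω ω' h
    rw [Submodule.mem_dualCoannihilator]
    intro ξ hξ
    rw [map_sub, hX₂s, hX₂s, sub_eq_zero]
    have h1 := (Lat.ev_eq_iff (X := X) (G := S l)).1 h
    apply h1
    exact Submodule.mem_sup_right (Submodule.mem_sup_right ⟨ξ, hξ, rfl⟩)
  · exact fun l => hdefic l (e₁ l) (X₁ l) (hX₁s l) (hcomap₁ l)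
      (sup_le ((he₁' l).trans le_sup_left) (hSR l))
  · exact fun l => hdefic l (e₂ l) (X₂ l) (hX₂s l) (hcomap₂ l)
      (sup_le ((he₂' l).trans le_sup_right) (hSR l))
  · intro l
    have h1 : P.H (fun ω => (X₁ l ω, T l ω)) = Lat.ent P X (LinearMap.range (e₁ l) ⊔ S l) :=
      hHX (S l) (e₁ l) (X₁ l) (hX₁s l)
    have h2 : P.H (fun ω => (X₂ l ω, T l ω)) = Lat.ent P X (LinearMap.range (e₂ l) ⊔ S l) :=
      hHX (S l) (e₂ l) (X₂ l) (hX₂s l)
    rw [h1, h2, hHXX, hH]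
    have h3 := Lat.info_bridge_D P X (hG₁ l) (hG₂ l) (S := S l) rfl
      (P₁ := LinearMap.range (e₁ l) ⊔ S l) (P₂ := LinearMap.range (e₂ l) ⊔ S l)
      (sup_le_sup_right (he₁' l) _) (sup_le_sup_right (he₂' l) _)
    exact h3.trans (hI l)
  · -- the three pasts
    have hNN : ∀ l m, (Kn l).dualCoannihilator ⊓ (Kn m).dualCoannihilator
        = (Kn l ⊔ Kn m).dualCoannihilator := fun l m =>
      (Submodule.dualCoannihilator_sup_eq _ _).symm
    rw [hNN, hNN, hNN]
    set Q := (Kn 0 ⊔ Kn 1).dualCoannihilator ⊔ ((Kn 0 ⊔ Kn 2).dualCoannihilator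
      ⊔ (Kn 1 ⊔ Kn 2).dualCoannihilator) with hQ
    have h1 : Q.dualAnnihilator = (Kn 0 ⊔ Kn 1) ⊓ ((Kn 0 ⊔ Kn 2) ⊓ (Kn 1 ⊔ Kn 2)) := by
      rw [hQ, Submodule.dualAnnihilator_sup_eq, Submodule.dualAnnihilator_sup_eq,
        Subspace.dualCoannihilator_dualAnnihilator_eq,
        Subspace.dualCoannihilator_dualAnnihilator_eq,
        Subspace.dualCoannihilator_dualAnnihilator_eq]
    have h2 := Subspace.finrank_add_finrank_dualAnnihilator_eq Q
    rw [h1] at h2
    have h3 := hnc (L₀.comap τ)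
    rw [← hW] at h3
    omega
  · intro z hz
    rw [hW, Submodule.mem_dualCoannihilator]
    exact fun ξ hξ => hZ ξ hξ z hz

end Bridge

end Vale.Agent.P060.HW
end
end

section

/-!
# P060/HW: the TV theorem for one pair of types

`tv_frame` : the bridge `tv_bridge` for a frame, with the linear algebra of the known functionals
of the three pasts (from `AN`).
-/

open scoped Classical

noncomputable section

set_option linter.unusedSectionVars false

namespace Vale.Agent.P060.HW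

namespace TVF

open Module

section Coord

variable {K : Type} [Fintype K]

/-- The coordinates of a functional on four slots. -/
def zc : Dual F (Fin 4 → K → F) →ₗ[F] (Fin 4 → K → F) where
  toFun ξ := fun i j => ξ (Pi.single i (Pi.single j 1))
  map_add' _ _ := rfl
  map_smul' _ _ := rfl

lemma zc_spec (ξ : Dual F (Fin 4 → K → F)) (m : Fin 4 → K → F) :
    ξ m = ∑ i, zc ξ i ⬝ᵥ m i := by
  have h1 : m = ∑ i, ∑ j, m i j • (Pi.single i (Pi.single j 1) : Fin 4 → K → F) := by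
    funext i j
    rw [Finset.sum_apply, Finset.sum_apply, Finset.sum_eq_single i]
    · rw [Finset.sum_apply, Finset.sum_apply, Finset.sum_eq_single j]
      · rw [Pi.smul_apply, Pi.smul_apply, Pi.single_eq_same, Pi.single_eq_same, smul_eq_mul,
          mul_one]
      · intro j' _ hj
        rw [Pi.smul_apply, Pi.smul_apply, Pi.single_eq_same, Pi.single_eq_of_ne (Ne.symm hj),
          smul_zero]
      · intro h; exact absurd (Finset.mem_univ _) h
    · intro i' _ hi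
      rw [Finset.sum_apply, Finset.sum_apply]
      refine Finset.sum_eq_zero fun j' _ => ?_
      rw [Pi.smul_apply, Pi.smul_apply, Pi.single_eq_of_ne (Ne.symm hi), Pi.zero_apply, smul_zero]
    · intro h; exact absurd (Finset.mem_univ _) h
  conv_lhs => rw [h1]
  rw [map_sum]
  refine Finset.sum_congr rfl fun i _ => ?_
  rw [map_sum]
  unfold dotProduct
  refine Finset.sum_congr rfl fun j _ => ?_
  rw [map_smul, smul_eq_mul, mul_comm]
  rfl

lemma zc_injective : Function.Injective (zc (K := K)) := by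
  intro ξ ξ' h
  refine LinearMap.ext fun m => ?_
  rw [zc_spec, zc_spec, h]

/-- The tensors of a functional on the values at two vectors. -/
def tm (x y : K → F) : (Fin 4 → K → F) →ₗ[F] MM K where
  toFun z := ((2 : F)⁻¹ • (smB (z 0) x + smB (z 1) y), (2 : F)⁻¹ • (smB (z 2) x + smB (z 3) y))
  map_add' z z' := by
    simp only [Pi.add_apply, map_add, LinearMap.add_apply, smul_add, Prod.mk_add_mk]
    congr 1 <;> abel
  map_smul' c z := by
    simp only [Pi.smul_apply, map_smul, LinearMap.smul_apply, RingHom.id_apply, Prod.smul_mk,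
      ← smul_add]
    exact Prod.ext (smul_comm _ _ _) (smul_comm _ _ _)

lemma tm_add (x x' y y' : K → F) (z : Fin 4 → K → F) :
    tm (x + x') (y + y') z = tm x y z + tm x' y' z := by
  simp only [tm, LinearMap.coe_mk, AddHom.coe_mk, map_add, Prod.mk_add_mk, ← smul_add]
  congr 2 <;> abel

lemma pr_zero_left (B : Matrix K K F) : pr 0 B = 0 := ann_pr_zero B

lemma tm_pr {B B' : Matrix K K F} (hB : B.IsSymm) (hB' : B'.IsSymm) (x y : K → F)
    (z : Fin 4 → K → F) :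
    XX (B, B') (tm x y z) = ∑ i, z i ⬝ᵥ tv x y B B' i := by
  rw [XX_apply]
  simp only [tm, LinearMap.coe_mk, AddHom.coe_mk, pr_smul, pr_add, smB_apply]
  rw [ann_pr_sm hB, ann_pr_sm hB, ann_pr_sm hB', ann_pr_sm hB', Fin.sum_univ_four]
  have h2 : (2 : F)⁻¹ * 2 = 1 := inv_mul_cancel₀ ann_two_ne
  have e : ∀ x y : F, (2 : F)⁻¹ * (2 * x + 2 * y) = x + y := by
    intro x y
    rw [← mul_add, ← mul_assoc, h2, one_mul]
  rw [e, e]
  simp only [tv, Matrix.cons_val_zero, Matrix.cons_val_one, Matrix.cons_val]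
  ring

end Coord

section Slots

variable {N : ℕ} {E P Om : Type} [Fintype E] [Fintype P] [Fintype Om] [NeZero N]

/-- The span of the lines in `S`. -/
def linsp (p : Lin N → Co E P Om → F) (S : Finset (Lin N)) : Submodule F (Co E P Om → F) :=
  Submodule.span F (p '' S)

/-- The vectors supported on the rows in `R`. -/
def rowsp (R : Finset Om) : Submodule F (Co E P Om → F) where
  carrier := {z | (∀ j, z (Sum.inl j) = 0) ∧ ∀ w ∉ R, z (Sum.inr w) = 0}
  zero_mem' := ⟨fun _ => rfl, fun _ _ => rfl⟩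
  add_mem' := fun h h' => ⟨fun j => by rw [Pi.add_apply, h.1, h'.1, add_zero],
    fun w hw => by rw [Pi.add_apply, h.2 w hw, h'.2 w hw, add_zero]⟩
  smul_mem' := fun c _ h => ⟨fun j => by rw [Pi.smul_apply, h.1, smul_zero],
    fun w hw => by rw [Pi.smul_apply, h.2 w hw, smul_zero]⟩

lemma mem_linsp {p : Lin N → Co E P Om → F} {S : Finset (Lin N)} {z : Co E P Om → F} :
    z ∈ linsp p S ↔ ∃ c : Lin N → F, (∀ v, v ∉ S → c v = 0) ∧ z = ∑ v, c v • p v := by
  constructor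
  · intro h
    obtain ⟨c, rfl⟩ := (Submodule.mem_span_image_finset_iff_exists_fun F).1 h
    refine ⟨fun v => if hv : v ∈ S then c ⟨v, hv⟩ else 0, fun v hv => dif_neg hv, ?_⟩
    have h1 : ∑ v, (if hv : v ∈ S then c ⟨v, hv⟩ else 0) • p v
        = ∑ v ∈ S, (if hv : v ∈ S then c ⟨v, hv⟩ else 0) • p v := by
      refine (Finset.sum_subset (Finset.subset_univ _) fun v _ hv => ?_).symm
      rw [dif_neg hv, zero_smul]
    have h2 := Finset.sum_coe_sort S (fun v => (if hv : v ∈ S then c ⟨v, hv⟩ else 0) • p v)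
    rw [h1, ← h2]
    refine Fintype.sum_congr _ _ fun v => ?_
    rw [dif_pos v.2]
  · rintro ⟨c, hc, rfl⟩
    refine Submodule.sum_mem _ fun v _ => ?_
    by_cases hv : v ∈ S
    · exact Submodule.smul_mem _ _ (Submodule.subset_span ⟨v, hv, rfl⟩)
    · rw [hc v hv, zero_smul]; exact Submodule.zero_mem _

lemma mem_slot {p : Lin N → Co E P Om → F} {S : Finset (Lin N)} {R : Finset Om}
    {z : Co E P Om → F} : z ∈ linsp p S ⊔ rowsp R ↔ ∃ c : Lin N → F, (∀ v, v ∉ S → c v = 0) ∧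
      (∀ j, z (Sum.inl j) = ∑ v, c v * p v (Sum.inl j)) ∧
      ∀ w ∉ R, z (Sum.inr w) = ∑ v, c v * p v (Sum.inr w) := by
  constructor
  · intro h
    obtain ⟨x, hx, y, hy, rfl⟩ := Submodule.mem_sup.1 h
    obtain ⟨c, hc, rfl⟩ := mem_linsp.1 hx
    refine ⟨c, hc, fun j => ?_, fun w hw => ?_⟩
    · rw [Pi.add_apply, hy.1, add_zero, Finset.sum_apply]; rfl
    · rw [Pi.add_apply, hy.2 w hw, add_zero, Finset.sum_apply]; rfl
  · rintro ⟨c, hc, h1, h2⟩
    refine Submodule.mem_sup.2 ⟨∑ v, c v • p v, mem_linsp.2 ⟨c, hc, rfl⟩,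
      z - ∑ v, c v • p v, ⟨fun j => ?_, fun w hw => ?_⟩, by abel⟩
    · rw [Pi.sub_apply, h1, Finset.sum_apply]
      exact sub_self _
    · rw [Pi.sub_apply, h2 w hw, Finset.sum_apply]
      exact sub_self _

lemma slot_mono {p : Lin N → Co E P Om → F} {S S' : Finset (Lin N)} {R R' : Finset Om}
    (hS : S ⊆ S') (hR : R ⊆ R') : linsp p S ⊔ rowsp (E := E) (P := P) R ≤ linsp p S' ⊔ rowsp R' := by
  intro z hz
  obtain ⟨c, h0, h1, h2⟩ := mem_slot.1 hz
  exact mem_slot.2 ⟨c, fun v hv => h0 v fun h => hv (hS h), h1, fun w hw => h2 w fun h => hw (hR h)⟩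

lemma slot_sup {p : Lin N → Co E P Om → F} {S S' : Finset (Lin N)} {R R' : Finset Om} :
    (linsp p S ⊔ rowsp R) ⊔ (linsp p S' ⊔ rowsp R') ≤
      linsp p (S ∪ S') ⊔ rowsp (E := E) (P := P) (R ∪ R') :=
  sup_le (slot_mono Finset.subset_union_left Finset.subset_union_left)
    (slot_mono Finset.subset_union_right Finset.subset_union_right)

/-- Independence on `P` for total families of coefficients. -/
lemma li_total {p : Lin N → Co E P Om → F} {S : Finset (Lin N)}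
    (hS : LinearIndependent F (fun u : S => fun j : P => p u (Sum.inl (Sum.inr j))))
    {c : Lin N → F} (hc : ∀ v, v ∉ S → c v = 0)
    (h : ∀ j : P, ∑ v, c v * p v (Sum.inl (Sum.inr j)) = 0) : c = 0 := by
  funext v
  by_cases hv : v ∈ S
  · refine li_zero hS c (fun j => ?_) v hv
    rw [← h j]
    exact Finset.sum_subset (Finset.subset_univ _) fun v _ hv => by rw [hc v hv, zero_mul]
  · exact hc v hv

/-- The slot lemma for the three pasts. -/
lemma slot_three {p : Lin N → Co E P Om → F} {S : Fin 3 → Finset (Lin N)} {D₀ : Finset (Lin N)}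
    {R : Fin 3 → Finset Om} {R₀ : Finset Om}
    (hd : ∀ l m, l ≠ m → Disjoint (S l) (S m))
    (hli : LinearIndependent F
      (fun u : (S 0 ∪ S 1 ∪ S 2 ∪ D₀ : Finset (Lin N)) => fun j : P => p u (Sum.inl (Sum.inr j))))
    (hR : ∀ l m, l ≠ m → R l ∩ R m ⊆ R₀) :
    ((linsp p (S 0 ∪ D₀) ⊔ rowsp (R 0)) ⊔ (linsp p (S 1 ∪ D₀) ⊔ rowsp (R 1))) ⊓
      (((linsp p (S 0 ∪ D₀) ⊔ rowsp (R 0)) ⊔ (linsp p (S 2 ∪ D₀) ⊔ rowsp (R 2))) ⊓
        ((linsp p (S 1 ∪ D₀) ⊔ rowsp (R 1)) ⊔ (linsp p (S 2 ∪ D₀) ⊔ rowsp (R 2)))) ≤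
      linsp p D₀ ⊔ rowsp (E := E) (P := P) R₀ := by
  rintro z ⟨h01, h02, h12⟩
  obtain ⟨c01, a0, a1, a2⟩ := mem_slot.1 (slot_sup h01)
  obtain ⟨c02, b0, b1, b2⟩ := mem_slot.1 (slot_sup h02)
  obtain ⟨c12, d0, d1, d2⟩ := mem_slot.1 (slot_sup h12)
  have key : ∀ {c c' : Lin N → F}, (∀ v, v ∉ S 0 ∪ S 1 ∪ S 2 ∪ D₀ → c v = 0) →
      (∀ v, v ∉ S 0 ∪ S 1 ∪ S 2 ∪ D₀ → c' v = 0) →
      (∀ j, z (Sum.inl j) = ∑ v, c v * p v (Sum.inl j)) →
      (∀ j, z (Sum.inl j) = ∑ v, c' v * p v (Sum.inl j)) → c = c' := by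
    intro c c' h h' e e'
    have := li_total hli (c := fun v => c v - c' v) (fun v hv => by rw [h v hv, h' v hv, sub_zero])
      (fun j => by
        simp only [sub_mul, Finset.sum_sub_distrib]
        rw [← e, ← e', sub_self])
    funext v
    exact sub_eq_zero.1 (congrFun this v)
  have m0 : ∀ v, v ∉ S 0 ∪ S 1 ∪ S 2 ∪ D₀ → c01 v = 0 := fun v hv => a0 v fun h => hv (by
    simp only [Finset.mem_union] at h ⊢; tauto)
  have m1 : ∀ v, v ∉ S 0 ∪ S 1 ∪ S 2 ∪ D₀ → c02 v = 0 := fun v hv => b0 v fun h => hv (by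
    simp only [Finset.mem_union] at h ⊢; tauto)
  have m2 : ∀ v, v ∉ S 0 ∪ S 1 ∪ S 2 ∪ D₀ → c12 v = 0 := fun v hv => d0 v fun h => hv (by
    simp only [Finset.mem_union] at h ⊢; tauto)
  have e1 : c01 = c02 := key m0 m1 a1 b1
  have e2 : c01 = c12 := key m0 m2 a1 d1
  refine mem_slot.2 ⟨c01, fun v hv => ?_, a1, fun w hw => ?_⟩
  · by_cases h0 : v ∈ S 0
    · have h1 : v ∉ S 1 := Finset.disjoint_left.1 (hd 0 1 (by decide)) h0
      have h2 : v ∉ S 2 := Finset.disjoint_left.1 (hd 0 2 (by decide)) h0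
      rw [e2]
      refine d0 v fun h => ?_
      simp only [Finset.mem_union] at h
      tauto
    · by_cases h1 : v ∈ S 1
      · have h2 : v ∉ S 2 := Finset.disjoint_left.1 (hd 1 2 (by decide)) h1
        rw [e1]
        refine b0 v fun h => ?_
        simp only [Finset.mem_union] at h
        tauto
      · refine a0 v fun h => ?_
        simp only [Finset.mem_union] at h
        tauto
  · by_cases h0 : w ∈ R 0
    · have h1 : w ∉ R 1 := fun h => hw (hR 0 1 (by decide) (Finset.mem_inter.2 ⟨h0, h⟩))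
      have h2 : w ∉ R 2 := fun h => hw (hR 0 2 (by decide) (Finset.mem_inter.2 ⟨h0, h⟩))
      rw [e2]
      refine d2 w fun h => ?_
      simp only [Finset.mem_union] at h
      tauto
    · by_cases h1 : w ∈ R 1
      · have h2 : w ∉ R 2 := fun h => hw (hR 1 2 (by decide) (Finset.mem_inter.2 ⟨h1, h⟩))
        rw [e1]
        refine b2 w fun h => ?_
        simp only [Finset.mem_union] at h
        tauto
      · refine a2 w fun h => ?_
        simp only [Finset.mem_union] at h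
        tauto

end Slots

section Rep

variable {N d : ℕ} {E P Om : Type} [Fintype E] [Fintype P] [Fintype Om] [NeZero N]

/-- The rows known on the line `u` from the lines in `S`, for forms of type `a`. -/
def rws (fr : Frame N d E Om) (a : Ty N d) (S : Finset (Lin N)) (u : Lin N) : Finset Om :=
  Finset.univ.filter fun w => w ∈ fr.U a ∨ ∃ c, w ∈ fr.U c ∧ u ∈ lins c ∧ lins c ⊆ S

/-- The representation of the coefficients of a known tensor. -/
lemma slot_rep (fr : Frame N d E Om) (p : Lin N → Co E P Om → F) (h : Ext fr p)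
    (a : Ty N d) {A S : Finset (Lin N)} (hA : A ⊆ S) (ha : lins a ⊆ A)
    (hS : LinearIndependent F (fun u : S => fun j : P => p u (Sum.inl (Sum.inr j))))
    (hR : ∀ w, LinearIndependent F
      (fun u : (S ∪ rowLines fr w : Finset (Lin N)) => fun j : P => p u (Sum.inl (Sum.inr j))))
    (y : Lin N → Co E P Om → F) (hy : ∀ u, u ∉ S → y u = 0)
    (hmem : ∑ u ∈ S, smB (y u) (p u) ∈ Ga fr p h a A) :
    ∀ u ∈ S, u ∉ A → y u ∈ linsp p S ⊔ rowsp (rws fr a S u) := by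
  obtain ⟨c, x, c1, c2, c3, c4, c5⟩ := rep_of_mem fr p h a (C := S) (B := ∅) (A := A) (S := S)
    subset_rfl (Finset.empty_subset _) hA ha hS (fun w _ => hR w) y (fun _ => 0) hy
    (fun _ _ => rfl) (by simpa using hmem)
  intro u hu huA
  have hc0 : ∀ v, v ∉ S → c u v = 0 := fun v hv => by rw [c1, c2 v u hv, neg_zero]
  have hsum : ∀ j, ∑ v ∈ S, c u v * p v j = ∑ v, c u v * p v j := fun j =>
    Finset.sum_subset (Finset.subset_univ _) fun v _ hv => by rw [hc0 v hv, zero_mul]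
  refine mem_slot.2 ⟨c u, hc0, fun j => ?_, fun w hw => ?_⟩
  · have := c4 u hu huA j
    rw [Pi.zero_apply, sub_zero, hsum] at this
    exact this
  · unfold rws at hw
    rw [Finset.mem_filter] at hw
    push Not at hw
    obtain ⟨hwa, hwc⟩ := hw (Finset.mem_univ _)
    have := c5 u hu huA w hwa
    rw [Pi.zero_apply, sub_zero, hsum] at this
    rw [this]
    have h0 : ∑ b, x w b * (if u ∈ lins b then (1 : F) else 0) = 0 := by
      refine Finset.sum_eq_zero fun b _ => ?_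
      by_cases hb : u ∈ lins b
      · by_cases hx : x w b = 0
        · rw [hx, zero_mul]
        · exfalso
          obtain ⟨f1, f2⟩ := c3 w b hx
          apply hwc b f1 hb
          intro v hv
          obtain ⟨s, -, rfl⟩ := Finset.mem_image.1 hv
          exact f2 s
      · rw [if_neg hb, mul_zero]
    rw [h0, add_zero]

/-- Membership in `GA`, componentwise. -/
lemma mem_GA (fr : Frame N d E Om) (p : Lin N → Co E P Om → F) (h : Ext fr p) (a a' : Ty N d)
    (A : Finset (Lin N)) (Q : MM (Co E P Om)) :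
    Q ∈ GA fr p h a a' A ↔ Q.1 ∈ Ga fr p h a A ∧ Q.2 ∈ Ga fr p h a' A := by
  unfold GA Gp Design.N2
  rw [Submodule.prod_sup_prod]
  exact Iff.rfl

lemma GA_mono (fr : Frame N d E Om) (p : Lin N → Co E P Om → F) (h : Ext fr p) (a a' : Ty N d)
    {A A' : Finset (Lin N)} (hA : A ⊆ A') : GA fr p h a a' A ≤ GA fr p h a a' A' := by
  unfold GA Gp
  exact sup_le_sup_right (Submodule.prod_mono (Gl_mono p hA) (Gl_mono p hA)) _

lemma Gp_le_GA (fr : Frame N d E Om) (p : Lin N → Co E P Om → F) (h : Ext fr p) (a a' : Ty N d)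
    {A A' : Finset (Lin N)} (hA : A ⊆ A') : Gp p A ≤ GA fr p h a a' A' := by
  unfold GA Gp
  exact (Submodule.prod_mono (Gl_mono p hA) (Gl_mono p hA)).trans le_sup_left

lemma N2_le_GA (fr : Frame N d E Om) (p : Lin N → Co E P Om → F) (h : Ext fr p) (a a' : Ty N d)
    (A : Finset (Lin N)) : (dsg fr p h).N2 a a' ≤ GA fr p h a a' A := le_sup_right

lemma GA_sup_Gp (fr : Frame N d E Om) (p : Lin N → Co E P Om → F) (h : Ext fr p) (a a' : Ty N d)
    (A B : Finset (Lin N)) : GA fr p h a a' A ⊔ Gp p B = GA fr p h a a' (A ∪ B) := by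
  unfold GA Gp
  rw [Gl_union, ← Submodule.prod_sup_prod, sup_right_comm]

/-- the tensors of two lines -/
lemma tm_mem_Gp (p : Lin N → Co E P Om → F) (u v : Lin N) (z : Fin 4 → Co E P Om → F) :
    tm (p u) (p v) z ∈ Gp p {u, v} := by
  have hu : u ∈ ({u, v} : Finset (Lin N)) := by simp
  have hv : v ∈ ({u, v} : Finset (Lin N)) := by simp
  exact ⟨Submodule.smul_mem _ _ (Submodule.add_mem _ (smB_mem_Gl p hu _) (smB_mem_Gl p hv _)),
    Submodule.smul_mem _ _ (Submodule.add_mem _ (smB_mem_Gl p hu _) (smB_mem_Gl p hv _))⟩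

/-- two lines outside the past -/
lemma grp_rep (fr : Frame N d E Om) (p : Lin N → Co E P Om → F) (h : Ext fr p)
    (a : Ty N d) {A T : Finset (Lin N)} (hA : A ⊆ T) (ha : lins a ⊆ A)
    (hS : LinearIndependent F (fun u : T => fun j : P => p u (Sum.inl (Sum.inr j))))
    (hR : ∀ w, LinearIndependent F
      (fun u : (T ∪ rowLines fr w : Finset (Lin N)) => fun j : P => p u (Sum.inl (Sum.inr j))))
    {u v : Lin N} (huv : u ≠ v) (hu : u ∈ T) (hv : v ∈ T) (huA : u ∉ A) (hvA : v ∉ A)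
    (z z' : Co E P Om → F) (hmem : (2 : F)⁻¹ • (smB z (p u) + smB z' (p v)) ∈ Ga fr p h a A) :
    z ∈ linsp p T ⊔ rowsp (rws fr a T u) ∧ z' ∈ linsp p T ⊔ rowsp (rws fr a T v) := by
  have h1 : smB z (p u) + smB z' (p v) ∈ Ga fr p h a A := by
    have := Submodule.smul_mem _ (2 : F) hmem
    rwa [smul_smul, mul_inv_cancel₀ ann_two_ne, one_smul] at this
  set y : Lin N → Co E P Om → F := fun x => if x = u then z else if x = v then z' else 0 with hy
  have hyu : y u = z := by simp [hy]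
  have hyv : y v = z' := by simp [hy, Ne.symm huv]
  have h2 : ∑ x ∈ T, smB (y x) (p x) = smB z (p u) + smB z' (p v) := by
    rw [← Finset.sum_subset (s₁ := {u, v}) (s₂ := T)]
    · rw [Finset.sum_pair huv, hyu, hyv]
    · intro x hx
      rcases Finset.mem_insert.1 hx with rfl | hx
      · exact hu
      · rw [Finset.mem_singleton.1 hx]; exact hv
    · intro x _ hx
      simp only [Finset.mem_insert, Finset.mem_singleton, not_or] at hx
      have : y x = 0 := by simp [hy, hx.1, hx.2]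
      rw [this, map_zero, LinearMap.zero_apply]
  have h3 := slot_rep fr p h a hA ha hS hR y (fun x hx => by
    have h1 : x ≠ u := fun e => hx (e ▸ hu)
    have h2 : x ≠ v := fun e => hx (e ▸ hv)
    simp [hy, h1, h2]) (by rw [h2]; exact h1)
  exact ⟨by rw [← hyu]; exact h3 u hu huA, by rw [← hyv]; exact h3 v hv hvA⟩

/-- two types outside the past -/
lemma typ_rep (fr : Frame N d E Om) (p : Lin N → Co E P Om → F) (h : Ext fr p)
    (a b b' : Ty N d) {A T : Finset (Lin N)} (hA : A ⊆ T) (ha : lins a ⊆ A)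
    (hS : LinearIndependent F (fun u : T => fun j : P => p u (Sum.inl (Sum.inr j))))
    (hR : ∀ w, LinearIndependent F
      (fun u : (T ∪ rowLines fr w : Finset (Lin N)) => fun j : P => p u (Sum.inl (Sum.inr j))))
    (hb : lins b ⊆ T) (hb' : lins b' ⊆ T) {u v : Lin N} (hu : u ∈ lins b) (hv : v ∈ lins b')
    (hu' : u ∉ lins b') (hv' : v ∉ lins b) (huA : u ∉ A) (hvA : v ∉ A)
    (z z' : Co E P Om → F)
    (hmem : (2 : F)⁻¹ • (smB z (gv p b) + smB z' (gv p b')) ∈ Ga fr p h a A) :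
    z ∈ linsp p T ⊔ rowsp (rws fr a T u) ∧ z' ∈ linsp p T ⊔ rowsp (rws fr a T v) := by
  have h1 : smB z (gv p b) + smB z' (gv p b') ∈ Ga fr p h a A := by
    have := Submodule.smul_mem _ (2 : F) hmem
    rwa [smul_smul, mul_inv_cancel₀ ann_two_ne, one_smul] at this
  set y : Lin N → Co E P Om → F := fun x =>
    (if x ∈ lins b then z else 0) + (if x ∈ lins b' then z' else 0) with hy
  have hyu : y u = z := by simp [hy, hu, hu']
  have hyv : y v = z' := by simp [hy, hv, hv']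
  have h2 : ∑ x ∈ T, smB (y x) (p x) = smB z (gv p b) + smB z' (gv p b') := by
    have e : ∀ (c : Ty N d) (x : Co E P Om → F), lins c ⊆ T →
        smB x (gv p c) = ∑ v ∈ T, smB (if v ∈ lins c then x else 0) (p v) := by
      intro c x hc
      rw [gv_eq_sum_lins, map_sum]
      refine Finset.sum_subset_zero_on_sdiff hc (fun v hv => ?_) (fun v hv => ?_)
      · rw [if_neg (Finset.mem_sdiff.1 hv).2, map_zero, LinearMap.zero_apply]
      · rw [if_pos hv]
    rw [e b z hb, e b' z' hb', ← Finset.sum_add_distrib]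
    refine Finset.sum_congr rfl fun x _ => ?_
    rw [hy, ← LinearMap.add_apply, ← map_add]
  have h3 := slot_rep fr p h a hA ha hS hR y (fun x hx => by
    have h1 : x ∉ lins b := fun e => hx (hb e)
    have h2 : x ∉ lins b' := fun e => hx (hb' e)
    simp [hy, h1, h2]) (by rw [h2]; exact h1)
  exact ⟨by rw [← hyu]; exact h3 u (hb hu) huA, by rw [← hyv]; exact h3 v (hb' hv) hvA⟩

end Rep

section Dim

variable {K : Type} [Fintype K]

/-- The functional with given coordinates. -/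
def zi (z : Fin 4 → K → F) : Dual F (Fin 4 → K → F) where
  toFun m := ∑ i, z i ⬝ᵥ m i
  map_add' m m' := by simp only [Pi.add_apply, dotProduct_add, Finset.sum_add_distrib]
  map_smul' c m := by
    simp only [Pi.smul_apply, dotProduct_smul, ← Finset.smul_sum, RingHom.id_apply]

lemma zc_zi (z : Fin 4 → K → F) : zc (zi z) = z := by
  funext i j
  show ∑ i', z i' ⬝ᵥ (Pi.single i (Pi.single j 1) : Fin 4 → K → F) i' = z i j
  rw [Finset.sum_eq_single i]
  · rw [Pi.single_eq_same, dotProduct_single, mul_one]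
  · intro i' _ hi
    rw [Pi.single_eq_of_ne hi, dotProduct_zero]
  · intro h; exact absurd (Finset.mem_univ _) h

/-- functionals with all slots in given spaces -/
def slots (Q : Fin 4 → Submodule F (K → F)) : Submodule F (Dual F (Fin 4 → K → F)) where
  carrier := {ξ | ∀ i, zc ξ i ∈ Q i}
  zero_mem' := fun i => by rw [map_zero]; exact Submodule.zero_mem _
  add_mem' := fun h h' i => by rw [map_add]; exact Submodule.add_mem _ (h i) (h' i)
  smul_mem' := fun c _ h i => by rw [map_smul]; exact Submodule.smul_mem _ _ (h i)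

lemma mem_slots {Q : Fin 4 → Submodule F (K → F)} {ξ : Dual F (Fin 4 → K → F)} :
    ξ ∈ slots Q ↔ ∀ i, zc ξ i ∈ Q i := Iff.rfl

lemma slots_sup (Q Q' : Fin 4 → Submodule F (K → F)) :
    slots Q ⊔ slots Q' ≤ slots fun i => Q i ⊔ Q' i := by
  refine sup_le (fun ξ h i => ?_) (fun ξ h i => ?_)
  · exact Submodule.mem_sup_left (h i)
  · exact Submodule.mem_sup_right (h i)

lemma slots_sup_eq (Q Q' : Fin 4 → Submodule F (K → F)) :
    slots (fun i => Q i ⊔ Q' i) ≤ slots Q ⊔ slots Q' := by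
  intro ξ h
  choose x hx y hy hxy using fun i => Submodule.mem_sup.1 (h i)
  refine Submodule.mem_sup.2 ⟨zi x, fun i => by rw [zc_zi]; exact hx i, zi y,
    fun i => by rw [zc_zi]; exact hy i, ?_⟩
  apply zc_injective
  rw [map_add, zc_zi, zc_zi]
  funext i
  exact hxy i

lemma finrank_slots (Q : Submodule F (K → F)) : finrank F (slots fun _ => Q) ≤ 4 * finrank F Q := by
  have h1 : finrank F (Fin 4 → Q) = 4 * finrank F Q := by
    rw [Module.finrank_pi_fintype]
    simp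
  rw [← h1]
  refine LinearMap.finrank_le_finrank_of_injective (f :=
    { toFun := fun ξ i => ⟨zc ξ.1 i, ξ.2 i⟩
      map_add' := fun ξ ξ' => rfl
      map_smul' := fun c ξ => rfl }) ?_
  intro ξ ξ' h
  apply Subtype.ext
  apply zc_injective
  funext i
  exact congrArg Subtype.val (congrFun h i)

/-- The deficit grows at most by the dimension. -/
lemma D_le_add {Ω : Type*} [Fintype Ω] {V : Type*} [AddCommGroup V]
    [Module F V] [FiniteDimensional F V] (Pr : FinProb Ω) (X : Ω → Dual F V)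
    {G G' : Submodule F V} (h : G ≤ G') {s : ℕ} (hs : finrank F G' ≤ finrank F G + s) :
    Lat.D Pr X G' ≤ Lat.D Pr X G + s * Real.log 2521 := by
  have h1 := Lat.ent_mono Pr X h
  have h2 : (Nat.card F : ℝ) = 2521 := by
    rw [Nat.card_eq_fintype_card, ZMod.card]; norm_num
  unfold Lat.D
  rw [h2]
  have h3 : 0 ≤ Real.log 2521 := Real.log_nonneg (by norm_num)
  have h4 : (finrank F G' : ℝ) ≤ finrank F G + s := by exact_mod_cast hs
  nlinarith

end Dim

section Law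

variable {K : Type} [Fintype K] {T : Type*} {δ : Design K T}

lemma form_symm {a : T} {ι : Bool} {B : Matrix K K F} (hB : B ∈ δ.Form a ι) : B.IsSymm := by
  have h1 : (B - (if ι then δ.B0 a else 0)).IsSymm := hB.1.1
  have h2 : (if ι then δ.B0 a else 0 : Matrix K K F).IsSymm := by
    split_ifs
    · exact (δ.B0_mem_Com a).1
    · exact Matrix.isSymm_zero
  have h3 := h1.add h2
  rwa [sub_add_cancel] at h3

/-- Trivial tensors are constant on the forms of a type and bit. -/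
lemma pr_const {a : T} {ι : Bool} {B B' : Matrix K K F} (hB : B ∈ δ.Form a ι)
    (hB' : B' ∈ δ.Form a ι) {Q : Matrix K K F} (hQ : Q ∈ δ.Nn a)
    (hd : ∀ Q ∈ δ.Nn a, ∀ B ∈ δ.Dir a, pr Q B = 0) : pr Q B = pr Q B' := by
  have h1 : pr Q (B - (if ι then δ.B0 a else 0)) = 0 := hd Q hQ _ hB
  have h2 : pr Q (B' - (if ι then δ.B0 a else 0)) = 0 := hd Q hQ _ hB'
  have h3 : ∀ C : Matrix K K F, pr Q C = pr Q (C - (if ι then δ.B0 a else 0))
      + pr Q (if ι then δ.B0 a else 0) := by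
    intro C
    rw [← ann_pr_add_right, sub_add_cancel]
  rw [h3 B, h3 B', h1, h2]

variable {a a' : T} {ι ι' : Bool} {Λ M : ℝ} {w : Matrix K K F → Matrix K K F → ℝ}

lemma sum_prob (hw : PLaw δ a a' ι ι' Λ M w) (f : Matrix K K F → Matrix K K F → ℂ) :
    ∑ B, ∑ B', (w B B' : ℂ) * f B B'
      = ∑ ω, (hw.prob.w ω : ℂ) * f ω.val.1 ω.val.2 := by
  rw [← Fintype.sum_prod_type' (fun B B' => (w B B' : ℂ) * f B B')]
  refine (Finset.sum_bij_ne_zero (fun x _ _ => x.val) (fun _ _ _ => Finset.mem_univ _)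
      (fun x _ _ y _ _ h => Fms.val_injective h) (fun x _ hx => ?_) (fun x _ _ => rfl)).symm
  have h1 : w x.1 x.2 ≠ 0 := by
    intro h
    rw [h, Complex.ofReal_zero, zero_mul] at hx
    exact hx rfl
  exact ⟨⟨x, hw.supp _ _ h1⟩, Finset.mem_univ _, hx, rfl⟩

lemma tlaw_prob (hw : PLaw δ a a' ι ι' Λ M w) (g g' : K → F) (m : Fin 4 → K → F) :
    tlaw w g g' m = hw.prob.p (fun ω => tv g g' ω.val.1 ω.val.2) m := by
  have h := sum_prob hw (fun B B' => if tv g g' B B' = m then 1 else 0)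
  have h1 : ((tlaw w g g' m : ℝ) : ℂ)
      = ((hw.prob.p (fun ω => tv g g' ω.val.1 ω.val.2) m : ℝ) : ℂ) := by
    have e : ∀ (q : Prop) [Decidable q] (x : ℝ), ((if q then x else 0 : ℝ) : ℂ)
        = (x : ℂ) * (if q then 1 else 0) := by
      intro q _ x
      split_ifs <;> simp
    unfold tlaw FinProb.p
    simp only [Complex.ofReal_sum, e]
    convert h using 5
  exact_mod_cast h1

end Law

section Pair

/-- The one pair theorem for a general design. -/
theorem tv_pair (ψ : AddChar F ℂ) (hψ : ψ ≠ 0) {ε κ : ℝ} (hε : 0 < ε) (hκ : 0 ≤ κ) (s : ℕ) :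
    ∃ d₀ : ℝ, 0 < d₀ ∧ ∃ η₀ : ℝ, 0 < η₀ ∧
    ∀ (K T : Type) [Fintype K] (δ : Design K T) (a a' b b' : T) (ι ι' : Bool) (Λ M : ℝ)
      (w : Matrix K K F → Matrix K K F → ℝ) (hw : PLaw δ a a' ι ι' Λ M w)
      (x y : Fin 3 → K → F) (_ : x 0 + x 1 + x 2 = δ.g b) (_ : y 0 + y 1 + y 2 = δ.g b')
      (A E₁ E₂ : Fin 3 → Submodule F (MM K)) (_ : ∀ l, δ.N2 a a' ≤ A l)
      (_ : ∀ l, A l ≤ E₁ l) (_ : ∀ l, A l ≤ E₂ l)
      (_ : ∀ l z, tm (x 0) (y 0) z ∈ E₁ l) (_ : ∀ l z, tm (x 1) (y 1) z ∈ E₂ l)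
      (_ : ∀ l z, tm (x 2) (y 2) z ∈ A l) (Q : Fin 3 → Fin 4 → Submodule F (K → F))
      (_ : ∀ l z, tm (x 0) (y 0) z ∈ E₂ l → ∀ i, z i ∈ Q l i)
      (_ : ∀ l z, tm (x 1) (y 1) z ∈ E₁ l → ∀ i, z i ∈ Q l i)
      (_ : ∀ l, hw.Dd (E₁ l ⊔ E₂ l) - hw.Dd (A l) ≤ κ)
      (_ : ∀ l, hw.Dd (E₁ l ⊔ E₂ l) + hw.Dd (E₁ l ⊓ E₂ l) - hw.Dd (E₁ l) - hw.Dd (E₂ l) ≤ d₀)
      (Λ₀ : Submodule F (K → F)) (R₀ : Fin 4 → Submodule F (K → F))
      (_ : ∀ i, (Q 0 i ⊔ Q 1 i) ⊓ ((Q 0 i ⊔ Q 2 i) ⊓ (Q 1 i ⊔ Q 2 i)) ≤ Λ₀ ⊔ R₀ i)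
      (_ : ∀ z, (∀ i, z i ∈ R₀ i) → tm (δ.g b) (δ.g b') z ∈ δ.N2 a a')
      (_ : 4 * finrank F Λ₀ ≤ s)
      (A₀ A₁ : Submodule F (MM K)) (_ : δ.N2 a a' ≤ A₀) (_ : A₀ ≤ A₁)
      (_ : ∀ z, tm (δ.g b) (δ.g b') z ∈ A₁) (_ : hw.Dd A₁ - hw.Dd A₀ ≤ κ)
      (_ : ∀ z, tm (δ.g b) (δ.g b') z ∈ A₀ → ∀ i, z i ∈ Λ₀ ⊔ R₀ i),
      tdist δ a a' w (b, b') ≤ ε ∨ BadC ψ δ a a' w η₀ (b, b') := by
  have hlog : 0 ≤ Real.log 2521 := Real.log_nonneg (by norm_num)
  obtain ⟨d₀, hd₀, η₀, hη₀, main⟩ := tv_bridge.{0, 0, 0, 0} F ψ hψ hε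
    (κ := κ + s * Real.log 2521) (by positivity) s
  refine ⟨d₀, hd₀, η₀, hη₀, ?_⟩
  intro K T _ δ a a' b b' ι ι' Λ M w hw x y hx hy A E₁ E₂ hA hAE₁ hAE₂ he₁ he₂ he₃ Q hK₁ hK₂ hD hI
    Λ₀ R₀ hQ hR₀ hΛ₀ A₀ A₁ hA₀ hA₀₁ hA₁ h0 hA₀Q
  by_cases hbad : BadC ψ δ a a' w η₀ (b, b')
  · exact Or.inr hbad
  left
  have hzadd : ∀ z, tm (δ.g b) (δ.g b') z
      = tm (x 0) (y 0) z + tm (x 1) (y 1) z + tm (x 2) (y 2) z := by
    intro z
    rw [← hx, ← hy, tm_add, tm_add]
  -- the space of slots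
  set 𝓛 : Submodule F (Dual F (Fin 4 → K → F)) := slots fun _ => Λ₀ with h𝓛
  set τ : Dual F (Fin 4 → K → F) →ₗ[F] MM K := (tm (δ.g b) (δ.g b')).comp zc with hτ
  have hfin𝓛 : finrank F 𝓛 ≤ s := (finrank_slots Λ₀).trans hΛ₀
  have hslot : slots (fun i => Λ₀ ⊔ R₀ i) ≤ (δ.N2 a a').comap τ ⊔ 𝓛 := by
    refine (slots_sup_eq (fun _ => Λ₀) R₀).trans ?_
    rw [sup_comm]
    refine sup_le_sup_right ?_ _
    intro ξ hξ
    exact hR₀ (zc ξ) hξ
  have hM : ∀ (ω : Fms δ a a' ι ι') (ξ : Dual F (Fin 4 → K → F)),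
      ξ (tv (δ.g b) (δ.g b') ω.val.1 ω.val.2) = Xf ω (τ ξ) := by
    intro ω ξ
    rw [zc_spec]
    exact (tm_pr (form_symm ω.mem.1) (form_symm ω.mem.2) (δ.g b) (δ.g b') (zc ξ)).symm
  have hdist := main (Fin 4 → K → F) (Fms δ a a' ι ι') hw.prob (MM K) Xf
    (fun ω => tv (δ.g b) (δ.g b') ω.val.1 ω.val.2) τ hM (δ.N2 a a') ?_ ?_ A E₁ E₂ hA
    (fun _ => (tm (x 0) (y 0)).comp zc) (fun _ => (tm (x 1) (y 1)).comp zc)
    (fun l ξ => Submodule.mem_sup_right (he₁ l _)) (fun l ξ => Submodule.mem_sup_right (he₂ l _))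
    ?_ (fun l => slots (Q l)) ?_ ?_ ?_ ?_ ?_ (δ.Zab a a' b b') ?_ ?_
  · have h1 : tlaw w (δ.g b) (δ.g b')
        = hw.prob.p (fun ω => tv (δ.g b) (δ.g b') ω.val.1 ω.val.2) :=
      funext fun m => tlaw_prob hw _ _ m
    unfold tdist
    simp only [h1]
    exact hdist
  · intro ω ω' _ _ t ht
    show XX ω.val t = XX ω'.val t
    rw [XX_apply, XX_apply, pr_const ω.mem.1 ω'.mem.1 ht.1 (annDirect K T δ a),
      pr_const ω.mem.2 ω'.mem.2 ht.2 (annDirect K T δ a')]
  · -- unconditional deficit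
    set G : Submodule F (MM K) := LinearMap.range τ ⊔ δ.N2 a a' with hG
    have hGA₁ : G ≤ A₁ := by
      refine sup_le ?_ (hA₀.trans hA₀₁)
      rintro _ ⟨ξ, rfl⟩
      exact hA₁ _
    have h1 := Lat.D_supermodular hw.prob Xf G A₀
    have h2 : Lat.D hw.prob Xf (G ⊔ A₀) ≤ Lat.D hw.prob Xf A₁ :=
      Lat.D_mono hw.prob Xf (sup_le hGA₁ hA₀₁)
    have h3 : δ.N2 a a' ≤ G ⊓ A₀ := le_inf le_sup_right hA₀
    have h4 : G ⊓ A₀ ≤ δ.N2 a a' ⊔ 𝓛.map τ := by
      rintro t ⟨ht, htA⟩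
      obtain ⟨_, ⟨ξ, rfl⟩, n, hn, rfl⟩ := Submodule.mem_sup.1 ht
      have h5 : τ ξ ∈ A₀ := by
        have := Submodule.sub_mem _ htA (hA₀ hn)
        rwa [add_sub_cancel_right] at this
      have h6 : ξ ∈ slots (fun i => Λ₀ ⊔ R₀ i) := hA₀Q (zc ξ) h5
      obtain ⟨ξ₁, hξ₁, ξ₂, hξ₂, rfl⟩ := Submodule.mem_sup.1 (hslot h6)
      rw [map_add]
      refine Submodule.add_mem _ (Submodule.add_mem _ (Submodule.mem_sup_left hξ₁)
        (Submodule.mem_sup_right ⟨ξ₂, hξ₂, rfl⟩)) (Submodule.mem_sup_left hn)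
    have h7 : finrank F ↥(G ⊓ A₀) ≤ finrank F (δ.N2 a a') + s := by
      refine (Submodule.finrank_mono h4).trans ?_
      have h8 := Submodule.finrank_add_le_finrank_add_finrank (δ.N2 a a') (𝓛.map τ)
      have h9 := Submodule.finrank_map_le τ 𝓛
      omega
    have h10 := D_le_add hw.prob Xf h3 h7
    have h11 : hw.Dd A₁ = Lat.D hw.prob Xf A₁ := rfl
    have h12 : hw.Dd A₀ = Lat.D hw.prob Xf A₀ := rfl
    rw [h11, h12] at h0
    linarith only [h10, h2, h1, h0]
  · intro l ξ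
    have h1 : τ ξ - (tm (x 0) (y 0)).comp zc ξ - (tm (x 1) (y 1)).comp zc ξ
        = tm (x 2) (y 2) (zc ξ) := by
      rw [hτ, LinearMap.comp_apply, LinearMap.comp_apply, LinearMap.comp_apply, hzadd]
      abel
    rw [h1]
    exact he₃ l _
  · intro l ξ h
    rw [sup_eq_right.2 (hAE₂ l)] at h
    exact hK₁ l _ h
  · intro l ξ h
    rw [sup_eq_right.2 (hAE₁ l)] at h
    exact hK₂ l _ h
  · intro l
    rw [sup_eq_right.2 (hAE₂ l), sup_eq_right.2 (hAE₁ l)]
    have h1 := hD l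
    have h2 : 0 ≤ s * Real.log 2521 := by (clear * -; positivity)
    have h3 : hw.Dd (E₁ l ⊔ E₂ l) = Lat.D hw.prob Xf (E₁ l ⊔ E₂ l) := rfl
    have h4 : hw.Dd (A l) = Lat.D hw.prob Xf (A l) := rfl
    rw [h3, h4] at h1
    linarith only [h2, h1]
  · intro l
    rw [sup_eq_right.2 (hAE₂ l), sup_eq_right.2 (hAE₁ l)]
    exact hI l
  · have h1 : (slots (Q 0) ⊔ slots (Q 1)) ⊓ ((slots (Q 0) ⊔ slots (Q 2)) ⊓
        (slots (Q 1) ⊔ slots (Q 2))) ≤ (δ.N2 a a').comap τ ⊔ 𝓛 := by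
      refine le_trans ?_ hslot
      rintro ξ ⟨h1, h2, h3⟩ i
      exact hQ i ⟨slots_sup _ _ h1 i, slots_sup _ _ h2 i, slots_sup _ _ h3 i⟩
    refine (Submodule.finrank_mono h1).trans ?_
    have h8 := Submodule.finrank_add_le_finrank_add_finrank ((δ.N2 a a').comap τ) 𝓛
    omega
  · -- trivial functionals kill `Zab`
    intro ξ hξ z hz
    have hT : TrivPsi δ a a' b b' (zc ξ) := by
      have h1 : (2 : F)⁻¹ • (smB (zc ξ 0) (δ.g b) + smB (zc ξ 1) (δ.g b')) ∈ δ.Nn a := hξ.1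
      have h2 : (2 : F)⁻¹ • (smB (zc ξ 2) (δ.g b) + smB (zc ξ 3) (δ.g b')) ∈ δ.Nn a' := hξ.2
      have e : ∀ Q : Matrix K K F, (2 : F) • (2 : F)⁻¹ • Q = Q := fun Q => by
        rw [smul_smul, mul_inv_cancel₀ ann_two_ne, one_smul]
      refine ⟨⟨0, 0, ?_⟩, ⟨0, 0, ?_⟩⟩
      · rw [zero_smul, zero_smul, sub_zero, sub_zero]
        have h3 := Submodule.smul_mem _ (2 : F) h1
        rw [e] at h3
        unfold smm
        rw [Fin.sum_univ_two]
        exact h3
      · rw [zero_smul, zero_smul, sub_zero, sub_zero]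
        have h3 := Submodule.smul_mem _ (2 : F) h2
        rw [e] at h3
        unfold smm
        rw [Fin.sum_univ_two]
        exact h3
    rw [zc_spec]
    exact hz _ hT
  · intro ξ hξ
    have hT : ¬ TrivPsi δ a a' b b' (zc ξ) := by
      intro hT
      apply hξ
      intro z hz
      rw [zc_spec]
      exact hz _ hT
    have h1 : ‖coefT ψ w (δ.g b) (δ.g b') (zc ξ)‖ < η₀ := by
      by_contra hcon
      exact hbad ⟨zc ξ, not_lt.1 hcon, hT⟩
    have h2 : coefT ψ w (δ.g b) (δ.g b') (zc ξ) = ∑ ω, (hw.prob.w ω : ℂ) *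
        ψ (ξ (tv (δ.g b) (δ.g b') ω.val.1 ω.val.2)) := by
      unfold coefT
      rw [sum_prob hw (fun B B' => ψ (∑ i, zc ξ i ⬝ᵥ tv (δ.g b) (δ.g b') B B' i))]
      refine Finset.sum_congr rfl fun ω _ => ?_
      rw [zc_spec ξ]
    rw [← h2]
    exact h1.le

end Pair

end TVF

end Vale.Agent.P060.HW
end
end

section

/-!
# P060/HW: the TV theorem for one pair of types in a frame

`tvLoc_core` : the one pair theorem `TVF.tv_pair` for a good pair of types of a frame.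
-/

open scoped Classical

noncomputable section

set_option linter.unusedSectionVars false

namespace Vale.Agent.P060.HW

namespace TVF

open Module

section Inst

variable {N d : ℕ} {E P Om : Type} [Fintype E] [Fintype P] [Fintype Om] [NeZero N]

lemma GA_sup (fr : Frame N d E Om) (p : Lin N → Co E P Om → F) (h : Ext fr p) (a a' : Ty N d)
    (A B : Finset (Lin N)) :
    GA fr p h a a' A ⊔ GA fr p h a a' B = GA fr p h a a' (A ∪ B) := by
  rw [← GA_sup_Gp]
  refine le_antisymm (sup_le le_sup_left (sup_le le_sup_right ?_))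
    (sup_le le_sup_left (le_trans le_sup_left le_sup_right))
  exact (N2_le_GA fr p h a a' A).trans le_sup_left

lemma lin_mem (c : Ty N d) (s : Fin 3) : lin c s ∈ lins c := an_mem_lins.2 ⟨s, rfl⟩

lemma lin_eq_of_mem {c c' : Ty N d} {s : Fin 3} (h : lin c s ∈ lins c') :
    lin c s = lin c' s := by
  obtain ⟨s', hs⟩ := an_mem_lins.1 h
  have h1 : s' = s := (Prod.ext_iff.1 hs).1
  rw [← hs, h1]

lemma univ_three : ∀ i j q : Fin 3, i ≠ j → i ≠ q → j ≠ q →
    (Finset.univ : Finset (Fin 3)) = {i, j, q} := by decide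

lemma gv_three (p : Lin N → Co E P Om → F) (c : Ty N d) {i j q : Fin 3} (hij : i ≠ j)
    (hiq : i ≠ q) (hjq : j ≠ q) : p (lin c i) + p (lin c j) + p (lin c q) = gv p c := by
  unfold gv
  rw [univ_three i j q hij hiq hjq, Finset.sum_insert (by simp [hij, hiq]),
    Finset.sum_insert (by simp [hjq]), Finset.sum_singleton, add_assoc]

lemma lins_three (c : Ty N d) {i j q : Fin 3} (hij : i ≠ j) (hiq : i ≠ q) (hjq : j ≠ q) :
    lins c = {lin c i, lin c j, lin c q} := by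
  unfold lins
  rw [univ_three i j q hij hiq hjq, Finset.image_insert, Finset.image_insert,
    Finset.image_singleton]

lemma card_lins_le (c : Ty N d) : (lins c).card ≤ 3 := by
  unfold lins
  refine Finset.card_image_le.trans ?_
  simp

lemma card_lins2_le (β : Ty N d × Ty N d) : (lins2 β).card ≤ 6 := by
  unfold lins2
  have h1 := Finset.card_union_le (lins β.1) (lins β.2)
  have h2 := card_lins_le β.1
  have h3 := card_lins_le β.2
  omega

lemma finrank_linsp_le (p : Lin N → Co E P Om → F) (S : Finset (Lin N)) :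
    finrank F (linsp p S) ≤ S.card := by
  unfold linsp
  have h1 : p '' (S : Set (Lin N)) = ((S.image p : Finset (Co E P Om → F)) : Set _) := by
    rw [Finset.coe_image]
  rw [h1]
  exact (finrank_span_finset_le_card _).trans Finset.card_image_le

/-- the only type in `D` through the line `u` -/
lemma cross_eq {D : Finset (Lin N)} {a a' b b' : Ty N d}
    (hcross : ∀ c : Ty N d, lins c ⊆ D → c = a ∨ c = a' ∨ c = b ∨ c = b') {u : Lin N}
    (ha : u ∉ lins a) (ha' : u ∉ lins a') (hb' : u ∉ lins b') {c : Ty N d} (hc : lins c ⊆ D)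
    (hu : u ∈ lins c) : c = b := by
  rcases hcross c hc with rfl | rfl | rfl | rfl
  · exact absurd hu ha
  · exact absurd hu ha'
  · rfl
  · exact absurd hu hb'

/-- known rows on one of two lines of the type `b` -/
lemma mem_rws2 {fr : Frame N d E Om} {a b : Ty N d} {T : Finset (Lin N)} {i j : Fin 3} {w : Om}
    (hw : w ∈ rws fr a T (lin b i) ∪ rws fr a T (lin b j)) :
    w ∈ fr.U a ∨ ∃ c, w ∈ fr.U c ∧ (lin b i ∈ lins c ∨ lin b j ∈ lins c) ∧ lins c ⊆ T := by
  rcases Finset.mem_union.1 hw with hw | hw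
  · rcases (Finset.mem_filter.1 hw).2 with h | ⟨c, h1, h2, h3⟩
    · exact Or.inl h
    · exact Or.inr ⟨c, h1, Or.inl h2, h3⟩
  · rcases (Finset.mem_filter.1 hw).2 with h | ⟨c, h1, h2, h3⟩
    · exact Or.inl h
    · exact Or.inr ⟨c, h1, Or.inr h2, h3⟩

/-- The rows known from two different pasts. -/
lemma rws_inter (fr : Frame N d E Om) (a b : Ty N d) {i j : Fin 3} {T T' D : Finset (Lin N)}
    (hT : ∀ u, u ∈ T → u ∈ T' → u ∈ D)
    (hc : ∀ c : Ty N d, lins c ⊆ D → (lin b i ∈ lins c ∨ lin b j ∈ lins c) → c = b) :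
    (rws fr a T (lin b i) ∪ rws fr a T (lin b j)) ∩
      (rws fr a T' (lin b i) ∪ rws fr a T' (lin b j)) ⊆ fr.U a ∪ fr.U b := by
  intro w hw
  obtain ⟨h1, h2⟩ := Finset.mem_inter.1 hw
  rcases mem_rws2 h1 with h1 | ⟨c, c1, c2, c3⟩
  · exact Finset.mem_union_left _ h1
  rcases mem_rws2 h2 with h2 | ⟨c', c1', c2', c3'⟩
  · exact Finset.mem_union_left _ h2
  by_cases hcc : c = c'
  · subst hcc
    have : c = b := hc c (fun u hu => hT u (c3 hu) (c3' hu)) c2
    rw [← this]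
    exact Finset.mem_union_right _ c1
  · exfalso
    have e : ∀ c : Ty N d, (lin b i ∈ lins c ∨ lin b j ∈ lins c) → ∃ s, ln b s = ln c s := by
      rintro c (h | h)
      · exact ⟨i, (Prod.ext_iff.1 (lin_eq_of_mem h)).2⟩
      · exact ⟨j, (Prod.ext_iff.1 (lin_eq_of_mem h)).2⟩
    obtain ⟨s, hs⟩ := e c c2
    obtain ⟨s', hs'⟩ := e c' c2'
    exact Finset.disjoint_left.1 (fr.star_disj b c c' s s' hcc hs hs') c1 c1'

/-- The rows known from the lines of the four types. -/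
lemma rws_D (fr : Frame N d E Om) (a b : Ty N d) {D : Finset (Lin N)} {u : Lin N}
    (hc : ∀ c : Ty N d, lins c ⊆ D → u ∈ lins c → c = b) :
    rws fr a D u ⊆ fr.U a ∪ fr.U b := by
  intro w hw
  rcases (Finset.mem_filter.1 hw).2 with h | ⟨c, h1, h2, h3⟩
  · exact Finset.mem_union_left _ h
  · rw [hc c h3 h2] at h1
    exact Finset.mem_union_right _ h1

lemma single_inst {K : Type*} (i₁ i₂ : DecidableEq K) (w : K) :
    @Pi.single K (fun _ => F) _ i₁ w 1 = @Pi.single K (fun _ => F) _ i₂ w 1 := by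
  have : i₁ = i₂ := Subsingleton.elim _ _
  subst this
  rfl

/-- Vectors supported on zero rows give trivial tensors. -/
lemma row_triv (fr : Frame N d E Om) (p : Lin N → Co E P Om → F) (h : Ext fr p) (a b : Ty N d)
    {z : Co E P Om → F} (hz : z ∈ rowsp (E := E) (P := P) (fr.U a ∪ fr.U b)) :
    smB z (gv p b) ∈ (dsg fr p h).Nn a := by
  have h1 : z = ∑ w ∈ fr.U a ∪ fr.U b, z (Sum.inr w) • (Pi.single (Sum.inr w) 1 : Co E P Om → F) := by
    funext k
    rw [Finset.sum_apply]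
    rcases k with k | k
    · rw [hz.1 k]
      refine (Finset.sum_eq_zero fun w _ => ?_).symm
      rw [Pi.smul_apply, Pi.single_eq_of_ne Sum.inl_ne_inr, smul_zero]
    · by_cases hk : k ∈ fr.U a ∪ fr.U b
      · rw [Finset.sum_eq_single k]
        · rw [Pi.smul_apply, Pi.single_eq_same, smul_eq_mul, mul_one]
        · intro w _ hwk
          rw [Pi.smul_apply, Pi.single_eq_of_ne (fun e => hwk (Sum.inr_injective e).symm),
            smul_zero]
        · intro h'; exact absurd hk h'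
      · rw [hz.2 k hk]
        refine (Finset.sum_eq_zero fun w hw => ?_).symm
        rw [Pi.smul_apply, Pi.single_eq_of_ne (fun e => hk (by
          rw [Sum.inr_injective e]; exact hw)), smul_zero]
  rw [h1, map_sum, LinearMap.sum_apply]
  refine Submodule.sum_mem _ fun w hw => ?_
  rw [map_smul, LinearMap.smul_apply]
  refine Submodule.smul_mem _ _ ?_
  rw [smB_apply]
  rcases Finset.mem_union.1 hw with hw | hw
  · refine Submodule.subset_span (Or.inl (Or.inr ⟨Sum.inr w, Finset.mem_image_of_mem _ hw,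
      gv p b, ?_⟩))
    exact congrArg (fun x => sm x (gv p b)) (single_inst _ _ _)
  · refine Submodule.subset_span (Or.inl (Or.inl ⟨b, Sum.inr w, Finset.mem_image_of_mem _ hw, ?_⟩))
    exact congrArg (fun x => sm x (gv p b)) (single_inst _ _ _)

/-- The known slots of two lines outside a past. -/
lemma rep_pair (fr : Frame N d E Om) (p : Lin N → Co E P Om → F) (h : Ext fr p)
    (a a' : Ty N d) {A T : Finset (Lin N)} (hA : A ⊆ T) (ha : lins2 (a, a') ⊆ A)
    (hS : LinearIndependent F (fun u : T => fun j : P => p u (Sum.inl (Sum.inr j))))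
    (hR : ∀ w, LinearIndependent F
      (fun u : (T ∪ rowLines fr w : Finset (Lin N)) => fun j : P => p u (Sum.inl (Sum.inr j))))
    {u v : Lin N} (huv : u ≠ v) (hu : u ∈ T) (hv : v ∈ T) (huA : u ∉ A) (hvA : v ∉ A)
    (z : Fin 4 → Co E P Om → F) (hmem : tm (p u) (p v) z ∈ GA fr p h a a' A) :
    (z 0 ∈ linsp p T ⊔ rowsp (rws fr a T u) ∧ z 1 ∈ linsp p T ⊔ rowsp (rws fr a T v)) ∧
    (z 2 ∈ linsp p T ⊔ rowsp (rws fr a' T u) ∧ z 3 ∈ linsp p T ⊔ rowsp (rws fr a' T v)) := by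
  obtain ⟨h1, h2⟩ := (mem_GA fr p h a a' A _).1 hmem
  exact ⟨grp_rep fr p h a hA ((Finset.subset_union_left).trans ha) hS hR huv hu hv huA hvA _ _ h1,
    grp_rep fr p h a' hA ((Finset.subset_union_right).trans ha) hS hR huv hu hv huA hvA _ _ h2⟩

/-- the tensors of a type -/
lemma tm_gv_mem (fr : Frame N d E Om) (p : Lin N → Co E P Om → F) (h : Ext fr p)
    (a a' b b' : Ty N d) {A : Finset (Lin N)} (hA : lins2 (b, b') ⊆ A)
    (z : Fin 4 → Co E P Om → F) : tm (gv p b) (gv p b') z ∈ GA fr p h a a' A := by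
  have key : ∀ (c : Ty N d) (x : Co E P Om → F), lins c ⊆ A → smB x (gv p c) ∈ Gl p A := by
    intro c x hc
    rw [gv_eq_sum_lins, map_sum]
    exact Submodule.sum_mem _ fun u hu => smB_mem_Gl p (hc hu) x
  have hb : lins b ⊆ A := (Finset.subset_union_left).trans hA
  have hb' : lins b' ⊆ A := (Finset.subset_union_right).trans hA
  refine Gp_le_GA fr p h a a' subset_rfl ?_
  exact ⟨Submodule.smul_mem _ _ (Submodule.add_mem _ (key b _ hb) (key b' _ hb')),
    Submodule.smul_mem _ _ (Submodule.add_mem _ (key b _ hb) (key b' _ hb'))⟩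

end Inst

/-- The TV theorem for one good pair of types. -/
theorem tvLoc_core (ψ : AddChar F ℂ) (hψ : ψ ≠ 0) {ε lam : ℝ} (hε : 0 < ε) (hlam : 0 ≤ lam) :
    ∃ d₀ > (0 : ℝ), ∃ η > (0 : ℝ), ∀ (D₀ N d : ℕ) (E P Om : Type) [Fintype E] [Fintype P]
    [Fintype Om] [NeZero N] (fr : Frame N d E Om) (p : Lin N → Co E P Om → F) (h : Ext fr p),
    (∀ κ : ℕ, κ ≤ 20 * Fintype.card P / (D₀ + 20) ^ 2 → Ev1 p κ) →
    30 ≤ Fintype.card P / (D₀ + 20) ^ 2 →
    (∀ w, 30 + (rowLines fr w).card ≤ Fintype.card P / (D₀ + 20) ^ 2) →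
    ∀ (a a' : Ty N d) (ι ι' : Bool), a ≠ a' →
    ∀ (Λ M : ℝ) (w : WL E P Om) (hw : PLaw (dsg fr p h) a a' ι ι' Λ M w) (β : Ty N d × Ty N d),
      GoodB hw D₀ lam d₀ β →
      tdist (dsg fr p h) a a' w β ≤ ε ∨ BadC ψ (dsg fr p h) a a' w η β := by
  obtain ⟨d₀, hd₀, η, hη, main⟩ := tv_pair ψ hψ hε hlam 48
  refine ⟨d₀, hd₀, η, hη, ?_⟩
  intro D₀ N d E P Om _ _ _ _ fr p h hEv h30 hrow a a' ι ι' haa Λ M w hw β hβ
  obtain ⟨b, b'⟩ := β
  obtain ⟨hbb, hdis, hcross, hD0, i, j, q, i', j', q', hij, hiq, hjq, hij', hiq', hjq', hal, S, hSs,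
    hSS, hSD, hSlam, hSmi⟩ := hβ
  dsimp only at hbb hcross hal hSmi
  obtain ⟨Fix, hFix⟩ : ∃ Fix, Fix = lins2 (a, a') := ⟨_, rfl⟩
  obtain ⟨Be, hBe⟩ : ∃ Be, Be = lins2 (b, b') := ⟨_, rfl⟩
  rw [← hFix] at hcross hD0 hSD hSlam hSmi hdis
  rw [← hBe] at hcross hD0 hSD hSlam hdis
  obtain ⟨m, hm⟩ : ∃ m, m = Fintype.card P / (D₀ + 20) ^ 2 := ⟨_, rfl⟩
  rw [← hm] at h30 hrow
  -- independence
  have hind : ∀ T : Finset (Lin N), T.card ≤ 20 * m →
      LinearIndependent F (fun u : T => fun j : P => p u (Sum.inl (Sum.inr j))) := by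
    intro T hT
    refine hEv (20 * m) ?_ T hT
    rw [hm]
    exact Nat.mul_div_le_mul_div_assoc _ _ _
  have hScard : ∀ l, (S l).card ≤ m := by
    intro l
    rw [hm]
    exact (Nat.le_div_iff_mul_le (by positivity)).2 (hSs l)
  have hDcard : (Fix ∪ Be).card ≤ 12 := by
    have h1 := Finset.card_union_le Fix Be
    have h2 : Fix.card ≤ 6 := by rw [hFix]; exact card_lins2_le _
    have h3 : Be.card ≤ 6 := by rw [hBe]; exact card_lins2_le _
    omega
  obtain ⟨D, hD⟩ : ∃ D, D = Fix ∪ Be := ⟨_, rfl⟩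
  rw [← hD] at hDcard hcross hSD
  have hTi : ∀ l, LinearIndependent F
      (fun u : (S l ∪ D : Finset (Lin N)) => fun j : P => p u (Sum.inl (Sum.inr j))) := by
    intro l
    refine hind _ ?_
    have h1 := Finset.card_union_le (S l) D
    have h2 := hScard l
    omega
  have hTRi : ∀ l w, LinearIndependent F
      (fun u : (S l ∪ D ∪ rowLines fr w : Finset (Lin N)) =>
        fun j : P => p u (Sum.inl (Sum.inr j))) := by
    intro l w
    refine hind _ ?_
    have h1 := Finset.card_union_le (S l) D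
    have h2 := hScard l
    have h3 := Finset.card_union_le (S l ∪ D) (rowLines fr w)
    have h4 := hrow w
    omega
  have hDi : LinearIndependent F
      (fun u : D => fun j : P => p u (Sum.inl (Sum.inr j))) := hind _ (by omega)
  have hDRi : ∀ w, LinearIndependent F
      (fun u : (D ∪ rowLines fr w : Finset (Lin N)) =>
        fun j : P => p u (Sum.inl (Sum.inr j))) := by
    intro w
    refine hind _ ?_
    have h3 := Finset.card_union_le D (rowLines fr w)
    have h4 := hrow w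
    omega
  have h3i : LinearIndependent F
      (fun u : (S 0 ∪ S 1 ∪ S 2 ∪ D : Finset (Lin N)) =>
        fun j : P => p u (Sum.inl (Sum.inr j))) := by
    refine hind _ ?_
    have h1 := Finset.card_union_le (S 0 ∪ S 1 ∪ S 2) D
    have h2 := Finset.card_union_le (S 0 ∪ S 1) (S 2)
    have h3 := Finset.card_union_le (S 0) (S 1)
    have h4 := hScard 0
    have h5 := hScard 1
    have h6 := hScard 2
    omega
  -- the lines
  have hBb : ∀ s, lin b s ∈ Be := fun s => by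
    rw [hBe]; exact Finset.mem_union_left _ (lin_mem b s)
  have hBb' : ∀ s, lin b' s ∈ Be := fun s => by
    rw [hBe]; exact Finset.mem_union_right _ (lin_mem b' s)
  have hbF : ∀ s, lin b s ∉ Fix := fun s => Finset.disjoint_left.1 hdis (hBb s)
  have hbF' : ∀ s, lin b' s ∉ Fix := fun s => Finset.disjoint_left.1 hdis (hBb' s)
  have hba : ∀ s, lin b s ∉ lins a := fun s hs => hbF s (by
    rw [hFix]; exact Finset.mem_union_left _ hs)
  have hba' : ∀ s, lin b s ∉ lins a' := fun s hs => hbF s (by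
    rw [hFix]; exact Finset.mem_union_right _ hs)
  have hb'a : ∀ s, lin b' s ∉ lins a := fun s hs => hbF' s (by
    rw [hFix]; exact Finset.mem_union_left _ hs)
  have hb'a' : ∀ s, lin b' s ∉ lins a' := fun s hs => hbF' s (by
    rw [hFix]; exact Finset.mem_union_right _ hs)
  have hbD : ∀ s, lin b s ∈ D := fun s => by rw [hD]; exact Finset.mem_union_right _ (hBb s)
  have hbD' : ∀ s, lin b' s ∈ D := fun s => by rw [hD]; exact Finset.mem_union_right _ (hBb' s)
  have hbS : ∀ l s, lin b s ∉ S l := fun l s hs => Finset.disjoint_left.1 (hSD l) hs (hbD s)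
  have hbS' : ∀ l s, lin b' s ∉ S l := fun l s hs => Finset.disjoint_left.1 (hSD l) hs (hbD' s)
  have hbb' : ∀ s, s ≠ q → lin b s ∉ lins b' := by
    intro s hs hmem
    exact hs (hal s s (lin_eq_of_mem hmem)).1
  have hb'b : ∀ s, s ≠ q' → lin b' s ∉ lins b := by
    intro s hs hmem
    exact hs (hal s s (lin_eq_of_mem hmem).symm).2
  have hcr : ∀ s, s ≠ q → ∀ c : Ty N d, lins c ⊆ D → lin b s ∈ lins c → c = b := fun s hs c hc hu =>
    cross_eq hcross (hba s) (hba' s) (hbb' s hs) hc hu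
  have hcross' : ∀ c : Ty N d, lins c ⊆ D → c = a ∨ c = a' ∨ c = b' ∨ c = b := by
    intro c hc
    rcases hcross c hc with h | h | h | h
    · exact Or.inl h
    · exact Or.inr (Or.inl h)
    · exact Or.inr (Or.inr (Or.inr h))
    · exact Or.inr (Or.inr (Or.inl h))
  have hcr' : ∀ s, s ≠ q' → ∀ c : Ty N d, lins c ⊆ D → lin b' s ∈ lins c → c = b' :=
    fun s hs c hc hu => cross_eq hcross' (hb'a s) (hb'a' s) (hb'b s hs) hc hu
  -- representations
  have hrep : ∀ s t s' t' : Fin 3, s ≠ t → s ≠ q → s' ≠ t' → s' ≠ q' → ∀ l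
      (z : Fin 4 → Co E P Om → F),
      tm (p (lin b s)) (p (lin b' s')) z ∈
        GA fr p h a a' (S l ∪ Fix ∪ {lin b q, lin b' q'} ∪ {lin b t, lin b' t'}) →
      (z 0 ∈ linsp p (S l ∪ D) ⊔ rowsp (rws fr a (S l ∪ D) (lin b s)) ∧
        z 1 ∈ linsp p (S l ∪ D) ⊔ rowsp (rws fr a (S l ∪ D) (lin b' s'))) ∧
      (z 2 ∈ linsp p (S l ∪ D) ⊔ rowsp (rws fr a' (S l ∪ D) (lin b s)) ∧
        z 3 ∈ linsp p (S l ∪ D) ⊔ rowsp (rws fr a' (S l ∪ D) (lin b' s'))) := by
    intro s t s' t' hst hsq hst' hsq' l z hz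
    refine rep_pair fr p h a a' ?_ ?_ (hTi l) (hTRi l) ?_ (Finset.mem_union_right _ (hbD s))
      (Finset.mem_union_right _ (hbD' s')) ?_ ?_ z hz
    · intro u hu
      simp only [Finset.mem_union, Finset.mem_insert, Finset.mem_singleton] at hu ⊢
      rcases hu with ((hu | hu) | (rfl | rfl)) | (rfl | rfl)
      · exact Or.inl hu
      · exact Or.inr (by rw [hD]; exact Finset.mem_union_left _ hu)
      · exact Or.inr (hbD q)
      · exact Or.inr (hbD' q')
      · exact Or.inr (hbD t)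
      · exact Or.inr (hbD' t')
    · intro u hu
      rw [← hFix] at hu
      simp only [Finset.mem_union]
      exact Or.inl (Or.inl (Or.inr hu))
    · intro e
      exact hbb' s hsq (by rw [e]; exact lin_mem b' s')
    · intro hu
      simp only [Finset.mem_union, Finset.mem_insert, Finset.mem_singleton] at hu
      rcases hu with ((hu | hu) | (hu | hu)) | (hu | hu)
      · exact hbS l s hu
      · exact hbF s hu
      · exact hsq (an_lin_inj hu)
      · exact hbb' s hsq (by rw [hu]; exact lin_mem b' q')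
      · exact hst (an_lin_inj hu)
      · exact hbb' s hsq (by rw [hu]; exact lin_mem b' t')
    · intro hu
      simp only [Finset.mem_union, Finset.mem_insert, Finset.mem_singleton] at hu
      rcases hu with ((hu | hu) | (hu | hu)) | (hu | hu)
      · exact hbS' l s' hu
      · exact hbF' s' hu
      · exact hb'b s' hsq' (by rw [hu]; exact lin_mem b q)
      · exact hsq' (an_lin_inj hu)
      · exact hb'b s' hsq' (by rw [hu]; exact lin_mem b t)
      · exact hst' (an_lin_inj hu)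
  have hTT : ∀ l k : Fin 3, l ≠ k → ∀ u, u ∈ S l ∪ D → u ∈ S k ∪ D → u ∈ D := by
    intro l k hlk u hu hu'
    rcases Finset.mem_union.1 hu with hu | hu
    · rcases Finset.mem_union.1 hu' with hu' | hu'
      · exact absurd hu' (Finset.disjoint_left.1 (hSS l k hlk) hu)
      · exact hu'
    · exact hu
  have hc1 : ∀ c : Ty N d, lins c ⊆ D → (lin b i ∈ lins c ∨ lin b j ∈ lins c) → c = b := by
    rintro c hc (hu | hu)
    · exact hcr i hiq c hc hu
    · exact hcr j hjq c hc hu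
  have hc2 : ∀ c : Ty N d, lins c ⊆ D → (lin b' i' ∈ lins c ∨ lin b' j' ∈ lins c) → c = b' := by
    rintro c hc (hu | hu)
    · exact hcr' i' hiq' c hc hu
    · exact hcr' j' hjq' c hc hu
  obtain ⟨RR, hRR⟩ : ∃ RR : Fin 3 → Fin 4 → Finset Om, RR = fun l =>
    ![rws fr a (S l ∪ D) (lin b i) ∪ rws fr a (S l ∪ D) (lin b j),
      rws fr a (S l ∪ D) (lin b' i') ∪ rws fr a (S l ∪ D) (lin b' j'),
      rws fr a' (S l ∪ D) (lin b i) ∪ rws fr a' (S l ∪ D) (lin b j),
      rws fr a' (S l ∪ D) (lin b' i') ∪ rws fr a' (S l ∪ D) (lin b' j')] := ⟨_, rfl⟩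
  obtain ⟨R₀, hR₀⟩ : ∃ R₀ : Fin 4 → Finset Om, R₀ =
    ![fr.U a ∪ fr.U b, fr.U a ∪ fr.U b', fr.U a' ∪ fr.U b, fr.U a' ∪ fr.U b'] := ⟨_, rfl⟩
  have hRR0 : ∀ k l l', l ≠ l' → RR l k ∩ RR l' k ⊆ R₀ k := by
    intro k l l' hll
    rw [hRR, hR₀]
    fin_cases k
    · exact rws_inter fr a b (hTT l l' hll) hc1
    · exact rws_inter fr a b' (hTT l l' hll) hc2
    · exact rws_inter fr a' b (hTT l l' hll) hc1
    · exact rws_inter fr a' b' (hTT l l' hll) hc2
  have hsl : ∀ (l : Fin 3) {R R' : Finset Om} {z : Co E P Om → F}, R ⊆ R' →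
      z ∈ linsp p (S l ∪ D) ⊔ rowsp R → z ∈ linsp p (S l ∪ D) ⊔ rowsp R' := fun l _ _ _ hR hz =>
    slot_mono subset_rfl hR hz
  have hE12 : ∀ l, GA fr p h a a' (S l ∪ Fix ∪ {lin b q, lin b' q'} ∪ {lin b i, lin b' i'}) ⊔
      GA fr p h a a' (S l ∪ Fix ∪ {lin b q, lin b' q'} ∪ {lin b j, lin b' j'})
      = GA fr p h a a' (S l ∪ Fix ∪ {lin b q, lin b' q'} ∪ {lin b i, lin b' i'} ∪
        {lin b j, lin b' j'}) := by
    intro l
    rw [GA_sup]
    congr 1
    ext u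
    simp only [Finset.mem_union]
    tauto
  have hE12' : ∀ l, S l ∪ Fix ∪ {lin b q, lin b' q'} ∪ {lin b i, lin b' i'} ∪
        {lin b j, lin b' j'} = S l ∪ Fix ∪ Be := by
    intro l
    have e1 := lins_three b hij hiq hjq
    have e2 := lins_three b' hij' hiq' hjq'
    rw [hBe]
    unfold lins2
    rw [e1, e2]
    ext u
    simp only [Finset.mem_union, Finset.mem_insert, Finset.mem_singleton]
    tauto
  refine main (Co E P Om) (Ty N d) (dsg fr p h) a a' b b' ι ι' Λ M w hw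
    ![p (lin b i), p (lin b j), p (lin b q)] ![p (lin b' i'), p (lin b' j'), p (lin b' q')]
    (gv_three p b hij hiq hjq) (gv_three p b' hij' hiq' hjq')
    (fun l => GA fr p h a a' (S l ∪ Fix ∪ {lin b q, lin b' q'}))
    (fun l => GA fr p h a a' (S l ∪ Fix ∪ {lin b q, lin b' q'} ∪ {lin b i, lin b' i'}))
    (fun l => GA fr p h a a' (S l ∪ Fix ∪ {lin b q, lin b' q'} ∪ {lin b j, lin b' j'}))
    (fun l => N2_le_GA fr p h a a' _)
    (fun l => GA_mono fr p h a a' Finset.subset_union_left)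
    (fun l => GA_mono fr p h a a' Finset.subset_union_left)
    (fun l z => Gp_le_GA fr p h a a' Finset.subset_union_right (tm_mem_Gp p _ _ z))
    (fun l z => Gp_le_GA fr p h a a' Finset.subset_union_right (tm_mem_Gp p _ _ z))
    (fun l z => Gp_le_GA fr p h a a' Finset.subset_union_right (tm_mem_Gp p _ _ z))
    (fun l k => linsp p (S l ∪ D) ⊔ rowsp (RR l k)) ?_ ?_ ?_ ?_
    (linsp p D) (fun k => rowsp (R₀ k)) ?_ ?_ ?_
    (GA fr p h a a' Fix) (GA fr p h a a' (Fix ∪ Be)) (N2_le_GA fr p h a a' _)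
    (GA_mono fr p h a a' Finset.subset_union_left) ?_ hD0 ?_
  · intro l z hz
    obtain ⟨⟨h0, h1⟩, h2, h3⟩ := hrep i j i' j' hij hiq hij' hiq' l z hz
    intro k
    rw [hRR]
    fin_cases k
    · exact hsl l Finset.subset_union_left h0
    · exact hsl l Finset.subset_union_left h1
    · exact hsl l Finset.subset_union_left h2
    · exact hsl l Finset.subset_union_left h3
  · intro l z hz
    obtain ⟨⟨h0, h1⟩, h2, h3⟩ := hrep j i j' i' hij.symm hjq hij'.symm hjq' l z hz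
    intro k
    rw [hRR]
    fin_cases k
    · exact hsl l Finset.subset_union_right h0
    · exact hsl l Finset.subset_union_right h1
    · exact hsl l Finset.subset_union_right h2
    · exact hsl l Finset.subset_union_right h3
  · intro l
    rw [hE12, hE12']
    have h1 := hSlam l
    have h2 : Lat.D hw.prob Xf (GA fr p h a a' (S l ∪ Fix)) ≤
        Lat.D hw.prob Xf (GA fr p h a a' (S l ∪ Fix ∪ {lin b q, lin b' q'})) :=
      Lat.D_mono _ _ (GA_mono fr p h a a' Finset.subset_union_left)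
    unfold PLaw.dA PLaw.Dd at h1
    unfold PLaw.Dd
    linarith only [h2, h1]
  · intro l
    rw [hE12]
    exact hSmi l
  · intro k
    exact slot_three (p := p) (S := S) (D₀ := D) (R := fun l => RR l k) (R₀ := R₀ k) hSS h3i
      (fun l l' hll => hRR0 k l l' hll)
  · intro z hz
    have h0 := hz 0
    have h1 := hz 1
    have h2 := hz 2
    have h3 := hz 3
    rw [hR₀] at h0 h1 h2 h3
    exact ⟨Submodule.smul_mem _ _ (Submodule.add_mem _ (row_triv fr p h a b h0)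
      (row_triv fr p h a b' h1)), Submodule.smul_mem _ _ (Submodule.add_mem _
      (row_triv fr p h a' b h2) (row_triv fr p h a' b' h3))⟩
  · have h1 := finrank_linsp_le p D
    omega
  · intro z
    exact tm_gv_mem fr p h a a' b b' (by rw [← hBe]; exact Finset.subset_union_right) z
  · intro z hz
    obtain ⟨g1, g2⟩ := (mem_GA fr p h a a' _ _).1 hz
    have hFD : Fix ⊆ D := by rw [hD]; exact Finset.subset_union_left
    have haF : lins a ⊆ Fix := by rw [hFix]; exact Finset.subset_union_left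
    have haF' : lins a' ⊆ Fix := by rw [hFix]; exact Finset.subset_union_right
    have hlb : lins b ⊆ D := by
      rw [hD, hBe]; exact Finset.subset_union_left.trans Finset.subset_union_right
    have hlb' : lins b' ⊆ D := by
      rw [hD, hBe]; exact Finset.subset_union_right.trans Finset.subset_union_right
    obtain ⟨r0, r1⟩ := typ_rep fr p h a b b' hFD haF hDi hDRi hlb hlb' (lin_mem b i)
      (lin_mem b' i') (hbb' i hiq) (hb'b i' hiq') (hbF i) (hbF' i') _ _ g1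
    obtain ⟨r2, r3⟩ := typ_rep fr p h a' b b' hFD haF' hDi hDRi hlb hlb' (lin_mem b i)
      (lin_mem b' i') (hbb' i hiq) (hb'b i' hiq') (hbF i) (hbF' i') _ _ g2
    intro k
    rw [hR₀]
    fin_cases k
    · exact slot_mono subset_rfl (rws_D fr a b (hcr i hiq)) r0
    · exact slot_mono subset_rfl (rws_D fr a b' (hcr' i' hiq')) r1
    · exact slot_mono subset_rfl (rws_D fr a' b (hcr i hiq)) r2
    · exact slot_mono subset_rfl (rws_D fr a' b' (hcr' i' hiq')) r3

end TVF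

/-- The TV theorem for one good pair of types (statement in `TVIface`). -/
theorem tvLoc : TvLoc := fun ψ hψ _ _ hε hlam => TVF.tvLoc_core ψ hψ hε hlam

end Vale.Agent.P060.HW
end
end

section

/-!
# P060/HW: the final form

From a finite graph with `hadwigerNumber G < chromaticNumber G` to a graph without `K_(t+1)` minor
which is not `t`-colourable.
-/

open scoped Classical

noncomputable section

namespace Vale.Agent.P060.HW.FinalForm

open Vale.Agent.P060

lemma minor_le {n t : ℕ} {G : SimpleGraph (Fin n)} (h : HasCliqueMinor G t) : t ≤ n := by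
  obtain ⟨B, hB, hd⟩ := h
  choose f hf using fun i => (hB i).1
  have hinj : Function.Injective f := by
    intro i j hij
    by_contra hne
    exact Set.disjoint_left.1 (hd i j hne).1 (hf i) (hij ▸ hf j)
  simpa using Fintype.card_le_of_injective f hinj

lemma bddAbove {n : ℕ} (G : SimpleGraph (Fin n)) : BddAbove {t : ℕ | HasCliqueMinor G t} :=
  ⟨n, fun _ h => minor_le h⟩

lemma one_minor {n : ℕ} (G : SimpleGraph (Fin n)) (hn : 0 < n) : HasCliqueMinor G 1 := by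
  refine ⟨fun _ => {⟨0, hn⟩}, fun _ => ⟨⟨_, rfl⟩, ?_⟩, fun i j hij => absurd (Subsingleton.elim i j) hij⟩
  exact SimpleGraph.Connected.mk (SimpleGraph.Preconnected.of_subsingleton)

theorem final_form (h : ∃ n : ℕ, ∃ G : SimpleGraph (Fin n), G.indepNum ≤ 2 ∧
      (hadwigerNumber G : ℕ∞) < G.chromaticNumber) :
    ∃ (n t : ℕ) (G : SimpleGraph (Fin n)), 1 ≤ t ∧ G.indepNum ≤ 2 ∧ ¬ HasCliqueMinor G (t + 1) ∧
      ¬ G.Colorable t ∧ (hadwigerNumber G : ℕ∞) < G.chromaticNumber := by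
  obtain ⟨n, G, hG, hlt⟩ := h
  refine ⟨n, hadwigerNumber G, G, ?_, hG, ?_, ?_, hlt⟩
  · have hn : 0 < n := by
      rcases Nat.eq_zero_or_pos n with rfl | hn
      · exfalso
        have h0 : G.chromaticNumber = 0 := by simp
        rw [h0] at hlt
        exact absurd hlt (by simp)
      · exact hn
    exact le_csSup (bddAbove G) (one_minor G hn)
  · intro h
    have := le_csSup (bddAbove G) h
    exact absurd this (by unfold hadwigerNumber; omega)
  · intro h
    exact absurd hlt (not_lt.2 h.chromaticNumber_le)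

end Vale.Agent.P060.HW.FinalForm
end
end
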