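import Mathlib
import Vale.Agent.P060.Bd3.B1

set_option linter.all false

section

/-!
# P060/HW: the entropy deficit of a typical member of a family of subspaces

`sum_Dc_le_four`: for a family `G : Fin n → Submodule K V` such that no three of
`G i`, `⨆_{j ∈ T} G j`, `⨆_{j ∈ T'} G j` (`T`, `T'` disjoint, `i ∉ T ∪ T'`) have a common part
beyond `A`, the sum of the deficits `Dc (G i | A)` is at most four times the total deficit.
`mass_Dc_le`: the weighted form for a large family of subspaces with a conflict relation.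
-/

open Module

namespace Vale.Agent.P060.HW

namespace Lat

section K2

variable {K V Ω : Type*} [Field K] [Finite K] [AddCommGroup V] [Module K V]
  [FiniteDimensional K V] [Fintype Ω] (P : FinProb Ω) (X : Ω → Dual K V)

/-- the part of `G i` determined by `A` and the `G j`, `j ∈ T` -/
def shr {ι : Type*} (G : ι → Submodule K V) (A : Submodule K V) (i : ι) (T : Finset ι) :
    Submodule K V := (G i ⊔ A) ⊓ (T.sup G ⊔ A)

omit [Finite K] [FiniteDimensional K V] in
/-- telescoping inside a finite set of indices -/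
theorem sum_Dc_finset {n : ℕ} (G : Fin n → Submodule K V) (A : Submodule K V)
    (S : Finset (Fin n)) :
    ∑ i ∈ S, Dc P X (G i) ((S.filter (· < i)).sup G ⊔ A) = D P X (S.sup G ⊔ A) - D P X A := by
  induction S using Finset.induction_on_max with
  | empty => simp
  | insert a S ha ih =>
    have haS : a ∉ S := fun h => lt_irrefl _ (ha a h)
    rw [Finset.sum_insert haS]
    have h1 : (insert a S).filter (· < a) = S := by
      ext x
      simp only [Finset.mem_filter, Finset.mem_insert]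
      constructor
      · rintro ⟨rfl | h, h'⟩
        · exact absurd h' (lt_irrefl _)
        · exact h
      · intro h
        exact ⟨Or.inr h, ha x h⟩
    have h2 : ∀ i ∈ S, (insert a S).filter (· < i) = S.filter (· < i) := by
      intro i hi
      ext x
      simp only [Finset.mem_filter, Finset.mem_insert]
      constructor
      · rintro ⟨rfl | h, h'⟩
        · exact absurd (h'.trans (ha i hi)) (lt_irrefl _)
        · exact ⟨h, h'⟩
      · rintro ⟨h, h'⟩
        exact ⟨Or.inr h, h'⟩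
    rw [h1, Finset.sum_congr rfl fun i hi => by rw [h2 i hi], ih, Finset.sup_insert]
    unfold Dc
    rw [← sup_assoc]
    ring

omit [Finite K] in
/-- conditioning on the `G j`, `j ∈ T`, costs at most the deficit of the shared part -/
theorem Dc_cond_ge {ι : Type*} (G : ι → Submodule K V) (A : Submodule K V) (i : ι)
    (T : Finset ι) :
    Dc P X (G i) A - (D P X (shr G A i T) - D P X A) ≤ Dc P X (G i) (T.sup G ⊔ A) := by
  have h1 := D_supermodular P X (G i ⊔ A) (T.sup G ⊔ A)
  have h2 : G i ⊔ A ⊔ (T.sup G ⊔ A) = G i ⊔ (T.sup G ⊔ A) := by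
    rw [sup_assoc]
    congr 1
    rw [← sup_assoc, sup_comm A, sup_assoc, sup_idem]
  rw [h2] at h1
  unfold Dc shr
  linarith

/-- the shared parts with disjoint sets are independent over `A` -/
theorem shr_add_le {ι : Type*} (G : ι → Submodule K V) (A : Submodule K V) (i : ι)
    (T T' : Finset ι) (h : (G i ⊔ A) ⊓ (T.sup G ⊔ A) ⊓ (T'.sup G ⊔ A) ≤ A) :
    (D P X (shr G A i T) - D P X A) + (D P X (shr G A i T') - D P X A) ≤ Dc P X (G i) A := by
  have h1 := D_supermodular P X (shr G A i T) (shr G A i T')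
  have h2 : D P X (shr G A i T ⊔ shr G A i T') ≤ D P X (G i ⊔ A) :=
    D_mono P X (sup_le inf_le_left inf_le_left)
  have h3 : D P X (shr G A i T ⊓ shr G A i T') ≤ D P X A := by
    refine D_mono P X (le_trans ?_ h)
    exact le_inf (le_trans inf_le_left (le_of_eq rfl)) (le_trans inf_le_right inf_le_right)
  unfold Dc
  linarith

/-- the indices before `i` with the same colour -/
def same {n : ℕ} (c : Fin n → Bool) (i : Fin n) : Finset (Fin n) :=
  Finset.univ.filter fun j => j < i ∧ c j = c i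

/-- change the colour of `i` -/
def flipAt {n : ℕ} (i : Fin n) (c : Fin n → Bool) : Fin n → Bool := Function.update c i (!c i)

lemma flipAt_flipAt {n : ℕ} (i : Fin n) (c : Fin n → Bool) : flipAt i (flipAt i c) = c := by
  funext j
  unfold flipAt
  by_cases h : j = i
  · subst h
    simp
  · simp [h]

lemma disjoint_same {n : ℕ} (c : Fin n → Bool) (i : Fin n) :
    Disjoint (same c i) (same (flipAt i c) i) := by
  rw [Finset.disjoint_left]
  intro j h1 h2
  simp only [same, Finset.mem_filter, Finset.mem_univ, true_and] at h1 h2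
  obtain ⟨h3, h4⟩ := h1
  obtain ⟨-, h5⟩ := h2
  unfold flipAt at h5
  rw [Function.update_of_ne h3.ne, Function.update_self] at h5
  rw [h4] at h5
  cases hc : c i <;> simp [hc] at h5

lemma notMem_same {n : ℕ} (c : Fin n → Bool) (i : Fin n) : i ∉ same c i := by
  simp [same]

/-- **The deficits of a family in general position.** -/
theorem sum_Dc_le_four {n : ℕ} (G : Fin n → Submodule K V) (A : Submodule K V)
    (h3 : ∀ (i : Fin n) (T T' : Finset (Fin n)), Disjoint T T' → i ∉ T → i ∉ T' →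
      (G i ⊔ A) ⊓ (T.sup G ⊔ A) ⊓ (T'.sup G ⊔ A) ≤ A) :
    ∑ i, Dc P X (G i) A ≤ 4 * Dc P X (Finset.univ.sup G) A := by
  classical
  set W := Dc P X (Finset.univ.sup G) A with hW
  set φ : Fin n → (Fin n → Bool) → ℝ := fun i c => D P X (shr G A i (same c i)) - D P X A with hφ
  -- averaging the shared part
  have e1 : ∀ i, 2 * ∑ c, φ i c ≤ (2 ^ n : ℝ) * Dc P X (G i) A := by
    intro i
    have h1 : ∑ c, φ i (flipAt i c) = ∑ c, φ i c :=
      Fintype.sum_equiv ⟨flipAt i, flipAt i, flipAt_flipAt i, flipAt_flipAt i⟩ _ _ fun _ => rfl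
    calc 2 * ∑ c, φ i c = ∑ c, (φ i c + φ i (flipAt i c)) := by
          rw [Finset.sum_add_distrib, h1]; ring
      _ ≤ ∑ _c : Fin n → Bool, Dc P X (G i) A := by
          refine Finset.sum_le_sum fun c _ => ?_
          exact shr_add_le P X G A i _ _
            (h3 i _ _ (disjoint_same c i) (notMem_same c i) (notMem_same _ i))
      _ = (2 ^ n : ℝ) * Dc P X (G i) A := by
          rw [Finset.sum_const, Finset.card_univ, nsmul_eq_mul]
          simp
  -- each colouring
  have e2 : ∀ c : Fin n → Bool, ∑ i, (Dc P X (G i) A - φ i c) ≤ 2 * W := by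
    intro c
    have h1 : ∀ i, Dc P X (G i) A - φ i c ≤ Dc P X (G i) ((same c i).sup G ⊔ A) :=
      fun i => Dc_cond_ge P X G A i (same c i)
    have h2 : ∀ b : Bool, ∑ i ∈ Finset.univ.filter (fun i => c i = b),
        Dc P X (G i) ((same c i).sup G ⊔ A) ≤ W := by
      intro b
      set S := Finset.univ.filter (fun i => c i = b) with hS
      have h4 : ∀ i ∈ S, same c i = S.filter (· < i) := by
        intro i hi
        ext j
        simp only [hS, Finset.mem_filter, Finset.mem_univ, true_and] at hi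
        simp only [same, hS, Finset.mem_filter, Finset.mem_univ, true_and, hi]
        exact and_comm
      rw [Finset.sum_congr rfl fun i hi => by rw [h4 i hi], sum_Dc_finset, hW]
      unfold Dc
      have := D_mono P X (sup_le_sup_right (Finset.sup_mono (f := G) (Finset.subset_univ S)) A)
      linarith
    calc ∑ i, (Dc P X (G i) A - φ i c) ≤ ∑ i, Dc P X (G i) ((same c i).sup G ⊔ A) :=
          Finset.sum_le_sum fun i _ => h1 i
      _ = ∑ b : Bool, ∑ i ∈ Finset.univ.filter (fun i => c i = b),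
            Dc P X (G i) ((same c i).sup G ⊔ A) := by
          rw [Finset.sum_fiberwise]
      _ ≤ ∑ _b : Bool, W := Finset.sum_le_sum fun b _ => h2 b
      _ = 2 * W := by simp
  have e3 : ∑ c : Fin n → Bool, ∑ i, (Dc P X (G i) A - φ i c) ≤ (2 ^ n : ℝ) * (2 * W) := by
    refine (Finset.sum_le_sum fun c _ => e2 c).trans ?_
    rw [Finset.sum_const, Finset.card_univ, nsmul_eq_mul]
    simp
  have e4 : ∑ c : Fin n → Bool, ∑ i, (Dc P X (G i) A - φ i c)
      = (2 ^ n : ℝ) * ∑ i, Dc P X (G i) A - ∑ i, ∑ c, φ i c := by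
    rw [Finset.sum_comm, Finset.mul_sum, ← Finset.sum_sub_distrib]
    refine Finset.sum_congr rfl fun i _ => ?_
    rw [Finset.sum_sub_distrib, Finset.sum_const, Finset.card_univ, nsmul_eq_mul]
    simp
  have e5 : 2 * ∑ i, ∑ c, φ i c ≤ (2 ^ n : ℝ) * ∑ i, Dc P X (G i) A := by
    rw [Finset.mul_sum, Finset.mul_sum]
    exact Finset.sum_le_sum fun i _ => e1 i
  rw [e4] at e3
  have h2n : (0 : ℝ) < 2 ^ n := by positivity
  have e6 : (2 ^ n : ℝ) * ∑ i, Dc P X (G i) A ≤ (2 ^ n : ℝ) * (4 * W) := by linarith only [e5, e3]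
  exact le_of_mul_le_mul_left e6 h2n

/-- greedy choice of pairwise non-conflicting elements -/
theorem exists_conflict_free {B : Type*} [DecidableEq B] (Q : B → ℝ) (hQ : ∀ b, 0 ≤ Q b)
    (R : B → B → Prop) [DecidableRel R] (hR : ∀ b b', R b b' → R b' b) {δ : ℝ}
    (hδ0 : 0 ≤ δ) (M : ℕ) (S : Finset B)
    (hδ : ∀ b ∈ S, ∑ b' ∈ S.filter (fun b' => R b b' ∨ b' = b), Q b' ≤ δ)
    (hM : M * δ < ∑ b ∈ S, Q b) :
    ∃ f : Fin M → B, Function.Injective f ∧ (∀ i, f i ∈ S) ∧
      ∀ i j, i ≠ j → ¬ R (f i) (f j) := by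
  induction M generalizing S with
  | zero => exact ⟨Fin.elim0, fun i => i.elim0, fun i => i.elim0, fun i => i.elim0⟩
  | succ M ih =>
    have hne : S.Nonempty := by
      by_contra h
      rw [Finset.not_nonempty_iff_eq_empty] at h
      subst h
      have : (0 : ℝ) ≤ ((M + 1 : ℕ) : ℝ) * δ := by positivity
      simp only [Finset.sum_empty] at hM
      linarith
    obtain ⟨b0, hb0⟩ := hne
    set S' := S.filter (fun b' => ¬ (R b0 b' ∨ b' = b0)) with hS'
    have h1 : ∑ b ∈ S, Q b = ∑ b' ∈ S.filter (fun b' => R b0 b' ∨ b' = b0), Q b'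
        + ∑ b' ∈ S', Q b' := (Finset.sum_filter_add_sum_filter_not S _ _).symm
    have h2 : (M : ℝ) * δ < ∑ b ∈ S', Q b := by
      have := hδ b0 hb0
      push_cast at hM
      rw [h1] at hM
      linarith
    obtain ⟨f, f1, f2, f3⟩ := ih S' (fun b hb => by
      refine le_trans ?_ (hδ b (Finset.mem_of_mem_filter b hb))
      exact Finset.sum_le_sum_of_subset_of_nonneg
        (Finset.filter_subset_filter _ (Finset.filter_subset _ _)) fun b' _ _ => hQ b') h2
    have f4 : ∀ i, ¬ R b0 (f i) ∧ f i ≠ b0 := by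
      intro i
      have := (Finset.mem_filter.1 (f2 i)).2
      push Not at this
      exact this
    refine ⟨Fin.cons b0 f, ?_, ?_, ?_⟩
    · rw [Fin.cons_injective_iff]
      refine ⟨?_, f1⟩
      rintro ⟨i, hi⟩
      exact (f4 i).2 hi
    · intro i
      refine Fin.cases ?_ (fun i => ?_) i
      · exact hb0
      · exact Finset.mem_of_mem_filter _ (f2 i)
    · intro i j
      refine Fin.cases ?_ (fun i => ?_) i
      · refine Fin.cases ?_ (fun j => ?_) j
        · intro h; exact absurd rfl h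
        · intro _
          exact (f4 j).1
      · refine Fin.cases ?_ (fun j => ?_) j
        · intro _ h
          exact (f4 i).1 (hR _ _ h)
        · intro h
          exact f3 i j fun h' => h (by rw [h'])

/-- **The weighted form.**  If every conflict-free family of `M` members of `S` is in general
position over `A`, then the members of `S` of deficit larger than `lam` have mass at most `M δ`,
where `δ` bounds the mass of a conflict neighbourhood and `4 𝒦 ≤ M lam`. -/
theorem mass_Dc_le {B : Type*} [DecidableEq B] (Q : B → ℝ) (hQ : ∀ b, 0 ≤ Q b)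
    (R : B → B → Prop) [DecidableRel R] (hR : ∀ b b', R b b' → R b' b)
    (G : B → Submodule K V) (A : Submodule K V) (S : Finset B) {δ lam 𝒦 : ℝ} (hδ0 : 0 ≤ δ)
    {M : ℕ} (hM : 0 < M)
    (hδ : ∀ b ∈ S, ∑ b' ∈ S.filter (fun b' => R b b' ∨ b' = b), Q b' ≤ δ)
    (h3 : ∀ f : Fin M → B, Function.Injective f → (∀ i, f i ∈ S) →
      (∀ i j, i ≠ j → ¬ R (f i) (f j)) →
      ∀ (i : Fin M) (T T' : Finset (Fin M)), Disjoint T T' → i ∉ T → i ∉ T' →
        (G (f i) ⊔ A) ⊓ (T.sup (fun j => G (f j)) ⊔ A) ⊓ (T'.sup (fun j => G (f j)) ⊔ A) ≤ A)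
    (hK : D P X ⊤ - D P X A ≤ 𝒦) (hlam : 4 * 𝒦 ≤ M * lam) :
    ∑ b ∈ S with lam < Dc P X (G b) A, Q b ≤ M * δ := by
  by_contra hcon
  push Not at hcon
  obtain ⟨f, f1, f2, f3⟩ := exists_conflict_free Q hQ R hR hδ0 M
    (S.filter fun b => lam < Dc P X (G b) A) (fun b hb => by
      refine le_trans ?_ (hδ b (Finset.mem_of_mem_filter b hb))
      exact Finset.sum_le_sum_of_subset_of_nonneg
        (Finset.filter_subset_filter _ (Finset.filter_subset _ _)) fun b' _ _ => hQ b') hcon
  have h1 := sum_Dc_le_four P X (fun i => G (f i)) A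
    (h3 f f1 (fun i => Finset.mem_of_mem_filter _ (f2 i)) f3)
  have h2 : Dc P X (Finset.univ.sup fun i => G (f i)) A ≤ 𝒦 := by
    have := D_mono P X (le_top : (Finset.univ.sup fun i => G (f i)) ⊔ A ≤ ⊤)
    unfold Dc
    linarith only [this, hK]
  have h4 : (M : ℝ) * lam < ∑ i, Dc P X (G (f i)) A := by
    have h5 : ∀ i, lam < Dc P X (G (f i)) A := fun i => (Finset.mem_filter.1 (f2 i)).2
    calc (M : ℝ) * lam = ∑ _i : Fin M, lam := by simp
      _ < ∑ i, Dc P X (G (f i)) A := by
          refine Finset.sum_lt_sum (fun i _ => (h5 i).le) ⟨⟨0, hM⟩, Finset.mem_univ _, h5 _⟩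
  linarith only [h4, h2, h1, hlam]

omit [Finite K] [FiniteDimensional K V] in
/-- telescoping in the reverse order -/
theorem sum_Dc_finset_rev {n : ℕ} (G : Fin n → Submodule K V) (A : Submodule K V)
    (S : Finset (Fin n)) :
    ∑ i ∈ S, Dc P X (G i) ((S.filter (i < ·)).sup G ⊔ A) = D P X (S.sup G ⊔ A) - D P X A := by
  induction S using Finset.induction_on_min with
  | empty => simp
  | insert a S ha ih =>
    have haS : a ∉ S := fun h => lt_irrefl _ (ha a h)
    rw [Finset.sum_insert haS]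
    have h1 : (insert a S).filter (a < ·) = S := by
      ext x
      simp only [Finset.mem_filter, Finset.mem_insert]
      constructor
      · rintro ⟨rfl | h, h'⟩
        · exact absurd h' (lt_irrefl _)
        · exact h
      · intro h
        exact ⟨Or.inr h, ha x h⟩
    have h2 : ∀ i ∈ S, (insert a S).filter (i < ·) = S.filter (i < ·) := by
      intro i hi
      ext x
      simp only [Finset.mem_filter, Finset.mem_insert]
      constructor
      · rintro ⟨rfl | h, h'⟩
        · exact absurd (h'.trans (ha i hi)) (lt_irrefl _)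
        · exact ⟨h, h'⟩
      · rintro ⟨h, h'⟩
        exact ⟨Or.inr h, h'⟩
    rw [h1, Finset.sum_congr rfl fun i hi => by rw [h2 i hi], ih, Finset.sup_insert]
    unfold Dc
    rw [← sup_assoc]
    ring

/-- **Lemma (H).**  If no part of `E t` beyond `A` is determined both by the earlier and by the
later members, the sum of the deficits is at most twice the total deficit. -/
theorem sum_Dc_le_two {n : ℕ} (E : Fin n → Submodule K V) (A : Submodule K V)
    (h : ∀ t : Fin n, (E t ⊔ A) ⊓ ((Finset.univ.filter (· < t)).sup E ⊔ A)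
      ⊓ ((Finset.univ.filter (t < ·)).sup E ⊔ A) ≤ A) :
    ∑ t, Dc P X (E t) A ≤ 2 * Dc P X (Finset.univ.sup E) A := by
  have e1 := sum_Dc_finset P X E A Finset.univ
  have e2 := sum_Dc_finset_rev P X E A Finset.univ
  have e3 : ∀ t : Fin n, Dc P X (E t) A ≤
      Dc P X (E t) ((Finset.univ.filter (· < t)).sup E ⊔ A)
        + Dc P X (E t) ((Finset.univ.filter (t < ·)).sup E ⊔ A) := by
    intro t
    have h1 := Dc_cond_ge P X E A t (Finset.univ.filter (· < t))
    have h2 := Dc_cond_ge P X E A t (Finset.univ.filter (t < ·))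
    have h4 := shr_add_le P X E A t _ _ (h t)
    linarith
  have e4 := Finset.sum_le_sum fun t (_ : t ∈ Finset.univ) => e3 t
  rw [Finset.sum_add_distrib, e1, e2] at e4
  unfold Dc at e4 ⊢
  linarith

/-- **The weighted form of (H).**  Let every conflict-free family of `M` members of `S` contain a
subfamily of `M'` members in general position over `A`.  Then the members of `S` of deficit larger
than `lam` have mass at most `M δ`, where `δ` bounds the mass of a conflict neighbourhood and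
`2 𝒦 < M' lam`. -/
theorem mass_Dc_le_two {B : Type*} [DecidableEq B] (Q : B → ℝ) (hQ : ∀ b, 0 ≤ Q b)
    (R : B → B → Prop) [DecidableRel R] (hR : ∀ b b', R b b' → R b' b)
    (G : B → Submodule K V) (A : Submodule K V) (S : Finset B) {δ lam 𝒦 : ℝ} (hδ0 : 0 ≤ δ)
    {M M' : ℕ}
    (hδ : ∀ b ∈ S, ∑ b' ∈ S.filter (fun b' => R b b' ∨ b' = b), Q b' ≤ δ)
    (h3 : ∀ f : Fin M → B, Function.Injective f → (∀ i, f i ∈ S) →
      (∀ i j, i ≠ j → ¬ R (f i) (f j)) →
      ∃ g : Fin M' → Fin M, Function.Injective g ∧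
        ∀ t : Fin M', (G (f (g t)) ⊔ A)
          ⊓ ((Finset.univ.filter (· < t)).sup (fun j => G (f (g j))) ⊔ A)
          ⊓ ((Finset.univ.filter (t < ·)).sup (fun j => G (f (g j))) ⊔ A) ≤ A)
    (hK : D P X ⊤ - D P X A ≤ 𝒦) (hlam : 2 * 𝒦 < M' * lam) :
    ∑ b ∈ S with lam < Dc P X (G b) A, Q b ≤ M * δ := by
  by_contra hcon
  push Not at hcon
  obtain ⟨f, f1, f2, f3⟩ := exists_conflict_free Q hQ R hR hδ0 M
    (S.filter fun b => lam < Dc P X (G b) A) (fun b hb => by
      refine le_trans ?_ (hδ b (Finset.mem_of_mem_filter b hb))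
      exact Finset.sum_le_sum_of_subset_of_nonneg
        (Finset.filter_subset_filter _ (Finset.filter_subset _ _)) fun b' _ _ => hQ b') hcon
  obtain ⟨g, -, g2⟩ := h3 f f1 (fun i => Finset.mem_of_mem_filter _ (f2 i)) f3
  have h1 := sum_Dc_le_two P X (fun t => G (f (g t))) A g2
  have h2 : Dc P X (Finset.univ.sup fun t => G (f (g t))) A ≤ 𝒦 := by
    have := D_mono P X (le_top : (Finset.univ.sup fun t => G (f (g t))) ⊔ A ≤ ⊤)
    unfold Dc
    linarith
  have h4 : (M' : ℝ) * lam ≤ ∑ t, Dc P X (G (f (g t))) A := by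
    calc (M' : ℝ) * lam = ∑ _t : Fin M', lam := by simp
      _ ≤ ∑ t, Dc P X (G (f (g t))) A :=
          Finset.sum_le_sum fun t _ => (Finset.mem_filter.1 (f2 (g t))).2.le
  linarith

/-- `mass_Dc_le_two` with an arbitrary top space `T0`. -/
theorem mass_Dc_le_two' {B : Type*} [DecidableEq B] (Q : B → ℝ) (hQ : ∀ b, 0 ≤ Q b)
    (R : B → B → Prop) [DecidableRel R] (hR : ∀ b b', R b b' → R b' b)
    (G : B → Submodule K V) (A T0 : Submodule K V) (S : Finset B) {δ lam 𝒦 : ℝ} (hδ0 : 0 ≤ δ)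
    {M M' : ℕ}
    (hδ : ∀ b ∈ S, ∑ b' ∈ S.filter (fun b' => R b b' ∨ b' = b), Q b' ≤ δ)
    (h3 : ∀ f : Fin M → B, Function.Injective f → (∀ i, f i ∈ S) →
      (∀ i j, i ≠ j → ¬ R (f i) (f j)) →
      ∃ g : Fin M' → Fin M, Function.Injective g ∧
        ∀ t : Fin M', (G (f (g t)) ⊔ A)
          ⊓ ((Finset.univ.filter (· < t)).sup (fun j => G (f (g j))) ⊔ A)
          ⊓ ((Finset.univ.filter (t < ·)).sup (fun j => G (f (g j))) ⊔ A) ≤ A)
    (hA : A ≤ T0) (hG : ∀ b, G b ≤ T0)
    (hK : D P X T0 - D P X A ≤ 𝒦) (hlam : 2 * 𝒦 < M' * lam) :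
    ∑ b ∈ S with lam < Dc P X (G b) A, Q b ≤ M * δ := by
  by_contra hcon
  push Not at hcon
  obtain ⟨f, f1, f2, f3⟩ := exists_conflict_free Q hQ R hR hδ0 M
    (S.filter fun b => lam < Dc P X (G b) A) (fun b hb => by
      refine le_trans ?_ (hδ b (Finset.mem_of_mem_filter b hb))
      exact Finset.sum_le_sum_of_subset_of_nonneg
        (Finset.filter_subset_filter _ (Finset.filter_subset _ _)) fun b' _ _ => hQ b') hcon
  obtain ⟨g, -, g2⟩ := h3 f f1 (fun i => Finset.mem_of_mem_filter _ (f2 i)) f3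
  have h1 := sum_Dc_le_two P X (fun t => G (f (g t))) A g2
  have h2 : Dc P X (Finset.univ.sup fun t => G (f (g t))) A ≤ 𝒦 := by
    have := D_mono P X (sup_le (Finset.sup_le fun t _ => hG (f (g t))) hA :
      (Finset.univ.sup fun t => G (f (g t))) ⊔ A ≤ T0)
    unfold Dc
    linarith
  have h4 : (M' : ℝ) * lam ≤ ∑ t, Dc P X (G (f (g t))) A := by
    calc (M' : ℝ) * lam = ∑ _t : Fin M', lam := by simp
      _ ≤ ∑ t, Dc P X (G (f (g t))) A :=
          Finset.sum_le_sum fun t _ => (Finset.mem_filter.1 (f2 (g t))).2.le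
  linarith

end K2

end Lat

end Vale.Agent.P060.HW
end

section

/-!
# P060/HW: the extraction event
-/

open scoped Classical

noncomputable section

set_option linter.unusedSectionVars false

namespace Vale.Agent.P060.HW

open Module

variable {N d : ℕ} {E P Om : Type} [Fintype E] [Fintype P] [Fintype Om] [NeZero N]

/-- The part of a line vector on the coordinates in `P`. -/
def pP (p : Lin N → Co E P Om → F) (u : Lin N) : P → F := fun j => p u (Sum.inl (Sum.inr j))

/-- The lines in `T \ S` are independent modulo the lines in `S`, on the coordinates in `P`. -/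
def IndOver (p : Lin N → Co E P Om → F) (S T : Finset (Lin N)) : Prop :=
  LinearIndependent F (fun u : (T \ S : Finset (Lin N)) =>
    (Submodule.span F (Set.range fun v : S => pP p v)).mkQ (pP p u))

/-- GX: for every set `S` of at most `|P| / 2` lines, every line-disjoint family of pairs whose new
lines are dependent modulo the lines in `S` has at most `x0` members. -/
def EvX (d : ℕ) (p : Lin N → Co E P Om → F) (x0 : ℕ) : Prop :=
  ∀ S : Finset (Lin N), 2 * S.card ≤ Fintype.card P →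
    ∀ 𝓕 : Finset (Ty N d × Ty N d), LD 𝓕 → (∀ β ∈ 𝓕, β.1 ≠ β.2) →
      (∀ β ∈ 𝓕, ¬ IndOver p S (lins2 β)) → 𝓕.card ≤ x0

/-- EXISTENCE of GX: `x0` depends only on `D₀`. -/
def ExX : Prop := ∀ D₀ : ℕ, ∃ x0 : ℕ, ∀ (d : ℕ) (E : Type) [Fintype E],
  ∃ θ > (0 : ℝ), ∃ k₀ : ℕ, ∀ (N : ℕ) (P Om : Type) [Fintype P] [Fintype Om] [NeZero N]
  (fr : Frame N d E Om), k₀ ≤ Fintype.card P → Sizes fr P D₀ θ 0 →
  Rare {p : Dz fr P | ¬ EvX d p.1 x0}

end Vale.Agent.P060.HW
end
end

section

/-!
# P060/HW: the deficit of a typical pair of types over an arbitrary past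

`K2_frame`: over every past `A` in general position, the pairs of types whose lines have a large
entropy deficit given `A` have small mass.
-/

open scoped Classical

noncomputable section

set_option linter.unusedSectionVars false

namespace Vale.Agent.P060.HW

open Module

namespace K2F

variable {N d : ℕ} {E P Om : Type} [Fintype E] [Fintype P] [Fintype Om] [NeZero N]

/-- Independence of the lines in `S` on the coordinates in `P`. -/
def LI (p : Lin N → Co E P Om → F) (S : Finset (Lin N)) : Prop :=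
  LinearIndependent F (fun u : S => fun j : P => p u (Sum.inl (Sum.inr j)))

lemma LI.mono {p : Lin N → Co E P Om → F} {S S' : Finset (Lin N)} (h : LI p S') (hs : S ⊆ S') :
    LI p S := by
  have := LinearIndependent.comp h (fun u : S => (⟨u.1, hs u.2⟩ : S'))
    (fun u v huv => Subtype.ext (by simpa using huv))
  exact this

/-- adding lines which are independent modulo `S` -/
lemma LI.union {p : Lin N → Co E P Om → F} {S T : Finset (Lin N)} (h : LI p S)
    (hT : IndOver p S T) : LI p (S ∪ T) := by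
  have hST : S ∪ T = S ∪ (T \ S) := by rw [Finset.union_sdiff_self_eq_union]
  unfold LI
  rw [Fintype.linearIndependent_iff]
  intro g hg
  set G : Lin N → F := fun u => if hu : u ∈ S ∪ T then g ⟨u, hu⟩ else 0 with hG
  have hGg : ∀ u : (S ∪ T : Finset (Lin N)), G u = g u := by
    intro u
    rw [hG]; simp only
    rw [dif_pos u.2]
  have h1 : ∑ u ∈ S ∪ T, G u • pP p u = 0 := by
    rw [← Finset.sum_coe_sort (S ∪ T) (fun u => G u • pP p u), ← hg]
    exact Finset.sum_congr rfl fun u _ => by rw [hGg u]; rfl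
  rw [hST, Finset.sum_union Finset.disjoint_sdiff] at h1
  have h2 : ∀ u ∈ T \ S, G u = 0 := by
    have h3 : ∑ u ∈ T \ S, G u • (Submodule.span F (Set.range fun v : S => pP p v)).mkQ (pP p u)
        = 0 := by
      have h4 : ∑ u ∈ S, G u • pP p u ∈ Submodule.span F (Set.range fun v : S => pP p v) :=
        Submodule.sum_mem _ fun u hu => Submodule.smul_mem _ _
          (Submodule.subset_span ⟨⟨u, hu⟩, rfl⟩)
      have h5 := congrArg (Submodule.span F (Set.range fun v : S => pP p v)).mkQ h1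
      have h4' : (Submodule.span F (Set.range fun v : S => pP p v)).mkQ
          (∑ u ∈ S, G u • pP p u) = 0 := (Submodule.Quotient.mk_eq_zero _).2 h4
      rw [map_add, map_zero, h4', zero_add, map_sum] at h5
      rw [← h5]
      exact Finset.sum_congr rfl fun u _ => by rw [map_smul]
    intro u hu
    have h6 := Fintype.linearIndependent_iff.1 hT (fun v : (T \ S : Finset (Lin N)) => G v) (by
      rw [← h3, ← Finset.sum_coe_sort (T \ S)]) ⟨u, hu⟩
    exact h6
  have h7 : ∑ u ∈ S, G u • pP p u = 0 := by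
    rw [Finset.sum_eq_zero (s := T \ S) fun u hu => by rw [h2 u hu, zero_smul], add_zero] at h1
    exact h1
  have h8 : ∀ u ∈ S, G u = 0 := by
    intro u hu
    have h6 := Fintype.linearIndependent_iff.1 h (fun v : S => G v) (by
      rw [← h7, ← Finset.sum_coe_sort S]; rfl) ⟨u, hu⟩
    exact h6
  intro u
  rw [← hGg u]
  rcases Finset.mem_union.1 u.2 with hu | hu
  · exact h8 u hu
  · by_cases hus : (u : Lin N) ∈ S
    · exact h8 u hus
    · exact h2 u (Finset.mem_sdiff.2 ⟨hu, hus⟩)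

/-- the lines of the rows, with an additional empty row -/
def RL (fr : Frame N d E Om) : Option Om → Finset (Lin N)
  | none => ∅
  | some w => rowLines fr w

/-- the lines of a finite family of pairs -/
def UL {m : ℕ} (f : Fin m → Ty N d × Ty N d) : Finset (Lin N) :=
  Finset.univ.biUnion fun t => lins2 (f t)

lemma card_lins_le (c : Ty N d) : (lins c).card ≤ 3 := by
  unfold lins
  exact Finset.card_image_le.trans (by simp)

lemma card_lins2_le (β : Ty N d × Ty N d) : (lins2 β).card ≤ 6 := by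
  unfold lins2
  refine (Finset.card_union_le _ _).trans ?_
  have h1 := card_lins_le β.1
  have h2 := card_lins_le β.2
  omega

lemma card_UL_le {m : ℕ} (f : Fin m → Ty N d × Ty N d) : (UL f).card ≤ 6 * m := by
  unfold UL
  refine Finset.card_biUnion_le.trans ?_
  refine (Finset.sum_le_sum fun t _ => card_lins2_le (f t)).trans ?_
  rw [Finset.sum_const, Finset.card_univ, Fintype.card_fin, smul_eq_mul, mul_comm]

/-- **Greedy extraction.** -/
theorem extract (fr : Frame N d E Om) (p : Lin N → Co E P Om → F) {x0 M M' : ℕ}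
    (hX : EvX d p x0) (A : Finset (Lin N)) (hA : ∀ w, LI p (A ∪ RL fr w))
    (hcard : ∀ w, 2 * (A.card + 6 * M' + (RL fr w).card) ≤ Fintype.card P)
    (hM : M' + (Fintype.card Om + 1) * x0 ≤ M) (f : Fin M → Ty N d × Ty N d)
    (hf : Function.Injective f) (hne : ∀ i, (f i).1 ≠ (f i).2)
    (hdis : ∀ i j, i ≠ j → Disjoint (lins2 (f i)) (lins2 (f j))) :
    ∀ m ≤ M', ∃ g : Fin m → Fin M, Function.Injective g ∧
      ∀ w, LI p (A ∪ UL (fun t => f (g t)) ∪ RL fr w) := by
  intro m
  induction m with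
  | zero =>
    intro _
    refine ⟨Fin.elim0, fun i => i.elim0, fun w => ?_⟩
    have : UL (fun t : Fin 0 => f (Fin.elim0 t)) = ∅ := by
      unfold UL; simp
    rw [this, Finset.union_empty]
    exact hA w
  | succ m ih =>
    intro hm
    obtain ⟨g, g1, g2⟩ := ih (by omega)
    set U := UL (fun t => f (g t)) with hU
    set Sw : Option Om → Finset (Lin N) := fun w => A ∪ U ∪ RL fr w with hSw
    have hUc : U.card ≤ 6 * m := card_UL_le _
    have hSc : ∀ w, 2 * (Sw w).card ≤ Fintype.card P := by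
      intro w
      have h1 := Finset.card_union_le (A ∪ U) (RL fr w)
      have h2 := Finset.card_union_le A U
      have h3 := hcard w
      rw [hSw]; simp only
      omega
    -- bad indices for the row `w`
    set Bw : Option Om → Finset (Fin M) :=
      fun w => Finset.univ.filter fun i => ¬ IndOver p (Sw w) (lins2 (f i)) with hBw
    have hBc : ∀ w, (Bw w).card ≤ x0 := by
      intro w
      have h1 := hX (Sw w) (hSc w) ((Bw w).image f) (by
        intro β hβ β' hβ' hne'
        obtain ⟨i, hi, rfl⟩ := Finset.mem_image.1 hβ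
        obtain ⟨j, hj, rfl⟩ := Finset.mem_image.1 hβ'
        exact hdis i j fun h => hne' (by rw [h])) (by
        intro β hβ
        obtain ⟨i, hi, rfl⟩ := Finset.mem_image.1 hβ
        exact hne i) (by
        intro β hβ
        obtain ⟨i, hi, rfl⟩ := Finset.mem_image.1 hβ
        exact (Finset.mem_filter.1 hi).2)
      rwa [Finset.card_image_of_injective _ hf] at h1
    have hex : ∃ i : Fin M, i ∉ Finset.univ.image g ∪ Finset.univ.biUnion Bw := by
      by_contra hcon
      push Not at hcon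
      have h1 : (Finset.univ : Finset (Fin M)).card
          ≤ (Finset.univ.image g ∪ Finset.univ.biUnion Bw).card :=
        Finset.card_le_card fun i _ => hcon i
      have h2 := Finset.card_union_le (Finset.univ.image g) (Finset.univ.biUnion Bw)
      have h3 : (Finset.univ.image g).card ≤ m := Finset.card_image_le.trans (by simp)
      have h4 : (Finset.univ.biUnion Bw).card ≤ (Fintype.card Om + 1) * x0 := by
        refine Finset.card_biUnion_le.trans ((Finset.sum_le_sum fun w _ => hBc w).trans ?_)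
        rw [Finset.sum_const, Finset.card_univ, Fintype.card_option, smul_eq_mul]
      rw [Finset.card_univ, Fintype.card_fin] at h1
      omega
    obtain ⟨i, hi⟩ := hex
    rw [Finset.mem_union, not_or] at hi
    obtain ⟨hi1, hi2⟩ := hi
    have hi3 : ∀ w, IndOver p (Sw w) (lins2 (f i)) := by
      intro w
      by_contra h'
      exact hi2 (Finset.mem_biUnion.2 ⟨w, Finset.mem_univ _,
        Finset.mem_filter.2 ⟨Finset.mem_univ _, h'⟩⟩)
    refine ⟨Fin.cons i g, ?_, fun w => ?_⟩
    · rw [Fin.cons_injective_iff]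
      refine ⟨?_, g1⟩
      rintro ⟨t, ht⟩
      exact hi1 (Finset.mem_image.2 ⟨t, Finset.mem_univ _, ht⟩)
    · have h1 : LI p (Sw w ∪ lins2 (f i)) := (g2 w).union (hi3 w)
      refine h1.mono ?_
      have h2 : UL (fun t => f ((Fin.cons i g : Fin (m + 1) → Fin M) t)) ⊆ U ∪ lins2 (f i) := by
        intro u hu
        obtain ⟨t, -, ht⟩ := Finset.mem_biUnion.1 hu
        refine Fin.cases ?_ (fun t => ?_) t ht
        · intro h'
          exact Finset.mem_union_right _ h'
        · intro h'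
          exact Finset.mem_union_left _ (Finset.mem_biUnion.2 ⟨t, Finset.mem_univ _, h'⟩)
      intro u hu
      rw [hSw]
      simp only [Finset.mem_union] at hu ⊢
      rcases hu with (hu | hu) | hu
      · exact Or.inl (Or.inl (Or.inl hu))
      · rcases Finset.mem_union.1 (h2 hu) with h' | h'
        · exact Or.inl (Or.inl (Or.inr h'))
        · exact Or.inr h'
      · exact Or.inl (Or.inr hu)

/-- types through a line -/
lemma card_types_le (u : Lin N) : (Finset.univ.filter fun c : Ty N d => u ∈ lins c).card ≤ d := by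
  have h1 : (Finset.univ.filter fun c : Ty N d => u ∈ lins c)
      ⊆ Finset.univ.image (fun l : Fin d => ((u.2 - ((u.1.val * l.val : ℕ) : ZMod N), l) : Ty N d)) := by
    intro c hc
    rw [Finset.mem_filter] at hc
    obtain ⟨s, hs⟩ := an_mem_lins.1 hc.2
    refine Finset.mem_image.2 ⟨c.2, Finset.mem_univ _, ?_⟩
    have h2 : u.1 = s := by rw [← hs]; rfl
    have h3 : u.2 = ln c s := by rw [← hs]; rfl
    refine Prod.ext ?_ rfl
    rw [h2, h3]
    unfold Combi.ln
    simp
  exact (Finset.card_le_card h1).trans (Finset.card_image_le.trans (by simp))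

lemma card_Ty : Fintype.card (Ty N d) = N * d := by
  rw [Fintype.card_prod, ZMod.card, Fintype.card_fin]

/-- mass of the pairs meeting a line -/
lemma mass_line_le {ρ : Ty N d × Ty N d → ℝ} {M₀ : ℝ} (hM₀ : 0 ≤ M₀) (hρ : TCoup M₀ ρ) (u : Lin N) :
    ∑ β ∈ Finset.univ.filter (fun β : Ty N d × Ty N d => u ∈ lins2 β), ρ β ≤ 2 * M₀ / N := by
  have hN : (0 : ℝ) < N := by
    have := NeZero.pos N
    exact_mod_cast this
  rcases Nat.eq_zero_or_pos d with hd | hd
  · subst hd
    have : (Finset.univ.filter (fun β : Ty N 0 × Ty N 0 => u ∈ lins2 β)) = ∅ := by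
      apply Finset.eq_empty_of_forall_notMem
      intro β _
      exact β.1.2.elim0
    rw [this, Finset.sum_empty]
    positivity
  · have hd' : (0 : ℝ) < d := by exact_mod_cast hd
    have hT : (Fintype.card (Ty N d) : ℝ) = N * d := by rw [card_Ty]; push_cast; ring
    set B := Finset.univ.filter fun c : Ty N d => u ∈ lins c with hB
    have hBc : (B.card : ℝ) ≤ d := by exact_mod_cast card_types_le u
    have h1 : ∑ β ∈ Finset.univ.filter (fun β : Ty N d × Ty N d => u ∈ lins2 β), ρ β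
        ≤ ∑ β ∈ B ×ˢ (Finset.univ : Finset (Ty N d)), ρ β
          + ∑ β ∈ (Finset.univ : Finset (Ty N d)) ×ˢ B, ρ β := by
      refine le_trans (Finset.sum_le_sum_of_subset_of_nonneg (t := B ×ˢ Finset.univ ∪
        Finset.univ ×ˢ B) ?_ fun β _ _ => hρ.nonneg β) ?_
      · intro β hβ
        rw [Finset.mem_filter] at hβ
        rcases Finset.mem_union.1 hβ.2 with h' | h'
        · exact Finset.mem_union_left _ (Finset.mem_product.2
            ⟨Finset.mem_filter.2 ⟨Finset.mem_univ _, h'⟩, Finset.mem_univ _⟩)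
        · exact Finset.mem_union_right _ (Finset.mem_product.2
            ⟨Finset.mem_univ _, Finset.mem_filter.2 ⟨Finset.mem_univ _, h'⟩⟩)
      · rw [← Finset.sum_union_inter]
        have : 0 ≤ ∑ β ∈ B ×ˢ (Finset.univ : Finset (Ty N d)) ∩ Finset.univ ×ˢ B, ρ β :=
          Finset.sum_nonneg fun β _ => hρ.nonneg β
        linarith only [this]
    have h2 : ∑ β ∈ B ×ˢ (Finset.univ : Finset (Ty N d)), ρ β ≤ M₀ / N := by
      rw [Finset.sum_product]
      calc ∑ b ∈ B, ∑ b', ρ (b, b') ≤ ∑ b ∈ B, M₀ / (N * d) := by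
            refine Finset.sum_le_sum fun b _ => ?_
            rw [le_div_iff₀ (by positivity), ← hT]
            exact hρ.left b
        _ = B.card * (M₀ / (N * d)) := by rw [Finset.sum_const, nsmul_eq_mul]
        _ ≤ d * (M₀ / (N * d)) := mul_le_mul_of_nonneg_right hBc (by positivity)
        _ = M₀ / N := by field_simp
    have h3 : ∑ β ∈ (Finset.univ : Finset (Ty N d)) ×ˢ B, ρ β ≤ M₀ / N := by
      rw [Finset.sum_product_right]
      calc ∑ b' ∈ B, ∑ b, ρ (b, b') ≤ ∑ b' ∈ B, M₀ / (N * d) := by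
            refine Finset.sum_le_sum fun b _ => ?_
            rw [le_div_iff₀ (by positivity), ← hT]
            exact hρ.right b
        _ = B.card * (M₀ / (N * d)) := by rw [Finset.sum_const, nsmul_eq_mul]
        _ ≤ d * (M₀ / (N * d)) := mul_le_mul_of_nonneg_right hBc (by positivity)
        _ = M₀ / N := by field_simp
    calc _ ≤ M₀ / N + M₀ / N := h1.trans (add_le_add h2 h3)
      _ = 2 * M₀ / N := by ring

lemma sum_biUnion_le' {ι α : Type*} [DecidableEq α] (s : Finset ι) (t : ι → Finset α) (f : α → ℝ)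
    (hf : ∀ a, 0 ≤ f a) : ∑ a ∈ s.biUnion t, f a ≤ ∑ i ∈ s, ∑ a ∈ t i, f a := by
  induction s using Finset.induction_on with
  | empty => simp
  | insert i s hi ih =>
    rw [Finset.biUnion_insert, Finset.sum_insert hi]
    have h1 := Finset.sum_union_inter (s₁ := t i) (s₂ := s.biUnion t) (f := f)
    have h2 : 0 ≤ ∑ a ∈ t i ∩ s.biUnion t, f a := Finset.sum_nonneg fun a _ => hf a
    linarith

/-- mass of the pairs meeting a pair -/
lemma mass_meet_le {ρ : Ty N d × Ty N d → ℝ} (hρ : TCoup 8 ρ) (β : Ty N d × Ty N d)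
    (S : Finset (Ty N d × Ty N d)) (hS : ∀ β' ∈ S, ¬ Disjoint (lins2 β) (lins2 β')) :
    ∑ β' ∈ S, ρ β' ≤ 96 / N := by
  have hN : (0 : ℝ) < N := by
    have := NeZero.pos N
    exact_mod_cast this
  set t : Lin N → Finset (Ty N d × Ty N d) :=
    fun u => Finset.univ.filter (fun β' : Ty N d × Ty N d => u ∈ lins2 β') with ht
  have h1 : S ⊆ (lins2 β).biUnion t := by
    intro β' hβ'
    obtain ⟨u, hu, hu'⟩ := Finset.not_disjoint_iff.1 (hS β' hβ')
    exact Finset.mem_biUnion.2 ⟨u, hu, Finset.mem_filter.2 ⟨Finset.mem_univ _, hu'⟩⟩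
  have h2 : ∑ β' ∈ S, ρ β' ≤ ∑ β' ∈ (lins2 β).biUnion t, ρ β' :=
    Finset.sum_le_sum_of_subset_of_nonneg h1 fun β' _ _ => hρ.nonneg β'
  have h3 := sum_biUnion_le' (lins2 β) t ρ fun β' => hρ.nonneg β'
  have h4 : ∀ u ∈ lins2 β, ∑ β' ∈ t u, ρ β' ≤ 16 / (N : ℝ) := by
    intro u _
    have := mass_line_le (by norm_num) hρ u
    have e : (2 : ℝ) * 8 / N = 16 / N := by norm_num
    rw [e] at this
    exact this
  have h5 : ∑ u ∈ lins2 β, ∑ β' ∈ t u, ρ β' ≤ (lins2 β).card * (16 / (N : ℝ)) := by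
    refine (Finset.sum_le_sum h4).trans (le_of_eq ?_)
    rw [Finset.sum_const, nsmul_eq_mul]
  have h6 : ((lins2 β).card : ℝ) * (16 / (N : ℝ)) ≤ 6 * (16 / (N : ℝ)) := by
    refine mul_le_mul_of_nonneg_right ?_ (by positivity)
    exact_mod_cast card_lins2_le β
  have h7 : (6 : ℝ) * (16 / (N : ℝ)) = 96 / N := by ring
  exact h2.trans (h3.trans (h5.trans (h6.trans h7.le)))

/-- `Gp` of a union -/
lemma Gp_union {K L : Type*} [Fintype K] [DecidableEq L] (p : L → K → F) (S S' : Finset L) :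
    Gp p (S ∪ S') = Gp p S ⊔ Gp p S' := by
  unfold Gp
  rw [Gl_union, Submodule.prod_sup_prod]

lemma Gp_empty {K L : Type*} [Fintype K] [DecidableEq L] (p : L → K → F) :
    Gp p (∅ : Finset L) = ⊥ := by
  unfold Gp Gl
  rw [Finset.sup_empty]
  exact Submodule.prod_bot

lemma Gp_mono {K L : Type*} [Fintype K] [DecidableEq L] (p : L → K → F) {S S' : Finset L}
    (h : S ⊆ S') : Gp p S ≤ Gp p S' :=
  Submodule.prod_mono (Gl_mono p h) (Gl_mono p h)

lemma Gaa_eq (fr : Frame N d E Om) (p : Lin N → Co E P Om → F) (h : Ext fr p) (a a' : Ty N d)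
    (A : Finset (Lin N)) :
    Gaa fr p h a a' A = Gp p A ⊔ ((dsg fr p h).Nn a).prod ((dsg fr p h).Nn a') := by
  unfold Gaa Ga Gp
  rw [Submodule.prod_sup_prod]

lemma Gaa_union (fr : Frame N d E Om) (p : Lin N → Co E P Om → F) (h : Ext fr p) (a a' : Ty N d)
    (A B : Finset (Lin N)) :
    Gaa fr p h a a' (A ∪ B) = Gp p B ⊔ Gaa fr p h a a' A := by
  rw [Gaa_eq, Gaa_eq, Gp_union, ← sup_assoc, sup_comm (Gp p B)]

lemma Gaa_mono (fr : Frame N d E Om) (p : Lin N → Co E P Om → F) (h : Ext fr p) (a a' : Ty N d)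
    {A B : Finset (Lin N)} (hAB : A ⊆ B) : Gaa fr p h a a' A ≤ Gaa fr p h a a' B := by
  rw [Gaa_eq, Gaa_eq]
  exact sup_le_sup_right (Gp_mono p hAB) _

lemma sup_Gp {m : ℕ} (p : Lin N → Co E P Om → F) (f : Fin m → Ty N d × Ty N d)
    (T : Finset (Fin m)) :
    T.sup (fun t => Gp p (lins2 (f t))) = Gp p (T.biUnion fun t => lins2 (f t)) := by
  induction T using Finset.induction_on with
  | empty => rw [Finset.sup_empty, Finset.biUnion_empty, Gp_empty]
  | insert t T ht ih => rw [Finset.sup_insert, Finset.biUnion_insert, Gp_union, ih]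

/-- **K2 for frames.** -/
theorem K2_frame {Ω : Type*} [Fintype Ω] (fr : Frame N d E Om) (p : Lin N → Co E P Om → F)
    (h : Ext fr p) (a a' : Ty N d) {x0 M M' : ℕ} (hX : EvX d p x0) (A : Finset (Lin N))
    (ha : lins a ⊆ A) (ha' : lins a' ⊆ A) (hA0 : LI p A) (hA : ∀ w, LI p (A ∪ rowLines fr w))
    (hcard0 : 2 * (A.card + 6 * M') ≤ Fintype.card P)
    (hcard : ∀ w, 2 * (A.card + 6 * M' + (rowLines fr w).card) ≤ Fintype.card P)
    (hM : M' + (Fintype.card Om + 1) * x0 ≤ M)
    (Pr : FinProb Ω)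
    (X : Ω → Dual F (Matrix (Co E P Om) (Co E P Om) F × Matrix (Co E P Om) (Co E P Om) F))
    (T0 : Submodule F (Matrix (Co E P Om) (Co E P Om) F × Matrix (Co E P Om) (Co E P Om) F))
    (hT0 : ∀ S : Finset (Lin N), Gaa fr p h a a' S ≤ T0) {𝒦 lam : ℝ}
    (hK : Lat.D Pr X T0 - Lat.D Pr X (Gaa fr p h a a' ∅) ≤ 𝒦) (hlam : 2 * 𝒦 < M' * lam)
    {ρ : Ty N d × Ty N d → ℝ} (hρ : TCoup 8 ρ) :
    ∑ β, (if Disjoint (lins2 β) A ∧
        lam < Lat.D Pr X (Gaa fr p h a a' (A ∪ lins2 β)) - Lat.D Pr X (Gaa fr p h a a' A)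
      then ρ β else 0) ≤ M * (96 / N) := by
  classical
  have hN : (0 : ℝ) < N := by
    have := NeZero.pos N
    exact_mod_cast this
  set S : Finset (Ty N d × Ty N d) := Finset.univ.filter fun β => Disjoint (lins2 β) A ∧ β.1 ≠ β.2
    with hS
  have hA' : ∀ w, LI p (A ∪ RL fr w) := by
    intro w
    cases w with
    | none => rw [RL, Finset.union_empty]; exact hA0
    | some w => exact hA w
  have hcard' : ∀ w, 2 * (A.card + 6 * M' + (RL fr w).card) ≤ Fintype.card P := by
    intro w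
    cases w with
    | none => simpa [RL] using hcard0
    | some w => exact hcard w
  have key := Lat.mass_Dc_le_two' Pr X ρ hρ.nonneg
    (fun β β' : Ty N d × Ty N d => ¬ Disjoint (lins2 β) (lins2 β'))
    (fun β β' hh h' => hh h'.symm) (fun β => Gp p (lins2 β)) (Gaa fr p h a a' A) T0 S
    (δ := 96 / N) (lam := lam) (𝒦 := 𝒦) (M := M) (M' := M') (by positivity)
    (by
      intro β hβ
      refine mass_meet_le hρ β _ fun β' hβ' => ?_
      rcases (Finset.mem_filter.1 hβ').2 with h1 | h1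
      · exact h1
      · rw [h1]
        intro h2
        have h3 : lin β.1 0 ∈ lins2 β :=
          Finset.mem_union_left _ (an_mem_lins.2 ⟨0, rfl⟩)
        exact Finset.disjoint_left.1 h2 h3 h3)
    (by
      intro f f1 f2 f3
      have hdis : ∀ i j, i ≠ j → Disjoint (lins2 (f i)) (lins2 (f j)) := by
        intro i j hij
        have := f3 i j hij
        rwa [not_not] at this
      have f2A : ∀ i, Disjoint (lins2 (f i)) A := fun i => (Finset.mem_filter.1 (f2 i)).2.1
      obtain ⟨g, g1, g2⟩ := extract fr p hX A hA' hcard' hM f f1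
        (fun i => (Finset.mem_filter.1 (f2 i)).2.2) hdis M' le_rfl
      refine ⟨g, g1, fun t => ?_⟩
      rw [sup_Gp p (fun j => f (g j)), sup_Gp p (fun j => f (g j))]
      set B₁ := (Finset.univ.filter (· < t)).biUnion fun j => lins2 (f (g j)) with hB₁
      set B₂ := (Finset.univ.filter (t < ·)).biUnion fun j => lins2 (f (g j)) with hB₂
      have hd : ∀ j, j ≠ t → Disjoint (lins2 (f (g t))) (lins2 (f (g j))) :=
        fun j hj => hdis _ _ fun h' => hj (g1 h').symm
      have k1 : Disjoint (lins2 (f (g t))) B₁ := by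
        rw [hB₁, Finset.disjoint_biUnion_right]
        intro j hj
        exact hd j (Finset.mem_filter.1 hj).2.ne
      have k2 : Disjoint (lins2 (f (g t))) B₂ := by
        rw [hB₂, Finset.disjoint_biUnion_right]
        intro j hj
        exact hd j (Finset.mem_filter.1 hj).2.ne'
      have k3 : Disjoint B₁ B₂ := by
        rw [hB₁, hB₂, Finset.disjoint_biUnion_left]
        intro i hi
        rw [Finset.disjoint_biUnion_right]
        intro j hj
        refine hdis _ _ fun h' => ?_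
        have h1 := (Finset.mem_filter.1 hi).2
        have h2 := (Finset.mem_filter.1 hj).2
        exact absurd (h1.trans h2) (by rw [g1 h']; exact lt_irrefl _)
      have k4 : Disjoint B₁ A := by
        rw [hB₁, Finset.disjoint_biUnion_left]
        exact fun j _ => f2A _
      have k5 : Disjoint B₂ A := by
        rw [hB₂, Finset.disjoint_biUnion_left]
        exact fun j _ => f2A _
      have hsub : lins2 (f (g t)) ∪ B₁ ∪ B₂ ∪ A ⊆ A ∪ UL (fun t => f (g t)) := by
        intro u hu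
        simp only [Finset.mem_union] at hu ⊢
        rcases hu with ((hu | hu) | hu) | hu
        · exact Or.inr (Finset.mem_biUnion.2 ⟨t, Finset.mem_univ _, hu⟩)
        · obtain ⟨j, -, hj⟩ := Finset.mem_biUnion.1 hu
          exact Or.inr (Finset.mem_biUnion.2 ⟨j, Finset.mem_univ _, hj⟩)
        · obtain ⟨j, -, hj⟩ := Finset.mem_biUnion.1 hu
          exact Or.inr (Finset.mem_biUnion.2 ⟨j, Finset.mem_univ _, hj⟩)
        · exact Or.inl hu
      exact t3_pair fr p h a a' ha ha' (f2A _) k1 k2 k3 k4 k5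
        ((g2 none).mono (hsub.trans Finset.subset_union_left))
        (fun w => (g2 (some w)).mono (Finset.union_subset_union hsub (Finset.Subset.refl _))))
    (hT0 A) (fun β => le_trans (by rw [Gaa_eq]; exact le_sup_left) (hT0 (lins2 β)))
    (by
      have := Lat.D_mono Pr X (Gaa_mono fr p h a a' (Finset.empty_subset A))
      linarith only [this, hK]) hlam
  refine le_trans (le_of_eq ?_) key
  rw [Finset.sum_filter, hS, Finset.sum_filter]
  refine Finset.sum_congr rfl fun β _ => ?_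
  have e1 : Lat.Dc Pr X (Gp p (lins2 β)) (Gaa fr p h a a' A)
      = Lat.D Pr X (Gaa fr p h a a' (A ∪ lins2 β)) - Lat.D Pr X (Gaa fr p h a a' A) := by
    rw [Gaa_union]; rfl
  rw [e1]
  by_cases h1 : Disjoint (lins2 β) A
  · by_cases h2 : β.1 = β.2
    · have : ρ β = 0 := by
        have := hρ.ne β.1
        obtain ⟨b, b'⟩ := β
        simp only at h2 this
        rw [h2] at this ⊢
        exact this
      simp [this]
    · simp [h1, h2]
  · simp [h1]

end K2F

end Vale.Agent.P060.HW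
end
end

section

/-! # P060/HW: `Gaa` and `GA` are the same spaces. -/

open scoped Classical

noncomputable section

set_option linter.unusedSectionVars false

namespace Vale.Agent.P060.HW

variable {N d : ℕ} {E P Om : Type} [Fintype E] [Fintype P] [Fintype Om] [NeZero N]

theorem Gaa_eq_GA (fr : Frame N d E Om) (p : Lin N → Co E P Om → F) (h : Ext fr p)
    (a a' : Ty N d) (A : Finset (Lin N)) : Gaa fr p h a a' A = GA fr p h a a' A :=
  K2F.Gaa_eq fr p h a a' A

theorem GA_empty (fr : Frame N d E Om) (p : Lin N → Co E P Om → F) (h : Ext fr p)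
    (a a' : Ty N d) : GA fr p h a a' ∅ = (dsg fr p h).N2 a a' := by
  unfold GA
  rw [K2F.Gp_empty, bot_sup_eq]

end Vale.Agent.P060.HW
end
end

section

/-!
# P060/HW: the closure event `EvCl`, the existence of GX and the extraction of independent families

`EvCl p m x`: the span of `≤ m` lines (on the coordinates in `P`) contains fewer than `x` other lines.
`extract`: every line-disjoint family of many sets of at most `6` lines contains a subfamily of `M'`
members all of whose lines are independent, together with `S` and with every row class.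
-/

open scoped Classical

noncomputable section

set_option linter.unusedSectionVars false

namespace Vale.Agent.P060.HW

open Module Finset

variable {N d : ℕ} {E P Om : Type} [Fintype E] [Fintype P] [Fintype Om] [NeZero N]

/-- The restriction of a line vector to the coordinates in `P`. -/
def resP (p : Lin N → Co E P Om → F) (u : Lin N) : P → F := fun j => p u (Sum.inl (Sum.inr j))

/-- The span of `≤ m` lines contains fewer than `x` other lines. -/
def EvCl (p : Lin N → Co E P Om → F) (m x : ℕ) : Prop :=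
  ∀ S : Finset (Lin N), S.card ≤ m →
    (univ.filter fun u : Lin N => u ∉ S ∧
      resP p u ∈ Submodule.span F (resP p '' (S : Set (Lin N)))).card < x

/-- Independence of a set of lines on the coordinates in `P`. -/
def LIP (p : Lin N → Co E P Om → F) (S : Finset (Lin N)) : Prop :=
  LinearIndependent F (fun u : S => fun j : P => p u (Sum.inl (Sum.inr j)))

lemma lip_iff {p : Lin N → Co E P Om → F} {S : Finset (Lin N)} :
    LIP p S ↔ LinearIndepOn F (resP p) (S : Set (Lin N)) := Iff.rfl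

lemma LIP.mono {p : Lin N → Co E P Om → F} {S S' : Finset (Lin N)} (h : LIP p S') (hS : S ⊆ S') :
    LIP p S := by
  rw [lip_iff] at h ⊢
  exact h.mono (by exact_mod_cast hS)

/-- A dependent extension of an independent set. -/
lemma exists_of_not_lip {p : Lin N → Co E P Om → F} {S T : Finset (Lin N)} (h : LIP p S)
    (hn : ¬ LIP p (S ∪ T)) : ∃ u ∈ T, u ∉ S ∧
      resP p u ∈ Submodule.span F (resP p '' ((S ∪ T.erase u : Finset (Lin N)) : Set (Lin N))) := by
  by_contra hcon
  push Not at hcon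
  apply hn
  rw [lip_iff] at h ⊢
  -- add the elements of `T` one by one
  have key : ∀ T' ⊆ T, LinearIndepOn F (resP p) ((S ∪ T' : Finset (Lin N)) : Set (Lin N)) := by
    intro T'
    induction T' using Finset.induction_on with
    | empty => intro _; simpa using h
    | insert a T' ha ih =>
      intro hT
      have ih' := ih ((Finset.subset_insert _ _).trans hT)
      by_cases haS : a ∈ S
      · have : S ∪ insert a T' = S ∪ T' := by
          ext y
          simp only [mem_union, mem_insert]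
          constructor
          · rintro (h1 | rfl | h1)
            · exact Or.inl h1
            · exact Or.inl haS
            · exact Or.inr h1
          · rintro (h1 | h1)
            · exact Or.inl h1
            · exact Or.inr (Or.inr h1)
        rw [this]
        exact ih'
      · have h2 := hcon a (hT (Finset.mem_insert_self _ _)) haS
        have h3 : ((S ∪ insert a T' : Finset (Lin N)) : Set (Lin N))
            = insert a ((S ∪ T' : Finset (Lin N)) : Set (Lin N)) := by
          push_cast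
          rw [Set.union_insert]
        rw [h3]
        refine ih'.insert fun h4 => h2 ?_
        refine Submodule.span_mono (Set.image_mono ?_) h4
        intro y hy
        have hy' : y ∈ S ∪ T' := by exact_mod_cast hy
        have : y ∈ S ∪ T.erase a := by
          rw [mem_union] at hy' ⊢
          rcases hy' with h5 | h5
          · exact Or.inl h5
          · refine Or.inr (mem_erase.2 ⟨fun h6 => ha (h6 ▸ h5), ?_⟩)
            exact hT (Finset.mem_insert_of_mem h5)
        exact_mod_cast this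
  exact key T subset_rfl

/-- A dependent extension modulo `S`. -/
lemma exists_of_not_indOver {p : Lin N → Co E P Om → F} {S T : Finset (Lin N)}
    (hn : ¬ IndOver p S T) : ∃ u ∈ T, u ∉ S ∧
      resP p u ∈ Submodule.span F (resP p '' ((S ∪ T.erase u : Finset (Lin N)) : Set (Lin N))) := by
  unfold IndOver at hn
  rw [Fintype.not_linearIndependent_iff] at hn
  obtain ⟨c, hc, i, hi⟩ := hn
  obtain ⟨hiT, hiS⟩ := Finset.mem_sdiff.1 i.2
  refine ⟨i, hiT, hiS, ?_⟩
  set Q := Submodule.span F (resP p '' ((S ∪ T.erase i : Finset (Lin N)) : Set (Lin N))) with hQ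
  have hS : Submodule.span F (Set.range fun v : S => pP p v) ≤ Q := by
    refine Submodule.span_le.2 ?_
    rintro _ ⟨v, rfl⟩
    refine Submodule.subset_span ⟨v, ?_, rfl⟩
    have : (v : Lin N) ∈ S ∪ T.erase i := mem_union_left _ v.2
    exact_mod_cast this
  have h1 : ∑ j, c j • resP p j ∈ Q := by
    apply hS
    rw [← Submodule.Quotient.mk_eq_zero]
    have h2 : (Submodule.span F (Set.range fun v : S => pP p v)).mkQ (∑ j, c j • resP p j) = 0 := by
      rw [map_sum, ← hc]
      refine Finset.sum_congr rfl fun j _ => ?_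
      rw [map_smul]
      rfl
    exact h2
  rw [← Finset.add_sum_erase _ _ (mem_univ i)] at h1
  have h3 : ∑ j ∈ univ.erase i, c j • resP p j ∈ Q := by
    refine Submodule.sum_mem _ fun j hj => Submodule.smul_mem _ _ (Submodule.subset_span ?_)
    refine ⟨j, ?_, rfl⟩
    have hji : (j : Lin N) ≠ i := fun h => (mem_erase.1 hj).1 (Subtype.ext h)
    have : (j : Lin N) ∈ S ∪ T.erase i :=
      mem_union_right _ (mem_erase.2 ⟨hji, (Finset.mem_sdiff.1 j.2).1⟩)
    exact_mod_cast this
  have h4 : c i • resP p i ∈ Q := (Submodule.add_mem_iff_left _ h3).1 h1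
  exact (Submodule.smul_mem_iff _ hi).1 h4

/-- Few members of a disjoint family of sets of at most `6` lines have a line in the span of `S` and
of their other lines. -/
lemma card_bad_lt {p : Lin N → Co E P Om → F} {m x : ℕ} (hX : EvCl p m x) {I : Type*}
    (L : I → Finset (Lin N)) (hL : ∀ i, (L i).card ≤ 6) (J : Finset I)
    (hJ : ∀ i ∈ J, ∀ j ∈ J, i ≠ j → Disjoint (L i) (L j)) (S : Finset (Lin N))
    (hm : S.card + 5 * x ≤ m) (hbad : ∀ i ∈ J, ∃ u ∈ L i, u ∉ S ∧
      resP p u ∈ Submodule.span F (resP p '' ((S ∪ (L i).erase u : Finset (Lin N)) :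
        Set (Lin N)))) : J.card < x := by
  by_contra hcon
  push Not at hcon
  obtain ⟨J', hJ', hc⟩ := Finset.exists_subset_card_eq hcon
  choose! u hu1 hu2 hu3 using fun i (hi : i ∈ J') => hbad i (hJ' hi)
  set S'' := S ∪ J'.biUnion fun i => (L i).erase (u i) with hS''
  have h1 : S''.card ≤ m := by
    refine (Finset.card_union_le _ _).trans ((Nat.add_le_add_left ?_ _).trans hm)
    refine Finset.card_biUnion_le.trans ?_
    calc ∑ i ∈ J', ((L i).erase (u i)).card ≤ ∑ _i ∈ J', 5 := by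
          refine Finset.sum_le_sum fun i hi => ?_
          rw [Finset.card_erase_of_mem (hu1 i hi)]
          have := hL i
          omega
      _ = 5 * x := by rw [Finset.sum_const, hc, smul_eq_mul, mul_comm]
  have h2 := hX S'' h1
  have h3 : J'.card ≤ (univ.filter fun v : Lin N => v ∉ S'' ∧
      resP p v ∈ Submodule.span F (resP p '' (S'' : Set (Lin N)))).card := by
    refine Finset.card_le_card_of_injOn u ?_ ?_
    · intro i hi
      have hi' : i ∈ J' := by exact_mod_cast hi
      simp only [coe_filter, mem_univ, true_and, Set.mem_ofPred_eq]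
      constructor
      · intro h4
        rw [hS'', mem_union] at h4
        rcases h4 with h4 | h4
        · exact hu2 i hi' h4
        · obtain ⟨j, hj, h5⟩ := mem_biUnion.1 h4
          obtain ⟨h6, h7⟩ := mem_erase.1 h5
          by_cases hij : i = j
          · subst hij
            exact h6 rfl
          · exact (Finset.disjoint_left.1 (hJ i (hJ' hi') j (hJ' hj) hij)) (hu1 i hi') h7
      · refine Submodule.span_mono (Set.image_mono ?_) (hu3 i hi')
        intro y hy
        have hy' : y ∈ S ∪ (L i).erase (u i) := by exact_mod_cast hy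
        have : y ∈ S'' := by
          rw [hS'', mem_union]
          rcases mem_union.1 hy' with h5 | h5
          · exact Or.inl h5
          · exact Or.inr (mem_biUnion.2 ⟨i, hi', h5⟩)
        exact_mod_cast this
    · intro i hi j hj hij
      have hi' : i ∈ J' := by exact_mod_cast hi
      have hj' : j ∈ J' := by exact_mod_cast hj
      by_contra hne
      have h5 := hu1 j hj'
      rw [← hij] at h5
      exact (Finset.disjoint_left.1 (hJ i (hJ' hi') j (hJ' hj') hne)) (hu1 i hi') h5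
  omega

lemma card_dependent_lt {p : Lin N → Co E P Om → F} {m x : ℕ} (hX : EvCl p m x) {I : Type*}
    (L : I → Finset (Lin N)) (hL : ∀ i, (L i).card ≤ 6) (J : Finset I)
    (hJ : ∀ i ∈ J, ∀ j ∈ J, i ≠ j → Disjoint (L i) (L j)) (S : Finset (Lin N)) (hS : LIP p S)
    (hm : S.card + 5 * x ≤ m) (hbad : ∀ i ∈ J, ¬ LIP p (S ∪ L i)) : J.card < x :=
  card_bad_lt hX L hL J hJ S hm fun i hi => exists_of_not_lip hS (hbad i hi)

lemma card_lins (c : Ty N d) : (lins c).card ≤ 3 :=
  Finset.card_image_le.trans (by rw [Finset.card_univ, Fintype.card_fin])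

lemma card_lins2 (β : Ty N d × Ty N d) : (lins2 β).card ≤ 6 := by
  refine (Finset.card_union_le _ _).trans ?_
  have h1 := card_lins β.1
  have h2 := card_lins β.2
  omega

/-- The closure event implies GX. -/
theorem evX_of_evCl {p : Lin N → Co E P Om → F} {m x : ℕ} (hX : EvCl p m x)
    (hm : Fintype.card P / 2 + 5 * x ≤ m) (d : ℕ) : EvX d p x := by
  intro S hS 𝓕 hLD _ hbad
  refine (card_bad_lt hX lins2 (fun β => card_lins2 β) 𝓕 hLD S ?_
    fun β hβ => exists_of_not_indOver (hbad β hβ)).le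
  omega

/-- **Extraction.**  `R w` are the row classes. -/
theorem extract {p : Lin N → Co E P Om → F} {m x : ℕ} (hX : EvCl p m x) {W : Type*} [Fintype W]
    (R : W → Finset (Lin N)) {ρ : ℕ} (hR : ∀ w, (R w).card ≤ ρ) (S : Finset (Lin N))
    (hS : ∀ w, LIP p (S ∪ R w)) {M : ℕ} (L : Fin M → Finset (Lin N)) (hL : ∀ i, (L i).card ≤ 6)
    (hd : ∀ i j, i ≠ j → Disjoint (L i) (L j)) (M' : ℕ)
    (hM : M' + Fintype.card W * x < M) (hm : S.card + 6 * M' + ρ + 5 * x ≤ m) :
    ∃ g : Fin M' → Fin M, Function.Injective g ∧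
      ∀ w, LIP p (S ∪ (univ.biUnion fun t => L (g t)) ∪ R w) := by
  have key : ∀ t ≤ M', ∃ G : Finset (Fin M), G.card = t ∧
      ∀ w, LIP p (S ∪ G.biUnion L ∪ R w) := by
    intro t
    induction t with
    | zero => intro _; exact ⟨∅, rfl, fun w => by simpa using hS w⟩
    | succ t ih =>
      intro ht
      obtain ⟨G, hG, hG'⟩ := ih (by omega)
      by_contra hcon
      push Not at hcon
      have h1 : ∀ i ∉ G, ∃ w, ¬ LIP p (S ∪ G.biUnion L ∪ R w ∪ L i) := by
        intro i hi
        obtain ⟨w, hw⟩ := hcon (insert i G) (by rw [Finset.card_insert_of_notMem hi, hG])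
        refine ⟨w, fun h => hw (h.mono ?_)⟩
        rw [Finset.biUnion_insert]
        intro y
        simp only [mem_union]
        tauto
      have h2 : (univ \ G : Finset (Fin M)) ⊆ (univ : Finset W).biUnion fun w =>
          (univ \ G).filter fun i => ¬ LIP p (S ∪ G.biUnion L ∪ R w ∪ L i) := by
        intro i hi
        obtain ⟨w, hw⟩ := h1 i (Finset.mem_sdiff.1 hi).2
        exact mem_biUnion.2 ⟨w, mem_univ _, mem_filter.2 ⟨hi, hw⟩⟩
      have h3 : ∀ w : W, ((univ \ G).filter fun i =>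
          ¬ LIP p (S ∪ G.biUnion L ∪ R w ∪ L i)).card < x := by
        intro w
        refine card_dependent_lt hX L hL _ (fun i _ j _ hij => hd i j hij)
          (S ∪ G.biUnion L ∪ R w) (hG' w) ?_ fun i hi => (mem_filter.1 hi).2
        have h4 : (G.biUnion L).card ≤ 6 * t := by
          refine Finset.card_biUnion_le.trans ?_
          calc ∑ i ∈ G, (L i).card ≤ ∑ _i ∈ G, 6 := Finset.sum_le_sum fun i _ => hL i
            _ = 6 * t := by rw [Finset.sum_const, hG, smul_eq_mul, mul_comm]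
        have h5 := Finset.card_union_le (S ∪ G.biUnion L) (R w)
        have h6 := Finset.card_union_le S (G.biUnion L)
        have h7 := hR w
        omega
      have h4 := (Finset.card_le_card h2).trans Finset.card_biUnion_le
      have h5 : ∑ w : W, ((univ \ G).filter fun i =>
          ¬ LIP p (S ∪ G.biUnion L ∪ R w ∪ L i)).card ≤ Fintype.card W * x := by
        calc _ ≤ ∑ _w : W, x := Finset.sum_le_sum fun w _ => (h3 w).le
          _ = _ := by rw [Finset.sum_const, Finset.card_univ, smul_eq_mul]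
      have h6 : (univ \ G : Finset (Fin M)).card = M - t := by
        rw [Finset.card_sdiff_of_subset (Finset.subset_univ _), Finset.card_univ,
          Fintype.card_fin, hG]
      omega
  obtain ⟨G, hG, hG'⟩ := key M' le_rfl
  refine ⟨fun t => (G.orderIsoOfFin hG t : Fin M), ?_, ?_⟩
  · intro s t hst
    exact (G.orderIsoOfFin hG).injective (Subtype.ext hst)
  · intro w
    refine (hG' w).mono ?_
    refine Finset.union_subset_union (Finset.union_subset_union subset_rfl ?_) subset_rfl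
    intro y hy
    obtain ⟨t, -, ht⟩ := mem_biUnion.1 hy
    exact mem_biUnion.2 ⟨_, (G.orderIsoOfFin hG t).2, ht⟩

/-! ### Existence -/

/-- The number of systems of vectors such that the vectors in `D` lie in the span of those in `S`. -/
lemma card_span_le {L V : Type*} [Fintype L] [AddCommGroup V] [Module F V]
    [Fintype V] (S D : Finset L) (hSD : Disjoint S D) :
    (univ.filter fun f : L → V => ∀ u ∈ D, f u ∈ Submodule.span F (f '' (S : Set L))).card
      ≤ Fintype.card V ^ (Fintype.card L - D.card) * 2521 ^ (S.card * D.card) := by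
  set Φ : ({u // u ∉ D} → V) × (D → S → F) → (L → V) := fun q u =>
    if h : u ∈ D then ∑ v : S, q.2 ⟨u, h⟩ v • q.1 ⟨v, Finset.disjoint_left.1 hSD v.2⟩
      else q.1 ⟨u, h⟩ with hΦ
  have h1 : (univ.filter fun f : L → V => ∀ u ∈ D, f u ∈ Submodule.span F (f '' (S : Set L)))
      ⊆ univ.image Φ := by
    intro f hf
    have hf' := (mem_filter.1 hf).2
    have h2 : ∀ u ∈ D, ∃ c : S → F, ∑ v : S, c v • f v = f u := by
      intro u hu
      have h3 := hf' u hu
      have h4 : f '' (S : Set L) = Set.range (fun v : S => f v) := by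
        ext y
        simp
      rw [h4] at h3
      exact (Submodule.mem_span_range_iff_exists_fun F).1 h3
    choose! c hc using h2
    refine mem_image.2 ⟨(fun u => f u, fun u => c u), mem_univ _, ?_⟩
    funext u
    simp only [hΦ]
    split_ifs with h
    · exact hc u h
    · rfl
  refine (Finset.card_le_card h1).trans (Finset.card_image_le.trans (le_of_eq ?_))
  rw [Finset.card_univ, Fintype.card_prod, Fintype.card_fun, Fintype.card_fun, Fintype.card_fun,
    Fintype.card_subtype_compl, Fintype.card_coe, Fintype.card_coe, ZMod.card, ← pow_mul]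

/-- The closure event for systems of vectors. -/
def ClX {L V : Type*} [Fintype L] [AddCommGroup V] [Module F V] (f : L → V) (m x : ℕ) : Prop :=
  ∀ S : Finset L, S.card ≤ m →
    (univ.filter fun u : L => u ∉ S ∧ f u ∈ Submodule.span F (f '' (S : Set L))).card < x

lemma card_not_clX {L V : Type*} [Fintype L] [AddCommGroup V] [Module F V]
    [Fintype V] (m x : ℕ) :
    (univ.filter fun f : L → V => ¬ ClX f m x).card
      ≤ 2 ^ Fintype.card L * (2 ^ Fintype.card L *
        (Fintype.card V ^ (Fintype.card L - x) * 2521 ^ (m * x))) := by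
  have h1 : (univ.filter fun f : L → V => ¬ ClX f m x) ⊆
      (univ.filter fun S : Finset L => S.card ≤ m).biUnion fun S =>
        (univ.filter fun D : Finset L => D.card = x ∧ Disjoint S D).biUnion fun D =>
          univ.filter fun f : L → V => ∀ u ∈ D, f u ∈ Submodule.span F (f '' (S : Set L)) := by
    intro f hf
    have hf' := (mem_filter.1 hf).2
    unfold ClX at hf'
    push Not at hf'
    obtain ⟨S, hS, hx⟩ := hf'
    obtain ⟨D, hD, hc⟩ := Finset.exists_subset_card_eq hx
    refine mem_biUnion.2 ⟨S, mem_filter.2 ⟨mem_univ _, hS⟩, mem_biUnion.2 ⟨D, mem_filter.2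
      ⟨mem_univ _, hc, ?_⟩, mem_filter.2 ⟨mem_univ _, fun u hu => (mem_filter.1 (hD hu)).2.2⟩⟩⟩
    rw [Finset.disjoint_right]
    exact fun u hu => (mem_filter.1 (hD hu)).2.1
  refine (Finset.card_le_card h1).trans (Finset.card_biUnion_le.trans ?_)
  refine (Finset.sum_le_card_nsmul _ _ (2 ^ Fintype.card L *
        (Fintype.card V ^ (Fintype.card L - x) * 2521 ^ (m * x))) fun S hS => ?_).trans ?_
  · refine Finset.card_biUnion_le.trans ((Finset.sum_le_card_nsmul _ _
      (Fintype.card V ^ (Fintype.card L - x) * 2521 ^ (m * x)) fun D hD => ?_).trans ?_)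
    · obtain ⟨h2, h3⟩ := (mem_filter.1 hD).2
      refine (card_span_le S D h3).trans ?_
      rw [h2]
      exact Nat.mul_le_mul_left _ (Nat.pow_le_pow_right (by norm_num)
        (Nat.mul_le_mul_right _ (mem_filter.1 hS).2))
    · rw [smul_eq_mul]
      refine Nat.mul_le_mul_right _ ((Finset.card_filter_le _ _).trans (le_of_eq ?_))
      rw [Finset.card_univ, Fintype.card_finset]
  · rw [smul_eq_mul]
    refine Nat.mul_le_mul_right _ ((Finset.card_filter_le _ _).trans (le_of_eq ?_))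
    rw [Finset.card_univ, Fintype.card_finset]

lemma natCard_not_clX {L V : Type*} [Fintype L] [AddCommGroup V] [Module F V]
    [Fintype V] (m x : ℕ) :
    Nat.card {f : L → V // ¬ ClX f m x}
      ≤ 2 ^ Nat.card L * (2 ^ Nat.card L *
        (Nat.card V ^ (Nat.card L - x) * 2521 ^ (m * x))) := by
  rw [Nat.card_eq_fintype_card, Nat.card_eq_fintype_card, Nat.card_eq_fintype_card,
    Fintype.card_subtype]
  exact card_not_clX m x

/-- The designs of a frame: arbitrary values on `P` and on `Om`. -/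
def dzEquiv (fr : Frame N d E Om) (P : Type) [Fintype P] :
    Dz fr P ≃ (Lin N → P → F) × (Lin N → Om → F) where
  toFun p := (resP p.1, fun u w => p.1 u (Sum.inr w))
  invFun q := ⟨fun u j => match j with
      | Sum.inl (Sum.inl t) => if u.1 = 1 then fr.γ u.2 t else 0
      | Sum.inl (Sum.inr j) => q.1 u j
      | Sum.inr w => q.2 u w, fun s i t => rfl⟩
  left_inv p := by
    apply Subtype.ext
    funext u j
    rcases j with (t | j) | w
    · exact (p.2 u.1 u.2 t).symm
    · rfl
    · rfl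
  right_inv q := rfl

/-- An event on the coordinates in `P` which is rare for systems of vectors in `P → F` is rare. -/
lemma rare_resP (fr : Frame N d E Om) (A : (Lin N → P → F) → Prop)
    (h : 100 * Nat.card {f : Lin N → P → F // A f} ≤ Nat.card (Lin N → P → F)) :
    Rare {p : Dz fr P | A (resP p.1)} := by
  unfold Rare
  have h1 : Nat.card {p : Dz fr P | A (resP p.1)}
      = Nat.card ({q : (Lin N → P → F) × (Lin N → Om → F) // A q.1}) :=
    Nat.card_congr ((dzEquiv fr P).subtypeEquiv fun p => Iff.rfl)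
  have h2 : Nat.card ({q : (Lin N → P → F) × (Lin N → Om → F) // A q.1})
      = Nat.card {f : Lin N → P → F // A f} * Nat.card (Lin N → Om → F) := by
    rw [Nat.card_congr (Equiv.prodSubtypeFstEquivSubtypeProd (α := Lin N → P → F)
      (β := Lin N → Om → F) (p := A)), Nat.card_prod]
  rw [h1, h2, Nat.card_congr (dzEquiv fr P), Nat.card_prod, ← mul_assoc]
  exact Nat.mul_le_mul_right _ h

lemma evCl_iff (p : Lin N → Co E P Om → F) (m x : ℕ) : EvCl p m x ↔ ClX (resP p) m x := by
  constructor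
  · intro h S hS
    convert h S hS using 2
    ext u
    simp only [mem_filter, mem_univ, true_and]
  · intro h S hS
    convert h S hS using 2
    ext u
    simp only [mem_filter, mem_univ, true_and]

lemma numX (D₀ N k x : ℕ) (hx : x = 4 * D₀ + 4) (hk : 7 + 56 * x ^ 2 ≤ k)
    (hN : N ≤ 2 * D₀ * k) :
    100 * (2 ^ (3 * N) * (2 ^ (3 * N) * ((2521 ^ k) ^ (3 * N - x) * 2521 ^ ((k / 2 + 5 * x) * x))))
      ≤ (2521 ^ k) ^ (3 * N - x) * 2521 ^ (k * x) := by
  have hkx : k / 2 + 5 * x ≤ k := by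
    have h1 : 1 ≤ x := by omega
    have h2 : x ≤ x ^ 2 := by nlinarith
    omega
  have h3 : 100 * (2 ^ (3 * N) * 2 ^ (3 * N)) * 2521 ^ ((k / 2 + 5 * x) * x)
      ≤ 2521 ^ (k * x) := by
    have h4 : k * x = (k / 2 + 5 * x) * x + (k - (k / 2 + 5 * x)) * x := by
      rw [← add_mul]
      congr 1
      omega
    rw [h4, pow_add, mul_comm]
    refine Nat.mul_le_mul_left _ ?_
    have h5 : 7 + 12 * D₀ * k ≤ 11 * ((k - (k / 2 + 5 * x)) * x) := by
      have h6 : k ≤ 2 * (k - (k / 2 + 5 * x)) + 10 * x := by omega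
      have h7 : k * x ≤ (2 * (k - (k / 2 + 5 * x)) + 10 * x) * x := Nat.mul_le_mul_right _ h6
      have h8 : 11 * (k * x) = 44 * D₀ * k + 44 * k := by rw [hx]; ring
      nlinarith
    have h7 : 3 * N + 3 * N ≤ 12 * D₀ * k := by nlinarith
    calc 100 * (2 ^ (3 * N) * 2 ^ (3 * N)) ≤ 2 ^ 7 * 2 ^ (12 * D₀ * k) := by
          rw [← pow_add]
          exact Nat.mul_le_mul (by norm_num) (Nat.pow_le_pow_right (by norm_num) h7)
      _ = 2 ^ (7 + 12 * D₀ * k) := by rw [← pow_add]
      _ ≤ 2 ^ (11 * ((k - (k / 2 + 5 * x)) * x)) := Nat.pow_le_pow_right (by norm_num) h5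
      _ = (2 ^ 11) ^ ((k - (k / 2 + 5 * x)) * x) := by rw [pow_mul]
      _ ≤ 2521 ^ ((k - (k / 2 + 5 * x)) * x) := Nat.pow_le_pow_left (by norm_num) _
  calc 100 * (2 ^ (3 * N) * (2 ^ (3 * N) *
        ((2521 ^ k) ^ (3 * N - x) * 2521 ^ ((k / 2 + 5 * x) * x))))
      = (2521 ^ k) ^ (3 * N - x) *
        (100 * (2 ^ (3 * N) * 2 ^ (3 * N)) * 2521 ^ ((k / 2 + 5 * x) * x)) := by ring
    _ ≤ _ := Nat.mul_le_mul_left _ h3

/-- EXISTENCE of the closure event. -/
theorem rare_evCl (D₀ d : ℕ) (E : Type) [Fintype E] (N : ℕ) (P Om : Type) [Fintype P]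
    [Fintype Om] [NeZero N] (fr : Frame N d E Om) {θ : ℝ}
    (hk : 7 + 56 * (4 * D₀ + 4) ^ 2 ≤ Fintype.card P) (hS : Sizes fr P D₀ θ 0) :
    Rare {p : Dz fr P | ¬ EvCl p.1 (Fintype.card P / 2 + 5 * (4 * D₀ + 4)) (4 * D₀ + 4)} := by
  simp only [evCl_iff]
  refine rare_resP fr
    (fun f => ¬ ClX f (Fintype.card P / 2 + 5 * (4 * D₀ + 4)) (4 * D₀ + 4)) ?_
  have hL : Nat.card (Lin N) = 3 * N := by
    rw [Nat.card_prod, Nat.card_zmod, Nat.card_eq_fintype_card, Fintype.card_fin]
  by_cases hxN : 4 * D₀ + 4 ≤ 3 * N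
  · have h1 := natCard_not_clX (L := Lin N) (V := P → F)
      (Fintype.card P / 2 + 5 * (4 * D₀ + 4)) (4 * D₀ + 4)
    refine (Nat.mul_le_mul_left 100 h1).trans ?_
    have hV : Nat.card (P → F) = 2521 ^ Fintype.card P := by
      rw [Nat.card_fun, Nat.card_zmod, Nat.card_eq_fintype_card]
    have hW : Nat.card (Lin N → P → F) = (2521 ^ Fintype.card P) ^ (3 * N - (4 * D₀ + 4)) *
        2521 ^ (Fintype.card P * (4 * D₀ + 4)) := by
      rw [Nat.card_fun, hL, hV, pow_mul 2521 (Fintype.card P) (4 * D₀ + 4), ← pow_add]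
      congr 1
      omega
    rw [hW, hL, hV]
    exact numX D₀ N _ _ rfl hk hS.hN'
  · have h1 : IsEmpty {f : Lin N → P → F //
        ¬ ClX f (Fintype.card P / 2 + 5 * (4 * D₀ + 4)) (4 * D₀ + 4)} := by
      refine ⟨fun f => f.2 fun S _ => ?_⟩
      refine lt_of_le_of_lt (Finset.card_le_univ _) ?_
      rw [← Nat.card_eq_fintype_card, hL]
      omega
    rw [Nat.card_of_isEmpty, Nat.mul_zero]
    exact Nat.zero_le _

/-- EXISTENCE of GX. -/
theorem exX : ExX := by
  intro D₀
  refine ⟨4 * D₀ + 4, fun d E _ => ⟨1, one_pos, 7 + 56 * (4 * D₀ + 4) ^ 2, ?_⟩⟩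
  intro N P Om _ _ _ fr hk hS
  have h1 := rare_evCl D₀ d E N P Om fr hk hS
  unfold Rare at h1 ⊢
  refine le_trans (Nat.mul_le_mul_left _ ?_) h1
  refine Nat.card_mono (Set.toFinite _) ?_
  intro p hp h2
  exact hp (evX_of_evCl h2 le_rfl d)

end Vale.Agent.P060.HW
end
end

section

/-! The random past, information part (abstract): a monotone supermodular function `D` on a modular
lattice, a family `L` of elements (the lines) with the triple property `Tri`, uniform random sets of
lines. -/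

namespace Vale.Agent.P060.HW

namespace TV2

open Finset

section Lattice

variable {α : Type*} [Lattice α]

/-- monotone and supermodular -/
structure SupMod (D : α → ℝ) : Prop where
  mono : ∀ {x y : α}, x ≤ y → D x ≤ D y
  sm : ∀ x y : α, D x + D y ≤ D (x ⊔ y) + D (x ⊓ y)

/-- mutual information of `G` and `H` given `A` and what they share over `A` -/
def mi (D : α → ℝ) (G H A : α) : ℝ :=
  D (G ⊔ H ⊔ A) + D ((G ⊔ A) ⊓ (H ⊔ A)) - D (G ⊔ A) - D (H ⊔ A)

/-- deficit of the shared part -/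
def sh (D : α → ℝ) (G H A : α) : ℝ := D ((G ⊔ A) ⊓ (H ⊔ A)) - D A

/-- conditional deficit -/
def dc (D : α → ℝ) (G A : α) : ℝ := D (G ⊔ A) - D A

variable {D : α → ℝ} (hD : SupMod D)

include hD in
theorem mi_nonneg (G H A : α) : 0 ≤ mi D G H A := by
  have h := hD.sm (G ⊔ A) (H ⊔ A)
  have e : G ⊔ A ⊔ (H ⊔ A) = G ⊔ H ⊔ A := by
    rw [← sup_sup_distrib_right]
  rw [e] at h
  unfold mi
  linarith

include hD in
theorem sh_nonneg (G H A : α) : 0 ≤ sh D G H A := by
  have := hD.mono (show A ≤ (G ⊔ A) ⊓ (H ⊔ A) from le_inf le_sup_right le_sup_right)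
  unfold sh
  linarith

include hD in
theorem dc_nonneg (G A : α) : 0 ≤ dc D G A := by
  have := hD.mono (show A ≤ G ⊔ A from le_sup_right)
  unfold dc
  linarith

theorem mi_comm (G H A : α) : mi D G H A = mi D H G A := by
  unfold mi
  rw [sup_comm G H, inf_comm (G ⊔ A) (H ⊔ A)]
  ring

/-- the mutual information is the second difference plus the shared deficit -/
theorem mi_eq (G H A : α) :
    mi D G H A = (D (G ⊔ H ⊔ A) - D (G ⊔ A) - D (H ⊔ A) + D A) + sh D G H A := by
  unfold mi sh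
  ring

include hD in
/-- chain rule -/
theorem mi_chain (G G' H A : α) : mi D (G ⊔ G') H A ≤ mi D G H A + mi D G' H (G ⊔ A) := by
  have h := hD.sm ((G ⊔ G' ⊔ A) ⊓ (H ⊔ A)) (G ⊔ A)
  have e1 : (G ⊔ G' ⊔ A) ⊓ (H ⊔ A) ⊓ (G ⊔ A) = (G ⊔ A) ⊓ (H ⊔ A) := by
    rw [inf_assoc, inf_comm (H ⊔ A) (G ⊔ A), ← inf_assoc]
    congr 1
    rw [inf_eq_right]
    exact sup_le (le_sup_left.trans le_sup_left) le_sup_right
  have e2 : (G ⊔ G' ⊔ A) ⊓ (H ⊔ A) ⊔ (G ⊔ A) ≤ (G' ⊔ (G ⊔ A)) ⊓ (H ⊔ (G ⊔ A)) := by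
    refine sup_le (le_inf ?_ ?_) (le_inf le_sup_right le_sup_right)
    · refine inf_le_left.trans (sup_le (sup_le ?_ ?_) ?_)
      · exact le_sup_left.trans le_sup_right
      · exact le_sup_left
      · exact le_sup_right.trans le_sup_right
    · exact inf_le_right.trans (sup_le le_sup_left (le_sup_right.trans le_sup_right))
  have h2 := hD.mono e2
  rw [e1] at h
  have e3 : G' ⊔ H ⊔ (G ⊔ A) = G ⊔ G' ⊔ H ⊔ A := by ac_rfl
  have e4 : G' ⊔ (G ⊔ A) = G ⊔ G' ⊔ A := by ac_rfl
  have e5 : G ⊔ H ⊔ A = H ⊔ (G ⊔ A) := by ac_rfl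
  unfold mi
  rw [e3, e5]
  rw [e4] at h2 ⊢
  linarith

include hD in
theorem mi_chain_right (G H H' A : α) : mi D G (H ⊔ H') A ≤ mi D G H A + mi D G H' (H ⊔ A) := by
  have := mi_chain hD H H' G A
  rw [mi_comm, mi_comm G H A, mi_comm G H' (H ⊔ A)]
  exact this

include hD in
/-- the four-term inequality -/
theorem mi_four (G₁ G₂ H₁ H₂ A : α) :
    mi D (G₁ ⊔ G₂) (H₁ ⊔ H₂) A ≤ mi D G₁ H₁ A + mi D G₂ H₁ (G₁ ⊔ A) + mi D G₁ H₂ (H₁ ⊔ A) +
      mi D G₂ H₂ (G₁ ⊔ (H₁ ⊔ A)) := by
  have h1 := mi_chain_right hD (G₁ ⊔ G₂) H₁ H₂ A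
  have h2 := mi_chain hD G₁ G₂ H₁ A
  have h3 := mi_chain hD G₁ G₂ H₂ (H₁ ⊔ A)
  linarith

/-- `G ⊔ S` and `H ⊔ S` meet in `S`, if `S = S₁ ⊔ S₂ ⊔ T`, where `T` is the shared part -/
theorem inf_cond [IsModularLattice α] {G H A S₁ S₂ : α} (h₁ : S₁ ≤ G ⊔ A) (h₂ : S₂ ≤ H ⊔ A) :
    (G ⊔ (S₁ ⊔ S₂ ⊔ (G ⊔ A) ⊓ (H ⊔ A))) ⊓ (H ⊔ (S₁ ⊔ S₂ ⊔ (G ⊔ A) ⊓ (H ⊔ A))) =
      S₁ ⊔ S₂ ⊔ (G ⊔ A) ⊓ (H ⊔ A) := by
  set T := (G ⊔ A) ⊓ (H ⊔ A) with hT
  have hA : A ≤ T := le_inf le_sup_right le_sup_right
  have hTG : T ≤ G ⊔ A := inf_le_left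
  have hTH : T ≤ H ⊔ A := inf_le_right
  have e1 : G ⊔ (S₁ ⊔ S₂ ⊔ T) = S₂ ⊔ (G ⊔ A) := by
    apply le_antisymm
    · refine sup_le (le_sup_left.trans le_sup_right) (sup_le (sup_le ?_ le_sup_left) ?_)
      · exact h₁.trans le_sup_right
      · exact hTG.trans le_sup_right
    · refine sup_le ?_ (sup_le le_sup_left ?_)
      · exact (le_sup_right.trans le_sup_left).trans le_sup_right
      · exact (hA.trans le_sup_right).trans le_sup_right
  have e2 : H ⊔ (S₁ ⊔ S₂ ⊔ T) = S₁ ⊔ (H ⊔ A) := by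
    apply le_antisymm
    · refine sup_le (le_sup_left.trans le_sup_right) (sup_le (sup_le le_sup_left ?_) ?_)
      · exact h₂.trans le_sup_right
      · exact hTH.trans le_sup_right
    · refine sup_le ?_ (sup_le le_sup_left ?_)
      · exact (le_sup_left.trans le_sup_left).trans le_sup_right
      · exact (hA.trans le_sup_right).trans le_sup_right
  rw [e1, e2]
  -- modular law twice
  have e3 : (S₂ ⊔ (G ⊔ A)) ⊓ (S₁ ⊔ (H ⊔ A)) = S₁ ⊔ (S₂ ⊔ (G ⊔ A)) ⊓ (H ⊔ A) := by
    rw [inf_comm, sup_inf_assoc_of_le _ (h₁.trans le_sup_right), inf_comm (H ⊔ A)]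
  have e4 : (S₂ ⊔ (G ⊔ A)) ⊓ (H ⊔ A) = S₂ ⊔ T := sup_inf_assoc_of_le _ h₂
  rw [e3, e4]
  ac_rfl

include hD in
/-- conditioning on functions of one of the two sides does not increase the mutual information -/
theorem mi_cond_le [IsModularLattice α] {G H A S₁ S₂ : α} (h₁ : S₁ ≤ G ⊔ A) (h₂ : S₂ ≤ H ⊔ A) :
    mi D G H (S₁ ⊔ S₂ ⊔ (G ⊔ A) ⊓ (H ⊔ A)) ≤ mi D G H A := by
  have h0 := inf_cond h₁ h₂
  unfold mi
  rw [h0]
  set T := (G ⊔ A) ⊓ (H ⊔ A) with hT
  have hA : A ≤ T := le_inf le_sup_right le_sup_right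
  have hTG : T ≤ G ⊔ A := inf_le_left
  have hTH : T ≤ H ⊔ A := inf_le_right
  have a1 := hD.sm (G ⊔ A) (T ⊔ S₂)
  have a2 := hD.sm (H ⊔ A) (S₁ ⊔ (T ⊔ S₂))
  have e1 : G ⊔ A ⊔ (T ⊔ S₂) = G ⊔ (S₁ ⊔ S₂ ⊔ T) := by
    apply le_antisymm
    · refine sup_le (sup_le le_sup_left ?_) (sup_le ?_ ?_)
      · exact (hA.trans le_sup_right).trans le_sup_right
      · exact le_sup_right.trans le_sup_right
      · exact (le_sup_right.trans le_sup_left).trans le_sup_right
    · refine sup_le (le_sup_left.trans le_sup_left) (sup_le (sup_le ?_ ?_) ?_)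
      · exact h₁.trans le_sup_left
      · exact le_sup_right.trans le_sup_right
      · exact le_sup_left.trans le_sup_right
  have e2 : (G ⊔ A) ⊓ (T ⊔ S₂) = T := by
    rw [inf_comm, sup_inf_assoc_of_le _ hTG, sup_eq_left]
    exact le_inf inf_le_right (inf_le_left.trans h₂)
  have e3 : H ⊔ A ⊔ (S₁ ⊔ (T ⊔ S₂)) = H ⊔ (S₁ ⊔ S₂ ⊔ T) := by
    apply le_antisymm
    · refine sup_le (sup_le le_sup_left ?_) (sup_le ?_ (sup_le ?_ ?_))
      · exact (hA.trans le_sup_right).trans le_sup_right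
      · exact (le_sup_left.trans le_sup_left).trans le_sup_right
      · exact le_sup_right.trans le_sup_right
      · exact (le_sup_right.trans le_sup_left).trans le_sup_right
    · refine sup_le (le_sup_left.trans le_sup_left) (sup_le (sup_le ?_ ?_) ?_)
      · exact le_sup_left.trans le_sup_right
      · exact h₂.trans le_sup_left
      · exact hTH.trans le_sup_left
  have e4 : (H ⊔ A) ⊓ (S₁ ⊔ (T ⊔ S₂)) = T ⊔ S₂ := by
    rw [inf_comm, sup_comm, sup_inf_assoc_of_le _ (sup_le hTH h₂), sup_eq_left]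
    exact (le_inf (inf_le_left.trans h₁) inf_le_right).trans le_sup_left
  have e5 : G ⊔ H ⊔ (S₁ ⊔ S₂ ⊔ T) = G ⊔ H ⊔ A := by
    apply le_antisymm
    · refine sup_le le_sup_left (sup_le (sup_le ?_ ?_) ?_)
      · exact h₁.trans (sup_le (le_sup_left.trans le_sup_left) le_sup_right)
      · exact h₂.trans (sup_le (le_sup_right.trans le_sup_left) le_sup_right)
      · exact hTG.trans (sup_le (le_sup_left.trans le_sup_left) le_sup_right)
    · exact sup_le le_sup_left ((hA.trans le_sup_right).trans le_sup_right)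
  have e6 : S₁ ⊔ (T ⊔ S₂) = S₁ ⊔ S₂ ⊔ T := by ac_rfl
  rw [e1, e2] at a1
  rw [e3, e4, e6] at a2
  rw [e5]
  linarith

end Lattice

section Lines

variable {α : Type*} [Lattice α] [OrderBot α] {ι : Type*} [DecidableEq ι]

/-- The triple property: `C`, `B₁`, `B₂` share nothing over `A`. -/
def Tri (L : ι → α) (κ : ℕ) : Prop :=
  ∀ A C B₁ B₂ : Finset ι, Disjoint C B₁ → Disjoint C B₂ → Disjoint B₁ B₂ →
    (A ∪ C ∪ B₁ ∪ B₂).card ≤ κ →
      (A ∪ C).sup L ⊓ ((A ∪ B₁).sup L ⊓ (A ∪ B₂).sup L) ≤ A.sup L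

variable {D : α → ℝ} (hD : SupMod D) {L : ι → α}

theorem sup_union_single (A : Finset ι) (u : ι) : (A ∪ {u}).sup L = L u ⊔ A.sup L := by
  rw [sup_union, sup_singleton, sup_comm]

include hD in
/-- The shared deficits of one line with few other lines. -/
theorem sum_sh_small {κ : ℕ} (hT : Tri L κ) (A : Finset ι) (u : ι) (F : Finset ι)
    (hF : ∀ v ∈ F, v ≠ u) (hc : (A ∪ {u} ∪ F).card ≤ κ) :
    ∑ v ∈ F, sh D (L u) (L v) (A.sup L) ≤ dc D (L u) (A.sup L) := by
  suffices h : ∀ F' ⊆ F, ∑ v ∈ F', sh D (L u) (L v) (A.sup L) ≤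
      D (F'.sup (fun v => (L u ⊔ A.sup L) ⊓ (L v ⊔ A.sup L)) ⊔ A.sup L) - D (A.sup L) by
    refine (h F subset_rfl).trans ?_
    unfold dc
    refine sub_le_sub_right (hD.mono (sup_le (Finset.sup_le fun v _ => inf_le_left) le_sup_right)) _
  intro F'
  induction F' using Finset.induction_on with
  | empty =>
    intro _
    simp
  | insert v F' hv ih =>
    intro hsub
    have hF' : F' ⊆ F := (subset_insert v F').trans hsub
    have hvF : v ∈ F := hsub (mem_insert_self v F')
    have ih' := ih hF'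
    rw [sum_insert hv]
    set S : ι → α := fun v => (L u ⊔ A.sup L) ⊓ (L v ⊔ A.sup L) with hS
    have h1 := hD.sm (S v) (F'.sup S ⊔ A.sup L)
    have e1 : S v ⊔ (F'.sup S ⊔ A.sup L) = (insert v F').sup S ⊔ A.sup L := by
      rw [sup_insert, sup_assoc]
    have h2 : S v ⊓ (F'.sup S ⊔ A.sup L) ≤ A.sup L := by
      have h3 := hT A {u} {v} F' (by simpa using (hF v hvF).symm)
        (by
          rw [disjoint_singleton_left]
          exact fun h => hF u (hF' h) rfl)
        (by rwa [disjoint_singleton_left])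
        (by
          refine (card_le_card ?_).trans hc
          intro x hx
          simp only [mem_union, mem_singleton] at hx ⊢
          rcases hx with ((hx | hx) | hx) | hx
          · exact Or.inl (Or.inl hx)
          · exact Or.inl (Or.inr hx)
          · exact Or.inr (hx ▸ hvF)
          · exact Or.inr (hF' hx))
      refine le_trans ?_ h3
      rw [sup_union_single, sup_union_single]
      refine le_inf (inf_le_left.trans inf_le_left) (le_inf (inf_le_left.trans inf_le_right) ?_)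
      refine inf_le_right.trans (sup_le (Finset.sup_le fun w hw => ?_) ?_)
      · refine inf_le_right.trans (sup_le ?_ ?_)
        · exact le_sup (f := L) (mem_union_right A hw)
        · exact sup_mono subset_union_left
      · exact sup_mono subset_union_left
    have h4 := hD.mono h2
    rw [e1] at h1
    have h5 : sh D (L u) (L v) (A.sup L) = D (S v) - D (A.sup L) := rfl
    rw [h5]
    linarith only [h4, h1, ih']

include hD in
/-- The shared deficits of one line with many other lines. -/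
theorem sum_sh_le {κ : ℕ} (hT : Tri L κ) (A : Finset ι) (u : ι) {h : ℕ} (h0 : 0 < h)
    (hκ : A.card + 1 + h ≤ κ) : ∀ (n : ℕ) (F : Finset ι), F.card = n → (∀ v ∈ F, v ≠ u) →
    ∑ v ∈ F, sh D (L u) (L v) (A.sup L) ≤ ((F.card : ℝ) / h + 1) * dc D (L u) (A.sup L) := by
  intro n
  induction n using Nat.strong_induction_on with
  | _ n ih =>
    intro F hFn hF
    have hdc := dc_nonneg hD (L u) (A.sup L)
    have hh : (0 : ℝ) < h := by exact_mod_cast h0
    have hcard : ∀ F : Finset ι, F.card ≤ h → (A ∪ {u} ∪ F).card ≤ κ := by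
      intro F hF
      have h1 := card_union_le (A ∪ {u}) F
      have h2 := card_union_le A {u}
      rw [card_singleton] at h2
      omega
    by_cases hle : F.card ≤ h
    · refine (sum_sh_small hD hT A u F hF (hcard F hle)).trans ?_
      have : 0 ≤ (F.card : ℝ) / h := by (clear * - h0; positivity)
      linarith only [mul_nonneg (sub_nonneg.2 hdc) (sub_nonneg.2 this)]
    · push Not at hle
      obtain ⟨F₁, hF₁, hc₁⟩ := exists_subset_card_eq hle.le
      have h1 := sum_sh_small hD hT A u F₁ (fun v hv => hF v (hF₁ hv)) (hcard F₁ hc₁.le)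
      have hc₂ : (F \ F₁).card = F.card - h := by rw [card_sdiff_of_subset hF₁, hc₁]
      have h2 := ih (F \ F₁).card (by omega) (F \ F₁) rfl
        (fun v hv => hF v (mem_sdiff.1 hv).1)
      rw [← sum_sdiff hF₁]
      have h3 : (((F \ F₁).card : ℕ) : ℝ) = F.card - h := by
        rw [hc₂, Nat.cast_sub hle.le]
      rw [h3] at h2
      have h4 : ((F.card : ℝ) - h) / h + 1 = F.card / h := by
        field_simp
        ring
      rw [h4] at h2
      linarith only [h2, h1]

end Lines

section Averages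

variable {ι : Type*} [Fintype ι] [DecidableEq ι]

/-- the average over the sets of size `s` -/
noncomputable def av (s : ℕ) (f : Finset ι → ℝ) : ℝ :=
  (∑ A ∈ powersetCard s univ, f A) / ((Fintype.card ι).choose s : ℝ)

theorem sum_insert_eq (s : ℕ) (f : Finset ι → ℝ) :
    ∑ A ∈ powersetCard s (univ : Finset ι), ∑ u ∈ Aᶜ, f (insert u A) =
      (s + 1 : ℝ) * ∑ A ∈ powersetCard (s + 1) (univ : Finset ι), f A := by
  have h1 : (s + 1 : ℝ) * ∑ A ∈ powersetCard (s + 1) (univ : Finset ι), f A =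
      ∑ A ∈ powersetCard (s + 1) (univ : Finset ι), ∑ u ∈ A, f A := by
    rw [mul_sum]
    refine sum_congr rfl fun A hA => ?_
    rw [sum_const, nsmul_eq_mul, (mem_powersetCard.1 hA).2]
    push_cast
    rfl
  rw [h1, sum_sigma', sum_sigma']
  refine sum_bij' (fun x _ => ⟨insert x.2 x.1, x.2⟩) (fun x _ => ⟨x.1.erase x.2, x.2⟩) ?_ ?_ ?_ ?_ ?_
  · rintro ⟨A, u⟩ h
    rw [mem_sigma, mem_powersetCard, mem_compl] at h
    rw [mem_sigma, mem_powersetCard]
    exact ⟨⟨subset_univ _, by rw [card_insert_of_notMem h.2, h.1.2]⟩, mem_insert_self _ _⟩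
  · rintro ⟨A, u⟩ h
    rw [mem_sigma, mem_powersetCard] at h
    rw [mem_sigma, mem_powersetCard, mem_compl]
    exact ⟨⟨subset_univ _, by rw [card_erase_of_mem h.2, h.1.2]; rfl⟩, notMem_erase _ _⟩
  · rintro ⟨A, u⟩ h
    rw [mem_sigma, mem_powersetCard, mem_compl] at h
    simp only [Sigma.mk.injEq, heq_eq_eq, and_true]
    exact erase_insert h.2
  · rintro ⟨A, u⟩ h
    rw [mem_sigma, mem_powersetCard] at h
    simp only [Sigma.mk.injEq, heq_eq_eq, and_true]
    exact insert_erase h.2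
  · rintro ⟨A, u⟩ h
    rfl

theorem compl_insert_eq (u : ι) (A : Finset ι) : (insert u A)ᶜ = Aᶜ.erase u := by
  ext v
  simp only [mem_compl, mem_insert, mem_erase, not_or]

/-- the first difference -/
theorem sum_first (s : ℕ) (f : Finset ι → ℝ) :
    ∑ A ∈ powersetCard s (univ : Finset ι), ∑ u ∈ Aᶜ, (f (insert u A) - f A) =
      ((Fintype.card ι).choose s : ℝ) * ((Fintype.card ι : ℝ) - s) * (av (s + 1) f - av s f) := by
  by_cases hs : s + 1 ≤ Fintype.card ι
  · have hc : ((Fintype.card ι).choose (s + 1) : ℝ) * (s + 1) =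
        ((Fintype.card ι).choose s : ℝ) * ((Fintype.card ι : ℝ) - s) := by
      have h := Nat.choose_succ_right_eq (Fintype.card ι) s
      have h2 : (((Fintype.card ι).choose (s + 1) * (s + 1) : ℕ) : ℝ) =
        (((Fintype.card ι).choose s * (Fintype.card ι - s) : ℕ) : ℝ) := by exact_mod_cast h
      push_cast [Nat.cast_sub (by omega : s ≤ Fintype.card ι)] at h2
      exact h2
    have p1 : (0 : ℝ) < ((Fintype.card ι).choose s : ℝ) := by
      exact_mod_cast Nat.choose_pos (by omega)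
    have p2 : (0 : ℝ) < ((Fintype.card ι).choose (s + 1) : ℝ) := by
      exact_mod_cast Nat.choose_pos (by omega)
    have e1 : ∑ A ∈ powersetCard s (univ : Finset ι), ∑ u ∈ Aᶜ, (f (insert u A) - f A) =
        (s + 1 : ℝ) * ∑ A ∈ powersetCard (s + 1) (univ : Finset ι), f A -
          ((Fintype.card ι : ℝ) - s) * ∑ A ∈ powersetCard s (univ : Finset ι), f A := by
      rw [← sum_insert_eq, mul_sum, ← sum_sub_distrib]
      refine sum_congr rfl fun A hA => ?_
      rw [sum_sub_distrib, sum_const, nsmul_eq_mul, card_compl, (mem_powersetCard.1 hA).2,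
        Nat.cast_sub (by omega)]
    rw [e1]
    set S0 := ∑ A ∈ powersetCard s (univ : Finset ι), f A with hS0
    set S1 := ∑ A ∈ powersetCard (s + 1) (univ : Finset ι), f A with hS1
    have r1 : av (s + 1) f * (Fintype.card ι).choose (s + 1) = S1 := by
      unfold av
      field_simp
      rw [hS1]
    have r0 : av s f * (Fintype.card ι).choose s = S0 := by
      unfold av
      field_simp
      rw [hS0]
    rw [← r1, ← r0]
    linear_combination av (s + 1) f * hc
  · have e1 : powersetCard (s + 1) (univ : Finset ι) = ∅ := by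
      rw [powersetCard_eq_empty, card_univ]
      omega
    have e0 : ∀ A ∈ powersetCard s (univ : Finset ι), (Aᶜ : Finset ι) = ∅ := by
      intro A hA
      rw [← card_eq_zero, card_compl, (mem_powersetCard.1 hA).2]
      omega
    rw [sum_eq_zero fun A hA => by rw [e0 A hA, sum_empty]]
    rcases Nat.lt_or_ge (Fintype.card ι) s with h | h
    · rw [Nat.choose_eq_zero_of_lt h]
      simp
    · have : Fintype.card ι = s := by omega
      rw [this]
      simp

/-- the second difference -/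
theorem sum_second (s : ℕ) (hs : s + 2 ≤ Fintype.card ι) (f : Finset ι → ℝ) :
    ∑ A ∈ powersetCard s (univ : Finset ι), ∑ u ∈ Aᶜ, ∑ v ∈ Aᶜ.erase u,
      (f (insert v (insert u A)) - f (insert u A) - f (insert v A) + f A) =
      ((Fintype.card ι).choose s : ℝ) * ((Fintype.card ι : ℝ) - s) *
        ((Fintype.card ι : ℝ) - s - 1) * (av (s + 2) f - 2 * av (s + 1) f + av s f) := by
  set N := Fintype.card ι with hN
  have hc1 : (N.choose (s + 1) : ℝ) * (s + 1) = (N.choose s : ℝ) * ((N : ℝ) - s) := by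
    have h := Nat.choose_succ_right_eq N s
    have h2 : ((N.choose (s + 1) * (s + 1) : ℕ) : ℝ) = ((N.choose s * (N - s) : ℕ) : ℝ) := by
      exact_mod_cast h
    push_cast [Nat.cast_sub (by omega : s ≤ N)] at h2
    exact h2
  have hc2 : (N.choose (s + 2) : ℝ) * (s + 2) = (N.choose (s + 1) : ℝ) * ((N : ℝ) - s - 1) := by
    have h := Nat.choose_succ_right_eq N (s + 1)
    have h2 : ((N.choose (s + 1 + 1) * (s + 1 + 1) : ℕ) : ℝ) =
      ((N.choose (s + 1) * (N - (s + 1)) : ℕ) : ℝ) := by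
      exact_mod_cast h
    push_cast [Nat.cast_sub (by omega : s + 1 ≤ N)] at h2
    rw [show s + 1 + 1 = s + 2 from rfl] at h2
    linarith
  have p0 : (0 : ℝ) < (N.choose s : ℝ) := by exact_mod_cast Nat.choose_pos (by omega)
  have p1 : (0 : ℝ) < (N.choose (s + 1) : ℝ) := by exact_mod_cast Nat.choose_pos (by omega)
  have p2 : (0 : ℝ) < (N.choose (s + 2) : ℝ) := by exact_mod_cast Nat.choose_pos (by omega)
  set S0 := ∑ A ∈ powersetCard s (univ : Finset ι), f A with hS0
  set S1 := ∑ A ∈ powersetCard (s + 1) (univ : Finset ι), f A with hS1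
  set S2 := ∑ A ∈ powersetCard (s + 2) (univ : Finset ι), f A with hS2
  have q2 : ∑ A ∈ powersetCard s (univ : Finset ι), ∑ u ∈ Aᶜ, ∑ v ∈ Aᶜ.erase u,
      f (insert v (insert u A)) = (s + 1) * ((s + 2) * S2) := by
    have h := sum_insert_eq s (fun A : Finset ι => ∑ v ∈ Aᶜ, f (insert v A))
    have h' := sum_insert_eq (s + 1) f
    rw [h'] at h
    simp only [compl_insert_eq] at h
    rw [h]
    push_cast
    rw [hS2]
    ring
  have hcA : ∀ A ∈ powersetCard s (univ : Finset ι), ((Aᶜ : Finset ι).card : ℝ) = (N : ℝ) - s := by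
    intro A hA
    rw [card_compl, (mem_powersetCard.1 hA).2, Nat.cast_sub (by omega)]
  have q1 : ∑ A ∈ powersetCard s (univ : Finset ι), ∑ u ∈ Aᶜ, ∑ v ∈ Aᶜ.erase u,
      f (insert u A) = ((N : ℝ) - s - 1) * ((s + 1) * S1) := by
    rw [hS1, ← sum_insert_eq, mul_sum]
    refine sum_congr rfl fun A hA => ?_
    rw [mul_sum]
    refine sum_congr rfl fun u hu => ?_
    rw [sum_const, nsmul_eq_mul, card_erase_of_mem hu, Nat.cast_sub, hcA A hA]
    · simp
    · exact card_pos.2 ⟨u, hu⟩
  have q1' : ∑ A ∈ powersetCard s (univ : Finset ι), ∑ u ∈ Aᶜ, ∑ v ∈ Aᶜ.erase u,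
      f (insert v A) = ((N : ℝ) - s - 1) * ((s + 1) * S1) := by
    rw [hS1, ← sum_insert_eq, mul_sum]
    refine sum_congr rfl fun A hA => ?_
    have h1 : ∀ u ∈ (Aᶜ : Finset ι), ∑ v ∈ Aᶜ.erase u, f (insert v A) =
        ∑ v ∈ Aᶜ, f (insert v A) - f (insert u A) := by
      intro u hu
      rw [← add_sum_erase _ _ hu]
      ring
    rw [sum_congr rfl h1, sum_sub_distrib, sum_const, nsmul_eq_mul, hcA A hA]
    ring
  have q0 : ∑ A ∈ powersetCard s (univ : Finset ι), ∑ u ∈ Aᶜ, ∑ v ∈ Aᶜ.erase u,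
      f A = ((N : ℝ) - s) * ((N : ℝ) - s - 1) * S0 := by
    rw [hS0, mul_sum]
    refine sum_congr rfl fun A hA => ?_
    rw [sum_congr rfl fun u hu => by
      rw [sum_const, nsmul_eq_mul, card_erase_of_mem hu, Nat.cast_sub (card_pos.2 ⟨u, hu⟩),
        hcA A hA]]
    rw [sum_const, nsmul_eq_mul, hcA A hA]
    push_cast
    ring
  simp only [sum_add_distrib, sum_sub_distrib]
  rw [q2, q1, q1', q0]
  have r2 : av (s + 2) f * N.choose (s + 2) = S2 := by
    unfold av
    rw [← hN]
    field_simp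
    rw [hS2]
  have r1 : av (s + 1) f * N.choose (s + 1) = S1 := by
    unfold av
    rw [← hN]
    field_simp
    rw [hS1]
  have r0 : av s f * N.choose s = S0 := by
    unfold av
    rw [← hN]
    field_simp
    rw [hS0]
  rw [← r2, ← r1, ← r0]
  have t2 : (s + 1 : ℝ) * ((s + 2) * (av (s + 2) f * N.choose (s + 2))) =
      N.choose s * (N - s) * (N - s - 1) * av (s + 2) f := by
    calc (s + 1 : ℝ) * ((s + 2) * (av (s + 2) f * N.choose (s + 2)))
        = (s + 1) * (N.choose (s + 2) * (s + 2)) * av (s + 2) f := by ring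
      _ = (N.choose (s + 1) * (s + 1)) * (N - s - 1) * av (s + 2) f := by rw [hc2]; ring
      _ = _ := by rw [hc1]
  have t1 : ((N : ℝ) - s - 1) * ((s + 1) * (av (s + 1) f * N.choose (s + 1))) =
      N.choose s * (N - s) * (N - s - 1) * av (s + 1) f := by
    calc ((N : ℝ) - s - 1) * ((s + 1) * (av (s + 1) f * N.choose (s + 1)))
        = (N.choose (s + 1) * (s + 1)) * ((N : ℝ) - s - 1) * av (s + 1) f := by ring
      _ = _ := by rw [hc1]
  rw [t2, t1]
  ring

omit [DecidableEq ι] in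
theorem av_mono (s : ℕ) {f g : Finset ι → ℝ} (h : ∀ A, A.card = s → f A ≤ g A) :
    av s f ≤ av s g := by
  unfold av
  exact div_le_div_of_nonneg_right
    (sum_le_sum fun A hA => h A (mem_powersetCard.1 hA).2) (Nat.cast_nonneg _)

omit [DecidableEq ι] in
theorem av_nonneg (s : ℕ) {f : Finset ι → ℝ} (h : ∀ A, A.card = s → 0 ≤ f A) : 0 ≤ av s f := by
  unfold av
  exact div_nonneg (sum_nonneg fun A hA => h A (mem_powersetCard.1 hA).2) (Nat.cast_nonneg _)

omit [DecidableEq ι] in
theorem av_const (s : ℕ) (hs : s ≤ Fintype.card ι) (c : ℝ) :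
    av s (fun _ : Finset ι => c) = c := by
  unfold av
  have p0 : (0 : ℝ) < ((Fintype.card ι).choose s : ℝ) := by exact_mod_cast Nat.choose_pos hs
  rw [sum_const, card_powersetCard, card_univ, nsmul_eq_mul]
  field_simp

end Averages

section Sizes

variable {α : Type*} [Lattice α] [OrderBot α] {ι : Type*} [Fintype ι] [DecidableEq ι]

/-- the mutual information of two lines, given a random past of size `s` -/
noncomputable def wt (D : α → ℝ) (L : ι → α) (s : ℕ) (u v : ι) : ℝ :=
  av s (fun A => if u ∉ A ∧ v ∉ A then mi D (L u) (L v) (A.sup L) else 0)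

variable {D : α → ℝ} (hD : SupMod D) {L : ι → α}

include hD in
theorem wt_nonneg (s : ℕ) (u v : ι) : 0 ≤ wt D L s u v := by
  refine av_nonneg s fun A _ => ?_
  split_ifs
  · exact mi_nonneg hD _ _ _
  · exact le_rfl

theorem sum_wt (s : ℕ) : (∑ u : ι, ∑ v ∈ univ.erase u, wt D L s u v) * (Fintype.card ι).choose s =
    if s ≤ Fintype.card ι then
    ∑ A ∈ powersetCard s (univ : Finset ι), ∑ u ∈ Aᶜ, ∑ v ∈ Aᶜ.erase u,
      mi D (L u) (L v) (A.sup L) else 0 := by
  split_ifs with hs
  · have p0 : (0 : ℝ) < ((Fintype.card ι).choose s : ℝ) := by exact_mod_cast Nat.choose_pos hs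
    have e1 : ∀ u v : ι, wt D L s u v * (Fintype.card ι).choose s =
        ∑ A ∈ powersetCard s (univ : Finset ι),
          if u ∉ A ∧ v ∉ A then mi D (L u) (L v) (A.sup L) else 0 := by
      intro u v
      unfold wt av
      field_simp
    rw [sum_mul]
    simp_rw [sum_mul, e1]
    rw [sum_congr rfl fun u _ => sum_comm, sum_comm]
    refine sum_congr rfl fun A _ => ?_
    rw [← sum_subset (subset_univ (Aᶜ : Finset ι))]
    · refine sum_congr rfl fun u hu => ?_
      rw [mem_compl] at hu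
      rw [← sum_subset (erase_subset_erase u (subset_univ (Aᶜ : Finset ι)))]
      · refine sum_congr rfl fun v hv => ?_
        rw [mem_erase, mem_compl] at hv
        rw [if_pos ⟨hu, hv.2⟩]
      · intro v _ hv2
        rw [mem_erase, mem_compl, not_and, not_not] at hv2
        rename_i hv1
        rw [if_neg]
        exact fun h => h.2 (hv2 (ne_of_mem_erase hv1))
    · intro u _ hu
      rw [mem_compl, not_not] at hu
      refine sum_eq_zero fun v _ => ?_
      rw [if_neg]
      exact fun h => h.1 hu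
  · rw [Nat.choose_eq_zero_of_lt (by omega)]
    simp

include hD in
/-- one step of the telescoping -/
theorem sum_wt_le {κ : ℕ} (hT : Tri L κ) {s h : ℕ} (h0 : 0 < h) (hκ : s + 1 + h ≤ κ)
    (hh : h ≤ Fintype.card ι) (hs : 2 * (s + 1) ≤ Fintype.card ι) :
    ∑ u : ι, ∑ v ∈ univ.erase u, wt D L s u v ≤ (Fintype.card ι : ℝ) ^ 2 *
      (av (s + 2) (fun A : Finset ι => D (A.sup L)) - 2 * av (s + 1) (fun A => D (A.sup L)) +
        av s (fun A => D (A.sup L)) +
        4 / h * (av (s + 1) (fun A => D (A.sup L)) - av s (fun A => D (A.sup L)))) := by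
  set N := Fintype.card ι with hN
  set f : Finset ι → ℝ := fun A => D (A.sup L) with hf
  have hN2 : s + 2 ≤ N := by omega
  have p0 : (0 : ℝ) < (N.choose s : ℝ) := by exact_mod_cast Nat.choose_pos (by omega)
  have hsN : (2 : ℝ) * (s + 1) ≤ N := by exact_mod_cast hs
  have hhN : (h : ℝ) ≤ N := by exact_mod_cast hh
  have hh0 : (0 : ℝ) < h := by exact_mod_cast h0
  have hs0 : (0 : ℝ) ≤ s := Nat.cast_nonneg s
  -- first difference
  have g1 : 0 ≤ av (s + 1) f - av s f := by
    have h1 := sum_first s f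
    have h2 : 0 ≤ ∑ A ∈ powersetCard s (univ : Finset ι), ∑ u ∈ Aᶜ, (f (insert u A) - f A) :=
      sum_nonneg fun A _ => sum_nonneg fun u _ =>
        sub_nonneg.2 (hD.mono (sup_mono (subset_insert u A)))
    rw [h1] at h2
    have h3 : 0 < (N.choose s : ℝ) * ((N : ℝ) - s) := mul_pos p0 (by linarith only [h2, hsN])
    exact nonneg_of_mul_nonneg_right h2 h3
  -- the triple sum
  have e1 : ∑ A ∈ powersetCard s (univ : Finset ι), ∑ u ∈ Aᶜ, ∑ v ∈ Aᶜ.erase u,
      mi D (L u) (L v) (A.sup L) =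
      ∑ A ∈ powersetCard s (univ : Finset ι), ∑ u ∈ Aᶜ, ∑ v ∈ Aᶜ.erase u,
        (f (insert v (insert u A)) - f (insert u A) - f (insert v A) + f A) +
      ∑ A ∈ powersetCard s (univ : Finset ι), ∑ u ∈ Aᶜ, ∑ v ∈ Aᶜ.erase u,
        sh D (L u) (L v) (A.sup L) := by
    rw [← sum_add_distrib]
    refine sum_congr rfl fun A _ => ?_
    rw [← sum_add_distrib]
    refine sum_congr rfl fun u _ => ?_
    rw [← sum_add_distrib]
    refine sum_congr rfl fun v _ => ?_
    rw [mi_eq, hf]
    simp only [sup_insert]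
    have : L v ⊔ (L u ⊔ A.sup L) = L u ⊔ L v ⊔ A.sup L := by ac_rfl
    rw [this]
  have e2 : ∑ A ∈ powersetCard s (univ : Finset ι), ∑ u ∈ Aᶜ, ∑ v ∈ Aᶜ.erase u,
        sh D (L u) (L v) (A.sup L) ≤
      ((N : ℝ) / h + 1) * ((N.choose s : ℝ) * ((N : ℝ) - s) * (av (s + 1) f - av s f)) := by
    rw [← sum_first s f, mul_sum]
    refine sum_le_sum fun A hA => ?_
    rw [mul_sum]
    refine sum_le_sum fun u _ => ?_
    have hA' := (mem_powersetCard.1 hA).2
    have h1 := sum_sh_le hD hT A u h0 (by omega) _ (Aᶜ.erase u) rfl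
      (fun v hv => ne_of_mem_erase hv)
    refine h1.trans ?_
    have h2 : dc D (L u) (A.sup L) = f (insert u A) - f A := by
      rw [hf]
      simp only [sup_insert]
      rfl
    rw [h2]
    refine mul_le_mul_of_nonneg_right ?_ ?_
    · have h3 : ((Aᶜ.erase u).card : ℝ) ≤ N := by
        exact_mod_cast card_le_univ _
      have := div_le_div_of_nonneg_right h3 hh0.le
      linarith only [this]
    · exact sub_nonneg.2 (hD.mono (sup_mono (subset_insert u A)))
  have e3 := sum_second s hN2 f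
  rw [← hN] at e3
  have e4 : ((N : ℝ) / h + 1) ≤ 4 / h * ((N : ℝ) - s - 1) := by
    have h1 : 1 ≤ (N : ℝ) / h := by rwa [le_div_iff₀ hh0, one_mul]
    have h2 : 4 / h * ((N : ℝ) / 2) ≤ 4 / h * ((N : ℝ) - s - 1) :=
      mul_le_mul_of_nonneg_left (by linarith only [hsN]) (by positivity)
    have h3 : 4 / (h : ℝ) * ((N : ℝ) / 2) = 2 * (N / h) := by ring
    linarith only [h1, h2, h3]
  set B := av (s + 2) f - 2 * av (s + 1) f + av s f + 4 / h * (av (s + 1) f - av s f) with hB
  have e5 : (∑ u : ι, ∑ v ∈ univ.erase u, wt D L s u v) * (N.choose s : ℝ) ≤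
      (N.choose s : ℝ) * ((N : ℝ) - s) * ((N : ℝ) - s - 1) * B := by
    rw [sum_wt, if_pos (by omega), e1, e3]
    have h1 : ((N : ℝ) / h + 1) * ((N.choose s : ℝ) * ((N : ℝ) - s) * (av (s + 1) f - av s f)) ≤
        (4 / h * ((N : ℝ) - s - 1)) *
          ((N.choose s : ℝ) * ((N : ℝ) - s) * (av (s + 1) f - av s f)) :=
      mul_le_mul_of_nonneg_right e4
        (mul_nonneg (mul_nonneg p0.le (by linarith only [e4, hsN])) g1)
    rw [hB]
    have h2 := e2.trans h1
    linarith only [h2]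
  have e6 : 0 ≤ (∑ u : ι, ∑ v ∈ univ.erase u, wt D L s u v) :=
    sum_nonneg fun u _ => sum_nonneg fun v _ => wt_nonneg hD s u v
  have e7 : (∑ u : ι, ∑ v ∈ univ.erase u, wt D L s u v) ≤
      ((N : ℝ) - s) * ((N : ℝ) - s - 1) * B := by
    have h1 : (∑ u : ι, ∑ v ∈ univ.erase u, wt D L s u v) * (N.choose s : ℝ) ≤
      (((N : ℝ) - s) * ((N : ℝ) - s - 1) * B) * (N.choose s : ℝ) := by
      refine e5.trans (le_of_eq ?_)
      ring
    exact le_of_mul_le_mul_right h1 p0
  have e8 : 0 ≤ B := by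
    have h1 : 0 ≤ ((N : ℝ) - s) * ((N : ℝ) - s - 1) * B := e6.trans e7
    have h2 : 0 < ((N : ℝ) - s) * ((N : ℝ) - s - 1) := mul_pos (by linarith only [h1, hsN]) (by linarith only [h1, hsN])
    exact nonneg_of_mul_nonneg_right h1 h2
  refine e7.trans (mul_le_mul_of_nonneg_right ?_ e8)
  rw [sq]
  refine mul_le_mul (by linarith only [e7]) (by linarith only [e7]) (by linarith only [e7, hsN]) (by (clear * -; positivity))

include hD in
/-- **Existence of a size** such that the average mutual information is small for the pasts with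
`s, …, s + 4` lines. -/
theorem exists_size {κ : ℕ} (hT : Tri L κ) {Dm : ℝ} (hDm : ∀ A : Finset ι, 0 ≤ D (A.sup L) ∧ D (A.sup L) ≤ Dm) {m : ℕ}
    (hm : 4 ≤ m) (hκ : 6 * m ≤ κ) (hN : 8 * m ≤ Fintype.card ι) :
    ∃ s, m ≤ s ∧ s < 2 * m ∧ ∑ e ∈ range 5, ∑ u : ι, ∑ v ∈ univ.erase u, wt D L (s + e) u v ≤
      25 * (Fintype.card ι : ℝ) ^ 2 * Dm / (m : ℝ) ^ 2 := by
  set N := Fintype.card ι with hNdef
  set F : ℕ → ℝ := fun s => av s (fun A : Finset ι => D (A.sup L)) with hF
  set T : ℕ → ℝ := fun s => ∑ u : ι, ∑ v ∈ univ.erase u, wt D L s u v with hTdef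
  have hm0 : (0 : ℝ) < m := by exact_mod_cast (by omega : 0 < m)
  have hF0 : ∀ s, 0 ≤ F s := fun s => av_nonneg s fun A _ => (hDm _).1
  have hF1 : ∀ s, s ≤ N → F s ≤ Dm := fun s hs => by
    rw [← av_const (ι := ι) s hs Dm]
    exact av_mono s fun A _ => (hDm _).2
  have hT0 : ∀ s, 0 ≤ T s := fun s => sum_nonneg fun u _ => sum_nonneg fun v _ => wt_nonneg hD s u v
  have hDm0 : 0 ≤ Dm := (hF0 0).trans (hF1 0 (Nat.zero_le _))
  -- choice of the end point
  obtain ⟨t, ht1, ht2, ht3⟩ : ∃ t, 3 * m ≤ t ∧ t < 4 * m ∧ F (t + 1) - F t ≤ Dm / m := by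
    by_contra hcon
    push Not at hcon
    have h1 : ∑ t ∈ Ico (3 * m) (4 * m), Dm / (m : ℝ) < ∑ t ∈ Ico (3 * m) (4 * m), (F (t + 1) - F t) := by
      refine sum_lt_sum_of_nonempty ⟨3 * m, mem_Ico.2 ⟨le_rfl, by omega⟩⟩ fun t ht => ?_
      rw [mem_Ico] at ht
      exact hcon t ht.1 ht.2
    rw [sum_const, Nat.card_Ico, nsmul_eq_mul, sum_Ico_sub _ (by omega : 3 * m ≤ 4 * m)] at h1
    have h2 : ((4 * m - 3 * m : ℕ) : ℝ) * (Dm / m) = Dm := by
      rw [show 4 * m - 3 * m = m by omega]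
      field_simp
    rw [h2] at h1
    have := hF0 (3 * m)
    have := hF1 (4 * m) (by omega)
    linarith
  -- telescoping
  have hstep : ∀ s ∈ Ico m t, T s ≤ (N : ℝ) ^ 2 *
      ((F (s + 1 + 1) - F (s + 1)) - (F (s + 1) - F s) + 4 / m * (F (s + 1) - F s)) := by
    intro s hs
    rw [mem_Ico] at hs
    have h1 := sum_wt_le hD hT (s := s) (h := m) (by omega) (by omega) (by omega) (by omega)
    rw [hTdef]
    refine h1.trans (le_of_eq ?_)
    rw [← hNdef]
    simp only [hF]
    ring
  have hsum : ∑ s ∈ Ico m t, T s ≤ (N : ℝ) ^ 2 * (5 * Dm / m) := by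
    refine (sum_le_sum hstep).trans ?_
    rw [← mul_sum]
    refine mul_le_mul_of_nonneg_left ?_ (by positivity)
    rw [sum_add_distrib, ← mul_sum, sum_Ico_sub _ (by omega : m ≤ t)]
    have h1 := sum_Ico_sub (fun s => F (s + 1) - F s) (by omega : m ≤ t)
    rw [h1]
    have h2 : 0 ≤ F (m + 1) - F m := by
      have h3 := sum_first (ι := ι) m (fun A => D (A.sup L))
      have h4 : 0 ≤ ∑ A ∈ powersetCard m (univ : Finset ι), ∑ u ∈ Aᶜ,
          (D ((insert u A).sup L) - D (A.sup L)) :=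
        sum_nonneg fun A _ => sum_nonneg fun u _ =>
          sub_nonneg.2 (hD.mono (sup_mono (subset_insert u A)))
      rw [h3, ← hNdef] at h4
      have p0 : (0 : ℝ) < (N.choose m : ℝ) := by exact_mod_cast Nat.choose_pos (by omega)
      have p1 : (0 : ℝ) < (N : ℝ) - m := by
        have : (m : ℝ) < N := by exact_mod_cast (by omega : m < N)
        linarith only [this]
      exact nonneg_of_mul_nonneg_right h4 (mul_pos p0 p1)
    have h3 : 4 / (m : ℝ) * (F t - F m) ≤ 4 / m * Dm := by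
      refine mul_le_mul_of_nonneg_left ?_ (by positivity)
      have := hF0 m
      have := hF1 t (by omega)
      linarith
    have h4 : 5 * Dm / (m : ℝ) = Dm / m + 4 / m * Dm := by ring
    rw [h4]
    linarith only [h3, h2, ht3]
  have hsum2 : ∑ s ∈ Ico m (3 * m), T s ≤ (N : ℝ) ^ 2 * (5 * Dm / m) := by
    refine (sum_le_sum_of_subset_of_nonneg (Ico_subset_Ico le_rfl ht1) fun s _ _ => hT0 s).trans hsum
  -- average
  by_contra hcon
  push Not at hcon
  have h1 : ∑ s ∈ Ico m (2 * m), 25 * (N : ℝ) ^ 2 * Dm / (m : ℝ) ^ 2 <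
      ∑ s ∈ Ico m (2 * m), ∑ e ∈ range 5, T (s + e) := by
    refine sum_lt_sum_of_nonempty ⟨m, mem_Ico.2 ⟨le_rfl, by omega⟩⟩ fun s hs => ?_
    rw [mem_Ico] at hs
    exact hcon s hs.1 hs.2
  rw [sum_comm, sum_const, Nat.card_Ico, nsmul_eq_mul] at h1
  have h2 : ∀ e ∈ range 5, ∑ s ∈ Ico m (2 * m), T (s + e) ≤ (N : ℝ) ^ 2 * (5 * Dm / m) := by
    intro e he
    rw [mem_range] at he
    rw [sum_Ico_add' T m (2 * m) e]
    refine (sum_le_sum_of_subset_of_nonneg (Ico_subset_Ico (by omega) (by omega))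
      fun s _ _ => hT0 s).trans hsum2
  have h3 := sum_le_sum h2
  rw [sum_const, card_range, nsmul_eq_mul] at h3
  have h4 : ((2 * m - m : ℕ) : ℝ) * (25 * (N : ℝ) ^ 2 * Dm / (m : ℝ) ^ 2) =
      ((5 : ℕ) : ℝ) * ((N : ℝ) ^ 2 * (5 * Dm / m)) := by
    rw [show 2 * m - m = m by omega]
    push_cast
    field_simp
    ring
  rw [h4] at h1
  linarith only [h3, h1]

end Sizes

section Extras

variable {α : Type*} [Lattice α] [OrderBot α] {ι : Type*} [Fintype ι] [DecidableEq ι]
  {D : α → ℝ} (hD : SupMod D) {L : ι → α}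

include hD in
/-- a few additional fixed lines in the past -/
theorem sum_extra_le (s : ℕ) (E : Finset ι) {u v : ι} (hu : u ∉ E) (hv : v ∉ E) :
    ∑ A ∈ powersetCard s (univ : Finset ι),
      (if Disjoint A E ∧ u ∉ A ∧ v ∉ A then mi D (L u) (L v) ((A ∪ E).sup L) else 0) ≤
      ((Fintype.card ι).choose (s + E.card) : ℝ) * wt D L (s + E.card) u v := by
  rcases Nat.lt_or_ge (Fintype.card ι) (s + E.card) with hlt | hle
  · rw [Nat.choose_eq_zero_of_lt hlt, Nat.cast_zero, zero_mul]
    refine (sum_nonpos fun A hA => ?_)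
    rw [if_neg]
    rintro ⟨h, -, -⟩
    have h1 := card_union_of_disjoint h
    rw [(mem_powersetCard.1 hA).2] at h1
    have h2 := card_le_univ (A ∪ E)
    omega
  have p0 : (0 : ℝ) < ((Fintype.card ι).choose (s + E.card) : ℝ) := by
    exact_mod_cast Nat.choose_pos hle
  have e1 : ((Fintype.card ι).choose (s + E.card) : ℝ) * wt D L (s + E.card) u v =
      ∑ A ∈ powersetCard (s + E.card) (univ : Finset ι),
        if u ∉ A ∧ v ∉ A then mi D (L u) (L v) (A.sup L) else 0 := by
    unfold wt av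
    field_simp
  rw [e1, ← sum_filter]
  set S := (powersetCard s (univ : Finset ι)).filter (fun A => Disjoint A E ∧ u ∉ A ∧ v ∉ A) with hS
  have hinj : Set.InjOn (fun A : Finset ι => A ∪ E) S := by
    intro A hA A' hA' h
    rw [mem_coe, hS, mem_filter] at hA hA'
    have h' : (A ∪ E) \ E = (A' ∪ E) \ E := by
      simp only at h
      rw [h]
    rwa [union_sdiff_cancel_right hA.2.1, union_sdiff_cancel_right hA'.2.1] at h'
  have e2 : ∑ A ∈ S, mi D (L u) (L v) ((A ∪ E).sup L) =
      ∑ A ∈ S.image (fun A => A ∪ E), mi D (L u) (L v) (A.sup L) := by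
    rw [sum_image hinj]
  rw [e2]
  have e3 : ∀ A ∈ S.image (fun A => A ∪ E), mi D (L u) (L v) (A.sup L) =
      if u ∉ A ∧ v ∉ A then mi D (L u) (L v) (A.sup L) else 0 := by
    intro A hA
    rw [mem_image] at hA
    obtain ⟨A', hA', rfl⟩ := hA
    rw [hS, mem_filter] at hA'
    rw [if_pos]
    rw [mem_union, mem_union, not_or, not_or]
    exact ⟨⟨hA'.2.2.1, hu⟩, hA'.2.2.2, hv⟩
  rw [sum_congr rfl e3]
  refine sum_le_sum_of_subset_of_nonneg ?_ fun A _ _ => ?_
  · intro A hA
    rw [mem_image] at hA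
    obtain ⟨A', hA', rfl⟩ := hA
    rw [hS, mem_filter, mem_powersetCard] at hA'
    rw [mem_powersetCard, card_union_of_disjoint hA'.2.1, hA'.1.2]
    exact ⟨subset_univ _, rfl⟩
  · split_ifs
    · exact mi_nonneg hD _ _ _
    · exact le_rfl

theorem choose_ratio {N m s : ℕ} (hm : 0 < m) (hs : m ≤ s) (e : ℕ) :
    (N.choose (s + e) : ℝ) ≤ ((N : ℝ) / m) ^ e * N.choose s := by
  induction e with
  | zero => simp
  | succ e ih =>
    have hm0 : (0 : ℝ) < m := by exact_mod_cast hm
    have h1 : (N.choose (s + e + 1) : ℝ) * m ≤ N.choose (s + e) * N := by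
      have h2 := Nat.choose_succ_right_eq N (s + e)
      have h3 : N.choose (s + e + 1) * m ≤ N.choose (s + e + 1) * (s + e + 1) :=
        Nat.mul_le_mul_left _ (by omega)
      have h4 : N.choose (s + e) * (N - (s + e)) ≤ N.choose (s + e) * N :=
        Nat.mul_le_mul_left _ (Nat.sub_le _ _)
      exact_mod_cast h3.trans (h2.le.trans h4)
    rw [pow_succ, ← add_assoc]
    have h5 : (N.choose (s + e + 1) : ℝ) ≤ (N.choose (s + e) : ℝ) * (N / m) := by
      rw [← mul_div_assoc, le_div_iff₀ hm0]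
      exact h1
    refine h5.trans ?_
    have h6 := mul_le_mul_of_nonneg_right ih (show 0 ≤ (N : ℝ) / m by positivity)
    refine h6.trans (le_of_eq ?_)
    ring

theorem choose_ratio4 {N m s : ℕ} (hm : 0 < m) (hs : m ≤ s) (hmN : m ≤ N) {e : ℕ} (he : e ≤ 4) :
    (N.choose (s + e) : ℝ) ≤ ((N : ℝ) / m) ^ 4 * N.choose s := by
  refine (choose_ratio hm hs e).trans (mul_le_mul_of_nonneg_right ?_ (Nat.cast_nonneg _))
  have hm0 : (0 : ℝ) < m := by exact_mod_cast hm
  have h1 : 1 ≤ (N : ℝ) / m := by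
    rw [le_div_iff₀ hm0, one_mul]
    exact_mod_cast hmN
  exact pow_le_pow_right₀ h1 he

/-- sets of size `s` which meet a given set -/
theorem card_meet_le (s : ℕ) (Z : Finset ι) (h : 12 * (Z.card * s) ≤ Fintype.card ι) :
    12 * ((powersetCard s (univ : Finset ι)).filter (fun A => ¬ Disjoint A Z)).card ≤
      (Fintype.card ι).choose s := by
  set N := Fintype.card ι with hN
  rcases Nat.eq_zero_or_pos s with rfl | hs
  · have : (powersetCard 0 (univ : Finset ι)).filter (fun A => ¬ Disjoint A Z) = ∅ := by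
      rw [powersetCard_zero]
      ext A
      simp only [mem_filter, mem_singleton, notMem_empty, iff_false, not_and, not_not]
      rintro rfl
      exact disjoint_empty_left _
    rw [this]
    simp
  have h1 : ∀ a ∈ Z, ((powersetCard s (univ : Finset ι)).filter (fun A => a ∈ A)).card ≤
      (N - 1).choose (s - 1) := by
    intro a _
    have h2 : ((powersetCard s (univ : Finset ι)).filter (fun A => a ∈ A)).card ≤
        (powersetCard (s - 1) ((univ : Finset ι).erase a)).card := by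
      refine card_le_card_of_injOn (fun A => A.erase a) ?_ ?_
      · intro A hA
        rw [mem_coe, mem_filter, mem_powersetCard] at hA
        rw [mem_coe, mem_powersetCard]
        exact ⟨erase_subset_erase a (subset_univ A), by rw [card_erase_of_mem hA.2, hA.1.2]⟩
      · intro A hA A' hA' heq
        rw [mem_coe, mem_filter, mem_powersetCard] at hA hA'
        simp only at heq
        rw [← insert_erase hA.2, heq, insert_erase hA'.2]
    rw [card_powersetCard, card_erase_of_mem (mem_univ a), card_univ] at h2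
    exact h2
  have h2 : ((powersetCard s (univ : Finset ι)).filter (fun A => ¬ Disjoint A Z)).card ≤
      Z.card * (N - 1).choose (s - 1) := by
    have h3 : (powersetCard s (univ : Finset ι)).filter (fun A => ¬ Disjoint A Z) ⊆
        Z.biUnion (fun a => (powersetCard s (univ : Finset ι)).filter (fun A => a ∈ A)) := by
      intro A hA
      rw [mem_filter, not_disjoint_iff] at hA
      obtain ⟨hA, a, ha, haZ⟩ := hA
      rw [mem_biUnion]
      exact ⟨a, haZ, mem_filter.2 ⟨hA, ha⟩⟩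
    refine (card_le_card h3).trans (card_biUnion_le.trans ?_)
    refine (sum_le_sum h1).trans ?_
    rw [sum_const, smul_eq_mul]
  rcases Nat.eq_zero_or_pos N with h0 | h0
  · have hZ : Z.card = 0 := by
      have := card_le_univ Z
      omega
    rw [hZ, zero_mul] at h2
    omega
  · have h3 : N * (N - 1).choose (s - 1) = N.choose s * s := by
      obtain ⟨N', hN'⟩ : ∃ N', N = N' + 1 := ⟨N - 1, by omega⟩
      obtain ⟨s', hs'⟩ : ∃ s', s = s' + 1 := ⟨s - 1, by omega⟩
      rw [hN', hs']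
      exact Nat.add_one_mul_choose_eq N' s'
    refine Nat.le_of_mul_le_mul_left ?_ h0
    calc N * (12 * ((powersetCard s (univ : Finset ι)).filter (fun A => ¬ Disjoint A Z)).card)
        ≤ N * (12 * (Z.card * (N - 1).choose (s - 1))) :=
          Nat.mul_le_mul_left _ (Nat.mul_le_mul_left _ h2)
      _ = 12 * Z.card * (N * (N - 1).choose (s - 1)) := by ring
      _ = 12 * (Z.card * s) * N.choose s := by rw [h3]; ring
      _ ≤ N * N.choose s := Nat.mul_le_mul_right _ h

end Extras

section Three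

variable {ι : Type*} [Fintype ι] [DecidableEq ι]

/-- the number of pairs of sets which are disjoint from each other and from a given one -/
theorem card_two (s : ℕ) {A : Finset ι} (hA : A.card = s) :
    ∑ B ∈ powersetCard s (univ : Finset ι), ∑ C ∈ powersetCard s (univ : Finset ι),
      (if Disjoint A B ∧ Disjoint A C ∧ Disjoint B C then 1 else 0) =
      (Fintype.card ι - s).choose s * (Fintype.card ι - 2 * s).choose s := by
  have h1 : ∀ B ∈ powersetCard s (univ : Finset ι), ∑ C ∈ powersetCard s (univ : Finset ι),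
      (if Disjoint A B ∧ Disjoint A C ∧ Disjoint B C then 1 else 0) =
      if Disjoint A B then (Fintype.card ι - 2 * s).choose s else 0 := by
    intro B hB
    split_ifs with hAB
    · rw [← card_filter]
      have e : (powersetCard s (univ : Finset ι)).filter
          (fun C => Disjoint A B ∧ Disjoint A C ∧ Disjoint B C) =
          powersetCard s (A ∪ B)ᶜ := by
        ext C
        rw [mem_filter, mem_powersetCard, mem_powersetCard]
        constructor
        · rintro ⟨⟨-, hc⟩, -, h1, h2⟩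
          refine ⟨fun x hx => ?_, hc⟩
          rw [mem_compl, mem_union, not_or]
          exact ⟨fun h => disjoint_left.1 h1 h hx, fun h => disjoint_left.1 h2 h hx⟩
        · rintro ⟨h1, h2⟩
          refine ⟨⟨subset_univ _, h2⟩, hAB, ?_, ?_⟩
          · rw [disjoint_left]
            intro x hx hxC
            have := h1 hxC
            rw [mem_compl, mem_union, not_or] at this
            exact this.1 hx
          · rw [disjoint_left]
            intro x hx hxC
            have := h1 hxC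
            rw [mem_compl, mem_union, not_or] at this
            exact this.2 hx
      rw [e, card_powersetCard, card_compl, card_union_of_disjoint hAB, hA,
        (mem_powersetCard.1 hB).2]
      congr 1
      omega
    · refine sum_eq_zero fun C _ => ?_
      rw [if_neg]
      exact fun h => hAB h.1
  rw [sum_congr rfl h1, ← sum_filter, sum_const, smul_eq_mul]
  congr 1
  have e : (powersetCard s (univ : Finset ι)).filter (fun B => Disjoint A B) =
      powersetCard s Aᶜ := by
    ext B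
    rw [mem_filter, mem_powersetCard, mem_powersetCard]
    constructor
    · rintro ⟨⟨-, hc⟩, h1⟩
      refine ⟨fun x hx => ?_, hc⟩
      rw [mem_compl]
      exact fun h => disjoint_left.1 h1 h hx
    · rintro ⟨h1, h2⟩
      refine ⟨⟨subset_univ _, h2⟩, ?_⟩
      rw [disjoint_left]
      intro x hx hxC
      have := h1 hxC
      rw [mem_compl] at this
      exact this hx
  rw [e, card_powersetCard, card_compl, hA]

/-- **Three disjoint good sets.** -/
theorem exists_three {s : ℕ} (hs : 3 * s ≤ Fintype.card ι) (Bd : Finset (Finset ι))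
    (hB : Bd ⊆ powersetCard s (univ : Finset ι)) (hc : 3 * Bd.card < (Fintype.card ι).choose s) :
    ∃ A : Fin 3 → Finset ι, (∀ l, (A l).card = s) ∧ (∀ l, A l ∉ Bd) ∧
      ∀ l l', l ≠ l' → Disjoint (A l) (A l') := by
  by_contra hcon
  set Ps := powersetCard s (univ : Finset ι) with hPs
  set c := (Fintype.card ι - s).choose s * (Fintype.card ι - 2 * s).choose s with hcdef
  have hcpos : 0 < c := Nat.mul_pos (Nat.choose_pos (by omega)) (Nat.choose_pos (by omega))
  have hne : ∀ A ∈ Ps, ∀ B ∈ Ps, ∀ C ∈ Ps, Disjoint A B → Disjoint A C → Disjoint B C →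
      A ∈ Bd ∨ B ∈ Bd ∨ C ∈ Bd := by
    intro A hA B hB' C hC h1 h2 h3
    by_contra h
    push Not at h
    refine hcon ⟨![A, B, C], ?_, ?_, ?_⟩
    · intro l
      fin_cases l
      · exact (mem_powersetCard.1 hA).2
      · exact (mem_powersetCard.1 hB').2
      · exact (mem_powersetCard.1 hC).2
    · intro l
      fin_cases l
      · exact h.1
      · exact h.2.1
      · exact h.2.2
    · intro l l' hl
      fin_cases l <;> fin_cases l' <;> first | exact absurd rfl hl | skip
      · exact h1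
      · exact h2
      · exact h1.symm
      · exact h3
      · exact h2.symm
      · exact h3.symm
  set t : Finset ι → Finset ι → Finset ι → ℕ := fun A B C =>
    if Disjoint A B ∧ Disjoint A C ∧ Disjoint B C then 1 else 0 with ht
  have tot : ∑ A ∈ Ps, ∑ B ∈ Ps, ∑ C ∈ Ps, t A B C = (Fintype.card ι).choose s * c := by
    rw [sum_congr rfl fun A hA => card_two s (mem_powersetCard.1 hA).2, sum_const, smul_eq_mul,
      card_powersetCard, card_univ]
  have b1 : ∑ A ∈ Ps, ∑ B ∈ Ps, ∑ C ∈ Ps, (if A ∈ Bd then t A B C else 0) = Bd.card * c := by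
    have h1 : ∀ A ∈ Ps, ∑ B ∈ Ps, ∑ C ∈ Ps, (if A ∈ Bd then t A B C else 0) =
        if A ∈ Bd then c else 0 := by
      intro A hA
      split_ifs with h
      · exact card_two s (mem_powersetCard.1 hA).2
      · simp
    rw [sum_congr rfl h1, ← sum_filter, sum_const, smul_eq_mul]
    congr 2
    ext A
    rw [mem_filter]
    exact ⟨fun h => h.2, fun h => ⟨hB h, h⟩⟩
  have b2 : ∑ A ∈ Ps, ∑ B ∈ Ps, ∑ C ∈ Ps, (if B ∈ Bd then t A B C else 0) = Bd.card * c := by
    rw [← b1, sum_comm]
    refine sum_congr rfl fun A _ => sum_congr rfl fun B _ => sum_congr rfl fun C _ => ?_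
    have e : (Disjoint B A ∧ Disjoint B C ∧ Disjoint A C) ↔
        (Disjoint A B ∧ Disjoint A C ∧ Disjoint B C) := by
      rw [disjoint_comm (a := B) (b := A)]
      tauto
    simp only [ht, e]
  have b3 : ∑ A ∈ Ps, ∑ B ∈ Ps, ∑ C ∈ Ps, (if C ∈ Bd then t A B C else 0) = Bd.card * c := by
    rw [← b2]
    refine sum_congr rfl fun A _ => ?_
    rw [sum_comm]
    refine sum_congr rfl fun B _ => sum_congr rfl fun C _ => ?_
    have e : (Disjoint A C ∧ Disjoint A B ∧ Disjoint C B) ↔
        (Disjoint A B ∧ Disjoint A C ∧ Disjoint B C) := by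
      rw [disjoint_comm (a := C) (b := B)]
      tauto
    simp only [ht, e]
  have hle : ∑ A ∈ Ps, ∑ B ∈ Ps, ∑ C ∈ Ps, t A B C ≤
      ∑ A ∈ Ps, ∑ B ∈ Ps, ∑ C ∈ Ps, ((if A ∈ Bd then t A B C else 0) +
        (if B ∈ Bd then t A B C else 0) + (if C ∈ Bd then t A B C else 0)) := by
    refine sum_le_sum fun A hA => sum_le_sum fun B hB' => sum_le_sum fun C hC => ?_
    by_cases hd : Disjoint A B ∧ Disjoint A C ∧ Disjoint B C
    · rcases hne A hA B hB' C hC hd.1 hd.2.1 hd.2.2 with h | h | h <;> rw [if_pos h] <;> omega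
    · simp only [ht, if_neg hd]
      exact Nat.zero_le _
  simp only [sum_add_distrib] at hle
  rw [tot, b1, b2, b3] at hle
  have h1 : 3 * Bd.card * c < (Fintype.card ι).choose s * c := Nat.mul_lt_mul_of_pos_right hc hcpos
  have h2 : Bd.card * c + Bd.card * c + Bd.card * c = 3 * Bd.card * c := by ring
  omega

end Three

section Strong

variable {α : Type*} [Lattice α] [OrderBot α] {ι : Type*} [Fintype ι] [DecidableEq ι]
  {D : α → ℝ} (hD : SupMod D) {L : ι → α}

theorem wt_comm (D : α → ℝ) (L : ι → α) (s : ℕ) (u v : ι) : wt D L s u v = wt D L s v u := by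
  unfold wt
  congr 1
  funext A
  rw [mi_comm]
  exact if_congr and_comm rfl rfl

/-- The strong relation: two different lines whose average mutual information exceeds `θ` for one of
the sizes `s, …, s + 4`. -/
def Str (D : α → ℝ) (L : ι → α) (s : ℕ) (θ : ℝ) (u v : ι) : Prop :=
  u ≠ v ∧ ∃ e < 5, θ < wt D L (s + e) u v

theorem Str.symm {D : α → ℝ} {L : ι → α} {s : ℕ} {θ : ℝ} {u v : ι} (h : Str D L s θ u v) :
    Str D L s θ v u := by
  obtain ⟨h1, e, he, h2⟩ := h
  exact ⟨h1.symm, e, he, by rwa [wt_comm]⟩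

theorem not_str {D : α → ℝ} {L : ι → α} {s : ℕ} {θ : ℝ} {u v : ι} (huv : u ≠ v)
    (h : ¬ Str D L s θ u v) : ∀ e < 5, wt D L (s + e) u v ≤ θ := by
  intro e he
  by_contra hcon
  push Not at hcon
  exact h ⟨huv, e, he, hcon⟩

include hD in
open Classical in
/-- the number of strong pairs -/
theorem card_str_mul_le (s : ℕ) {θ : ℝ} {B : ℝ}
    (hB : ∑ e ∈ range 5, ∑ u : ι, ∑ v ∈ univ.erase u, wt D L (s + e) u v ≤ B) :
    ((univ.filter (fun p : ι × ι => Str D L s θ p.1 p.2)).card : ℝ) * θ ≤ B := by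
  rw [← nsmul_eq_mul]
  set g : ι × ι → ℝ := fun p => ∑ e ∈ range 5, wt D L (s + e) p.1 p.2 with hg
  have h1 : (univ.filter (fun p : ι × ι => Str D L s θ p.1 p.2)).card • θ ≤
      ∑ p ∈ univ.filter (fun p : ι × ι => Str D L s θ p.1 p.2), g p := by
    refine card_nsmul_le_sum _ _ _ fun p hp => ?_
    rw [mem_filter] at hp
    obtain ⟨-, e, he, h⟩ := hp.2
    refine h.le.trans ?_
    exact single_le_sum (f := fun e => wt D L (s + e) p.1 p.2)
      (fun e _ => wt_nonneg hD _ _ _) (mem_range.2 he)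
  refine h1.trans (le_trans ?_ hB)
  have h2 : ∑ e ∈ range 5, ∑ u : ι, ∑ v ∈ univ.erase u, wt D L (s + e) u v =
      ∑ p ∈ (univ : Finset ι).sigma (fun u => univ.erase u), g (p.1, p.2) := by
    rw [sum_sigma, sum_comm]
    refine sum_congr rfl fun u _ => ?_
    rw [sum_comm]
  rw [h2]
  have h3 : ∑ p ∈ univ.filter (fun p : ι × ι => Str D L s θ p.1 p.2), g p =
      ∑ p ∈ (univ.filter (fun p : ι × ι => Str D L s θ p.1 p.2)).map
        ⟨fun p => (⟨p.1, p.2⟩ : (_ : ι) × ι), fun p q h => by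
          simp only [Sigma.mk.injEq, heq_eq_eq] at h
          exact Prod.ext h.1 h.2⟩, g (p.1, p.2) := by
    rw [sum_map]
    rfl
  rw [h3]
  refine sum_le_sum_of_subset_of_nonneg ?_ fun p _ _ => ?_
  · intro p hp
    rw [mem_map] at hp
    obtain ⟨q, hq, rfl⟩ := hp
    rw [mem_filter] at hq
    rw [mem_sigma]
    refine ⟨mem_univ _, ?_⟩
    rw [mem_erase]
    exact ⟨hq.2.1.symm, mem_univ _⟩
  · exact sum_nonneg fun e _ => wt_nonneg hD _ _ _

include hD in
open Classical in
/-- **Existence of a size with few strong pairs.** -/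
theorem exists_size_str {κ : ℕ} (hT : Tri L κ) {Dm : ℝ} (hDm : ∀ A : Finset ι, 0 ≤ D (A.sup L) ∧ D (A.sup L) ≤ Dm) {m : ℕ}
    (hm : 4 ≤ m) (hκ : 6 * m ≤ κ) (hN : 8 * m ≤ Fintype.card ι) :
    ∃ s, m ≤ s ∧ s < 2 * m ∧ ∀ θ : ℝ,
      ((univ.filter (fun p : ι × ι => Str D L s θ p.1 p.2)).card : ℝ) * θ ≤
        25 * (Fintype.card ι : ℝ) ^ 2 * Dm / (m : ℝ) ^ 2 := by
  obtain ⟨s, h1, h2, h3⟩ := exists_size hD hT hDm hm hκ hN
  exact ⟨s, h1, h2, fun θ => card_str_mul_le hD s h3⟩

end Strong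

section Main

variable {α : Type*} [Lattice α] [OrderBot α] {ι : Type*} [Fintype ι] [DecidableEq ι]
  {D : α → ℝ} (hD : SupMod D) {L : ι → α}

include hD in
/-- **Good pasts.** Four different lines `i, i', j, j'` such that the pairs `(i, j)`, `(i', j)`,
`(i, j')`, `(i', j')` have small average mutual informations; `E₀` the lines which are added to the
past; `Z` a small set of lines to be avoided; `Bd` a small family of forbidden pasts. There are
three disjoint good pasts. -/
theorem good_pasts {s m : ℕ} (hm : 0 < m) (hms : m ≤ s) (h3s : 3 * s ≤ Fintype.card ι)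
    {i i' j j' : ι} {E₀ Z : Finset ι} (hE₀ : E₀.card ≤ 2)
    (hii : i ≠ i') (hij : i ≠ j) (hij' : i ≠ j') (hi'j : i' ≠ j) (_hi'j' : i' ≠ j') (hjj : j ≠ j')
    (hiE : i ∉ E₀) (hi'E : i' ∉ E₀) (hjE : j ∉ E₀) (hj'E : j' ∉ E₀)
    (hZ : insert i (insert i' (insert j (insert j' E₀))) ⊆ Z)
    (hZc : 12 * (Z.card * s) ≤ Fintype.card ι) {θ e₀ : ℝ} (he₀ : 0 < e₀)
    (hθ : 48 * ((Fintype.card ι : ℝ) / m) ^ 4 * θ ≤ e₀)
    (w1 : ∀ e < 5, wt D L (s + e) i j ≤ θ) (w2 : ∀ e < 5, wt D L (s + e) i' j ≤ θ)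
    (w3 : ∀ e < 5, wt D L (s + e) i j' ≤ θ) (w4 : ∀ e < 5, wt D L (s + e) i' j' ≤ θ)
    (Bd : Finset (Finset ι))
    (hBd : 12 * (Bd ∩ powersetCard s univ).card ≤ (Fintype.card ι).choose s) :
    ∃ A : Fin 3 → Finset ι, (∀ l, (A l).card = s) ∧ (∀ l, Disjoint (A l) Z) ∧ (∀ l, A l ∉ Bd) ∧
      (∀ l, mi D (L i ⊔ L i') (L j ⊔ L j') ((A l ∪ E₀).sup L) ≤ e₀) ∧
      ∀ l l', l ≠ l' → Disjoint (A l) (A l') := by
  set N := Fintype.card ι with hN
  set Ps := powersetCard s (univ : Finset ι) with hPs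
  have hC : 0 < N.choose s := Nat.choose_pos (by omega)
  have hCr : (0 : ℝ) < (N.choose s : ℝ) := by exact_mod_cast hC
  set B1 := Ps.filter (fun A => ¬ Disjoint A Z) with hB1
  set B2 := Ps.filter (fun A => Disjoint A Z ∧
    e₀ < mi D (L i ⊔ L i') (L j ⊔ L j') ((A ∪ E₀).sup L)) with hB2
  have c1 : 12 * B1.card ≤ N.choose s := card_meet_le s Z hZc
  -- the informations
  have hdisj : ∀ A, Disjoint A Z → i ∉ A ∧ i' ∉ A ∧ j ∉ A ∧ j' ∉ A ∧ Disjoint A E₀ := by
    intro A hA
    refine ⟨?_, ?_, ?_, ?_, ?_⟩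
    · exact fun h => disjoint_left.1 hA h (hZ (by simp))
    · exact fun h => disjoint_left.1 hA h (hZ (by simp))
    · exact fun h => disjoint_left.1 hA h (hZ (by simp))
    · exact fun h => disjoint_left.1 hA h (hZ (by simp))
    · refine disjoint_left.2 fun x hx hx' => disjoint_left.1 hA hx (hZ ?_)
      simp only [mem_insert]
      exact Or.inr (Or.inr (Or.inr (Or.inr hx')))
  have bound : ∀ (E : Finset ι) (u v : ι), E.card ≤ 4 → u ∉ E → v ∉ E →
      (∀ e < 5, wt D L (s + e) u v ≤ θ) →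
      ∑ A ∈ Ps, (if Disjoint A E ∧ u ∉ A ∧ v ∉ A then mi D (L u) (L v) ((A ∪ E).sup L) else 0) ≤
        ((N : ℝ) / m) ^ 4 * N.choose s * θ := by
    intro E u v hE hu hv hw
    have h1 := sum_extra_le hD (L := L) s E hu hv
    have h2 := choose_ratio4 (N := N) hm hms (by omega) hE
    have h3 := hw E.card (by omega)
    have h4 := wt_nonneg hD (L := L) (s + E.card) u v
    refine h1.trans ((mul_le_mul h2 h3 h4 (by (clear * - hC; positivity))).trans (le_of_eq ?_))
    ring
  have c2 : 12 * B2.card ≤ N.choose s := by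
    have k1 := bound E₀ i j (by omega) hiE hjE w1
    have k2 := bound (insert i E₀) i' j ((card_insert_le i E₀).trans (by omega))
      (by simp [hi'E, hii.symm]) (by simp [hjE, hij.symm]) w2
    have k3 := bound (insert j E₀) i j' ((card_insert_le j E₀).trans (by omega))
      (by simp [hiE, hij]) (by simp [hj'E, hjj.symm]) w3
    have k4 := bound (insert i (insert j E₀)) i' j'
      ((card_insert_le i _).trans (by have := card_insert_le j E₀; omega))
      (by simp [hi'E, hii.symm, hi'j]) (by simp [hj'E, hij'.symm, hjj.symm]) w4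
    have k5 : ∑ A ∈ B2, mi D (L i ⊔ L i') (L j ⊔ L j') ((A ∪ E₀).sup L) ≤
        4 * (((N : ℝ) / m) ^ 4 * N.choose s * θ) := by
      have h1 : ∀ A ∈ B2, mi D (L i ⊔ L i') (L j ⊔ L j') ((A ∪ E₀).sup L) ≤
          (if Disjoint A E₀ ∧ i ∉ A ∧ j ∉ A then mi D (L i) (L j) ((A ∪ E₀).sup L) else 0) +
          (if Disjoint A (insert i E₀) ∧ i' ∉ A ∧ j ∉ A then
            mi D (L i') (L j) ((A ∪ insert i E₀).sup L) else 0) +
          (if Disjoint A (insert j E₀) ∧ i ∉ A ∧ j' ∉ A then
            mi D (L i) (L j') ((A ∪ insert j E₀).sup L) else 0) +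
          (if Disjoint A (insert i (insert j E₀)) ∧ i' ∉ A ∧ j' ∉ A then
            mi D (L i') (L j') ((A ∪ insert i (insert j E₀)).sup L) else 0) := by
        intro A hA
        rw [hB2, mem_filter] at hA
        obtain ⟨g1, g2, g3, g4, g5⟩ := hdisj A hA.2.1
        rw [if_pos ⟨g5, g1, g3⟩, if_pos ⟨disjoint_insert_right.2 ⟨g1, g5⟩, g2, g3⟩,
          if_pos ⟨disjoint_insert_right.2 ⟨g3, g5⟩, g1, g4⟩,
          if_pos ⟨disjoint_insert_right.2 ⟨g1, disjoint_insert_right.2 ⟨g3, g5⟩⟩, g2, g4⟩]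
        simp only [union_insert, sup_insert]
        exact mi_four hD _ _ _ _ _
      refine (sum_le_sum h1).trans ?_
      simp only [sum_add_distrib]
      have hsub : B2 ⊆ Ps := filter_subset _ _
      have mono : ∀ (E : Finset ι) (u v : ι),
          ∑ A ∈ B2, (if Disjoint A E ∧ u ∉ A ∧ v ∉ A then
            mi D (L u) (L v) ((A ∪ E).sup L) else 0) ≤
          ∑ A ∈ Ps, (if Disjoint A E ∧ u ∉ A ∧ v ∉ A then
            mi D (L u) (L v) ((A ∪ E).sup L) else 0) := by
        intro E u v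
        refine sum_le_sum_of_subset_of_nonneg hsub fun A _ _ => ?_
        split_ifs
        · exact mi_nonneg hD _ _ _
        · exact le_rfl
      have q1 := mono E₀ i j
      have q2 := mono (insert i E₀) i' j
      have q3 := mono (insert j E₀) i j'
      have q4 := mono (insert i (insert j E₀)) i' j'
      linarith only [q4, q3, q2, q1, k4, k3, k2, k1]
    have k6 : (B2.card : ℝ) * e₀ ≤ ∑ A ∈ B2, mi D (L i ⊔ L i') (L j ⊔ L j') ((A ∪ E₀).sup L) := by
      rw [← nsmul_eq_mul]
      refine card_nsmul_le_sum _ _ _ fun A hA => ?_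
      rw [hB2, mem_filter] at hA
      exact hA.2.2.le
    have k7 : (12 * B2.card : ℝ) * e₀ ≤ (N.choose s : ℝ) * e₀ := by
      have h1 := mul_le_mul_of_nonneg_right hθ hCr.le
      linarith only [h1, k6, k5]
    have k8 := le_of_mul_le_mul_right k7 he₀
    exact_mod_cast k8
  obtain ⟨A, hA1, hA2, hA3⟩ := exists_three (ι := ι) h3s (B1 ∪ B2 ∪ (Bd ∩ Ps))
    (union_subset (union_subset (filter_subset _ _) (filter_subset _ _)) inter_subset_right)
    (by
      have h1 := card_union_le (B1 ∪ B2) (Bd ∩ Ps)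
      have h2 := card_union_le B1 B2
      rw [← hN]
      omega)
  have hAP : ∀ l, A l ∈ Ps := fun l => mem_powersetCard.2 ⟨subset_univ _, hA1 l⟩
  have hZ' : ∀ l, Disjoint (A l) Z := by
    intro l
    by_contra h
    exact hA2 l (mem_union_left _ (mem_union_left _ (mem_filter.2 ⟨hAP l, h⟩)))
  refine ⟨A, hA1, hZ', ?_, ?_, hA3⟩
  · intro l h
    exact hA2 l (mem_union_right _ (mem_inter.2 ⟨h, hAP l⟩))
  · intro l
    by_contra h
    push Not at h
    exact hA2 l (mem_union_left _ (mem_union_right _ (mem_filter.2 ⟨hAP l, hZ' l, h⟩)))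

end Main

section Deficit

open Module

variable {Ω : Type*} [Fintype Ω] {K : Type*} [Field K] [Finite K] {V : Type*} [AddCommGroup V]
  [Module K V] [FiniteDimensional K V] (P : FinProb Ω) (X : Ω → Dual K V)

/-- the entropy deficit is monotone and supermodular -/
theorem supMod_D : SupMod (Lat.D P X) where
  mono := fun h => Lat.D_mono P X h
  sm := fun x y => Lat.D_supermodular P X x y

theorem D_bounds {Dm : ℝ} (h : Lat.D P X ⊤ ≤ Dm) (x : Submodule K V) :
    0 ≤ Lat.D P X x ∧ Lat.D P X x ≤ Dm :=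
  ⟨Lat.D_nonneg P X x, (Lat.D_mono P X le_top).trans h⟩

end Deficit

end TV2

end Vale.Agent.P060.HW
end

section

/-!
P060-HW (TV part): good pairs of types have an alignment; the mass of the bad pairs is small.
-/

open scoped Classical

noncomputable section

set_option linter.unusedSectionVars false

namespace Vale.Agent.P060.HW

namespace Align

open Finset Strong

variable {N d : ℕ} [NeZero N]

lemma lin_injective (c : Ty N d) : Function.Injective (lin c) := fun s s' h =>
  congrArg Prod.fst h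

lemma lin_eq_iff {c c' : Ty N d} {s t : Fin 3} : lin c s = lin c' t ↔ s = t ∧ ln c s = ln c' t := by
  unfold lin
  rw [Prod.mk.injEq]

/-- two types with two common lines are equal -/
lemma lin_linear (hd : 2 * d ≤ N) (c c' : Ty N d) (s s' t t' : Fin 3) (hs : s ≠ s')
    (h : lin c s = lin c' t) (h' : lin c s' = lin c' t') : c = c' := by
  obtain ⟨rfl, h1⟩ := lin_eq_iff.1 h
  obtain ⟨rfl, h2⟩ := lin_eq_iff.1 h'
  exact Combi.eq_of_share_two hd hs h1 h2

/-- every line is in at most `d` types -/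
lemma card_types_of_line (u : Lin N) :
    (univ.filter fun c : Ty N d => ∃ s, lin c s = u).card ≤ d := by
  have h : (univ.filter fun c : Ty N d => ∃ s, lin c s = u).card ≤ (univ : Finset (Fin d)).card := by
    refine Finset.card_le_card_of_injOn (fun c => c.2) (fun c _ => by simp) ?_
    intro c hc c' hc' h
    simp only [coe_filter, mem_univ, true_and, Set.mem_ofPred_eq] at hc hc'
    obtain ⟨s, hs⟩ := hc
    obtain ⟨s', hs'⟩ := hc'
    have h1 : lin c s = lin c' s' := hs.trans hs'.symm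
    obtain ⟨rfl, h2⟩ := lin_eq_iff.1 h1
    exact Combi.eq_of_share_of_dir h2 h
  simpa using h

/-- **Alignment.** Two different types which are not bad: third lines `q, q'` and a splitting of the
other lines such that no two lines of different groups are equal or strongly correlated; a common
line of the two types is the third line of both. -/
theorem exists_alignment (hd : 2 * d ≤ N) (S : Lin N → Lin N → Prop)
    (hsymm : ∀ u v, S u v → S v u) (D : ℕ) {b b' : Ty N d} (hne : b ≠ b')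
    (hb : b ∉ bad (lin (N := N) (d := d)) S D) (hb' : b' ∉ bad (lin (N := N) (d := d)) S D) :
    ∃ i j q i' j' q' : Fin 3, i ≠ j ∧ i ≠ q ∧ j ≠ q ∧ i' ≠ j' ∧ i' ≠ q' ∧ j' ≠ q' ∧
      (∀ s t, lin b s = lin b' t → s = q ∧ t = q') ∧
      ¬ S (lin b i) (lin b j) ∧ ¬ S (lin b' i') (lin b' j') ∧
      ¬ S (lin b i) (lin b' j') ∧ ¬ S (lin b j) (lin b' i') := by
  obtain ⟨h1, h2, σ, hσ⟩ := exists_grouping hsymm lin_injective D hb hb'
  -- the third line
  obtain ⟨q, hq⟩ : ∃ q : Fin 3, ∀ s t, lin b s = lin b' t → s = q ∧ t = σ q := by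
    by_cases hsh : ∃ s t, lin b s = lin b' t
    · obtain ⟨s, t, hst⟩ := hsh
      refine ⟨s, fun s' t' h => ?_⟩
      have hss : s' = s := by
        by_contra hs
        exact hne (lin_linear hd b b' s' s t' t hs h hst)
      exact ⟨hss, by rw [← hss]; exact hσ _ _ (Or.inl h)⟩
    · push Not at hsh
      exact ⟨0, fun s t h => absurd h (hsh s t)⟩
  obtain ⟨i, j, hij, hiq, hjq⟩ : ∃ i j : Fin 3, i ≠ j ∧ i ≠ q ∧ j ≠ q := by
    fin_cases q
    · exact ⟨1, 2, by decide, by decide, by decide⟩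
    · exact ⟨0, 2, by decide, by decide, by decide⟩
    · exact ⟨0, 1, by decide, by decide, by decide⟩
  refine ⟨i, j, q, σ i, σ j, σ q, hij, hiq, hjq, fun h => hij (σ.injective h),
    fun h => hiq (σ.injective h), fun h => hjq (σ.injective h), hq, h1 i j hij,
    h2 _ _ fun h => hij (σ.injective h), ?_, ?_⟩
  · intro h
    exact hij (σ.injective (hσ _ _ (Or.inr h))).symm
  · intro h
    exact hij (σ.injective (hσ _ _ (Or.inr h)))

/-- the number of bad types, in terms of the number of strong pairs -/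
theorem card_bad_le (hd : 2 * d ≤ N) (S : Lin N → Lin N → Prop) (D : ℕ) (hD : 0 < D) {s : ℝ}
    (hs : ((strongPairs S).card : ℝ) ≤ s * N) :
    ((bad (lin (N := N) (d := d)) S D).card : ℝ) ≤ (d * s / D + s + 3 * D ^ 2) * N := by
  have hlin := lin_linear (N := N) (d := d) hd
  have h1 : ((bad1 (lin (N := N) (d := d)) S D).card : ℝ) * D ≤ d * (strongPairs S).card := by
    exact_mod_cast card_bad1_mul_le (line := lin (N := N) (d := d)) (S := S) d D card_types_of_line
  have h2 : ((bad2 (lin (N := N) (d := d)) S).card : ℝ) ≤ (strongPairs S).card := by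
    exact_mod_cast card_bad2_le hlin
  have h3 : ((bad3 (lin (N := N) (d := d)) S D).card : ℝ) ≤ 3 * N * D ^ 2 := by
    have := card_bad3_le (S := S) hlin D
    rw [Fintype.card_prod, Fintype.card_fin, ZMod.card] at this
    exact_mod_cast this
  have h4 : (bad (lin (N := N) (d := d)) S D).card ≤ (bad1 (lin (N := N) (d := d)) S D).card +
      (bad2 (lin (N := N) (d := d)) S).card + (bad3 (lin (N := N) (d := d)) S D).card := by
    unfold bad
    exact (Finset.card_union_le _ _).trans (Nat.add_le_add_right (Finset.card_union_le _ _) _)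
  have h5 : ((bad (lin (N := N) (d := d)) S D).card : ℝ) ≤
      (bad1 (lin (N := N) (d := d)) S D).card + (bad2 (lin (N := N) (d := d)) S).card
        + (bad3 (lin (N := N) (d := d)) S D).card := by exact_mod_cast h4
  have hD' : (0 : ℝ) < D := by exact_mod_cast hD
  have h6 : ((bad1 (lin (N := N) (d := d)) S D).card : ℝ) ≤ d * (s * N) / D := by
    rw [le_div_iff₀ hD']
    exact h1.trans (mul_le_mul_of_nonneg_left hs (Nat.cast_nonneg d))
  have h7 : (d : ℝ) * (s * N) / D = d * s / D * N := by ring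
  calc _ ≤ d * (s * N) / D + s * N + 3 * N * D ^ 2 := by linarith only [hs, h2, h3, h5, h6]
    _ = _ := by rw [h7]; ring

/-- **The mass of the pairs with a bad member is small**, `D` and `d₁` depend only on `s, ε, M₀`. -/
theorem exists_params {s ε M₀ : ℝ} (hs : 0 ≤ s) (hε : 0 < ε) (hM : 0 ≤ M₀) :
    ∃ D d₁ : ℕ, ∀ d ≥ d₁, ∀ (N : ℕ) [NeZero N], 2 * d ≤ N → ∀ S : Lin N → Lin N → Prop,
      ((strongPairs S).card : ℝ) ≤ s * N → ∀ ρ : Ty N d × Ty N d → ℝ, TCoup M₀ ρ →
      ∑ β, (if β.1 ∈ bad (lin (N := N) (d := d)) S D ∨ β.2 ∈ bad (lin (N := N) (d := d)) S D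
        then ρ β else 0) ≤ ε := by
  obtain ⟨D, hD⟩ := exists_nat_ge (6 * M₀ * s / ε + 1)
  obtain ⟨d₁, hd₁⟩ := exists_nat_ge (6 * M₀ * (s + 3 * D ^ 2) / ε + 1)
  have hD1 : (1 : ℝ) ≤ D := by
    have : 0 ≤ 6 * M₀ * s / ε := by positivity
    linarith
  have hDpos : 0 < D := by exact_mod_cast (lt_of_lt_of_le one_pos hD1)
  refine ⟨D, d₁, ?_⟩
  intro d hd N _ hdN S hS ρ hρ
  have hdd : (d₁ : ℝ) ≤ d := by exact_mod_cast hd
  have hd1 : (1 : ℝ) ≤ d := by
    have : 0 ≤ 6 * M₀ * (s + 3 * D ^ 2) / ε := by positivity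
    linarith only [this, hdd, hd₁]
  have hNpos : (0 : ℝ) < N := by exact_mod_cast Nat.pos_of_ne_zero (NeZero.ne N)
  set Bd := bad (lin (N := N) (d := d)) S D with hBd
  have hcard : (Fintype.card (Ty N d) : ℝ) = N * d := by
    rw [Fintype.card_prod, ZMod.card, Fintype.card_fin]; push_cast; ring
  have hNd : (0 : ℝ) < N * d := by positivity
  have h1 := mass_bad_le Bd (fun b b' => ρ (b, b')) (M₀ / (N * d)) (fun b b' => hρ.nonneg _)
    (fun b => by
      rw [le_div_iff₀ hNd, ← hcard]; exact hρ.left b)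
    (fun b' => by
      rw [le_div_iff₀ hNd, ← hcard]; exact hρ.right b')
  have h2 : ∑ β : Ty N d × Ty N d, (if β.1 ∈ Bd ∨ β.2 ∈ Bd then ρ β else 0) =
      ∑ b, ∑ b', (if b ∈ Bd ∨ b' ∈ Bd then ρ (b, b') else 0) := by
    rw [Fintype.sum_prod_type]
  rw [h2]
  refine h1.trans ?_
  have h3 := card_bad_le (d := d) hdN S D hDpos hS
  have h4 : 2 * (M₀ / (N * d)) * (Bd.card : ℝ) ≤
      2 * (M₀ / (N * d)) * ((d * s / D + s + 3 * D ^ 2) * N) :=
    mul_le_mul_of_nonneg_left h3 (by (clear * - hM hNpos hd1; positivity))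
  refine h4.trans ?_
  have h5 : 2 * (M₀ / (N * d)) * ((d * s / D + s + 3 * D ^ 2) * N) =
      2 * M₀ * s / D + 2 * M₀ * (s + 3 * D ^ 2) / d := by
    field_simp
    ring
  rw [h5]
  have h6 : 2 * M₀ * s / D ≤ ε / 3 := by
    rw [div_le_iff₀ (by linarith only [hD1])]
    have h7 : 6 * M₀ * s / ε ≤ D := by linarith only [hD]
    rw [div_le_iff₀ hε] at h7
    linarith only [h7]
  have h8 : 2 * M₀ * (s + 3 * D ^ 2) / d ≤ ε / 3 := by
    rw [div_le_iff₀ (by linarith only [hd1])]
    have h7 : 6 * M₀ * (s + 3 * D ^ 2) / ε ≤ d := by linarith only [hdd, hd₁]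
    rw [div_le_iff₀ hε] at h7
    linarith only [h7]
  linarith only [h8, h6, hε]

/-- Markov: the number of strong pairs of a nonnegative correlation function. -/
theorem card_strongPairs_mul_le {J : Lin N → Lin N → ℝ} (hJ : ∀ u v, 0 ≤ J u v) (θ : ℝ) :
    ((strongPairs fun u v => θ ≤ J u v).card : ℝ) * θ ≤ ∑ u, ∑ v, J u v := by
  unfold strongPairs
  rw [← Fintype.sum_prod_type (f := fun p : Lin N × Lin N => J p.1 p.2)]
  calc _ = ∑ p ∈ univ.filter (fun p : Lin N × Lin N => θ ≤ J p.1 p.2), θ := by simp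
    _ ≤ ∑ p ∈ univ.filter (fun p : Lin N × Lin N => θ ≤ J p.1 p.2), J p.1 p.2 :=
        Finset.sum_le_sum fun p hp => (Finset.mem_filter.1 hp).2
    _ ≤ _ := Finset.sum_le_sum_of_subset_of_nonneg (Finset.filter_subset _ _)
        fun p _ _ => hJ p.1 p.2

end Align

end Vale.Agent.P060.HW
end
end

section

/-!
# P060/HW: selection of the three pasts, in frame form
-/

open scoped Classical

noncomputable section

set_option linter.unusedSectionVars false

namespace Vale.Agent.P060.HW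

namespace TVP

open Module Finset Strong

variable {N d : ℕ} {E P Om : Type} [Fintype E] [Fintype P] [Fintype Om] [NeZero N]

section Lattice

variable (fr : Frame N d E Om) (p : Lin N → Co E P Om → F) (h : Ext fr p) (a a' : Ty N d)

lemma Ga_union (b : Ty N d) (S T : Finset (Lin N)) :
    Ga fr p h b (S ∪ T) = Gl p S ⊔ Ga fr p h b T := by
  unfold Ga
  rw [Gl_union, sup_assoc]

lemma Gaa_union (S T : Finset (Lin N)) :
    Gaa fr p h a a' (S ∪ T) = Gp p S ⊔ Gaa fr p h a a' T := by
  unfold Gaa Gp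
  rw [Ga_union, Ga_union, Submodule.prod_sup_prod]

lemma Gaa_mono {S T : Finset (Lin N)} (hST : S ⊆ T) :
    Gaa fr p h a a' S ≤ Gaa fr p h a a' T :=
  Submodule.prod_mono (sup_le_sup_right (Gl_mono p hST) _) (sup_le_sup_right (Gl_mono p hST) _)

lemma Gaa_sup (S T : Finset (Lin N)) :
    Gaa fr p h a a' S ⊔ Gaa fr p h a a' T = Gaa fr p h a a' (S ∪ T) := by
  refine le_antisymm (sup_le (Gaa_mono fr p h a a' subset_union_left)
    (Gaa_mono fr p h a a' subset_union_right)) ?_
  rw [Gaa_union]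
  refine sup_le_sup_right ?_ _
  unfold Gp Gaa
  exact Submodule.prod_mono le_sup_left le_sup_left

/-- the lines of the two types -/
def Fx : Finset (Lin N) := lins a ∪ lins a'

/-- the lattice of the spaces over the lines of the two types -/
abbrev Lt : Type _ := Set.Ici (Gaa fr p h a a' (Fx a a'))

/-- the other lines -/
abbrev Fl : Type := {u : Lin N // u ∉ Fx a a'}

/-- the lines in the lattice -/
def LL (u : Fl a a') : Lt fr p h a a' :=
  ⟨Gaa fr p h a a' (insert u.1 (Fx a a')), Gaa_mono fr p h a a' (subset_insert _ _)⟩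

/-- a set of other lines as a set of lines -/
def em (A : Finset (Fl a a')) : Finset (Lin N) := A.map (Function.Embedding.subtype _)

lemma em_disj (A : Finset (Fl a a')) : Disjoint (em a a' A) (Fx a a') := by
  rw [disjoint_left]
  intro u hu
  unfold em at hu
  rw [mem_map] at hu
  obtain ⟨v, -, rfl⟩ := hu
  exact v.2

lemma mem_em {A : Finset (Fl a a')} {u : Lin N} : u ∈ em a a' A ↔ ∃ hu : u ∉ Fx a a', ⟨u, hu⟩ ∈ A := by
  unfold em
  simp

lemma em_insert (u : Fl a a') (A : Finset (Fl a a')) :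
    em a a' (insert u A) = insert u.1 (em a a' A) := by
  unfold em
  rw [map_insert]
  rfl

lemma em_union (A B : Finset (Fl a a')) : em a a' (A ∪ B) = em a a' A ∪ em a a' B := by
  unfold em
  rw [map_union]

lemma card_em (A : Finset (Fl a a')) : (em a a' A).card = A.card := card_map _

lemma em_disjoint {A B : Finset (Fl a a')} (hAB : Disjoint A B) :
    Disjoint (em a a' A) (em a a' B) := by
  unfold em
  exact (disjoint_map _).2 hAB

lemma coe_LL (u : Fl a a') : (LL fr p h a a' u).1 = Gaa fr p h a a' (insert u.1 (Fx a a')) := rfl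

lemma coe_sup (x y : Lt fr p h a a') : (x ⊔ y).1 = x.1 ⊔ y.1 := rfl

lemma coe_inf (x y : Lt fr p h a a') : (x ⊓ y).1 = x.1 ⊓ y.1 := rfl

lemma coe_bot : (⊥ : Lt fr p h a a').1 = Gaa fr p h a a' (Fx a a') := rfl

lemma sup_LL (A : Finset (Fl a a')) :
    (A.sup (LL fr p h a a')).1 = Gaa fr p h a a' (em a a' A ∪ Fx a a') := by
  induction A using Finset.induction_on with
  | empty =>
    have e1 : em a a' ∅ = ∅ := rfl
    rw [sup_empty, coe_bot, e1, empty_union]
  | insert u A hu ih =>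
    have e1 : insert u.1 (Fx a a') ∪ (em a a' A ∪ Fx a a') = em a a' (insert u A) ∪ Fx a a' := by
      rw [em_insert]
      ext v
      simp only [mem_union, mem_insert]
      tauto
    rw [sup_insert, coe_sup, ih, coe_LL, Gaa_sup, e1]

/-- **TRI** in the form of `TV2`. -/
theorem tri {κ κ₀ : ℕ} (h1 : Ev1 p κ₀) (hr : ∀ w, κ + 6 + (rowLines fr w).card ≤ κ₀) (hr' : κ + 6 ≤ κ₀) :
    TV2.Tri (LL fr p h a a') κ := by
  intro A C B₁ B₂ hC₁ hC₂ h₁₂ hcard
  have e : ∀ B : Finset (Fl a a'), ((A ∪ B).sup (LL fr p h a a')).1 =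
      Gp p (em a a' (B \ A)) ⊔ Gaa fr p h a a' (em a a' A ∪ Fx a a') := by
    intro B
    rw [sup_LL, ← Gaa_union, ← union_assoc, ← em_union]
    congr 2
    rw [sdiff_union_self_eq_union, union_comm]
  rw [← Subtype.coe_le_coe, coe_inf, coe_inf, e, e, e, sup_LL, ← inf_assoc]
  have hcd : (em a a' (C \ A) ∪ em a a' (B₁ \ A) ∪ em a a' (B₂ \ A) ∪
      (em a a' A ∪ Fx a a')).card ≤ κ + 6 := by
    have q1 : em a a' (C \ A) ∪ em a a' (B₁ \ A) ∪ em a a' (B₂ \ A) ∪ (em a a' A ∪ Fx a a') ⊆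
        em a a' (A ∪ C ∪ B₁ ∪ B₂) ∪ Fx a a' := by
      intro u hu
      simp only [mem_union, mem_em, mem_sdiff] at hu ⊢
      rcases hu with ((⟨hu, h2⟩ | ⟨hu, h2⟩) | ⟨hu, h2⟩) | (⟨hu, h2⟩ | h2)
      · exact Or.inl ⟨hu, by tauto⟩
      · exact Or.inl ⟨hu, by tauto⟩
      · exact Or.inl ⟨hu, by tauto⟩
      · exact Or.inl ⟨hu, by tauto⟩
      · exact Or.inr h2
    refine (card_le_card q1).trans ((card_union_le _ _).trans ?_)
    rw [card_em]
    have q2 : (Fx a a').card ≤ 6 := by
      unfold Fx lins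
      refine (card_union_le _ _).trans ?_
      have r1 := card_image_le (s := (univ : Finset (Fin 3))) (f := lin a)
      have r2 := card_image_le (s := (univ : Finset (Fin 3))) (f := lin a')
      rw [card_univ, Fintype.card_fin] at r1 r2
      omega
    omega
  refine t3_pair fr p h a a' (subset_union_right.trans' subset_union_left)
    (subset_union_right.trans' subset_union_right) ?_ ?_ ?_ ?_ ?_ ?_ ?_ ?_
  · rw [disjoint_union_right]
    exact ⟨em_disjoint a a' sdiff_disjoint, em_disj a a' _⟩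
  · exact em_disjoint a a' (hC₁.mono sdiff_subset sdiff_subset)
  · exact em_disjoint a a' (hC₂.mono sdiff_subset sdiff_subset)
  · exact em_disjoint a a' (h₁₂.mono sdiff_subset sdiff_subset)
  · rw [disjoint_union_right]
    exact ⟨em_disjoint a a' sdiff_disjoint, em_disj a a' _⟩
  · rw [disjoint_union_right]
    exact ⟨em_disjoint a a' sdiff_disjoint, em_disj a a' _⟩
  · exact h1 _ (hcd.trans hr')
  · intro w
    refine h1 _ ((card_union_le _ _).trans ?_)
    have := hr w
    omega

end Lattice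

section Count

variable {d : ℕ} (a a' : Ty N d)

lemma card_lins (c : Ty N d) : (lins c).card ≤ 3 := by
  unfold lins
  have := card_image_le (s := (univ : Finset (Fin 3))) (f := lin c)
  rwa [card_univ, Fintype.card_fin] at this

lemma card_Fx : (Fx a a').card ≤ 6 := by
  unfold Fx
  have := card_union_le (lins a) (lins a')
  have := card_lins a
  have := card_lins a'
  omega

lemma card_Fl : 3 * N ≤ Fintype.card (Fl a a') + 6 ∧ Fintype.card (Fl a a') ≤ 3 * N := by
  have h1 : Fintype.card (Fl a a') + (Fx a a').card = 3 * N := by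
    have e1 : Fintype.card (Fl a a') = ((univ : Finset (Lin N)).filter (fun u => u ∉ Fx a a')).card :=
      Fintype.card_subtype _
    have e2 : (univ : Finset (Lin N)).filter (fun u => u ∉ Fx a a') = (Fx a a')ᶜ := by
      ext u
      simp
    rw [e1, e2, card_compl, Nat.sub_add_cancel (card_le_univ _), Fintype.card_prod, Fintype.card_fin,
      ZMod.card]
  have := card_Fx a a'
  omega

/-- the types which meet a set of lines -/
def Mt (W : Finset (Lin N)) : Finset (Ty N d) := univ.filter fun c => ∃ s, lin c s ∈ W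

lemma card_Mt (W : Finset (Lin N)) : (Mt (d := d) W).card ≤ W.card * d := by
  have h1 : Mt (d := d) W ⊆ W.biUnion fun u => univ.filter fun c : Ty N d => ∃ s, lin c s = u := by
    intro c hc
    unfold Mt at hc
    rw [mem_filter] at hc
    obtain ⟨-, s, hs⟩ := hc
    rw [mem_biUnion]
    exact ⟨lin c s, hs, by simp⟩
  refine (card_le_card h1).trans (card_biUnion_le.trans ?_)
  calc _ ≤ ∑ _u ∈ W, d := sum_le_sum fun u _ => Align.card_types_of_line u
    _ = _ := by simp

/-- the lines of the types which meet the lines of `a`, `a'` -/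
def Wd : Finset (Lin N) := (Mt (d := d) (Fx a a')).biUnion lins

lemma card_MtWd : (Mt (d := d) (Wd a a')).card ≤ 18 * d * d := by
  refine (card_Mt _).trans (Nat.mul_le_mul_right _ ?_)
  unfold Wd
  refine card_biUnion_le.trans ?_
  have h1 := card_Mt (d := d) (Fx a a')
  have h2 := card_Fx a a'
  calc _ ≤ ∑ _c ∈ Mt (d := d) (Fx a a'), 3 := sum_le_sum fun c _ => card_lins c
    _ = (Mt (d := d) (Fx a a')).card * 3 := by simp
    _ ≤ (6 * d) * 3 := Nat.mul_le_mul_right _ (h1.trans (Nat.mul_le_mul_right _ h2))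
    _ = 18 * d := by ring

lemma mem_lins {c : Ty N d} {u : Lin N} : u ∈ lins c ↔ ∃ s, lin c s = u := by
  unfold lins
  simp

lemma sub_Wd : Fx a a' ⊆ Wd a a' := by
  intro u hu
  unfold Wd
  rw [mem_biUnion]
  unfold Fx at hu
  rw [mem_union] at hu
  rcases hu with hu | hu
  · refine ⟨a, ?_, hu⟩
    unfold Mt
    rw [mem_filter]
    refine ⟨mem_univ _, 0, ?_⟩
    unfold Fx
    exact mem_union_left _ (mem_lins.2 ⟨0, rfl⟩)
  · refine ⟨a', ?_, hu⟩
    unfold Mt
    rw [mem_filter]
    refine ⟨mem_univ _, 0, ?_⟩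
    unfold Fx
    exact mem_union_right _ (mem_lins.2 ⟨0, rfl⟩)

/-- three lines in two types: the type is one of the two -/
lemma eq_of_lins_sub (hd : 2 * d ≤ N) {c b b' : Ty N d} (hc : lins c ⊆ lins b ∪ lins b') :
    c = b ∨ c = b' := by
  have hm : ∀ s, lin c s ∈ lins b ∨ lin c s ∈ lins b' := fun s => by
    have := hc (mem_lins.2 ⟨s, rfl⟩)
    rwa [mem_union] at this
  have key : ∀ (e : Ty N d) (s s' : Fin 3), s ≠ s' → lin c s ∈ lins e → lin c s' ∈ lins e → c = e := by
    intro e s s' hs h1 h2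
    obtain ⟨t, ht⟩ := mem_lins.1 h1
    obtain ⟨t', ht'⟩ := mem_lins.1 h2
    exact Align.lin_linear hd c e s s' t t' hs ht.symm ht'.symm
  rcases hm 0 with h0 | h0 <;> rcases hm 1 with h1 | h1 <;> rcases hm 2 with h2 | h2
  · exact Or.inl (key b 0 1 (by decide) h0 h1)
  · exact Or.inl (key b 0 1 (by decide) h0 h1)
  · exact Or.inl (key b 0 2 (by decide) h0 h2)
  · exact Or.inr (key b' 1 2 (by decide) h1 h2)
  · exact Or.inl (key b 1 2 (by decide) h1 h2)
  · exact Or.inr (key b' 0 2 (by decide) h0 h2)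
  · exact Or.inr (key b' 0 1 (by decide) h0 h1)
  · exact Or.inr (key b' 0 1 (by decide) h0 h1)

/-- outside a small set of types, `b`, `b'` have no line in common with `a`, `a'` and no third type
has its lines among the lines of the four types -/
lemma far {b b' : Ty N d} (hd : 2 * d ≤ N) (hb : b ∉ Mt (d := d) (Wd a a'))
    (hb' : b' ∉ Mt (d := d) (Wd a a')) :
    Disjoint (lins2 (b, b')) (Fx a a') ∧
    ∀ c : Ty N d, lins c ⊆ Fx a a' ∪ lins2 (b, b') → c = a ∨ c = a' ∨ c = b ∨ c = b' := by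
  have hW : ∀ u ∈ Wd a a', u ∉ lins2 (b, b') := by
    intro u hu hu'
    unfold lins2 at hu'
    rw [mem_union, mem_lins, mem_lins] at hu'
    rcases hu' with ⟨s, rfl⟩ | ⟨s, rfl⟩
    · exact hb (mem_filter.2 ⟨mem_univ _, s, hu⟩)
    · exact hb' (mem_filter.2 ⟨mem_univ _, s, hu⟩)
  refine ⟨?_, ?_⟩
  · rw [disjoint_left]
    exact fun u hu hu' => hW u (sub_Wd a a' hu') hu
  · intro c hc
    by_cases hm : c ∈ Mt (d := d) (Fx a a')
    · have h1 : lins c ⊆ Wd a a' := by
        unfold Wd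
        exact subset_biUnion_of_mem lins hm
      have h2 : lins c ⊆ lins a ∪ lins a' := by
        intro u hu
        have := hc hu
        rw [mem_union] at this
        rcases this with h3 | h3
        · exact h3
        · exact absurd h3 (hW u (h1 hu))
      rcases eq_of_lins_sub hd h2 with h3 | h3
      · exact Or.inl h3
      · exact Or.inr (Or.inl h3)
    · have h2 : lins c ⊆ lins b ∪ lins b' := by
        intro u hu
        have h3 := hc hu
        rw [mem_union] at h3
        rcases h3 with h3 | h3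
        · obtain ⟨s, rfl⟩ := mem_lins.1 hu
          exact absurd (mem_filter.2 ⟨mem_univ _, s, h3⟩) hm
        · exact h3
      rcases eq_of_lins_sub hd h2 with h3 | h3
      · exact Or.inr (Or.inr (Or.inl h3))
      · exact Or.inr (Or.inr (Or.inr h3))

/-- the mass of the pairs with a member in a set of types -/
lemma mass_le {M₀ : ℝ} {ρ : Ty N d × Ty N d → ℝ} (hρ : TCoup M₀ ρ) (B : Finset (Ty N d))
    (hd0 : 0 < d) :
    ∑ β, (if β.1 ∈ B ∨ β.2 ∈ B then ρ β else 0) ≤ 2 * M₀ * B.card / (N * d) := by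
  have hT : (Fintype.card (Ty N d) : ℝ) = N * d := by
    rw [Fintype.card_prod, ZMod.card, Fintype.card_fin]
    push_cast
    rfl
  have hN0 : (0 : ℝ) < N := by exact_mod_cast Nat.pos_of_ne_zero (NeZero.ne N)
  have hd0' : (0 : ℝ) < d := by exact_mod_cast hd0
  have hp : (0 : ℝ) < N * d := by positivity
  have h := mass_bad_le B (fun b b' => ρ (b, b')) (M₀ / (N * d)) (fun b b' => hρ.nonneg _)
    (fun b => by
      rw [le_div_iff₀ hp, ← hT]
      exact hρ.left b)
    (fun b' => by
      rw [le_div_iff₀ hp, ← hT]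
      exact hρ.right b')
  rw [Fintype.sum_prod_type]
  refine h.trans (le_of_eq ?_)
  ring

end Count

section Main

variable (fr : Frame N d E Om) (p : Lin N → Co E P Om → F) (h : Ext fr p) (a a' : Ty N d)
  (Df : Submodule F (Matrix (Co E P Om) (Co E P Om) F × Matrix (Co E P Om) (Co E P Om) F) → ℝ)

/-- the deficit of the space visible from a set of lines -/
def DG (S : Finset (Lin N)) : ℝ := Df (Gaa fr p h a a' S)

lemma DG_mono (hDf : TV2.SupMod Df) {S T : Finset (Lin N)} (hST : S ⊆ T) :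
    DG fr p h a a' Df S ≤ DG fr p h a a' Df T :=
  hDf.mono (Gaa_mono fr p h a a' hST)

/-- the deficit in the lattice over the lines of the two types -/
def Dd (x : Lt fr p h a a') : ℝ := Df x.1 - DG fr p h a a' Df ∅

lemma supMod_Dd (hDf : TV2.SupMod Df) : TV2.SupMod (Dd fr p h a a' Df) where
  mono := fun {x y} hxy => sub_le_sub_right (hDf.mono (Subtype.coe_le_coe.2 hxy)) _
  sm := fun x y => by
    have := hDf.sm x.1 y.1
    unfold Dd
    rw [coe_sup, coe_inf]
    linarith

lemma Dd_sup (A : Finset (Fl a a')) : Dd fr p h a a' Df (A.sup (LL fr p h a a')) =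
    DG fr p h a a' Df (em a a' A ∪ Fx a a') - DG fr p h a a' Df ∅ := by
  unfold Dd DG
  rw [sup_LL]

lemma grp_set (u u' : Fl a a') (A E₀ : Finset (Fl a a')) :
    insert u.1 (Fx a a') ∪ insert u'.1 (Fx a a') ∪ (em a a' (A ∪ E₀) ∪ Fx a a') =
      em a a' A ∪ Fx a a' ∪ em a a' E₀ ∪ {u.1, u'.1} := by
  rw [em_union]
  ext w
  simp only [mem_union, mem_insert, mem_singleton]
  tauto

lemma grp_eq0 (u u' : Fl a a') (A E₀ : Finset (Fl a a')) :
    (LL fr p h a a' u ⊔ LL fr p h a a' u' ⊔ (A ∪ E₀).sup (LL fr p h a a')).1 =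
      Gaa fr p h a a' (insert u.1 (Fx a a') ∪ insert u'.1 (Fx a a') ∪ (em a a' (A ∪ E₀) ∪ Fx a a')) := by
  rw [← Gaa_sup, ← Gaa_sup, ← sup_LL]
  rfl

lemma grp_eq (u u' : Fl a a') (A E₀ : Finset (Fl a a')) :
    (LL fr p h a a' u ⊔ LL fr p h a a' u' ⊔ (A ∪ E₀).sup (LL fr p h a a')).1 =
      Gaa fr p h a a' (em a a' A ∪ Fx a a' ∪ em a a' E₀ ∪ {u.1, u'.1}) := by
  rw [grp_eq0, grp_set]

lemma grp2_set (u u' v v' : Fl a a') (A E₀ : Finset (Fl a a')) :
    em a a' A ∪ Fx a a' ∪ em a a' E₀ ∪ {u.1, u'.1} ∪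
        (em a a' A ∪ Fx a a' ∪ em a a' E₀ ∪ {v.1, v'.1}) =
      em a a' A ∪ Fx a a' ∪ em a a' E₀ ∪ {u.1, u'.1} ∪ {v.1, v'.1} := by
  ext w
  simp only [mem_union, mem_insert, mem_singleton]
  tauto

lemma grp2_eq (u u' v v' : Fl a a') (A E₀ : Finset (Fl a a')) :
    (LL fr p h a a' u ⊔ LL fr p h a a' u' ⊔ (LL fr p h a a' v ⊔ LL fr p h a a' v') ⊔
      (A ∪ E₀).sup (LL fr p h a a')).1 =
      Gaa fr p h a a' (em a a' A ∪ Fx a a' ∪ em a a' E₀ ∪ {u.1, u'.1} ∪ {v.1, v'.1}) := by
  have e1 := sup_sup_distrib_right (LL fr p h a a' u ⊔ LL fr p h a a' u')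
    (LL fr p h a a' v ⊔ LL fr p h a a' v') ((A ∪ E₀).sup (LL fr p h a a'))
  have e2 := congrArg Subtype.val e1
  have e3 := coe_sup fr p h a a' (LL fr p h a a' u ⊔ LL fr p h a a' u' ⊔ (A ∪ E₀).sup (LL fr p h a a'))
    (LL fr p h a a' v ⊔ LL fr p h a a' v' ⊔ (A ∪ E₀).sup (LL fr p h a a'))
  have e4 := grp_eq fr p h a a' u u' A E₀
  have e5 := grp_eq fr p h a a' v v' A E₀
  have e6 := Gaa_sup fr p h a a' (em a a' A ∪ Fx a a' ∪ em a a' E₀ ∪ {u.1, u'.1})
    (em a a' A ∪ Fx a a' ∪ em a a' E₀ ∪ {v.1, v'.1})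
  rw [grp2_set] at e6
  rw [e4, e5, e6] at e3
  exact e2.trans e3

lemma mi_Dd (u u' v v' : Fl a a') (A E₀ : Finset (Fl a a')) :
    TV2.mi (Dd fr p h a a' Df) (LL fr p h a a' u ⊔ LL fr p h a a' u')
      (LL fr p h a a' v ⊔ LL fr p h a a' v') ((A ∪ E₀).sup (LL fr p h a a')) =
    DG fr p h a a' Df (em a a' A ∪ Fx a a' ∪ em a a' E₀ ∪ {u.1, u'.1} ∪ {v.1, v'.1}) +
      Df (Gaa fr p h a a' (em a a' A ∪ Fx a a' ∪ em a a' E₀ ∪ {u.1, u'.1}) ⊓
        Gaa fr p h a a' (em a a' A ∪ Fx a a' ∪ em a a' E₀ ∪ {v.1, v'.1})) -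
      DG fr p h a a' Df (em a a' A ∪ Fx a a' ∪ em a a' E₀ ∪ {u.1, u'.1}) -
      DG fr p h a a' Df (em a a' A ∪ Fx a a' ∪ em a a' E₀ ∪ {v.1, v'.1}) := by
  unfold TV2.mi Dd
  rw [coe_inf, grp2_eq, grp_eq, grp_eq]
  unfold DG
  ring

/-- the strong relation on all lines -/
def SS' (s : ℕ) (θ : ℝ) (u v : Lin N) : Prop :=
  ∃ (hu : u ∉ Fx a a') (hv : v ∉ Fx a a'),
    TV2.Str (Dd fr p h a a' Df) (LL fr p h a a') s θ ⟨u, hu⟩ ⟨v, hv⟩

/-- A pair `β` is good: it is far from `a`, `a'`, its rows have bounded deficit over `a`, `a'`, and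
there are an alignment and three disjoint pasts over which its rows have bounded deficit and the two
groups of lines have small mutual information. -/
def GoodB (m : ℕ) (lam d0 : ℝ) (β : Ty N d × Ty N d) : Prop :=
  Disjoint (lins2 β) (Fx a a') ∧
  (∀ c : Ty N d, lins c ⊆ Fx a a' ∪ lins2 β → c = a ∨ c = a' ∨ c = β.1 ∨ c = β.2) ∧
  DG fr p h a a' Df (Fx a a' ∪ lins2 β) - DG fr p h a a' Df (Fx a a') ≤ lam ∧
  ∃ i j q i' j' q' : Fin 3, i ≠ j ∧ i ≠ q ∧ j ≠ q ∧ i' ≠ j' ∧ i' ≠ q' ∧ j' ≠ q' ∧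
    (∀ s t, lin β.1 s = lin β.2 t → s = q ∧ t = q') ∧
    ∃ S : Fin 3 → Finset (Lin N), (∀ l, (S l).card ≤ 2 * m) ∧
      (∀ l l', l ≠ l' → Disjoint (S l) (S l')) ∧
      (∀ l, Disjoint (S l) (Fx a a' ∪ lins2 β)) ∧
      (∀ l, DG fr p h a a' Df (S l ∪ Fx a a' ∪ lins2 β) - DG fr p h a a' Df (S l ∪ Fx a a') ≤ lam) ∧
      ∀ l,
        DG fr p h a a' Df (S l ∪ Fx a a' ∪ {lin β.1 q, lin β.2 q'} ∪ {lin β.1 i, lin β.2 i'} ∪
            {lin β.1 j, lin β.2 j'}) +
          Df (Gaa fr p h a a' (S l ∪ Fx a a' ∪ {lin β.1 q, lin β.2 q'} ∪ {lin β.1 i, lin β.2 i'}) ⊓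
            Gaa fr p h a a' (S l ∪ Fx a a' ∪ {lin β.1 q, lin β.2 q'} ∪ {lin β.1 j, lin β.2 j'})) -
          DG fr p h a a' Df (S l ∪ Fx a a' ∪ {lin β.1 q, lin β.2 q'} ∪ {lin β.1 i, lin β.2 i'}) -
          DG fr p h a a' Df (S l ∪ Fx a a' ∪ {lin β.1 q, lin β.2 q'} ∪ {lin β.1 j, lin β.2 j'}) ≤ d0

/-- the strong pairs are few -/
lemma card_SS (s : ℕ) (θ : ℝ) :
    (strongPairs (SS' fr p h a a' Df s θ)).card ≤
      ((univ : Finset (Fl a a' × Fl a a')).filter
        (fun x => TV2.Str (Dd fr p h a a' Df) (LL fr p h a a') s θ x.1 x.2)).card := by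
  have h1 : strongPairs (SS' fr p h a a' Df s θ) ⊆
      (((univ : Finset (Fl a a' × Fl a a')).filter
        (fun x => TV2.Str (Dd fr p h a a' Df) (LL fr p h a a') s θ x.1 x.2)).image
          (fun x => (x.1.1, x.2.1))) := by
    rintro ⟨u, v⟩ huv
    unfold strongPairs at huv
    rw [mem_filter] at huv
    obtain ⟨-, hu, hv, hs⟩ := huv
    rw [mem_image]
    exact ⟨(⟨u, hu⟩, ⟨v, hv⟩), mem_filter.2 ⟨mem_univ _, hs⟩, rfl⟩
  exact (card_le_card h1).trans card_image_le

/-- the pasts of size `s` over which `β` has a large deficit -/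
def BdB (s : ℕ) (lam : ℝ) (β : Ty N d × Ty N d) : Finset (Finset (Fl a a')) :=
  (powersetCard s univ).filter fun A => Disjoint (lins2 β) (em a a' A ∪ Fx a a') ∧
    lam < DG fr p h a a' Df (em a a' A ∪ Fx a a' ∪ lins2 β) -
      DG fr p h a a' Df (em a a' A ∪ Fx a a')

/-- Fubini for the deficit -/
lemma mass_BdB {s m : ℕ} (hs : s ≤ 2 * m) {lam ε₁ : ℝ} {ρ : Ty N d × Ty N d → ℝ}
    (hρ : ∀ β, 0 ≤ ρ β)
    (hK2 : ∀ A : Finset (Lin N), A.card ≤ 2 * m → Disjoint A (Fx a a') →
      ∑ β, (if Disjoint (lins2 β) (A ∪ Fx a a') ∧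
        lam < DG fr p h a a' Df (A ∪ Fx a a' ∪ lins2 β) - DG fr p h a a' Df (A ∪ Fx a a')
        then ρ β else 0) ≤ ε₁) (hc : 0 < (Fintype.card (Fl a a')).choose s) :
    ∑ β, (if (Fintype.card (Fl a a')).choose s < 12 * (BdB fr p h a a' Df s lam β).card
      then ρ β else 0) ≤ 12 * ε₁ := by
  set C := (Fintype.card (Fl a a')).choose s with hC
  have hCr : (0 : ℝ) < C := by exact_mod_cast hc
  have h1 : ∑ β, ρ β * ((BdB fr p h a a' Df s lam β).card : ℝ) ≤ C * ε₁ := by
    have e1 : ∀ β, ρ β * ((BdB fr p h a a' Df s lam β).card : ℝ) =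
        ∑ A ∈ powersetCard s (univ : Finset (Fl a a')),
          (if Disjoint (lins2 β) (em a a' A ∪ Fx a a') ∧
            lam < DG fr p h a a' Df (em a a' A ∪ Fx a a' ∪ lins2 β) -
              DG fr p h a a' Df (em a a' A ∪ Fx a a') then ρ β else 0) := by
      intro β
      rw [← sum_filter, sum_const, nsmul_eq_mul, mul_comm]
      rfl
    simp_rw [e1]
    rw [sum_comm]
    have e2 : (C : ℝ) * ε₁ = ∑ _A ∈ powersetCard s (univ : Finset (Fl a a')), ε₁ := by
      rw [sum_const, card_powersetCard, card_univ, nsmul_eq_mul]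
    rw [e2]
    refine sum_le_sum fun A hA => hK2 (em a a' A) ?_ (em_disj a a' A)
    rw [card_em, (mem_powersetCard.1 hA).2]
    exact hs
  have h2 : ∀ β, (if C < 12 * (BdB fr p h a a' Df s lam β).card then ρ β else 0) * C ≤
      12 * (ρ β * ((BdB fr p h a a' Df s lam β).card : ℝ)) := by
    intro β
    split_ifs with hlt
    · have h3 : (C : ℝ) ≤ 12 * ((BdB fr p h a a' Df s lam β).card : ℝ) := by exact_mod_cast hlt.le
      have := mul_le_mul_of_nonneg_left h3 (hρ β)
      linarith only [this]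
    · rw [zero_mul]
      exact mul_nonneg (by norm_num) (mul_nonneg (hρ β) (Nat.cast_nonneg _))
  have h3 : (∑ β, (if C < 12 * (BdB fr p h a a' Df s lam β).card then ρ β else 0)) * C ≤
      12 * ε₁ * C := by
    rw [sum_mul]
    refine (sum_le_sum fun β _ => h2 β).trans ?_
    rw [← mul_sum]
    linarith only [h1]
  exact le_of_mul_le_mul_right h3 hCr

/-- **Selection of the pasts for one pair.** -/
lemma goodB_of (hDf : TV2.SupMod Df) {s m : ℕ} (hm : 0 < m) (hms : m ≤ s) (hs2 : s < 2 * m) (hd : 2 * d ≤ N)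
    (hN : 144 * m + 6 ≤ 3 * N) {θ d0 lam : ℝ} (hd0 : 0 < d0)
    (hθ : 0 ≤ θ) (h48 : 48 * ((3 * N : ℝ) / m) ^ 4 * θ ≤ d0) {Dg : ℕ} {b b' : Ty N d} (hbb : b ≠ b')
    (hb1 : b ∉ Mt (d := d) (Wd a a')) (hb1' : b' ∉ Mt (d := d) (Wd a a'))
    (hb2 : b ∉ bad (lin (N := N) (d := d)) (SS' fr p h a a' Df s θ) Dg)
    (hb2' : b' ∉ bad (lin (N := N) (d := d)) (SS' fr p h a a' Df s θ) Dg)
    (hB : 12 * (BdB fr p h a a' Df s lam (b, b')).card ≤ (Fintype.card (Fl a a')).choose s)
    (h0 : DG fr p h a a' Df (Fx a a' ∪ lins2 (b, b')) - DG fr p h a a' Df (Fx a a') ≤ lam) :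
    GoodB fr p h a a' Df m lam d0 (b, b') := by
  obtain ⟨hfar1, hfar2⟩ := far a a' hd hb1 hb1'
  refine ⟨hfar1, hfar2, h0, ?_⟩
  obtain ⟨i, j, q, i', j', q', hij, hiq, hjq, hij', hiq', hjq', hsh, n1, n2, n3, n4⟩ :=
    Align.exists_alignment hd (SS' fr p h a a' Df s θ)
      (fun u v ⟨hu, hv, huv⟩ => ⟨hv, hu, huv.symm⟩) Dg hbb hb2 hb2'
  refine ⟨i, j, q, i', j', q', hij, hiq, hjq, hij', hiq', hjq', hsh, ?_⟩
  obtain ⟨hcard1, hcard2⟩ := card_Fl a a'
  -- the lines are not lines of `a`, `a'`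
  have hnot : ∀ s, lin b s ∉ Fx a a' := fun s hs => disjoint_left.1 hfar1
    (mem_union_left _ (mem_lins.2 ⟨s, rfl⟩)) hs
  have hnot' : ∀ s, lin b' s ∉ Fx a a' := fun s hs => disjoint_left.1 hfar1
    (mem_union_right _ (mem_lins.2 ⟨s, rfl⟩)) hs
  set L1 : Fin 3 → Fl a a' := fun s => ⟨lin b s, hnot s⟩ with hL1
  set L2 : Fin 3 → Fl a a' := fun s => ⟨lin b' s, hnot' s⟩ with hL2
  have i1 : ∀ s t, L1 s = L1 t → s = t := fun s t h => Align.lin_injective b (congrArg Subtype.val h)
  have i2 : ∀ s t, L2 s = L2 t → s = t := fun s t h => Align.lin_injective b' (congrArg Subtype.val h)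
  have i12 : ∀ s t, L1 s = L2 t → s = q ∧ t = q' := fun s t h => hsh s t (congrArg Subtype.val h)
  set E₀ : Finset (Fl a a') := {L1 q, L2 q'} with hE₀
  set Z : Finset (Fl a a') := univ.image L1 ∪ univ.image L2 with hZ
  have hmZ1 : ∀ s, L1 s ∈ Z := fun s => mem_union_left _ (mem_image_of_mem _ (mem_univ s))
  have hmZ2 : ∀ s, L2 s ∈ Z := fun s => mem_union_right _ (mem_image_of_mem _ (mem_univ s))
  have hZcard : Z.card ≤ 6 := by
    have r1 := card_image_le (s := (univ : Finset (Fin 3))) (f := L1)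
    have r2 := card_image_le (s := (univ : Finset (Fin 3))) (f := L2)
    rw [card_univ, Fintype.card_fin] at r1 r2
    exact (card_union_le _ _).trans (by omega)
  have hemZ : em a a' Z = lins2 (b, b') := by
    ext u
    rw [mem_em]
    unfold lins2
    rw [mem_union, mem_lins, mem_lins]
    constructor
    · rintro ⟨hu, hu'⟩
      rw [hZ, mem_union, mem_image, mem_image] at hu'
      rcases hu' with ⟨s, -, hs⟩ | ⟨s, -, hs⟩
      · exact Or.inl ⟨s, congrArg Subtype.val hs⟩
      · exact Or.inr ⟨s, congrArg Subtype.val hs⟩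
    · rintro (⟨s, rfl⟩ | ⟨s, rfl⟩)
      · exact ⟨hnot s, hmZ1 s⟩
      · exact ⟨hnot' s, hmZ2 s⟩
  have hemE : em a a' E₀ = {lin b q, lin b' q'} := by
    rw [hE₀]
    unfold em
    rw [map_insert, map_singleton]
    rfl
  have hns : ∀ u v : Fl a a', u ≠ v → ¬ SS' fr p h a a' Df s θ u.1 v.1 →
      ∀ e < 5, TV2.wt (Dd fr p h a a' Df) (LL fr p h a a') (s + e) u v ≤ θ := by
    intro u v huv hs
    exact TV2.not_str huv fun hstr => hs ⟨u.2, v.2, hstr⟩
  have hsymm : ∀ u v, ¬ SS' fr p h a a' Df s θ u v → ¬ SS' fr p h a a' Df s θ v u :=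
    fun u v h ⟨hu, hv, huv⟩ => h ⟨hv, hu, huv.symm⟩
  have hratio : 48 * ((Fintype.card (Fl a a') : ℝ) / m) ^ 4 * θ ≤ d0 := by
    refine le_trans ?_ h48
    refine mul_le_mul_of_nonneg_right ?_ hθ
    refine mul_le_mul_of_nonneg_left ?_ (by norm_num)
    refine pow_le_pow_left₀ (by (clear * - hm; positivity)) ?_ 4
    refine div_le_div_of_nonneg_right ?_ (Nat.cast_nonneg _)
    exact_mod_cast hcard2
  obtain ⟨A, hA1, hA2, hA3, hA4, hA5⟩ := TV2.good_pasts (supMod_Dd fr p h a a' Df hDf)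
    (L := LL fr p h a a') (s := s) (m := m) hm hms (by omega)
    (i := L1 i) (i' := L2 i') (j := L1 j) (j' := L2 j') (E₀ := E₀) (Z := Z)
    (by rw [hE₀]; exact card_le_two)
    (fun hh => hiq (i12 _ _ hh).1) (fun hh => hij (i1 _ _ hh)) (fun hh => hiq (i12 _ _ hh).1)
    (fun hh => hiq' (i12 _ _ hh.symm).2) (fun hh => hij' (i2 _ _ hh))
    (fun hh => hjq (i12 _ _ hh).1)
    (by
      rw [hE₀, mem_insert, mem_singleton, not_or]
      exact ⟨fun hh => hiq (i1 _ _ hh), fun hh => hiq (i12 _ _ hh).1⟩)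
    (by
      rw [hE₀, mem_insert, mem_singleton, not_or]
      exact ⟨fun hh => hiq' (i12 _ _ hh.symm).2, fun hh => hiq' (i2 _ _ hh)⟩)
    (by
      rw [hE₀, mem_insert, mem_singleton, not_or]
      exact ⟨fun hh => hjq (i1 _ _ hh), fun hh => hjq (i12 _ _ hh).1⟩)
    (by
      rw [hE₀, mem_insert, mem_singleton, not_or]
      exact ⟨fun hh => hjq' (i12 _ _ hh.symm).2, fun hh => hjq' (i2 _ _ hh)⟩)
    (by
      intro u hu
      rw [hE₀] at hu
      simp only [mem_insert, mem_singleton] at hu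
      rcases hu with rfl | rfl | rfl | rfl | rfl | rfl
      · exact hmZ1 _
      · exact hmZ2 _
      · exact hmZ1 _
      · exact hmZ2 _
      · exact hmZ1 _
      · exact hmZ2 _)
    (by
      have : Z.card * s ≤ 6 * (2 * m) := Nat.mul_le_mul hZcard hs2.le
      omega)
    hd0 hratio
    (hns _ _ (fun hh => hij (i1 _ _ hh)) n1)
    (hns _ _ (fun hh => hiq' (i12 _ _ hh.symm).2) (hsymm _ _ n4))
    (hns _ _ (fun hh => hiq (i12 _ _ hh).1) n3)
    (hns _ _ (fun hh => hij' (i2 _ _ hh)) n2)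
    (BdB fr p h a a' Df s lam (b, b'))
    (by
      refine le_trans (Nat.mul_le_mul_left _ (card_le_card inter_subset_left)) hB)
  refine ⟨fun l => em a a' (A l), ?_, ?_, ?_, ?_, ?_⟩
  · intro l
    rw [card_em, hA1]
    exact hs2.le
  · intro l l' hl
    exact em_disjoint a a' (hA5 l l' hl)
  · intro l
    rw [disjoint_union_right, ← hemZ]
    exact ⟨em_disj a a' _, em_disjoint a a' (hA2 l)⟩
  · intro l
    by_contra hcon
    push Not at hcon
    refine hA3 l (mem_filter.2 ⟨mem_powersetCard.2 ⟨subset_univ _, hA1 l⟩, ?_, hcon⟩)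
    rw [disjoint_union_right, ← hemZ]
    exact ⟨(em_disjoint a a' (hA2 l)).symm, em_disj a a' _⟩
  · intro l
    have h4 := hA4 l
    rw [mi_Dd, hemE] at h4
    exact h4

/-- a size with few strong pairs -/
lemma exists_s (hDf : TV2.SupMod Df) {κ₀ m : ℕ} (h1 : Ev1 p κ₀) (hm : 4 ≤ m)
    (hr : ∀ w, 6 * m + 6 + (rowLines fr w).card ≤ κ₀) (hr' : 6 * m + 6 ≤ κ₀)
    (hN : 144 * m + 6 ≤ 3 * N) {Dm : ℝ}
    (hB : ∀ S, DG fr p h a a' Df S - DG fr p h a a' Df ∅ ≤ Dm) {θ s₀ : ℝ} (hθ : 0 < θ)
    (hs₀ : 225 * N * Dm ≤ s₀ * ((m : ℝ) ^ 2 * θ)) :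
    ∃ s, m ≤ s ∧ s < 2 * m ∧ ((strongPairs (SS' fr p h a a' Df s θ)).card : ℝ) ≤ s₀ * N := by
  have hN0 : (0 : ℝ) < N := by exact_mod_cast Nat.pos_of_ne_zero (NeZero.ne N)
  have hm0 : (0 : ℝ) < m := by exact_mod_cast (by omega : 0 < m)
  obtain ⟨hcard1, hcard2⟩ := card_Fl a a'
  obtain ⟨s, hms, hs2, hstr⟩ := TV2.exists_size_str (supMod_Dd fr p h a a' Df hDf)
    (tri fr p h a a' (κ := 6 * m) h1 hr hr') (Dm := Dm)
    (fun A => by
      rw [Dd_sup]
      exact ⟨sub_nonneg.2 (DG_mono fr p h a a' Df hDf (empty_subset _)), hB _⟩)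
    hm le_rfl (by omega)
  refine ⟨s, hms, hs2, ?_⟩
  have hDm : 0 ≤ Dm := by
    have := hB ∅
    rwa [sub_self] at this
  have q1 := hstr θ
  have q2 : ((strongPairs (SS' fr p h a a' Df s θ)).card : ℝ) ≤
      (((univ : Finset (Fl a a' × Fl a a')).filter
        (fun x => TV2.Str (Dd fr p h a a' Df) (LL fr p h a a') s θ x.1 x.2)).card : ℝ) := by
    exact_mod_cast card_SS fr p h a a' Df s θ
  have q3 : ((strongPairs (SS' fr p h a a' Df s θ)).card : ℝ) * θ ≤
      25 * (Fintype.card (Fl a a') : ℝ) ^ 2 * Dm / (m : ℝ) ^ 2 := by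
    refine le_trans (mul_le_mul_of_nonneg_right q2 hθ.le) ?_
    convert q1
  have q4 : 25 * (Fintype.card (Fl a a') : ℝ) ^ 2 * Dm / (m : ℝ) ^ 2 ≤
      (225 * N * Dm) * N / (m : ℝ) ^ 2 := by
    refine div_le_div_of_nonneg_right ?_ (by positivity)
    have r1 : (Fintype.card (Fl a a') : ℝ) ≤ 3 * N := by exact_mod_cast hcard2
    have r2 : (Fintype.card (Fl a a') : ℝ) ^ 2 ≤ (3 * N) ^ 2 :=
      pow_le_pow_left₀ (Nat.cast_nonneg _) r1 2
    have r3 := mul_le_mul_of_nonneg_right r2 hDm
    linarith only [r3]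
  have q5 : (225 * N * Dm) * N / (m : ℝ) ^ 2 ≤ s₀ * N * θ := by
    rw [div_le_iff₀ (by positivity)]
    have := mul_le_mul_of_nonneg_right hs₀ hN0.le
    linarith only [this]
  have q6 := q3.trans (q4.trans q5)
  exact le_of_mul_le_mul_right q6 hθ

omit [NeZero N] in
lemma four {r : ℝ} (hr : 0 ≤ r) {G Q₁ Q₂ Q₃ Q₄ : Prop} [Decidable G] [Decidable Q₁]
    [Decidable Q₂] [Decidable Q₃] [Decidable Q₄]
    (hG : ¬ Q₁ → ¬ Q₂ → ¬ Q₃ → ¬ Q₄ → r ≠ 0 → G) :
    (if G then 0 else r) ≤ (if Q₁ then r else 0) + (if Q₂ then r else 0) + (if Q₃ then r else 0) +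
      (if Q₄ then r else 0) := by
  by_cases hr0 : r = 0
  · rw [hr0]
    simp
  · by_cases h1 : Q₁ <;> by_cases h2 : Q₂ <;> by_cases h3 : Q₃ <;> by_cases h4 : Q₄ <;>
      by_cases g : G <;> simp only [h1, h2, h3, h4, g, if_true, if_false] <;>
      first | linarith | exact absurd (hG h1 h2 h3 h4 hr0) g

lemma key (hDf : TV2.SupMod Df) {s m : ℕ} (hm : 0 < m) (hms : m ≤ s) (hs2 : s < 2 * m) (hd : 2 * d ≤ N)
    (hN : 144 * m + 6 ≤ 3 * N) {θ d0 lam : ℝ} (hd0 : 0 < d0)
    (hθ : 0 ≤ θ) (h48 : 48 * ((3 * N : ℝ) / m) ^ 4 * θ ≤ d0) (Dg : ℕ)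
    {ρ : Ty N d × Ty N d → ℝ} (hρ : TCoup 8 ρ) (β : Ty N d × Ty N d) :
    (if GoodB fr p h a a' Df m lam d0 β then 0 else ρ β) ≤
      (if β.1 ∈ bad (lin (N := N) (d := d)) (SS' fr p h a a' Df s θ) Dg ∨
        β.2 ∈ bad (lin (N := N) (d := d)) (SS' fr p h a a' Df s θ) Dg then ρ β else 0) +
      (if (Fintype.card (Fl a a')).choose s < 12 * (BdB fr p h a a' Df s lam β).card
        then ρ β else 0) +
      (if Disjoint (lins2 β) (∅ ∪ Fx a a') ∧
        lam < DG fr p h a a' Df (∅ ∪ Fx a a' ∪ lins2 β) - DG fr p h a a' Df (∅ ∪ Fx a a')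
        then ρ β else 0) +
      (if β.1 ∈ Mt (d := d) (Wd a a') ∨ β.2 ∈ Mt (d := d) (Wd a a') then ρ β else 0) := by
  refine four (hρ.nonneg β) ?_
  intro c1 c2 c3 c4 hr0
  rw [not_or] at c1 c4
  rw [not_lt] at c2
  have hbb : β.1 ≠ β.2 := by
    intro hbb
    have h2 := hρ.ne β.1
    rw [show (β.1, β.1) = β from Prod.ext rfl hbb] at h2
    exact hr0 h2
  obtain ⟨b, b'⟩ := β
  have hfar := far a a' hd c4.1 c4.2
  rw [empty_union] at c3
  refine goodB_of fr p h a a' Df hDf hm hms hs2 hd hN hd0 hθ h48 hbb c4.1 c4.2 c1.1 c1.2 c2 ?_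
  by_contra hcon
  rw [not_le] at hcon
  exact c3 ⟨hfar.1, hcon⟩

/-- **Selection of the pasts.**  All pairs except for a small mass are good. -/
theorem exists_pasts (hDf : TV2.SupMod Df) {κ₀ m : ℕ} (h1 : Ev1 p κ₀) (hm : 4 ≤ m)
    (hr : ∀ w, 6 * m + 6 + (rowLines fr w).card ≤ κ₀) (hr' : 6 * m + 6 ≤ κ₀)
    (hN : 144 * m + 6 ≤ 3 * N) (hd : 2 * d ≤ N) (hd1 : 0 < d) {Dm : ℝ}
    (hB : ∀ S, DG fr p h a a' Df S - DG fr p h a a' Df ∅ ≤ Dm) {θ d0 lam s₀ : ℝ} (hθ : 0 < θ)
    (hd0 : 0 < d0) (h48 : 48 * ((3 * N : ℝ) / m) ^ 4 * θ ≤ d0)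
    (hs₀ : 225 * N * Dm ≤ s₀ * ((m : ℝ) ^ 2 * θ)) {Dg : ℕ} {ε₁ ε₂ : ℝ}
    {ρ : Ty N d × Ty N d → ℝ} (hρ : TCoup 8 ρ)
    (hbad : ∀ S : Lin N → Lin N → Prop, ((strongPairs S).card : ℝ) ≤ s₀ * N →
      ∑ β, (if β.1 ∈ bad (lin (N := N) (d := d)) S Dg ∨ β.2 ∈ bad (lin (N := N) (d := d)) S Dg
        then ρ β else 0) ≤ ε₂)
    (hK2 : ∀ A : Finset (Lin N), A.card ≤ 2 * m → Disjoint A (Fx a a') →
      ∑ β, (if Disjoint (lins2 β) (A ∪ Fx a a') ∧
        lam < DG fr p h a a' Df (A ∪ Fx a a' ∪ lins2 β) - DG fr p h a a' Df (A ∪ Fx a a')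
        then ρ β else 0) ≤ ε₁) :
    ∑ β, (if GoodB fr p h a a' Df m lam d0 β then 0 else ρ β) ≤ ε₂ + 13 * ε₁ + 288 * d / N := by
  have hN0 : (0 : ℝ) < N := by exact_mod_cast Nat.pos_of_ne_zero (NeZero.ne N)
  obtain ⟨hcard1, hcard2⟩ := card_Fl a a'
  obtain ⟨s, hms, hs2, hsp⟩ := exists_s fr p h a a' Df hDf h1 hm hr hr' hN hB hθ hs₀
  have b1 := hbad _ hsp
  have hCpos : 0 < (Fintype.card (Fl a a')).choose s := Nat.choose_pos (by omega)
  have b2 := mass_BdB fr p h a a' Df hs2.le (lam := lam) hρ.nonneg hK2 hCpos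
  have b3 := hK2 ∅ (by simp) (disjoint_empty_left _)
  have b4 : ∑ β, (if β.1 ∈ Mt (d := d) (Wd a a') ∨ β.2 ∈ Mt (d := d) (Wd a a') then ρ β else 0) ≤
      288 * d / N := by
    refine (mass_le hρ _ hd1).trans ?_
    have hd0' : (0 : ℝ) < d := by exact_mod_cast hd1
    have q1 : ((Mt (d := d) (Wd a a')).card : ℝ) ≤ 18 * d * d := by exact_mod_cast card_MtWd a a'
    rw [div_le_div_iff₀ (by (clear * - hN0 hd1; positivity)) hN0]
    have q2 := mul_le_mul_of_nonneg_right q1 hN0.le
    linarith only [q2]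
  refine (sum_le_sum fun β _ =>
    key fr p h a a' Df hDf (by omega) hms hs2 hd hN hd0 hθ.le h48 Dg hρ β).trans ?_
  rw [sum_add_distrib, sum_add_distrib, sum_add_distrib]
  linarith only [b4, b3, b2, b1]

end Main

end TVP

end Vale.Agent.P060.HW
end
end

section

/-!
# OUT-A from its core
-/

open scoped Classical

noncomputable section

set_option linter.unusedSectionVars false

namespace Vale.Agent.P060.HW

namespace NOAF

lemma tlogt {t : ℝ} (ht : 0 ≤ t) : 0 ≤ t * Real.log t + 1 := by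
  rcases ht.eq_or_lt with h | h
  · rw [← h]; simp
  · have h1 := mul_le_mul_of_nonneg_left (Real.one_sub_inv_le_log_of_pos h) ht
    have h2 : t * (1 - t⁻¹) = t - 1 := by
      rw [mul_sub, mul_one, mul_inv_cancel₀ h.ne']
    linarith

/-- A law with bounded divergence is comparable to the uniform law on a dense set. -/
lemma dense_level {X : Type*} [Fintype X] [Nonempty X] (C : ℝ) (q : X → ℝ) (h0 : ∀ x, 0 ≤ q x)
    (h1 : ∑ x, q x = 1) (hC : ∑ x, q x * Real.log (q x * Fintype.card X) ≤ C) :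
    (Fintype.card X : ℝ) ≤ 4 * Real.exp (4 * (|C| + 1)) *
      ((Finset.univ.filter fun x => 1 / 2 ≤ q x * Fintype.card X ∧
        q x * Fintype.card X ≤ Real.exp (4 * (|C| + 1))).card : ℝ) := by
  set n : ℝ := (Fintype.card X : ℝ) with hn
  have hn0 : 0 < n := by rw [hn]; exact_mod_cast Fintype.card_pos
  set l : ℝ := 4 * (|C| + 1) with hl
  have hC0 := abs_nonneg C
  have hl0 : 0 < l := by rw [hl]; linarith
  set A : Finset X := Finset.univ.filter fun x => 1 / 2 ≤ q x * n ∧ q x * n ≤ Real.exp l with hA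
  have hpt : ∀ x, q x * n ≤ 1 / 2 + (if x ∈ A then Real.exp l else 0)
      + (q x * n * Real.log (q x * n) + 1) / l := by
    intro x
    have ha : 0 ≤ q x * n := mul_nonneg (h0 x) hn0.le
    have ht := div_nonneg (tlogt ha) hl0.le
    have he : (0 : ℝ) ≤ if x ∈ A then Real.exp l else 0 := by
      split_ifs
      · exact (Real.exp_pos l).le
      · exact le_rfl
    by_cases hx1 : q x * n < 1 / 2
    · linarith only [hx1, he, ht]
    · by_cases hx2 : q x * n ≤ Real.exp l
      · have : x ∈ A := Finset.mem_filter.2 ⟨Finset.mem_univ _, not_lt.1 hx1, hx2⟩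
        rw [if_pos this]
        linarith only [ht, hx2]
      · push Not at hx2
        have h3 : l ≤ Real.log (q x * n) := by
          rw [Real.le_log_iff_exp_le ((Real.exp_pos l).trans hx2)]
          exact hx2.le
        have h4 : q x * n ≤ (q x * n * Real.log (q x * n) + 1) / l := by
          rw [le_div_iff₀ hl0]
          have := mul_le_mul_of_nonneg_left h3 ha
          linarith only [this]
        linarith only [h4, he]
  have hsum := Finset.sum_le_sum fun x (_ : x ∈ Finset.univ) => hpt x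
  rw [Finset.sum_add_distrib, Finset.sum_add_distrib, ← Finset.sum_mul, h1, one_mul,
    Finset.sum_const, Finset.card_univ, nsmul_eq_mul, ← Finset.sum_filter, Finset.sum_const,
    Finset.filter_mem_eq_inter, Finset.univ_inter, nsmul_eq_mul, ← Finset.sum_div,
    Finset.sum_add_distrib, Finset.sum_const, Finset.card_univ, nsmul_eq_mul, mul_one, ← hn] at hsum
  have h5 : ∑ x, q x * n * Real.log (q x * n) ≤ |C| * n := by
    have : ∑ x, q x * n * Real.log (q x * n) = n * ∑ x, q x * Real.log (q x * n) := by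
      rw [Finset.mul_sum]
      exact Finset.sum_congr rfl fun x _ => by ring
    rw [this, mul_comm]
    exact mul_le_mul_of_nonneg_right (hC.trans (le_abs_self C)) hn0.le
  have h6 : (∑ x, q x * n * Real.log (q x * n) + n) / l ≤ n / 4 := by
    rw [div_le_iff₀ hl0, hl]
    linarith only [h5]
  linarith only [hsum, h6]

/-- The types sharing a line with a given type. -/
lemma card_meet {N d : ℕ} [NeZero N] (a : Ty N d) :
    (Finset.univ.filter fun b : Ty N d => ¬ Disjoint (lins a) (lins b)).card ≤ 3 * d := by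
  have hsub : (Finset.univ.filter fun b : Ty N d => ¬ Disjoint (lins a) (lins b)) ⊆
      (Finset.univ : Finset (Fin 3)).biUnion fun t =>
        Finset.univ.filter fun b : Ty N d => ∃ s, lin b s = lin a t := by
    intro b hb
    have h1 := (Finset.mem_filter.1 hb).2
    rw [Finset.not_disjoint_iff] at h1
    obtain ⟨u, hu, hu'⟩ := h1
    unfold lins at hu hu'
    obtain ⟨t, -, ht⟩ := Finset.mem_image.1 hu
    obtain ⟨s, -, hs⟩ := Finset.mem_image.1 hu'
    rw [Finset.mem_biUnion]
    exact ⟨t, Finset.mem_univ _, Finset.mem_filter.2 ⟨Finset.mem_univ _, s, hs.trans ht.symm⟩⟩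
  refine (Finset.card_le_card hsub).trans (Finset.card_biUnion_le.trans ?_)
  calc ∑ t : Fin 3, (Finset.univ.filter fun b : Ty N d => ∃ s, lin b s = lin a t).card
      ≤ ∑ _t : Fin 3, d := Finset.sum_le_sum fun t _ => Align.card_types_of_line _
    _ = 3 * d := by rw [Finset.sum_const, Finset.card_univ, Fintype.card_fin, smul_eq_mul]

/-- Greedy choice of pairwise line-disjoint types. -/
lemma exists_disj {N d : ℕ} [NeZero N] (S : Finset (Ty N d)) (m : ℕ) (h : 3 * d * m ≤ S.card)
    (hd : 0 < d) :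
    ∃ S' ⊆ S, S'.card = m ∧ ∀ a ∈ S', ∀ b ∈ S', a ≠ b → Disjoint (lins a) (lins b) := by
  induction m with
  | zero => exact ⟨∅, Finset.empty_subset _, rfl, fun a ha => absurd ha (Finset.notMem_empty a)⟩
  | succ m ih =>
    obtain ⟨S', hS', hc, hdis⟩ := ih (le_trans (Nat.mul_le_mul_left _ (Nat.le_succ m)) h)
    set Bd : Finset (Ty N d) := S'.biUnion fun a =>
      Finset.univ.filter fun b : Ty N d => ¬ Disjoint (lins a) (lins b) with hBd
    have h1 : Bd.card ≤ 3 * d * m := by
      refine Finset.card_biUnion_le.trans ?_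
      calc _ ≤ ∑ _a ∈ S', 3 * d := Finset.sum_le_sum fun a _ => card_meet a
        _ = 3 * d * m := by rw [Finset.sum_const, hc, smul_eq_mul, mul_comm]
    have h2 : Bd.card < S.card := by
      have h3 : 3 * d * m < 3 * d * (m + 1) := by
        have : 0 < 3 * d := by omega
        exact Nat.mul_lt_mul_of_pos_left (Nat.lt_succ_self m) this
      omega
    obtain ⟨b, hbS, hb⟩ := Finset.exists_mem_notMem_of_card_lt_card h2
    have hb' : ∀ a ∈ S', Disjoint (lins a) (lins b) := by
      intro a ha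
      by_contra hn
      exact hb (Finset.mem_biUnion.2 ⟨a, ha, Finset.mem_filter.2 ⟨Finset.mem_univ _, hn⟩⟩)
    have hbn : b ∉ S' := by
      intro hbS'
      have h3 := hb' b hbS'
      rw [disjoint_self] at h3
      have h4 : lin b 0 ∈ lins b := Finset.mem_image_of_mem _ (Finset.mem_univ _)
      rw [h3] at h4
      exact Finset.notMem_empty _ h4
    refine ⟨insert b S', Finset.insert_subset hbS hS', ?_, ?_⟩
    · rw [Finset.card_insert_of_notMem hbn, hc]
    · intro a ha c hcc hac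
      rcases Finset.mem_insert.1 ha with ha1 | ha1 <;>
        rcases Finset.mem_insert.1 hcc with hc1 | hc1
      · exact absurd (ha1.trans hc1.symm) hac
      · rw [ha1]; exact (hb' c hc1).symm
      · rw [hc1]; exact hb' a ha1
      · exact hdis a ha1 c hc1 hac

/-- The parameters of a label. -/
def slice {T M : Type*} [Fintype M] (A : Finset (T × Bool × M)) (a : T) (i : Bool) : Finset M :=
  Finset.univ.filter fun x => (a, i, x) ∈ A

lemma mem_slice {T M : Type*} [Fintype M] {A : Finset (T × Bool × M)} {a : T} {i : Bool} {x : M} :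
    x ∈ slice A a i ↔ (a, i, x) ∈ A := by
  unfold slice
  rw [Finset.mem_filter]
  exact ⟨fun h => h.2, fun h => ⟨Finset.mem_univ _, h⟩⟩

/-- Many types have a dense set of parameters for some bit. -/
lemma dense_types {T M : Type*} [Fintype T] [Fintype M] [Nonempty M] (δ : ℝ) (A : Finset (T × Bool × M))
    (hA : δ * Fintype.card (T × Bool × M) ≤ (A.card : ℝ)) (hδ : 0 ≤ δ) :
    δ / 2 * Fintype.card T ≤ ((Finset.univ.filter fun a : T => ∃ ι : Bool,
      δ / 2 * Fintype.card M ≤ ((Finset.univ.filter fun x : M => (a, ι, x) ∈ A).card : ℝ)).card : ℝ) := by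
  set S := Finset.univ.filter fun a : T => ∃ ι : Bool,
      δ / 2 * Fintype.card M ≤ ((Finset.univ.filter fun x : M => (a, ι, x) ∈ A).card : ℝ) with hS
  have hM : (0 : ℝ) < Fintype.card M := by exact_mod_cast Fintype.card_pos
  have h1 : (A.card : ℝ) = ∑ a : T, ∑ ι : Bool,
      ((Finset.univ.filter fun x : M => (a, ι, x) ∈ A).card : ℝ) := by
    have : A.card = ∑ a : T, ∑ ι : Bool, (Finset.univ.filter fun x : M => (a, ι, x) ∈ A).card := by
      rw [← Finset.sum_product', Finset.univ_product_univ]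
      have h2 : A = (Finset.univ : Finset (T × Bool)).biUnion fun y =>
          (Finset.univ.filter fun x : M => (y.1, y.2, x) ∈ A).image fun x => (y.1, y.2, x) := by
        ext ⟨a, ι, x⟩
        simp only [Finset.mem_biUnion, Finset.mem_univ, true_and, Finset.mem_image,
          Finset.mem_filter, Prod.mk.injEq, Prod.exists]
        constructor
        · intro h
          exact ⟨a, ι, x, h, rfl, rfl, rfl⟩
        · rintro ⟨a', ι', x', h, rfl, rfl, rfl⟩
          exact h
      conv_lhs => rw [h2]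
      rw [Finset.card_biUnion]
      · refine Finset.sum_congr rfl fun y _ => ?_
        rw [Finset.card_image_of_injective]
        intro x x' h
        exact (Prod.mk.injEq _ _ _ _ ▸ (Prod.mk.injEq _ _ _ _ ▸ h).2).2
      · intro y _ y' _ hne
        rw [Function.onFun, Finset.disjoint_left]
        rintro _ h3 h4
        obtain ⟨x, -, rfl⟩ := Finset.mem_image.1 h3
        obtain ⟨x', -, h5⟩ := Finset.mem_image.1 h4
        apply hne
        have h6 := (Prod.ext_iff.1 h5)
        have h7 := (Prod.ext_iff.1 h6.2)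
        exact Prod.ext h6.1.symm h7.1.symm
    rw [this]
    push_cast
    rfl
  have h2 : ∀ a : T, ∑ ι : Bool, ((Finset.univ.filter fun x : M => (a, ι, x) ∈ A).card : ℝ)
      ≤ (if a ∈ S then 2 * (Fintype.card M : ℝ) else 0) + δ * Fintype.card M := by
    intro a
    have hle : ∀ ι : Bool, ((Finset.univ.filter fun x : M => (a, ι, x) ∈ A).card : ℝ)
        ≤ Fintype.card M := by
      intro ι
      exact_mod_cast Finset.card_le_univ _
    rw [Fintype.sum_bool]
    have hδM : 0 ≤ δ * Fintype.card M := mul_nonneg hδ hM.le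
    by_cases ha : a ∈ S
    · rw [if_pos ha]
      linarith [hle true, hle false]
    · rw [if_neg ha]
      have h3 : ∀ ι : Bool, ((Finset.univ.filter fun x : M => (a, ι, x) ∈ A).card : ℝ)
          < δ / 2 * Fintype.card M := by
        intro ι
        by_contra hn
        exact ha (Finset.mem_filter.2 ⟨Finset.mem_univ _, ι, not_lt.1 hn⟩)
      linarith only [h3 false, h3 true]
  have h3 : (A.card : ℝ) ≤ S.card * (2 * (Fintype.card M : ℝ)) + Fintype.card T * (δ * Fintype.card M) := by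
    rw [h1]
    refine (Finset.sum_le_sum fun a _ => h2 a).trans (le_of_eq ?_)
    rw [Finset.sum_add_distrib, ← Finset.sum_filter, Finset.sum_const, Finset.sum_const,
      Finset.filter_mem_eq_inter, Finset.univ_inter, nsmul_eq_mul, nsmul_eq_mul, Finset.card_univ]
  have h4 : (Fintype.card (T × Bool × M) : ℝ) = Fintype.card T * (2 * Fintype.card M) := by
    rw [Fintype.card_prod, Fintype.card_prod, Fintype.card_bool]
    push_cast
    ring
  rw [h4] at hA
  have h5 : δ * Fintype.card T * Fintype.card M ≤ S.card * 2 * Fintype.card M := by linarith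
  have h6 := le_of_mul_le_mul_right h5 hM
  linarith

lemma dense_types' {T M : Type*} [Fintype T] [Fintype M] [Nonempty M] (δ : ℝ)
    (A : Finset (T × Bool × M))
    (hA : δ * Fintype.card (T × Bool × M) ≤ (A.card : ℝ)) (hδ : 0 ≤ δ) :
    ∃ S : Finset T, δ / 2 * Fintype.card T ≤ (S.card : ℝ) ∧ ∀ a ∈ S, ∃ ι : Bool,
      δ / 2 * Fintype.card M ≤ ((slice A a ι).card : ℝ) :=
  ⟨_, dense_types δ A hA hδ, fun _ ha => (Finset.mem_filter.1 ha).2⟩

/-- The final numbers. -/
lemma numbers {δ m R W n N d D₀ k R' : ℝ} (hδ : 0 < δ) (hm : 0 < m) (hR : 0 < R) (hN : 0 < N)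
    (hd : 0 < d) (hn : n = N * d * 2 * m) (hlow : W * (1 / (2 * n)) ^ 2 ≤ (R ^ 2)⁻¹)
    (hpairs : (δ / 2) ^ 2 * m ^ 2 ≤ 20168 * R * W) (hNk : N ≤ 2 * D₀ * k) (hRR : R' ≤ R)
    (hlast : 20168 * 64 * D₀ ^ 2 * d ^ 2 * k ^ 2 < δ ^ 2 / 4 * R') : False := by
  have hn0 : 0 < n := by rw [hn]; positivity
  have hW1 : W * R ^ 2 ≤ 4 * n ^ 2 := by
    have h1 : W * (1 / (2 * n)) ^ 2 = W / (4 * n ^ 2) := by
      rw [div_pow, one_pow, mul_pow, mul_one_div]
      norm_num
    rw [h1, inv_eq_one_div, div_le_div_iff₀ (by positivity) (by positivity), one_mul] at hlow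
    exact hlow
  have hfin : (δ / 2) ^ 2 * m ^ 2 * R ≤ 20168 * (4 * n ^ 2) := by
    calc (δ / 2) ^ 2 * m ^ 2 * R ≤ 20168 * R * W * R := mul_le_mul_of_nonneg_right hpairs hR.le
      _ = 20168 * (W * R ^ 2) := by ring
      _ ≤ 20168 * (4 * n ^ 2) := mul_le_mul_of_nonneg_left hW1 (by norm_num)
  rw [hn] at hfin
  have hm2 : 0 < m ^ 2 := by positivity
  have hfin2 : δ ^ 2 / 4 * R ≤ 20168 * 16 * N ^ 2 * d ^ 2 := by
    have h1 : δ ^ 2 / 4 * R * m ^ 2 ≤ 20168 * 16 * N ^ 2 * d ^ 2 * m ^ 2 := by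
      calc δ ^ 2 / 4 * R * m ^ 2 = (δ / 2) ^ 2 * m ^ 2 * R := by ring
        _ ≤ 20168 * (4 * (N * d * 2 * m) ^ 2) := hfin
        _ = 20168 * 16 * N ^ 2 * d ^ 2 * m ^ 2 := by ring
    exact le_of_mul_le_mul_right h1 hm2
  have hN2 : N ^ 2 ≤ (2 * D₀ * k) ^ 2 := pow_le_pow_left₀ hN.le hNk 2
  have h1 : δ ^ 2 / 4 * R' ≤ δ ^ 2 / 4 * R := mul_le_mul_of_nonneg_left hRR (by positivity)
  have h2 : 20168 * 16 * N ^ 2 * d ^ 2 ≤ 20168 * 64 * D₀ ^ 2 * d ^ 2 * k ^ 2 := by
    calc 20168 * 16 * N ^ 2 * d ^ 2 = (20168 * 16 * d ^ 2) * N ^ 2 := by ring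
      _ ≤ (20168 * 16 * d ^ 2) * (2 * D₀ * k) ^ 2 := mul_le_mul_of_nonneg_left hN2 (by positivity)
      _ = 20168 * 64 * D₀ ^ 2 * d ^ 2 * k ^ 2 := by ring
  linarith only [h2, h1, hfin2, hlast]

/-- The lower bound for the adjacency mass. -/
lemma adj_low {T M : Type*} [Fintype T] [Fintype M] (q : T × Bool × M → ℝ) (q0 : ∀ x, 0 ≤ q x)
    (Adj : T × Bool × M → T × Bool × M → Prop) (A : Finset (T × Bool × M)) {n : ℝ} (hn : 0 < n)
    (hA : ∀ x ∈ A, 1 / 2 ≤ q x * n) (a b : T) (i j : Bool) :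
    (((slice A a i ×ˢ slice A b j).filter
        fun x => Adj (a, i, x.1) (b, j, x.2)).card : ℝ) * (1 / (2 * n)) ^ 2
      ≤ ∑ x, ∑ y, (if Adj x y then q x * q y else 0) := by
  rw [← Finset.sum_product', Finset.univ_product_univ]
  set W := ((slice A a i ×ˢ slice A b j).filter
        fun x => Adj (a, i, x.1) (b, j, x.2)) with hW
  have hinj : Function.Injective (fun x : M × M =>
      (((a, i, x.1), (b, j, x.2)) : (T × Bool × M) × (T × Bool × M))) := by
    intro x y hxy
    have h1 := Prod.ext_iff.1 hxy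
    have h2 := Prod.ext_iff.1 (Prod.ext_iff.1 h1.1).2
    have h3 := Prod.ext_iff.1 (Prod.ext_iff.1 h1.2).2
    exact Prod.ext h2.2 h3.2
  have hnn : ∀ z : (T × Bool × M) × (T × Bool × M),
      0 ≤ (if Adj z.1 z.2 then q z.1 * q z.2 else 0) := by
    intro z
    split_ifs
    · exact mul_nonneg (q0 _) (q0 _)
    · exact le_rfl
  refine le_trans ?_ (Finset.sum_le_sum_of_subset_of_nonneg (Finset.subset_univ
    (W.image (fun x => (((a, i, x.1), (b, j, x.2)) : (T × Bool × M) × (T × Bool × M)))))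
    fun z _ _ => hnn z)
  rw [Finset.sum_image (fun x _ y _ hxy => hinj hxy), ← nsmul_eq_mul, ← Finset.sum_const]
  refine Finset.sum_le_sum fun x hx => ?_
  obtain ⟨hx1, hx2⟩ := Finset.mem_filter.1 hx
  obtain ⟨hxa, hxb⟩ := Finset.mem_product.1 hx1
  have e1 := hA _ (mem_slice.1 hxa)
  have e2 := hA _ (mem_slice.1 hxb)
  rw [if_pos hx2, pow_two]
  have f1 : 1 / (2 * n) ≤ q (a, i, x.1) := by
    rw [div_le_iff₀ (by positivity)]
    linarith only [e1]
  have f2 : 1 / (2 * n) ≤ q (b, j, x.2) := by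
    rw [div_le_iff₀ (by positivity)]
    linarith only [e2]
  exact mul_le_mul f1 f2 (by positivity) (q0 _)

lemma exists_large (c e : ℝ) (he : 0 < e) : ∃ k₀ : ℕ, ∀ k : ℕ, k₀ ≤ k →
    c * (k : ℝ) ^ 2 < e * (2521 : ℝ) ^ k := by
  have h := tendsto_pow_const_div_const_pow_of_one_lt 2 (by norm_num : (1 : ℝ) < 2521)
  have h2 : 0 < e / (|c| + 1) := div_pos he (by positivity)
  obtain ⟨k₀, hk⟩ := Filter.eventually_atTop.1 (h.eventually (gt_mem_nhds h2))
  refine ⟨k₀, fun k hk' => ?_⟩
  have h3 := hk k hk'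
  rw [div_lt_div_iff₀ (by positivity) (by positivity)] at h3
  have h4 : c * (k : ℝ) ^ 2 ≤ (k : ℝ) ^ 2 * (|c| + 1) := by
    have h5 : c ≤ |c| + 1 := by linarith only [le_abs_self c]
    have := mul_le_mul_of_nonneg_left h5 (sq_nonneg (k : ℝ))
    linarith only [this]
  linarith

end NOAF

open NOAF in
/-- **OUT-A from its core.** -/
theorem notOutA_of (hcore : NOACore) : NotOutA := by
  intro C
  refine ⟨1, fun D₀ hD₀ d E _ hd => ?_⟩
  set L : ℝ := Real.exp (4 * (|C| + 1)) with hL
  have hL0 : 0 < L := Real.exp_pos _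
  set δ : ℝ := 1 / (4 * L) with hδ
  have hδ0 : 0 < δ := by positivity
  obtain ⟨M, hM⟩ := hcore (δ / 2) (by positivity)
  obtain ⟨k₁, hk₁⟩ := exists_large (20168 * 64 * (D₀ : ℝ) ^ 2 * (d : ℝ) ^ 2) (δ ^ 2 / 4) (by positivity)
  refine ⟨1, one_pos, max k₁ (max (3 * (D₀ + 20) ^ 2) ⌈6 * M / δ⌉₊), ?_⟩
  intro N P Om _ _ _ fr p h hk hs hE hrow hOut
  obtain ⟨q, q0, q1, qC, qI⟩ := hOut
  set k := Fintype.card P with hkdef
  have hka : k₁ ≤ k := (le_max_left _ _).trans hk
  have hkb : 3 * (D₀ + 20) ^ 2 ≤ k := (le_max_left _ _).trans ((le_max_right _ _).trans hk)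
  have hkc : 6 * M / δ ≤ (k : ℝ) :=
    (Nat.le_ceil _).trans (by exact_mod_cast (le_max_right _ _).trans ((le_max_right _ _).trans hk))
  have hkN : k ≤ N := le_trans (by nlinarith) hs.hN
  set m : ℝ := (Fintype.card (Matrix (Co E P Om) (Co E P Om) F) : ℝ) with hm
  have hm0 : 0 < m := by rw [hm]; exact_mod_cast Fintype.card_pos
  have hne : Nonempty (Design.Vtx (Co E P Om) (Ty N d)) := ⟨((0, ⟨0, hd⟩), true, 0)⟩
  have hlev := dense_level C q q0 q1 qC
  set n : ℝ := (Fintype.card (Design.Vtx (Co E P Om) (Ty N d)) : ℝ) with hn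
  set A : Finset (Design.Vtx (Co E P Om) (Ty N d)) := Finset.univ.filter fun x =>
    1 / 2 ≤ q x * n ∧ q x * n ≤ L with hA
  have hnval : n = N * d * 2 * m := by
    rw [hn, Fintype.card_prod, Fintype.card_prod, Fintype.card_prod, ZMod.card, Fintype.card_fin,
      Fintype.card_bool, hm]
    push_cast
    ring
  have hN0 : (0 : ℝ) < N := by exact_mod_cast Nat.pos_of_ne_zero (NeZero.ne N)
  have hd0 : (0 : ℝ) < d := by exact_mod_cast hd
  have hn0 : 0 < n := by rw [hnval]; (clear * - hN0 hd; positivity)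
  have hAδ : δ * n ≤ (A.card : ℝ) := by
    rw [hδ, div_mul_eq_mul_div, one_mul, div_le_iff₀ (by positivity), mul_comm]
    exact hlev
  obtain ⟨S0, hS, hS0⟩ := dense_types' δ A hAδ hδ0.le
  have hcT : (Fintype.card (Ty N d) : ℝ) = N * d := by
    rw [Fintype.card_prod, ZMod.card, Fintype.card_fin]
    push_cast
    ring
  have hS0c : 3 * d * M ≤ S0.card := by
    have h1 : (3 * d * M : ℝ) ≤ S0.card := by
      refine le_trans ?_ hS
      rw [hcT]
      have h2 : 6 * (M : ℝ) ≤ k * δ := (div_le_iff₀ hδ0).1 hkc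
      have h3 : (k : ℝ) ≤ N := by exact_mod_cast hkN
      have h4 : (k : ℝ) * δ ≤ N * δ := mul_le_mul_of_nonneg_right h3 hδ0.le
      have h5 : 6 * (M : ℝ) * d ≤ N * δ * d := mul_le_mul_of_nonneg_right (h2.trans h4) hd0.le
      linarith only [h5]
    exact_mod_cast h1
  obtain ⟨S, hSS, hSc, hSd⟩ := exists_disj S0 M hS0c hd
  -- the bits
  have hbit : ∀ a : Ty N d, ∃ ι : Bool, a ∈ S → δ / 2 * m ≤ ((slice A a ι).card : ℝ) := by
    intro a
    by_cases ha : a ∈ S
    · obtain ⟨ι, hι⟩ := hS0 a (hSS ha)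
      exact ⟨ι, fun _ => hι⟩
    · exact ⟨true, fun h' => absurd h' ha⟩
  choose ι hι using hbit
  -- the number of independent lines
  set κ : ℕ := 5 * k / (D₀ + 20) ^ 2 with hκ
  have hκ12 : 12 ≤ κ := by
    rw [hκ, Nat.le_div_iff_mul_le (by positivity)]
    nlinarith
  have hκE : Ev1 p κ := hE κ (Nat.div_le_div_right (by omega))
  obtain ⟨a, haS, b, hbS, hab, hpairs⟩ := hM N d E P Om fr p h κ hκ12 hrow hκE S hSc.ge hSd
    (fun a => slice A a (ι a)) ι hι
  have hlow := (adj_low q q0 (dsg fr p h).Adj A hn0 (fun x hx => (Finset.mem_filter.1 hx).2.1)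
    a b (ι a) (ι b)).trans qI
  have hck : k ≤ Fintype.card (Co E P Om) := by
    rw [Fintype.card_sum, Fintype.card_sum]
    omega
  have hR2 : (2521 : ℝ) ^ (2 * Fintype.card (Co E P Om)) =
      ((2521 : ℝ) ^ Fintype.card (Co E P Om)) ^ 2 := by rw [← pow_mul, mul_comm]
  rw [hR2] at hlow
  exact numbers hδ0 hm0 (by positivity) hN0 hd0 hnval hlow hpairs (by exact_mod_cast hs.hN')
    (pow_le_pow_right₀ (by norm_num) hck) (hk₁ k hka)

end Vale.Agent.P060.HW
end
end
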