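import Mathlib
import Vale.Agent.P060.Bd3.B1

set_option linter.all false

section

/-! Further finite facts about the 18th powers `Y` in the field with 2521 elements:
coset representatives, `Y` is complete, and the cyclotomic numbers are at most 13. -/

namespace Vale.Agent.P060.HW

/-- The elements of `Y` as numbers. -/
def Ylist : List ℕ := [
    1, 28, 40, 42, 60, 63, 71, 90, 121, 125, 135, 155, 202, 208, 303, 312, 319, 349,
    358, 407, 431, 455, 461, 468, 485, 499, 512, 517, 533, 537, 553, 569, 578, 614, 628, 650,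
    702, 737, 757, 768, 772, 782, 784, 790, 793, 806, 841, 859, 867, 921, 934, 942, 975, 979,
    1028, 1053, 1058, 1073, 1079, 1108, 1120, 1152, 1154, 1158, 1166, 1173, 1176, 1185, 1209, 1259, 1262, 1312,
    1336, 1345, 1348, 1355, 1363, 1367, 1369, 1401, 1413, 1442, 1448, 1463, 1468, 1493, 1542, 1546, 1579, 1587,
    1600, 1654, 1662, 1680, 1715, 1728, 1731, 1737, 1739, 1749, 1753, 1764, 1784, 1819, 1871, 1893, 1907, 1943,
    1952, 1968, 1984, 1988, 2004, 2009, 2022, 2036, 2053, 2060, 2066, 2090, 2114, 2163, 2172, 2202, 2209, 2218,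
    2313, 2319, 2366, 2386, 2396, 2400, 2431, 2450, 2458, 2461, 2479, 2481, 2493, 2520]

theorem Ylist_eq : ((List.range 2521).filter fun n => decide (n ^ 140 % 2521 = 1)) = Ylist := by
  decide +kernel

theorem mem_Ylist {n : ℕ} : n ∈ Ylist ↔ n < 2521 ∧ n ^ 140 % 2521 = 1 := by
  rw [← Ylist_eq, List.mem_filter, List.mem_range, decide_eq_true_iff]

theorem nodup_Ylist : Ylist.Nodup := by
  rw [← Ylist_eq]
  exact List.nodup_range.filter _

/-- The values of the 140th power on the cosets of `Y`. -/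
def Lst : List ℕ := [
    1, 1970, 1081, 1846, 1338, 1415, 1845, 1889, 334, 2520, 551, 1440, 675, 1183, 1106, 676, 632, 2187]

/-- Kernel computation. -/
def chk2 : ℕ → Bool
  | 0 => true
  | n + 1 => Lst.contains ((n + 1) ^ 140 % 2521) && chk2 n

theorem chk2_spec {m : ℕ} (h : chk2 m = true) :
    ∀ n, 0 < n → n ≤ m → (Lst.contains (n ^ 140 % 2521)) = true := by
  induction m with
  | zero => intro n h0 hn; omega
  | succ m ih =>
    intro n h0 hn
    rw [chk2, Bool.and_eq_true] at h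
    rcases Nat.lt_or_ge n (m + 1) with h2 | h2
    · exact ih h.2 n h0 (by omega)
    · have h3 : n = m + 1 := by omega
      rw [h3]
      exact h.1

theorem chk2_all : chk2 2520 = true := by decide +kernel

theorem Lst_eq : Lst = (List.range 18).map fun i => (17 ^ i) ^ 140 % 2521 := by decide +kernel

theorem g_ne_zero : (17 : F) ≠ 0 := by
  intro h
  have h1 : ((17 : ℕ) : F) = ((0 : ℕ) : F) := by rw [Nat.cast_zero, ← h]; rfl
  rw [ZMod.natCast_eq_natCast_iff'] at h1
  exact absurd h1 (by decide)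

/-- Every nonzero element is a power of 17 (exponent below 18) times an element of `Y`. -/
theorem exists_coset {x : F} (hx : x ≠ 0) : ∃ i < 18, ∃ y ∈ Y, x = 17 ^ i * y := by
  have hv : ((x.val : ℕ) : F) = x := ZMod.natCast_zmod_val x
  have h0 : 0 < x.val := by
    rw [Nat.pos_iff_ne_zero]
    intro h
    exact hx (by rw [← hv, h, Nat.cast_zero])
  have h1 := chk2_spec chk2_all x.val h0 (by have := ZMod.val_lt x; omega)
  rw [List.contains_iff_mem, Lst_eq, List.mem_map] at h1
  obtain ⟨i, hi, h2⟩ := h1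
  rw [List.mem_range] at hi
  refine ⟨i, hi, x * ((17 : F) ^ i)⁻¹, ?_, ?_⟩
  · rw [mem_Y, mul_pow, inv_pow]
    have h3 : ((((17 ^ i) ^ 140 : ℕ)) : F) = ((x.val ^ 140 : ℕ) : F) :=
      (ZMod.natCast_eq_natCast_iff' _ _ _).mpr h2
    rw [Nat.cast_pow, Nat.cast_pow, Nat.cast_pow, hv] at h3
    rw [← h3]
    exact mul_inv_cancel₀ (pow_ne_zero _ (pow_ne_zero _ g_ne_zero))
  · rw [mul_comm, mul_assoc, inv_mul_cancel₀ (pow_ne_zero _ g_ne_zero), mul_one]

/-- Witnesses: `1 + v` lies in the coset of `17 ^ i`. -/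
def wit : List ℕ := [
    0, 1448, 155, 782, 431, 42, 63, 312, 71, 28, 40, 407, 90, 135, 208, 303, 1, 512]

theorem wit_spec : ∀ i < 18, 0 < i → (wit.getD i 0) ^ 140 % 2521 = 1 ∧
    (1 + wit.getD i 0) ^ 140 % 2521 = (17 ^ i) ^ 140 % 2521 := by
  decide +kernel

/-- `Y` is a complete sum-free set. -/
theorem exists_add {c : F} (hc : c ∉ Y) : ∃ u ∈ Y, ∃ v ∈ Y, u + v = c := by
  by_cases h0 : c = 0
  · exact ⟨1, one_mem_Y, -1, neg_mem_Y one_mem_Y, by rw [h0]; ring⟩
  obtain ⟨i, hi, y, hy, rfl⟩ := exists_coset h0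
  have hi0 : 0 < i := by
    rcases Nat.eq_zero_or_pos i with h | h
    · subst h
      rw [pow_zero, one_mul] at hc
      exact absurd hy hc
    · exact h
  obtain ⟨h1, h2⟩ := wit_spec i hi hi0
  set v := wit.getD i 0
  have hvY : (v : F) ∈ Y := by rw [mem_Y, pow_cast]; exact h1
  have h3 : (((1 + v) ^ 140 : ℕ) : F) = (((17 ^ i) ^ 140 : ℕ) : F) :=
    (ZMod.natCast_eq_natCast_iff' _ _ _).mpr h2
  rw [Nat.cast_pow, Nat.cast_pow, Nat.cast_pow, Nat.cast_add, Nat.cast_one] at h3
  change (1 + (v : F)) ^ 140 = ((17 : F) ^ i) ^ 140 at h3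
  have hg : ((17 : F) ^ i) ≠ 0 := pow_ne_zero _ g_ne_zero
  have hv1 : (1 + (v : F)) ≠ 0 := by
    intro h
    rw [h, zero_pow (by norm_num)] at h3
    exact pow_ne_zero 140 hg h3.symm
  -- `z = 17 ^ i / (1 + v)` lies in `Y`
  have hz : ((17 : F) ^ i) * (1 + (v : F))⁻¹ ∈ Y := by
    rw [mem_Y, mul_pow, inv_pow, ← h3]
    exact mul_inv_cancel₀ (pow_ne_zero _ hv1)
  refine ⟨((17 : F) ^ i) * (1 + (v : F))⁻¹ * y, mul_mem_Y hz hy,
    ((17 : F) ^ i) * (1 + (v : F))⁻¹ * y * v, mul_mem_Y (mul_mem_Y hz hy) hvY, ?_⟩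
  have : (1 + (v : F))⁻¹ * (1 + (v : F)) = 1 := inv_mul_cancel₀ hv1
  calc ((17 : F) ^ i) * (1 + (v : F))⁻¹ * y + ((17 : F) ^ i) * (1 + (v : F))⁻¹ * y * v
      = ((17 : F) ^ i) * y * ((1 + (v : F))⁻¹ * (1 + (v : F))) := by ring
    _ = 17 ^ i * y := by rw [this, mul_one]

/-- Number of `u` in `Y` with `17 ^ i * u + 17 ^ j` in `Y`. -/
def cyc (i j : ℕ) : ℕ :=
  (Ylist.filter fun u => decide (((17 ^ i % 2521) * u + 17 ^ j % 2521) ^ 140 % 2521 = 1)).length

theorem cyc_le : ∀ i < 18, ∀ j < 18, cyc i j ≤ 13 := by decide +kernel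

/-- The cyclotomic bound: for nonzero `α`, `β` at most 13 elements `u` of `Y` have
`α * u + β` in `Y`. -/
theorem card_cyc_le {α β : F} (hα : α ≠ 0) (hβ : β ≠ 0) :
    (Y.filter fun u => α * u + β ∈ Y).card ≤ 13 := by
  obtain ⟨i, hi, y, hy, rfl⟩ := exists_coset hα
  obtain ⟨j, hj, z, hz, rfl⟩ := exists_coset hβ
  refine le_trans ?_ (cyc_le i hi j hj)
  have hz0 := ne_zero_of_mem_Y hz
  rw [cyc, ← List.toFinset_card_of_nodup (nodup_Ylist.filter _)]
  refine Finset.card_le_card_of_injOn (fun u => (y * u * z⁻¹).val) ?_ ?_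
  · intro u hu
    rw [Finset.mem_coe, Finset.mem_filter] at hu
    rw [Finset.mem_coe, List.mem_toFinset, List.mem_filter, mem_Ylist, decide_eq_true_iff]
    have hv : (((y * u * z⁻¹).val : ℕ) : F) = y * u * z⁻¹ := ZMod.natCast_zmod_val _
    refine ⟨⟨ZMod.val_lt _, ?_⟩, ?_⟩
    · rw [← pow_cast, hv, ← mem_Y]
      exact mul_mem_Y (mul_mem_Y hy hu.1) (inv_mem_Y hz)
    · rw [← pow_cast, Nat.cast_add, Nat.cast_mul, hv, ZMod.natCast_mod, ZMod.natCast_mod,
        Nat.cast_pow, Nat.cast_pow, ← mem_Y]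
      have h1 : (((17 : ℕ) : F) ^ i * (y * u * z⁻¹) + ((17 : ℕ) : F) ^ j) =
          z⁻¹ * (17 ^ i * y * u + 17 ^ j * z) := by
        have : ((17 : ℕ) : F) = 17 := rfl
        rw [this]
        have h2 : z⁻¹ * z = 1 := inv_mul_cancel₀ hz0
        calc (17 : F) ^ i * (y * u * z⁻¹) + 17 ^ j
            = z⁻¹ * (17 ^ i * y * u) + 17 ^ j * 1 := by ring
          _ = z⁻¹ * (17 ^ i * y * u) + 17 ^ j * (z⁻¹ * z) := by rw [h2]
          _ = z⁻¹ * (17 ^ i * y * u + 17 ^ j * z) := by ring
      rw [h1]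
      exact mul_mem_Y (inv_mem_Y hz) hu.2
  · intro u _ v _ h
    have h1 : y * u * z⁻¹ = y * v * z⁻¹ := ZMod.val_injective _ h
    have h2 := mul_right_cancel₀ (inv_ne_zero hz0) h1
    exact mul_left_cancel₀ (ne_zero_of_mem_Y hy) h2

end Vale.Agent.P060.HW
end

section

/-! The cut inequality for uniform points of `Y ^ ι`, and the solvability of the
4-cycle system used in the overlap step. -/

namespace Vale.Agent.P060.HW

open Finset

section General

variable {ι α : Type*} [Fintype ι] [DecidableEq ι] [Fintype α]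

/-- Resampling one coordinate, as an equivalence. -/
def resampleY (s : ι) : (ι → α) × α ≃ (ι → α) × α where
  toFun p := (Function.update p.1 s p.2, p.1 s)
  invFun p := (Function.update p.1 s p.2, p.1 s)
  left_inv p := by
    obtain ⟨γ, u⟩ := p
    simp
  right_inv p := by
    obtain ⟨γ, u⟩ := p
    simp

theorem sum_update (f : (ι → α) → ℕ) (s : ι) :
    ∑ γ : ι → α, ∑ u : α, f (Function.update γ s u) = Fintype.card α * ∑ γ : ι → α, f γ := by
  rw [← Fintype.sum_prod_type' fun (γ : ι → α) (u : α) => f (Function.update γ s u)]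
  have h1 : ∑ p : (ι → α) × α, f (Function.update p.1 s p.2) =
      ∑ p : (ι → α) × α, f p.1 :=
    Fintype.sum_equiv (resampleY s) _ _ fun p => rfl
  rw [h1, Fintype.sum_prod_type]
  simp [Finset.mul_sum]

theorem sum_update₂ (f : (ι → α) → ℕ) (s t : ι) :
    ∑ γ : ι → α, ∑ u : α, ∑ w : α, f (Function.update (Function.update γ s u) t w) =
      Fintype.card α * (Fintype.card α * ∑ γ : ι → α, f γ) := by
  rw [sum_update (fun γ => ∑ w : α, f (Function.update γ t w)) s, sum_update f t]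

end General

/-- The subgroup `Y` as a type. -/
abbrev YT : Type := {x : F // x ∈ Y}

theorem card_YT : Fintype.card YT = 140 := by
  rw [Fintype.card_coe, card_Y]

variable {ι : Type*} [Fintype ι] [DecidableEq ι]

theorem sum_upd_eq (ζ : ι → F) (γ : ι → YT) {s t : ι} (hst : s ≠ t) (u w : YT) :
    ∑ i, ζ i * ((Function.update (Function.update γ s u) t w i : YT) : F) =
      ζ s * u + (ζ t * w + ∑ i ∈ (univ.erase s).erase t, ζ i * (γ i : F)) := by
  rw [← Finset.add_sum_erase univ _ (mem_univ s),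
    ← Finset.add_sum_erase (univ.erase s) _ (mem_erase.mpr ⟨hst.symm, mem_univ t⟩)]
  rw [Function.update_of_ne hst, Function.update_self, Function.update_self]
  congr 2
  refine Finset.sum_congr rfl fun i hi => ?_
  rw [mem_erase, mem_erase] at hi
  rw [Function.update_of_ne hi.1, Function.update_of_ne hi.2.1]

theorem card_filter_YT_le {α β : F} (hα : α ≠ 0) (hβ : β ≠ 0) :
    (univ.filter fun u : YT => α * (u : F) + β ∈ Y).card ≤ 13 := by
  refine le_trans ?_ (card_cyc_le hα hβ)
  refine Finset.card_le_card_of_injOn (fun u : YT => (u : F)) ?_ ?_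
  · intro u hu
    rw [Finset.mem_coe, mem_filter] at hu
    rw [Finset.mem_coe, mem_filter]
    exact ⟨u.2, hu.2⟩
  · intro u _ v _ h
    exact Subtype.ext h

theorem card_zero_le {α : F} (hα : α ≠ 0) (β : F) :
    (univ.filter fun u : YT => α * (u : F) + β = 0).card ≤ 1 := by
  rw [Finset.card_le_one]
  intro u hu v hv
  rw [mem_filter] at hu hv
  have h1 : α * (u : F) = α * (v : F) := by
    have h2 := hu.2
    have h3 := hv.2
    rw [← h3] at h2
    exact add_right_cancel h2
  exact Subtype.ext (mul_left_cancel₀ hα h1)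

theorem two_coord_le {a b : F} (ha : a ≠ 0) (hb : b ≠ 0) (c : F) :
    ∑ u : YT, ∑ w : YT, (if a * (u : F) + (b * (w : F) + c) ∈ Y then 1 else 0) ≤ 1960 := by
  rw [Finset.sum_comm]
  have h1 : ∀ w : YT, ∑ u : YT, (if a * (u : F) + (b * (w : F) + c) ∈ Y then 1 else 0) ≤
      13 + 140 * (if b * (w : F) + c = 0 then 1 else 0) := by
    intro w
    rw [← Finset.card_filter]
    split_ifs with h
    · refine le_trans (Finset.card_le_univ _) ?_
      rw [card_YT]
      norm_num
    · exact le_trans (card_filter_YT_le ha h) (by norm_num)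
  refine le_trans (Finset.sum_le_sum fun w _ => h1 w) ?_
  rw [Finset.sum_add_distrib, ← Finset.mul_sum, ← Finset.card_filter]
  have h2 := card_zero_le hb c
  rw [Finset.sum_const, Finset.card_univ, card_YT]
  have h3 : 140 * (univ.filter fun u : YT => b * (u : F) + c = 0).card ≤ 140 * 1 :=
    Nat.mul_le_mul_left _ h2
  simp only [smul_eq_mul]
  omega

/-- CUT INEQUALITY: if `ζ` has two nonzero coordinates, at most one tenth of the points
of `Y ^ ι` satisfy `ζ ⬝ γ + c ∈ Y`. -/
theorem cut_le (ζ : ι → F) {s t : ι} (hst : s ≠ t) (hs : ζ s ≠ 0) (ht : ζ t ≠ 0) (c : F) :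
    10 * (univ.filter fun γ : ι → YT => ∑ i, ζ i * (γ i : F) + c ∈ Y).card ≤
      140 ^ Fintype.card ι := by
  classical
  have h1 := sum_update₂ (fun γ : ι → YT => if ∑ i, ζ i * (γ i : F) + c ∈ Y then 1 else 0) s t
  rw [← Finset.card_filter, card_YT] at h1
  have h2 : ∑ γ : ι → YT, ∑ u : YT, ∑ w : YT,
      (if ∑ i, ζ i * ((Function.update (Function.update γ s u) t w i : YT) : F) + c ∈ Y
        then 1 else 0) ≤ ∑ _γ : ι → YT, 1960 := by
    refine Finset.sum_le_sum fun γ _ => ?_
    refine le_trans (le_of_eq ?_) (two_coord_le hs ht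
      ((∑ i ∈ (univ.erase s).erase t, ζ i * (γ i : F)) + c))
    refine Finset.sum_congr rfl fun u _ => Finset.sum_congr rfl fun w _ => ?_
    rw [sum_upd_eq ζ γ hst u w]
    have : ζ s * (u : F) + (ζ t * (w : F) + ∑ i ∈ (univ.erase s).erase t, ζ i * (γ i : F)) + c =
        ζ s * (u : F) + (ζ t * (w : F) +
          ((∑ i ∈ (univ.erase s).erase t, ζ i * (γ i : F)) + c)) := by ring
    rw [this]
  rw [h1, Finset.sum_const, Finset.card_univ, Fintype.card_fun, card_YT, smul_eq_mul] at h2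
  have h3 : 140 * (140 * (univ.filter fun γ : ι → YT => ∑ i, ζ i * (γ i : F) + c ∈ Y).card) =
      1960 * (10 * (univ.filter fun γ : ι → YT => ∑ i, ζ i * (γ i : F) + c ∈ Y).card) := by ring
  rw [h3, mul_comm _ 1960] at h2
  exact Nat.le_of_mul_le_mul_left h2 (by norm_num)

/-- A multiple of a unit vector that is not in `D` is never cut. -/
theorem single_not_mem {z : F} (hz : z ∉ Y) (u : YT) : z * (u : F) ∉ Y := by
  intro h
  rw [mul_comm] at h
  exact hz ((mul_mem_Y_iff u.2).mp h)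

/-- The vector set `D = {y e_t}`. -/
def Dset (ι : Type*) [DecidableEq ι] : Set (ι → F) :=
  {ζ | ∃ y ∈ Y, ∃ t : ι, ζ = Pi.single t y}

/-- CUT INEQUALITY, general form: a vector outside `D` is cut by at most one tenth of `Y ^ ι`. -/
theorem cut_le_of_not_mem (ζ : ι → F) (hζ : ζ ∉ Dset ι) :
    10 * (univ.filter fun γ : ι → YT => ∑ i, ζ i * (γ i : F) ∈ Y).card ≤
      140 ^ Fintype.card ι := by
  classical
  by_cases h : ∃ s t, s ≠ t ∧ ζ s ≠ 0 ∧ ζ t ≠ 0
  · obtain ⟨s, t, hst, hs, ht⟩ := h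
    have := cut_le ζ hst hs ht 0
    simpa using this
  · have hempty : (univ.filter fun γ : ι → YT => ∑ i, ζ i * (γ i : F) ∈ Y) = ∅ := by
      rw [Finset.filter_eq_empty_iff]
      intro γ _ hγ
      by_cases h0 : ∀ s, ζ s = 0
      · have : ∑ i, ζ i * (γ i : F) = 0 := Finset.sum_eq_zero fun i _ => by rw [h0 i, zero_mul]
        rw [this] at hγ
        exact zero_not_mem_Y hγ
      · push Not at h0
        obtain ⟨s, hs⟩ := h0
        have h1 : ∀ t, t ≠ s → ζ t = 0 := by
          intro t hts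
          by_contra ht
          exact h ⟨t, s, hts, ht, hs⟩
        have h2 : ζ = Pi.single s (ζ s) := by
          funext t
          by_cases hts : t = s
          · subst hts
            rw [Pi.single_eq_same]
          · rw [Pi.single_eq_of_ne hts, h1 t hts]
        have h3 : ζ s ∉ Y := fun hy => hζ ⟨ζ s, hy, s, h2⟩
        have h4 : ∑ i, ζ i * (γ i : F) = ζ s * (γ s : F) := by
          refine Finset.sum_eq_single s (fun t _ hts => ?_) (fun hs' => absurd (mem_univ s) hs')
          rw [h1 t hts, zero_mul]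
        rw [h4] at hγ
        exact single_not_mem h3 (γ s) hγ
    rw [hempty]
    simp

/-- SOLVABILITY of the 4-cycle system. -/
theorem solve4 {κ : Type*} (a a' b b' : κ → F)
    (h1 : ∀ u ∈ Y, ∀ w ∈ Y, ∃ t, a' t = u ∧ b' t = w)
    (h2 : ∀ u ∈ Y, ∀ w ∈ Y, ∃ t, a' t = u ∧ b t = w)
    (h3 : ∀ u ∈ Y, ∀ w ∈ Y, ∃ t, a t = u ∧ b' t = w)
    (h4 : ∀ u ∈ Y, ∀ w ∈ Y, ∃ t, a t = u ∧ b t = w)
    {v1 v2 v3 v4 : F} (k1 : v1 ∉ Y) (k2 : v2 ∉ Y) (k3 : v3 ∉ Y) (k4 : v4 ∉ Y) :
    ∃ t1 t2 t3 t4, a' t1 - a t3 = v1 ∧ a' t2 - a t4 = v2 ∧ b t2 - b' t1 = v3 ∧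
      b t4 - b' t3 = v4 := by
  obtain ⟨x1, hx1, y1, hy1, e1⟩ := exists_add k1
  obtain ⟨x2, hx2, y2, hy2, e2⟩ := exists_add k2
  obtain ⟨x3, hx3, y3, hy3, e3⟩ := exists_add k3
  obtain ⟨x4, hx4, y4, hy4, e4⟩ := exists_add k4
  obtain ⟨t1, p1, q1⟩ := h1 x1 hx1 (-y3) (neg_mem_Y hy3)
  obtain ⟨t2, p2, q2⟩ := h2 x2 hx2 x3 hx3
  obtain ⟨t3, p3, q3⟩ := h3 (-y1) (neg_mem_Y hy1) (-y4) (neg_mem_Y hy4)
  obtain ⟨t4, p4, q4⟩ := h4 (-y2) (neg_mem_Y hy2) x4 hx4
  refine ⟨t1, t2, t3, t4, ?_, ?_, ?_, ?_⟩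
  · rw [p1, p3, sub_neg_eq_add, e1]
  · rw [p2, p4, sub_neg_eq_add, e2]
  · rw [q2, q1, sub_neg_eq_add, e3]
  · rw [q4, q3, sub_neg_eq_add, e4]

end Vale.Agent.P060.HW
end

section

/-!
# GP6: in a random design every vector outside `D` is rarely cut
-/

open scoped Classical

noncomputable section

set_option linter.unusedSectionVars false

namespace Vale.Agent.P060.HW

namespace CutEx

open Finset

/-! ### A counting inequality -/

section moment

variable {X ι G : Type*} [Fintype X] [Fintype ι] [Fintype G] [AddCommGroup G] [DecidableEq G]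

lemma sum_weight (A : Finset G) (L : ℝ) (c : G) :
    ∑ t : G, (if c + t ∈ A then L else 1) = Fintype.card G + A.card * (L - 1) := by
  have h1 : ∀ t : G, (if c + t ∈ A then L else 1) = 1 + (if c + t ∈ A then L - 1 else 0) := by
    intro t
    split_ifs <;> ring
  rw [sum_congr rfl fun t _ => h1 t, sum_add_distrib, ← sum_filter, sum_const, sum_const,
    nsmul_eq_mul, nsmul_eq_mul, card_univ, mul_one]
  congr 2
  have h2 : (univ.filter fun t : G => c + t ∈ A).card = A.card := by
    refine card_bij (fun t _ => c + t) (fun t ht => (mem_filter.1 ht).2)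
      (fun t _ t' _ h => add_left_cancel h) fun b hb => ⟨-c + b, ?_, ?_⟩
    · rw [mem_filter, add_neg_cancel_left]
      exact ⟨mem_univ _, hb⟩
    · rw [add_neg_cancel_left]
  rw [h2]

/-- Exponential moment of the number of indices with value in `A`. -/
lemma moment (act : (ι → G) → X ≃ X) (val : X → ι → G)
    (h : ∀ τ x i, val (act τ x) i = val x i + τ i) (A : Finset G) (L : ℝ) :
    (∑ x : X, L ^ (univ.filter fun i => val x i ∈ A).card) * (Fintype.card G : ℝ) ^ Fintype.card ι =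
      Fintype.card X * (Fintype.card G + A.card * (L - 1)) ^ Fintype.card ι := by
  have h1 : ∀ τ : ι → G, ∑ x : X, L ^ (univ.filter fun i => val (act τ x) i ∈ A).card =
      ∑ x : X, L ^ (univ.filter fun i => val x i ∈ A).card := fun τ =>
    Equiv.sum_comp (act τ) fun x => L ^ (univ.filter fun i => val x i ∈ A).card
  have h2 : ∑ τ : ι → G, ∑ x : X, L ^ (univ.filter fun i => val (act τ x) i ∈ A).card =
      (∑ x : X, L ^ (univ.filter fun i => val x i ∈ A).card) *
        (Fintype.card G : ℝ) ^ Fintype.card ι := by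
    rw [sum_congr rfl fun τ _ => h1 τ, sum_const, card_univ, Fintype.card_fun, nsmul_eq_mul,
      mul_comm]
    push_cast
    rfl
  rw [← h2, sum_comm]
  have h3 : ∀ x : X, ∑ τ : ι → G, L ^ (univ.filter fun i => val (act τ x) i ∈ A).card =
      (Fintype.card G + A.card * (L - 1)) ^ Fintype.card ι := by
    intro x
    have h4 : ∀ τ : ι → G, L ^ (univ.filter fun i => val (act τ x) i ∈ A).card =
        ∏ i, (if val x i + τ i ∈ A then L else 1) := by
      intro τ
      rw [prod_ite, prod_const, prod_const_one, mul_one]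
      congr 2
      ext i
      simp only [mem_filter, mem_univ, true_and, h]
    rw [sum_congr rfl fun τ _ => h4 τ]
    have h5 := (prod_univ_sum (fun _ : ι => (univ : Finset G))
      fun i t => (if val x i + t ∈ A then L else 1)).symm
    rw [Fintype.piFinset_univ] at h5
    rw [h5, prod_congr rfl fun i _ => sum_weight A L (val x i), prod_const, card_univ]
  rw [sum_congr rfl fun x _ => h3 x, sum_const, card_univ, nsmul_eq_mul]

/-- Tail of the number of indices with value in `A`. -/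
lemma tail (act : (ι → G) → X ≃ X) (val : X → ι → G)
    (h : ∀ τ x i, val (act τ x) i = val x i + τ i) (A : Finset G)
    (hG : Fintype.card G = 2521) (hA : A.card = 140) {n : ℕ} (hn : Fintype.card ι = n) :
    ((univ.filter fun x : X => n ≤ 10 * (univ.filter fun i => val x i ∈ A).card).card
      : ℝ) ≤ Fintype.card X * (99 / 100 : ℝ) ^ n := by
  subst hn
  set L : ℝ := (11 / 10 : ℝ) ^ 10 with hL
  have hm := moment act val h A L
  set B := univ.filter fun x : X =>
    Fintype.card ι ≤ 10 * (univ.filter fun i => val x i ∈ A).card with hB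
  have h1 : (B.card : ℝ) * (11 / 10 : ℝ) ^ Fintype.card ι ≤
      ∑ x : X, L ^ (univ.filter fun i => val x i ∈ A).card := by
    calc (B.card : ℝ) * (11 / 10 : ℝ) ^ Fintype.card ι
        = ∑ x ∈ B, (11 / 10 : ℝ) ^ Fintype.card ι := by rw [sum_const, nsmul_eq_mul]
      _ ≤ ∑ x ∈ B, L ^ (univ.filter fun i => val x i ∈ A).card := by
          refine sum_le_sum fun x hx => ?_
          rw [hL, ← pow_mul]
          exact pow_le_pow_right₀ (by norm_num) (mem_filter.1 hx).2
      _ ≤ _ := sum_le_sum_of_subset_of_nonneg (subset_univ _) fun x _ _ => by positivity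
  have h2 : (Fintype.card G + A.card * (L - 1) : ℝ) ≤ 2521 * ((11 / 10) * (99 / 100)) := by
    rw [hG, hA, hL]
    norm_num
  have h3 : (0 : ℝ) ≤ Fintype.card G + A.card * (L - 1) := by
    have : (1 : ℝ) ≤ L := by
      rw [hL]
      norm_num
    have : (0 : ℝ) ≤ A.card * (L - 1) := mul_nonneg (Nat.cast_nonneg _) (by linarith only [this])
    (clear * - hA; positivity)
  have h4 : (B.card : ℝ) * (11 / 10 : ℝ) ^ Fintype.card ι * 2521 ^ Fintype.card ι ≤
      Fintype.card X * (2521 * ((11 / 10) * (99 / 100))) ^ Fintype.card ι := by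
    calc (B.card : ℝ) * (11 / 10 : ℝ) ^ Fintype.card ι * 2521 ^ Fintype.card ι
        ≤ (∑ x : X, L ^ (univ.filter fun i => val x i ∈ A).card) *
          (Fintype.card G : ℝ) ^ Fintype.card ι := by
          rw [hG]
          exact mul_le_mul_of_nonneg_right h1 (by positivity)
      _ = Fintype.card X * (Fintype.card G + A.card * (L - 1)) ^ Fintype.card ι := hm
      _ ≤ _ := mul_le_mul_of_nonneg_left (pow_le_pow_left₀ h3 h2 _) (Nat.cast_nonneg _)
  rw [mul_pow, mul_pow] at h4
  have h5 : (0 : ℝ) < (11 / 10 : ℝ) ^ Fintype.card ι * 2521 ^ Fintype.card ι := by positivity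
  refine le_of_mul_le_mul_right ?_ h5
  calc (B.card : ℝ) * ((11 / 10 : ℝ) ^ Fintype.card ι * 2521 ^ Fintype.card ι)
      = (B.card : ℝ) * (11 / 10 : ℝ) ^ Fintype.card ι * 2521 ^ Fintype.card ι := by ring
    _ ≤ _ := h4
    _ = _ := by ring

end moment

/-! ### The designs -/

variable {N d : ℕ} {E P Om : Type} [Fintype E] [Fintype P] [Fintype Om] [NeZero N]

/-- Adding values at the coordinate `r` of the lines of the first family. -/
def shift (r : Co E P Om) (c : F) (τ : ZMod N → F) (p : Lin N → Co E P Om → F) :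
    Lin N → Co E P Om → F :=
  fun l => p l + (if l.1 = 0 then Pi.single r (c * τ l.2) else 0)

lemma shift_shift (r : Co E P Om) (c : F) (τ τ' : ZMod N → F) (p : Lin N → Co E P Om → F) :
    shift r c τ (shift r c τ' p) = shift r c (τ + τ') p := by
  funext l
  unfold shift
  split_ifs
  · rw [Pi.add_apply, mul_add, Pi.single_add, add_assoc]
    congr 1
    exact add_comm _ _
  · rw [add_zero, add_zero]

lemma shift_zero (r : Co E P Om) (c : F) (p : Lin N → Co E P Om → F) :
    shift r c (0 : ZMod N → F) p = p := by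
  funext l
  unfold shift
  split_ifs
  · rw [Pi.zero_apply, mul_zero, Pi.single_zero, add_zero]
  · rw [add_zero]

lemma ext_shift {fr : Frame N d E Om} {r : Co E P Om} (hr : ∀ t : E, Sum.inl (Sum.inl t) ≠ r)
    (c : F) (τ : ZMod N → F) {p : Lin N → Co E P Om → F} (h : Ext fr p) :
    Ext fr (shift r c τ p) := by
  intro s i t
  unfold shift
  rw [Pi.add_apply, h s i t]
  split_ifs <;> simp [Pi.single_eq_of_ne (hr t)]

/-- The shift as a permutation of the designs. -/
def actD (fr : Frame N d E Om) {r : Co E P Om} (hr : ∀ t : E, Sum.inl (Sum.inl t) ≠ r) (c : F)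
    (τ : ZMod N → F) : Dz fr P ≃ Dz fr P where
  toFun p := ⟨shift r c τ p.1, ext_shift hr c τ p.2⟩
  invFun p := ⟨shift r c (-τ) p.1, ext_shift hr c (-τ) p.2⟩
  left_inv p := by
    refine Subtype.ext ?_
    show shift r c (-τ) (shift r c τ p.1) = p.1
    rw [shift_shift, neg_add_cancel, shift_zero]
  right_inv p := by
    refine Subtype.ext ?_
    show shift r c τ (shift r c (-τ) p.1) = p.1
    rw [shift_shift, add_neg_cancel, shift_zero]

lemma ln_zero (x : ZMod N) (j : Fin d) : ln ((x, j) : Ty N d) 0 = x := by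
  unfold Combi.ln
  simp

lemma ln_one (x : ZMod N) (j : Fin d) : ln ((x, j) : Ty N d) 1 = x + (j.val : ZMod N) := by
  unfold Combi.ln
  simp

lemma gv_shift (r : Co E P Om) (c : F) (τ : ZMod N → F) (p : Lin N → Co E P Om → F) (x : ZMod N)
    (j : Fin d) : gv (shift r c τ p) ((x, j) : Ty N d) =
      gv p ((x, j) : Ty N d) + Pi.single r (c * τ x) := by
  unfold gv
  rw [Fin.sum_univ_three, Fin.sum_univ_three]
  have h0 : shift r c τ p (lin ((x, j) : Ty N d) 0) =
      p (lin ((x, j) : Ty N d) 0) + Pi.single r (c * τ x) := by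
    unfold shift
    rw [if_pos (show (lin ((x, j) : Ty N d) 0).1 = 0 from rfl)]
    congr 3
    show τ (ln ((x, j) : Ty N d) 0) = τ x
    rw [ln_zero]
  have h1 : shift r c τ p (lin ((x, j) : Ty N d) 1) = p (lin ((x, j) : Ty N d) 1) := by
    unfold shift
    rw [if_neg (show ¬ (lin ((x, j) : Ty N d) 1).1 = 0 from one_ne_zero), add_zero]
  have h2 : shift r c τ p (lin ((x, j) : Ty N d) 2) = p (lin ((x, j) : Ty N d) 2) := by
    unfold shift
    rw [if_neg (show ¬ (lin ((x, j) : Ty N d) 2).1 = 0 from by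
      show (2 : Fin 3) ≠ 0
      decide), add_zero]
  rw [h0, h1, h2]
  abel

/-- The number of types of class `j` cut by `v`. -/
def cntJ (v : Co E P Om → F) (j : Fin d) (p : Lin N → Co E P Om → F) : ℕ :=
  (univ.filter fun x : ZMod N => v ⬝ᵥ gv p ((x, j) : Ty N d) ∈ Y).card

lemma card_cut (v : Co E P Om → F) (p : Lin N → Co E P Om → F) :
    (univ.filter fun b : Ty N d => v ⬝ᵥ gv p b ∈ Y).card = ∑ j : Fin d, cntJ v j p := by
  rw [card_filter, Fintype.sum_prod_type_right]
  refine sum_congr rfl fun j _ => ?_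
  unfold cntJ
  rw [card_filter]

/-- Case 1: a vector supported on `E`. -/
lemma cnt_E_le {fr : Frame N d E Om} {D₀ : ℕ} {θ C : ℝ} (hs : Sizes fr P D₀ θ C)
    {v : Co E P Om → F} (hD : ¬ ∃ (t : E), ∃ u ∈ Y, v = Pi.single (Sum.inl (Sum.inl t)) u)
    (hP : ∀ i, v (Sum.inl (Sum.inr i)) = 0) (hO : ∀ w, v (Sum.inr w) = 0)
    {p : Lin N → Co E P Om → F} (h : Ext fr p) (j : Fin d) : 10 * cntJ v j p ≤ N := by
  have hv : ∀ b : Ty N d, v ⬝ᵥ gv p b = ∑ t : E, v (Sum.inl (Sum.inl t)) * fr.γ (ln b 1) t := by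
    intro b
    unfold dotProduct
    rw [Fintype.sum_sum_type, Fintype.sum_sum_type]
    have z1 : ∑ i : P, v (Sum.inl (Sum.inr i)) * gv p b (Sum.inl (Sum.inr i)) = 0 :=
      sum_eq_zero fun i _ => by rw [hP, zero_mul]
    have z2 : ∑ w : Om, v (Sum.inr w) * gv p b (Sum.inr w) = 0 :=
      sum_eq_zero fun i _ => by rw [hO, zero_mul]
    rw [z1, z2, add_zero, add_zero]
    exact sum_congr rfl fun t _ => by rw [gv_E h]
  have hζ : (fun t : E => v (Sum.inl (Sum.inl t))) ∉ Dset E := by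
    rintro ⟨y, hy, t, ht⟩
    refine hD ⟨t, y, hy, ?_⟩
    funext c
    rcases c with (c | c) | c
    · have := congrFun ht c
      have this' : v (Sum.inl (Sum.inl c)) = Pi.single (M := fun _ => F) t y c := this
      rw [this']
      by_cases hc : c = t
      · subst hc
        simp
      · rw [Pi.single_eq_of_ne hc, Pi.single_eq_of_ne]
        intro h'
        exact hc (Sum.inl_injective (Sum.inl_injective h'))
    · rw [hP, Pi.single_eq_of_ne]
      intro h'
      exact Sum.inr_ne_inl (Sum.inl_injective h')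
    · rw [hO, Pi.single_eq_of_ne]
      intro h'
      exact Sum.inr_ne_inl h'
  -- the count over `ZMod N`
  have h1 : cntJ v j p = (univ.filter fun i : ZMod N =>
      ∑ t : E, v (Sum.inl (Sum.inl t)) * fr.γ i t ∈ Y).card := by
    unfold cntJ
    refine card_bij (fun x _ => x + (j.val : ZMod N)) ?_ ?_ ?_
    · intro x hx
      rw [mem_filter] at hx ⊢
      refine ⟨mem_univ _, ?_⟩
      rw [← ln_one, ← hv]
      exact hx.2
    · intro x _ y _ hxy
      exact add_right_cancel hxy
    · intro i hi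
      refine ⟨i - (j.val : ZMod N), ?_, sub_add_cancel _ _⟩
      rw [mem_filter] at hi ⊢
      refine ⟨mem_univ _, ?_⟩
      rw [hv, ln_one, sub_add_cancel]
      exact hi.2
  have h2 : (univ.filter fun i : ZMod N => ∑ t : E, v (Sum.inl (Sum.inl t)) * fr.γ i t ∈ Y).card =
      ∑ u ∈ univ.filter (fun u : E → YT => ∑ t, v (Sum.inl (Sum.inl t)) * (u t : F) ∈ Y),
        (univ.filter fun i : ZMod N => fr.γ i = fun t => (u t : F)).card := by
    rw [← card_biUnion]
    · congr 1
      ext i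
      simp only [mem_filter, mem_univ, true_and, mem_biUnion]
      constructor
      · intro hi
        exact ⟨fun t => ⟨fr.γ i t, fr.hγ i t⟩, hi, rfl⟩
      · rintro ⟨u, hu, hi⟩
        rw [hi]
        exact hu
    · intro u _ u' _ huu
      rw [Function.onFun, disjoint_left]
      intro i hi hi'
      rw [mem_filter] at hi hi'
      apply huu
      funext t
      exact Subtype.ext (congrFun (hi.2.symm.trans hi'.2) t)
  have h3 : (((univ.filter fun i : ZMod N =>
      ∑ t : E, v (Sum.inl (Sum.inl t)) * fr.γ i t ∈ Y).card : ℕ) : ℝ) * 140 ^ Fintype.card E =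
      (univ.filter (fun u : E → YT => ∑ t, v (Sum.inl (Sum.inl t)) * (u t : F) ∈ Y)).card * N := by
    rw [h2, Nat.cast_sum, sum_mul, sum_congr rfl fun u _ => hs.hγ (fun t => (u t : F))
      fun t => (u t).2, sum_const, nsmul_eq_mul]
  have h4 := cut_le_of_not_mem _ hζ
  rw [h1]
  have h5 : (10 * (univ.filter fun i : ZMod N =>
      ∑ t : E, v (Sum.inl (Sum.inl t)) * fr.γ i t ∈ Y).card : ℝ) * 140 ^ Fintype.card E ≤
      N * 140 ^ Fintype.card E := by
    rw [mul_assoc, h3]
    have h6 : (10 * (univ.filter (fun u : E → YT =>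
        ∑ t, v (Sum.inl (Sum.inl t)) * (u t : F) ∈ Y)).card : ℝ) ≤ 140 ^ Fintype.card E := by
      exact_mod_cast h4
    calc 10 * (((univ.filter (fun u : E → YT =>
        ∑ t, v (Sum.inl (Sum.inl t)) * (u t : F) ∈ Y)).card : ℝ) * N)
        = (10 * (univ.filter (fun u : E → YT =>
        ∑ t, v (Sum.inl (Sum.inl t)) * (u t : F) ∈ Y)).card : ℝ) * N := by ring
      _ ≤ 140 ^ Fintype.card E * N := mul_le_mul_of_nonneg_right h6 (Nat.cast_nonneg _)
      _ = _ := by ring
  have h7 := le_of_mul_le_mul_right h5 (by positivity)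
  exact_mod_cast h7

/-- Case 2: the designs with many types of class `j` cut by a vector `v` which is not zero at a
coordinate outside `E`. -/
lemma card_bad_le (fr : Frame N d E Om) {v : Co E P Om → F} {r : Co E P Om}
    (hr : ∀ t : E, Sum.inl (Sum.inl t) ≠ r) (hv : v r ≠ 0) (j : Fin d) :
    ((univ.filter fun p : Dz fr P => N ≤ 10 * cntJ v j p.1).card : ℝ) ≤
      Fintype.card (Dz fr P) * (99 / 100 : ℝ) ^ N := by
  have hval : ∀ (τ : ZMod N → F) (p : Dz fr P) (x : ZMod N),
      v ⬝ᵥ gv ((actD fr hr (v r)⁻¹ τ) p).1 ((x, j) : Ty N d) =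
        v ⬝ᵥ gv p.1 ((x, j) : Ty N d) + τ x := by
    intro τ p x
    show v ⬝ᵥ gv (shift r (v r)⁻¹ τ p.1) ((x, j) : Ty N d) = _
    rw [gv_shift, dotProduct_add, dotProduct_single, ← mul_assoc, mul_inv_cancel₀ hv, one_mul]
  have hcF : Fintype.card F = 2521 := ZMod.card 2521
  have hcY : Y.card = 140 := card_Y
  have hcN : Fintype.card (ZMod N) = N := ZMod.card N
  exact tail (X := Dz fr P) (ι := ZMod N) (G := F) (fun τ => actD fr hr (v r)⁻¹ τ)
    (fun p x => v ⬝ᵥ gv p.1 ((x, j) : Ty N d)) hval Y hcF hcY hcN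

lemma numeric {D k e d N a : ℕ} (hD : 2380 ≤ D) (hk : e + 100 * d ≤ k) (hN : D * k ≤ N)
    (ha : a ≤ k) : (100 * d : ℝ) * 2521 ^ (e + k + a) * (99 / 100) ^ N ≤ 1 := by
  have h1 : (99 / 100 : ℝ) ^ 2380 ≤ (1 / 2521) ^ 3 := by
    have e1 : (99 / 100 : ℝ) ^ 70 ≤ 1 / 2 := by norm_num
    calc (99 / 100 : ℝ) ^ 2380 = ((99 / 100 : ℝ) ^ 70) ^ 34 := by rw [← pow_mul]
      _ ≤ (1 / 2) ^ 34 := pow_le_pow_left₀ (by positivity) e1 _
      _ ≤ _ := by norm_num
  have h2 : (99 / 100 : ℝ) ^ N ≤ ((1 / 2521) ^ 3) ^ k := by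
    calc (99 / 100 : ℝ) ^ N ≤ (99 / 100) ^ (2380 * k) :=
          pow_le_pow_of_le_one (by norm_num) (by norm_num)
            ((Nat.mul_le_mul_right k hD).trans hN)
      _ = ((99 / 100) ^ 2380) ^ k := by rw [pow_mul]
      _ ≤ _ := pow_le_pow_left₀ (by positivity) h1 _
  have h3 : (2521 : ℝ) ^ (e + k + a) ≤ 2521 ^ (e + 2 * k) :=
    pow_le_pow_right₀ (by norm_num) (by omega)
  have h4 : (100 * d : ℝ) ≤ 2521 ^ (100 * d) := by
    have := (Nat.lt_pow_self (show 1 < 2521 by norm_num) (n := 100 * d)).le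
    exact_mod_cast this
  calc (100 * d : ℝ) * 2521 ^ (e + k + a) * (99 / 100) ^ N
      ≤ 2521 ^ (100 * d) * 2521 ^ (e + 2 * k) * ((1 / 2521) ^ 3) ^ k := by
        refine mul_le_mul (mul_le_mul h4 h3 (by positivity) (by positivity)) h2 (by positivity)
          (by positivity)
    _ = 2521 ^ (100 * d + (e + 2 * k)) * (1 / 2521) ^ (3 * k) := by rw [← pow_add, ← pow_mul]
    _ ≤ 2521 ^ (3 * k) * (1 / 2521) ^ (3 * k) :=
        mul_le_mul_of_nonneg_right (pow_le_pow_right₀ (by norm_num) (by omega)) (by positivity)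
    _ = 1 := by
        rw [← mul_pow]
        norm_num

end CutEx

open CutEx Finset in
/-- GP6 exists. -/
theorem exC : ExC := by
  intro ε hε
  refine ⟨2380, fun D₀ hD₀ d E _ _ => ⟨1, one_pos, Fintype.card E + 100 * d, ?_⟩⟩
  intro N P Om _ _ _ fr hk hs
  have hOm : Fintype.card Om ≤ Fintype.card P := by
    have := hs.hOm
    rw [one_mul] at this
    exact_mod_cast this
  -- the bad events
  let V := {v : Co E P Om → F // ∃ r : Co E P Om, (∀ t : E, Sum.inl (Sum.inl t) ≠ r) ∧ v r ≠ 0}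
  let Bd : V × Fin d → Finset (Dz fr P) := fun vj =>
    univ.filter fun p : Dz fr P => N ≤ 10 * cntJ vj.1.1 vj.2 p.1
  have hsub : (univ.filter fun p : Dz fr P => ¬ EvC p.1 d ε) ⊆
      (univ : Finset (V × Fin d)).biUnion Bd := by
    intro p hp
    rw [mem_filter] at hp
    by_contra hcon
    apply hp.2
    intro v hvD
    have hcnt : ∀ j : Fin d, 10 * cntJ v j p.1 ≤ N := by
      intro j
      by_cases hv : ∃ r : Co E P Om, (∀ t : E, Sum.inl (Sum.inl t) ≠ r) ∧ v r ≠ 0
      · by_contra hlt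
        apply hcon
        rw [mem_biUnion]
        refine ⟨(⟨v, hv⟩, j), mem_univ _, ?_⟩
        show p ∈ univ.filter fun p : Dz fr P => N ≤ 10 * cntJ v j p.1
        rw [mem_filter]
        exact ⟨mem_univ _, (not_le.1 hlt).le⟩
      · push Not at hv
        refine cnt_E_le hs hvD (fun i => hv _ fun t h => ?_) (fun w => hv _ fun t h => ?_) p.2 j
        · exact Sum.inl_ne_inr (Sum.inl_injective h)
        · exact Sum.inl_ne_inr h
    rw [card_cut, Nat.cast_sum]
    have h1 : ∀ j : Fin d, ((cntJ v j p.1 : ℕ) : ℝ) ≤ (1 / 10) * N := by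
      intro j
      have : (10 * cntJ v j p.1 : ℝ) ≤ N := by exact_mod_cast hcnt j
      linarith only [this]
    calc ∑ j : Fin d, ((cntJ v j p.1 : ℕ) : ℝ) ≤ ∑ _j : Fin d, (1 / 10 : ℝ) * N :=
          sum_le_sum fun j _ => h1 j
      _ = (1 / 10) * (N * d) := by
          rw [sum_const, card_univ, Fintype.card_fin, nsmul_eq_mul]
          ring
      _ ≤ (1 / 10 + ε) * (N * d) :=
          mul_le_mul_of_nonneg_right (by linarith only [hε]) (by positivity)
  have hcard : ((univ.filter fun p : Dz fr P => ¬ EvC p.1 d ε).card : ℝ) ≤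
      (2521 ^ (Fintype.card E + Fintype.card P + Fintype.card Om) * d) *
        (Fintype.card (Dz fr P) * (99 / 100 : ℝ) ^ N) := by
    have hb : ∀ vj : V × Fin d, ((Bd vj).card : ℝ) ≤
        Fintype.card (Dz fr P) * (99 / 100 : ℝ) ^ N := by
      rintro ⟨⟨v, r, hr, hv⟩, j⟩
      exact card_bad_le fr hr hv j
    have hV : (Fintype.card (V × Fin d) : ℝ) ≤
        2521 ^ (Fintype.card E + Fintype.card P + Fintype.card Om) * d := by
      rw [Fintype.card_prod, Fintype.card_fin]
      push_cast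
      refine mul_le_mul_of_nonneg_right ?_ (Nat.cast_nonneg _)
      have h1 : Fintype.card V ≤ Fintype.card (Co E P Om → F) := Fintype.card_subtype_le _
      rw [Fintype.card_fun, ZMod.card, Fintype.card_sum, Fintype.card_sum] at h1
      exact_mod_cast h1
    calc ((univ.filter fun p : Dz fr P => ¬ EvC p.1 d ε).card : ℝ)
        ≤ (((univ : Finset (V × Fin d)).biUnion Bd).card : ℝ) := by
          exact_mod_cast card_le_card hsub
      _ ≤ ∑ vj : V × Fin d, ((Bd vj).card : ℝ) := by exact_mod_cast card_biUnion_le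
      _ ≤ ∑ _vj : V × Fin d, (Fintype.card (Dz fr P) * (99 / 100 : ℝ) ^ N) :=
          sum_le_sum fun vj _ => hb vj
      _ = Fintype.card (V × Fin d) * (Fintype.card (Dz fr P) * (99 / 100 : ℝ) ^ N) := by
          rw [sum_const, card_univ, nsmul_eq_mul]
      _ ≤ _ := mul_le_mul_of_nonneg_right hV (by (clear * -; positivity))
  have hnum := numeric (D := D₀) (k := Fintype.card P) (e := Fintype.card E) (d := d) (N := N)
    (a := Fintype.card Om) hD₀ hk hs.hN hOm
  have hfin : 100 * ((univ.filter fun p : Dz fr P => ¬ EvC p.1 d ε).card : ℝ) ≤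
      Fintype.card (Dz fr P) := by
    calc 100 * ((univ.filter fun p : Dz fr P => ¬ EvC p.1 d ε).card : ℝ)
        ≤ 100 * ((2521 ^ (Fintype.card E + Fintype.card P + Fintype.card Om) * d) *
        (Fintype.card (Dz fr P) * (99 / 100 : ℝ) ^ N)) :=
          mul_le_mul_of_nonneg_left hcard (by norm_num)
      _ = ((100 * d : ℝ) * 2521 ^ (Fintype.card E + Fintype.card P + Fintype.card Om) *
          (99 / 100) ^ N) * Fintype.card (Dz fr P) := by ring
      _ ≤ 1 * Fintype.card (Dz fr P) := mul_le_mul_of_nonneg_right hnum (Nat.cast_nonneg _)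
      _ = _ := one_mul _
  unfold Rare
  have e1 : Nat.card {p : Dz fr P | ¬ EvC p.1 d ε} =
      (univ.filter fun p : Dz fr P => ¬ EvC p.1 d ε).card := by
    rw [Nat.card_eq_fintype_card, ← Fintype.card_subtype]
    rfl
  rw [e1, Nat.card_eq_fintype_card]
  exact_mod_cast hfin

end Vale.Agent.P060.HW
end
end

section

/-!
# The overlap lemma

Two laws on the space of four slots which are nearly invariant under two submodules have
differences in a given small set with the expected probability.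
-/

namespace Vale.Agent.P060.HW

open Finset Module

section Abstract

variable {F V : Type*} [Field F] [AddCommGroup V] [Module F V] [Fintype V]

theorem mul_ge_of_close {x x0 y y0 : ℝ} (hx : 0 ≤ x) (hx0 : 0 ≤ x0) (hy : 0 ≤ y) (hy0 : 0 ≤ y0) :
    x0 * y0 / 4 - |x - x0| * y0 / 2 - |y - y0| * x0 / 2 ≤ x * y := by
  have hxy := mul_nonneg hx hy
  have h1 := mul_nonneg (abs_nonneg (x - x0)) hy0
  have h2 := mul_nonneg (abs_nonneg (y - y0)) hx0
  by_cases hA : x < x0 / 2
  · have h3 : x0 / 2 ≤ |x - x0| := by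
      rw [abs_sub_comm]; exact le_trans (by linarith) (le_abs_self _)
    have h4 := mul_le_mul_of_nonneg_right h3 hy0
    linarith only [hxy, h2, h4]
  by_cases hB : y < y0 / 2
  · have h3 : y0 / 2 ≤ |y - y0| := by
      rw [abs_sub_comm]; exact le_trans (by linarith) (le_abs_self _)
    have h4 := mul_le_mul_of_nonneg_right h3 hx0
    linarith only [h4, h1, hxy]
  push Not at hA hB
  have h5 : x0 / 2 * (y0 / 2) ≤ x * y := mul_le_mul hA hB (by linarith) hx
  linarith only [h5, h2, h1]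

theorem avg_nonneg (U : Submodule F V) {f : V → ℝ} (hf : ∀ x, 0 ≤ f x) (x : V) :
    0 ≤ avg U f x :=
  div_nonneg (Finset.sum_nonneg fun _ _ => hf _) (carr_card_pos U).le

theorem avg_le_total (U : Submodule F V) {f : V → ℝ} (hf : ∀ x, 0 ≤ f x) (x : V) :
    avg U f x ≤ (∑ v, f v) / (carr U).card := by
  refine div_le_div_of_nonneg_right ?_ (carr_card_pos U).le
  calc ∑ u ∈ carr U, f (x + u) = ∑ w ∈ (carr U).map (addLeftEmbedding x), f w := by
        rw [Finset.sum_map]; rfl
    _ ≤ ∑ v, f v := Finset.sum_le_univ_sum_of_nonneg hf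

/-- Averaging is self adjoint. -/
theorem sum_avg_mul (U : Submodule F V) (f g : V → ℝ) :
    ∑ v, avg U f v * g v = ∑ v, f v * avg U g v := by
  have h1 : ∀ f g : V → ℝ, ∑ v, avg U f v * g v =
      (∑ u ∈ carr U, ∑ v, f (v + u) * g v) / (carr U).card := by
    intro f g
    rw [Finset.sum_comm, Finset.sum_div]
    refine Finset.sum_congr rfl fun v _ => ?_
    rw [avg, div_mul_eq_mul_div, Finset.sum_mul]
  rw [h1 f g, Finset.sum_congr rfl fun v _ => mul_comm (f v) (avg U g v), h1 g f]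
  congr 1
  refine Finset.sum_bij (fun u _ => -u) (fun u hu => ?_) (fun u _ v _ h => neg_injective h)
    (fun u hu => ⟨-u, mem_carr.mpr (U.neg_mem (mem_carr.mp hu)), neg_neg u⟩) (fun u _ => ?_)
  · exact mem_carr.mpr (U.neg_mem (mem_carr.mp hu))
  · refine Fintype.sum_equiv (Equiv.addRight u) _ _ fun v => ?_
    change f (v + u) * g v = g (v + u + -u) * f (v + u)
    rw [add_neg_cancel_right, mul_comm]

open Classical in
theorem avg_eq_sum (U : Submodule F V) (f : V → ℝ) (x : V) :
    avg U f x = (∑ n, if x - n ∈ U then f n else 0) / (carr U).card := by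
  rw [avg]
  congr 1
  rw [← Finset.sum_filter]
  refine Finset.sum_bij (fun u _ => x + u) (fun u hu => ?_) (fun u _ v _ h => add_left_cancel h)
    (fun n hn => ⟨n - x, ?_, by abel⟩) (fun u _ => rfl)
  · rw [Finset.mem_filter]
    refine ⟨Finset.mem_univ _, ?_⟩
    have := U.neg_mem (mem_carr.mp hu)
    have e : x - (x + u) = -u := by abel
    rw [e]; exact this
  · rw [Finset.mem_filter] at hn
    have := U.neg_mem hn.2
    have e : n - x = -(x - n) := by abel
    rw [e]; exact mem_carr.mpr this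

open Classical in
/-- The main term. -/
theorem sum_avg_shift (U W : Submodule F V) (P Q : V → ℝ) (d : V) :
    ∑ v, avg U P (v + d) * avg W Q v =
      (∑ m, ∑ n, if m - n - d ∈ U ⊔ W then P m * Q n else 0) / (carr (U ⊔ W)).card := by
  have h1 : ∀ v, avg U P (v + d) = avg U (fun w => P (w + d)) v := by
    intro v
    rw [avg, avg]
    congr 1
    refine Finset.sum_congr rfl fun u _ => ?_
    rw [add_right_comm]
  rw [Finset.sum_congr rfl fun v _ => by rw [h1 v], sum_avg_mul, avg_avg]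
  rw [Finset.sum_div]
  refine Fintype.sum_equiv (Equiv.addRight d) _ _ fun v => ?_
  change P (v + d) * avg (U ⊔ W) Q v = (∑ n, if v + d - n - d ∈ U ⊔ W then P (v + d) * Q n else 0)
    / (carr (U ⊔ W)).card
  rw [avg_eq_sum, mul_div_assoc', Finset.mul_sum]
  congr 1
  refine Finset.sum_congr rfl fun n _ => ?_
  have e : v + d - n - d = v - n := by abel
  rw [e]
  split_ifs <;> simp

/-- One shift. -/
theorem shift_ge (U W : Submodule F V) {P Q : V → ℝ} (hP : ∀ v, 0 ≤ P v) (hQ : ∀ v, 0 ≤ Q v)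
    {eP eQ p q : ℝ} (hp : ∑ v, P v ≤ p) (hq : ∑ v, Q v ≤ q)
    (heP : ∑ v, |P v - avg U P v| ≤ eP) (heQ : ∑ v, |Q v - avg W Q v| ≤ eQ) (d : V) :
    (∑ v, avg U P (v + d) * avg W Q v) / 4 - eP * (q / (carr W).card) / 2
      - eQ * (p / (carr U).card) / 2 ≤ ∑ v, P (v + d) * Q v := by
  have hU := carr_card_pos U
  have hW := carr_card_pos W
  have h1 : ∀ v, avg W Q v ≤ q / (carr W).card := fun v =>
    (avg_le_total W hQ v).trans (div_le_div_of_nonneg_right hq hW.le)
  have h2 : ∀ v, avg U P v ≤ p / (carr U).card := fun v =>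
    (avg_le_total U hP v).trans (div_le_div_of_nonneg_right hp hU.le)
  have h3 : ∑ v, (avg U P (v + d) * avg W Q v / 4 - |P (v + d) - avg U P (v + d)| * avg W Q v / 2
      - |Q v - avg W Q v| * avg U P (v + d) / 2) ≤ ∑ v, P (v + d) * Q v :=
    Finset.sum_le_sum fun v _ => mul_ge_of_close (hP _) (avg_nonneg U hP _) (hQ _)
      (avg_nonneg W hQ _)
  rw [Finset.sum_sub_distrib, Finset.sum_sub_distrib, ← Finset.sum_div, ← Finset.sum_div,
    ← Finset.sum_div] at h3
  have h4 : ∑ v, |P (v + d) - avg U P (v + d)| * avg W Q v ≤ eP * (q / (carr W).card) := by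
    have e1 : ∑ v, |P (v + d) - avg U P (v + d)| = ∑ v, |P v - avg U P v| :=
      Fintype.sum_equiv (Equiv.addRight d) _ _ fun v => rfl
    calc ∑ v, |P (v + d) - avg U P (v + d)| * avg W Q v
        ≤ ∑ v, |P (v + d) - avg U P (v + d)| * (q / (carr W).card) :=
          Finset.sum_le_sum fun v _ => mul_le_mul_of_nonneg_left (h1 v) (abs_nonneg _)
      _ = (∑ v, |P v - avg U P v|) * (q / (carr W).card) := by rw [← Finset.sum_mul, e1]
      _ ≤ eP * (q / (carr W).card) := mul_le_mul_of_nonneg_right heP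
          (div_nonneg ((Finset.sum_nonneg fun v _ => hQ v).trans hq) hW.le)
  have h5 : ∑ v, |Q v - avg W Q v| * avg U P (v + d) ≤ eQ * (p / (carr U).card) := by
    calc ∑ v, |Q v - avg W Q v| * avg U P (v + d)
        ≤ ∑ v, |Q v - avg W Q v| * (p / (carr U).card) :=
          Finset.sum_le_sum fun v _ => mul_le_mul_of_nonneg_left (h2 _) (abs_nonneg _)
      _ = (∑ v, |Q v - avg W Q v|) * (p / (carr U).card) := by rw [← Finset.sum_mul]
      _ ≤ eQ * (p / (carr U).card) := mul_le_mul_of_nonneg_right heQ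
          (div_nonneg ((Finset.sum_nonneg fun v _ => hP v).trans hp) hU.le)
  linarith only [h5, h4, h3]

open Classical in
/-- **Abstract overlap lemma.** -/
theorem overlap_abs (U W A : Submodule F V) (hUA : U ≤ A) (hWA : W ≤ A) {P Q : V → ℝ}
    (hP : ∀ v, 0 ≤ P v) (hQ : ∀ v, 0 ≤ Q v)
    {eP eQ p q R : ℝ} (hp : ∑ v, P v ≤ p) (hq : ∑ v, Q v ≤ q)
    (heP : ∑ v, |P v - avg U P v| ≤ eP) (heQ : ∑ v, |Q v - avg W Q v| ≤ eQ)
    (hRU : ((carr A).card : ℝ) ≤ R * (carr U).card) (hRW : ((carr A).card : ℝ) ≤ R * (carr W).card)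
    (D : Finset V) :
    ((∑ m, ∑ n, if ∃ d ∈ D, m - n - d ∈ U ⊔ W then P m * Q n else 0) / 4
      - D.card * R * (eP * q + eQ * p) / 2) / (carr A).card ≤
      ∑ m, ∑ n, if m - n ∈ D then P m * Q n else 0 := by
  have hU := carr_card_pos U
  have hW := carr_card_pos W
  have hA := carr_card_pos A
  have hS := carr_card_pos (U ⊔ W)
  have heP0 : 0 ≤ eP := (Finset.sum_nonneg fun v _ => abs_nonneg _).trans heP
  have heQ0 : 0 ≤ eQ := (Finset.sum_nonneg fun v _ => abs_nonneg _).trans heQ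
  have hp0 : 0 ≤ p := (Finset.sum_nonneg fun v _ => hP v).trans hp
  have hq0 : 0 ≤ q := (Finset.sum_nonneg fun v _ => hQ v).trans hq
  have hPQ : ∀ m n, 0 ≤ P m * Q n := fun m n => mul_nonneg (hP _) (hQ _)
  have e1 : ∑ m, ∑ n, (if m - n ∈ D then P m * Q n else 0) = ∑ d ∈ D, ∑ v, P (v + d) * Q v := by
    have e2 : ∀ m n, (if m - n ∈ D then P m * Q n else 0) =
        ∑ d ∈ D, if m = n + d then P m * Q n else 0 := by
      intro m n
      have e3 : ∀ d, (m = n + d) ↔ (d = m - n) := fun d => by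
        constructor
        · rintro rfl; abel
        · rintro rfl; abel
      simp only [e3]
      rw [Finset.sum_ite_eq']
    rw [Finset.sum_congr rfl fun m _ => Finset.sum_congr rfl fun n _ => e2 m n]
    rw [Finset.sum_congr rfl fun m _ => Finset.sum_comm, Finset.sum_comm]
    refine Finset.sum_congr rfl fun d _ => ?_
    rw [Finset.sum_comm]
    refine Finset.sum_congr rfl fun n _ => ?_
    rw [Finset.sum_ite_eq' Finset.univ (n + d) (fun m => P m * Q n), if_pos (Finset.mem_univ _)]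
  rw [e1]
  set X : ℝ := ∑ m, ∑ n, if ∃ d ∈ D, m - n - d ∈ U ⊔ W then P m * Q n else 0 with hX
  have h1 : X / (carr A).card ≤ ∑ d ∈ D, ∑ v, avg U P (v + d) * avg W Q v := by
    have h2 : X ≤ ∑ d ∈ D, ∑ m, ∑ n, if m - n - d ∈ U ⊔ W then P m * Q n else 0 := by
      rw [hX, Finset.sum_comm (s := D)]
      refine Finset.sum_le_sum fun m _ => ?_
      rw [Finset.sum_comm (s := D)]
      refine Finset.sum_le_sum fun n _ => ?_
      by_cases h : ∃ d ∈ D, m - n - d ∈ U ⊔ W
      · rw [if_pos h]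
        obtain ⟨d, hd, hd'⟩ := h
        have := Finset.single_le_sum (f := fun d => if m - n - d ∈ U ⊔ W then P m * Q n else 0)
          (fun d _ => by split_ifs; exacts [hPQ m n, le_rfl]) hd
        rwa [if_pos hd'] at this
      · rw [if_neg h]
        exact Finset.sum_nonneg fun d _ => by split_ifs; exacts [hPQ m n, le_rfl]
    have h3 : ∑ d ∈ D, ∑ v, avg U P (v + d) * avg W Q v =
        (∑ d ∈ D, ∑ m, ∑ n, if m - n - d ∈ U ⊔ W then P m * Q n else 0)
          / (carr (U ⊔ W)).card := by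
      rw [Finset.sum_div]
      exact Finset.sum_congr rfl fun d _ => sum_avg_shift U W P Q d
    rw [h3]
    have h4 : ((carr (U ⊔ W)).card : ℝ) ≤ (carr A).card := by
      exact_mod_cast Finset.card_le_card fun x hx =>
        mem_carr.mpr ((sup_le hUA hWA) (mem_carr.mp hx))
    have hX0 : 0 ≤ X := Finset.sum_nonneg fun m _ => Finset.sum_nonneg fun n _ => by
      split_ifs; exacts [hPQ m n, le_rfl]
    calc X / (carr A).card ≤ X / (carr (U ⊔ W)).card := div_le_div_of_nonneg_left hX0 hS h4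
      _ ≤ _ := div_le_div_of_nonneg_right h2 hS.le
  have h5 : ∑ d ∈ D, ((∑ v, avg U P (v + d) * avg W Q v) / 4 - eP * (q / (carr W).card) / 2
      - eQ * (p / (carr U).card) / 2) ≤ ∑ d ∈ D, ∑ v, P (v + d) * Q v :=
    Finset.sum_le_sum fun d _ => shift_ge U W hP hQ hp hq heP heQ d
  rw [Finset.sum_sub_distrib, Finset.sum_sub_distrib, ← Finset.sum_div, Finset.sum_const,
    Finset.sum_const, nsmul_eq_mul, nsmul_eq_mul] at h5
  have h6 : eP * (q / (carr W).card) ≤ R * (eP * q) / (carr A).card := by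
    rw [mul_div_assoc', div_le_div_iff₀ hW hA]
    have := mul_le_mul_of_nonneg_left hRW (mul_nonneg heP0 hq0)
    linarith only [this]
  have h7 : eQ * (p / (carr U).card) ≤ R * (eQ * p) / (carr A).card := by
    rw [mul_div_assoc', div_le_div_iff₀ hU hA]
    have := mul_le_mul_of_nonneg_left hRU (mul_nonneg heQ0 hp0)
    linarith only [this]
  have hD0 : (0 : ℝ) ≤ D.card := Nat.cast_nonneg _
  have h8 := mul_le_mul_of_nonneg_left h6 hD0
  have h9 := mul_le_mul_of_nonneg_left h7 hD0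
  have e5 : (X / 4 - D.card * R * (eP * q + eQ * p) / 2) / (carr A).card =
      X / (carr A).card / 4 - D.card * (R * (eP * q) / (carr A).card) / 2
        - D.card * (R * (eQ * p) / (carr A).card) / 2 := by
    field_simp
    ring
  rw [e5]
  linarith only [h9, h8, h5, h1]

/-- Counting fibres. -/
theorem card_le_inf_ker {X : Type*} [AddCommGroup X] [Module F X] [Fintype X]
    (A : Submodule F V) (φ : V →ₗ[F] X) :
    (carr A).card ≤ Fintype.card X * (carr (A ⊓ LinearMap.ker φ)).card := by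
  classical
  rw [mul_comm, ← Finset.card_univ (α := X)]
  refine Finset.card_le_mul_card_image_of_maps_to (f := φ) (fun _ _ => Finset.mem_univ _) _ ?_
  intro x _
  by_cases h : ((carr A).filter fun v => φ v = x).Nonempty
  · obtain ⟨v0, hv0⟩ := h
    rw [Finset.mem_filter] at hv0
    refine Finset.card_le_card_of_injOn (fun v => v - v0) (fun v hv => ?_)
      (fun v _ w _ h => sub_left_injective h)
    rw [Finset.mem_coe, Finset.mem_filter] at hv
    rw [Finset.mem_coe, mem_carr]
    refine ⟨A.sub_mem (mem_carr.mp hv.1) (mem_carr.mp hv0.1), ?_⟩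
    change φ (v - v0) = 0
    rw [map_sub, hv.2, hv0.2, sub_self]
  · rw [Finset.not_nonempty_iff_eq_empty.mp h, Finset.card_empty]
    exact Nat.zero_le _

end Abstract

end Vale.Agent.P060.HW
end

section

/-!
# The overlap lemma in the form of `Blocks.lean`, for a general design
-/

open scoped Classical

noncomputable section

set_option linter.unusedSectionVars false
set_option linter.constructorNameAsVariable false

namespace Vale.Agent.P060.HW

open Finset Module

/-- Four test values. -/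
abbrev V4 (K : Type*) : Type _ := Fin 4 → K → F

/-- Exchanging the two middle slots. -/
def sw4 (K : Type*) : V4 K ≃ₗ[F] V4 K where
  toFun v := ![v 0, v 2, v 1, v 3]
  invFun v := ![v 0, v 2, v 1, v 3]
  map_add' u v := by
    funext i
    fin_cases i <;> rfl
  map_smul' r v := by
    funext i
    fin_cases i <;> rfl
  left_inv v := by
    funext i
    fin_cases i <;> rfl
  right_inv v := by
    funext i
    fin_cases i <;> rfl

lemma sw4_apply {K : Type*} (v : V4 K) : sw4 K v = ![v 0, v 2, v 1, v 3] := rfl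
lemma sw4_zero {K : Type*} (v : V4 K) : sw4 K v 0 = v 0 := rfl
lemma sw4_one {K : Type*} (v : V4 K) : sw4 K v 1 = v 2 := rfl
lemma sw4_two {K : Type*} (v : V4 K) : sw4 K v 2 = v 1 := rfl
lemma sw4_three {K : Type*} (v : V4 K) : sw4 K v 3 = v 3 := rfl
lemma sw4_sw4 {K : Type*} (v : V4 K) : sw4 K (sw4 K v) = v := (sw4 K).left_inv v

section Comap

variable {V W : Type*} [AddCommGroup V] [Module F V] [Fintype V] [AddCommGroup W] [Module F W]
  [Fintype W]

lemma mem_carr_comap' (e : V ≃ₗ[F] W) (U : Submodule F W) (x : V) :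
    x ∈ carr (U.comap (e : V →ₗ[F] W)) ↔ e x ∈ carr U := by
  rw [mem_carr, mem_carr]; rfl

lemma card_carr_comap' (e : V ≃ₗ[F] W) (U : Submodule F W) :
    (carr (U.comap (e : V →ₗ[F] W))).card = (carr U).card := by
  refine Finset.card_bij (fun x _ => e x) (fun x hx => (mem_carr_comap' e U x).1 hx)
    (fun x _ y _ h => e.injective h) (fun y hy => ⟨e.symm y, ?_, e.apply_symm_apply y⟩)
  rw [mem_carr_comap', e.apply_symm_apply]
  exact hy

lemma avg_comap' (e : V ≃ₗ[F] W) (U : Submodule F W) (f : W → ℝ) (x : V) :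
    avg (U.comap (e : V →ₗ[F] W)) (fun v => f (e v)) x = avg U f (e x) := by
  rw [avg, avg, card_carr_comap']
  congr 1
  refine Finset.sum_bij (fun x _ => e x) (fun x hx => (mem_carr_comap' e U x).1 hx)
    (fun x _ y _ h => e.injective h) (fun y hy => ⟨e.symm y, ?_, e.apply_symm_apply y⟩)
    (fun u _ => ?_)
  · rw [mem_carr_comap', e.apply_symm_apply]
    exact hy
  · rw [map_add]

end Comap

/-- A form of the abstract lemma without decidability instances. -/
theorem overlap_abs' {V : Type*} [AddCommGroup V] [Module F V] [Fintype V]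
    (U W A : Submodule F V) (hUA : U ≤ A) (hWA : W ≤ A) {P Q : V → ℝ}
    (hP : ∀ v, 0 ≤ P v) (hQ : ∀ v, 0 ≤ Q v)
    {eP eQ p q R : ℝ} (hp : ∑ v, P v ≤ p) (hq : ∑ v, Q v ≤ q)
    (heP : ∑ v, |P v - avg U P v| ≤ eP) (heQ : ∑ v, |Q v - avg W Q v| ≤ eQ)
    (hRU : ((carr A).card : ℝ) ≤ R * (carr U).card) (hRW : ((carr A).card : ℝ) ≤ R * (carr W).card)
    (D : Finset V) (fL fR : V → V → ℝ) (hL : ∀ m n, fL m n ≤ P m * Q n)
    (hL' : ∀ m n, fL m n ≤ 0 ∨ ∃ d ∈ D, m - n - d ∈ U ⊔ W) (hR : ∀ m n, 0 ≤ fR m n)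
    (hR' : ∀ m n, m - n ∈ D → P m * Q n ≤ fR m n) :
    ((∑ m, ∑ n, fL m n) / 4 - D.card * R * (eP * q + eQ * p) / 2) / (carr A).card ≤
      ∑ m, ∑ n, fR m n := by
  have key := overlap_abs U W A hUA hWA hP hQ hp hq heP heQ hRU hRW D
  have hA := carr_card_pos A
  refine le_trans (div_le_div_of_nonneg_right (sub_le_sub_right
    (div_le_div_of_nonneg_right ?_ (by norm_num)) _) hA.le) (key.trans ?_)
  · refine Finset.sum_le_sum fun m _ => Finset.sum_le_sum fun n _ => ?_
    split_ifs with h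
    · exact hL m n
    · rcases hL' m n with h' | h'
      · exact h'
      · exact absurd h' h
  · refine Finset.sum_le_sum fun m _ => Finset.sum_le_sum fun n _ => ?_
    split_ifs with h
    · exact hR' m n h
    · exact hR m n

namespace Design

variable {K T : Type*} [Fintype K] (δ : Design K T)

/-- Test values with the prescribed zero coordinates. -/
def W4 (a a' b b' : T) : Submodule F (V4 K) where
  carrier := {v | (∀ w, (w ∈ δ.U a ∨ w ∈ δ.U b) → v 0 w = 0) ∧
    (∀ w, (w ∈ δ.U a ∨ w ∈ δ.U b') → v 1 w = 0) ∧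
    (∀ w, (w ∈ δ.U a' ∨ w ∈ δ.U b) → v 2 w = 0) ∧
    (∀ w, (w ∈ δ.U a' ∨ w ∈ δ.U b') → v 3 w = 0)}
  zero_mem' := ⟨fun _ _ => rfl, fun _ _ => rfl, fun _ _ => rfl, fun _ _ => rfl⟩
  add_mem' := by
    rintro u v ⟨h0, h1, h2, h3⟩ ⟨k0, k1, k2, k3⟩
    exact ⟨fun w hw => by rw [Pi.add_apply, Pi.add_apply, h0 w hw, k0 w hw, add_zero],
      fun w hw => by rw [Pi.add_apply, Pi.add_apply, h1 w hw, k1 w hw, add_zero],
      fun w hw => by rw [Pi.add_apply, Pi.add_apply, h2 w hw, k2 w hw, add_zero],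
      fun w hw => by rw [Pi.add_apply, Pi.add_apply, h3 w hw, k3 w hw, add_zero]⟩
  smul_mem' := by
    rintro r u ⟨h0, h1, h2, h3⟩
    exact ⟨fun w hw => by rw [Pi.smul_apply, Pi.smul_apply, h0 w hw, smul_zero],
      fun w hw => by rw [Pi.smul_apply, Pi.smul_apply, h1 w hw, smul_zero],
      fun w hw => by rw [Pi.smul_apply, Pi.smul_apply, h2 w hw, smul_zero],
      fun w hw => by rw [Pi.smul_apply, Pi.smul_apply, h3 w hw, smul_zero]⟩

lemma mem_W4 {a a' b b' : T} {v : V4 K} : v ∈ δ.W4 a a' b b' ↔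
    (∀ w, (w ∈ δ.U a ∨ w ∈ δ.U b) → v 0 w = 0) ∧
    (∀ w, (w ∈ δ.U a ∨ w ∈ δ.U b') → v 1 w = 0) ∧
    (∀ w, (w ∈ δ.U a' ∨ w ∈ δ.U b) → v 2 w = 0) ∧
    (∀ w, (w ∈ δ.U a' ∨ w ∈ δ.U b') → v 3 w = 0) := Iff.rfl

/-- The ten functionals. -/
def phi4 (a a' b b' : T) : V4 K →ₗ[F] (Fin 4 → F) × (Fin 4 → F) × (Fin 2 → F) where
  toFun v := (fun i => δ.g a ⬝ᵥ v i, fun i => δ.g a' ⬝ᵥ v i,
    ![δ.g b' ⬝ᵥ v 0 - δ.g b ⬝ᵥ v 1, δ.g b' ⬝ᵥ v 2 - δ.g b ⬝ᵥ v 3])
  map_add' u v := by
    refine Prod.ext ?_ (Prod.ext ?_ ?_)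
    · funext i
      simp [dotProduct_add]
    · funext i
      simp [dotProduct_add]
    · funext i
      fin_cases i
      · simp [dotProduct_add]; ring
      · simp [dotProduct_add]; ring
  map_smul' r v := by
    refine Prod.ext ?_ (Prod.ext ?_ ?_)
    · funext i
      simp [dotProduct_smul]
    · funext i
      simp [dotProduct_smul]
    · funext i
      fin_cases i
      · simp [dotProduct_smul]; ring
      · simp [dotProduct_smul]; ring

/-- The explicit form of the directions killed by trivial and cut functionals. -/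
def Z4 (a a' b b' : T) : Submodule F (V4 K) :=
  δ.W4 a a' b b' ⊓ LinearMap.ker (δ.phi4 a a' b b')

lemma mem_Z4 {a a' b b' : T} {v : V4 K} : v ∈ δ.Z4 a a' b b' ↔ v ∈ δ.W4 a a' b b' ∧
    (∀ i, δ.g a ⬝ᵥ v i = 0) ∧ (∀ i, δ.g a' ⬝ᵥ v i = 0) ∧
    δ.g b' ⬝ᵥ v 0 = δ.g b ⬝ᵥ v 1 ∧ δ.g b' ⬝ᵥ v 2 = δ.g b ⬝ᵥ v 3 := by
  unfold Z4
  rw [Submodule.mem_inf, LinearMap.mem_ker]
  refine and_congr_right fun _ => ?_
  unfold phi4
  simp only [LinearMap.coe_mk, AddHom.coe_mk, Prod.mk_eq_zero, funext_iff, Pi.zero_apply,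
    Fin.forall_fin_two, Matrix.cons_val_zero, Matrix.cons_val_one, sub_eq_zero]

lemma card_W4_le (a a' b b' : T) :
    ((carr (δ.W4 a a' b b')).card : ℝ) ≤ 2521 ^ 10 * (carr (δ.Z4 a a' b b')).card := by
  have h := card_le_inf_ker (δ.W4 a a' b b') (δ.phi4 a a' b b')
  have e : Fintype.card ((Fin 4 → F) × (Fin 4 → F) × (Fin 2 → F)) = 2521 ^ 10 := by
    rw [Fintype.card_prod, Fintype.card_prod, Fintype.card_fun, Fintype.card_fun, ZMod.card]
    simp only [Fintype.card_fin]
    norm_num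
  rw [e] at h
  exact_mod_cast h

lemma card_W4_univ (a a' b b' : T) :
    ((carr (δ.W4 a a' b b')).card : ℝ) ≤ 2521 ^ (4 * Fintype.card K) := by
  have h : (carr (δ.W4 a a' b b')).card ≤ Fintype.card (V4 K) := Finset.card_le_univ _
  have e : Fintype.card (V4 K) = 2521 ^ (4 * Fintype.card K) := by
    rw [Fintype.card_fun, Fintype.card_fun, ZMod.card, Fintype.card_fin, ← pow_mul]
    congr 1
    ring
  rw [e] at h
  exact_mod_cast h

lemma W4_swap (a a' b b' : T) :
    (δ.W4 b b' a a').comap (sw4 K : V4 K →ₗ[F] V4 K) = δ.W4 a a' b b' := by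
  ext v
  rw [Submodule.mem_comap]
  change sw4 K v ∈ δ.W4 b b' a a' ↔ _
  rw [mem_W4, mem_W4, sw4_zero, sw4_one, sw4_two, sw4_three]
  simp only [or_comm (a := _ ∈ δ.U b), or_comm (a := _ ∈ δ.U b')]
  tauto

/-- The four type vectors are independent off the zero rows (in the form needed). -/
def Ind4 (a a' b b' : T) : Prop := ∀ s s' : F, ∃ z : K → F,
  (∀ c w, w ∈ δ.U c → z w = 0) ∧ δ.g a ⬝ᵥ z = 0 ∧ δ.g a' ⬝ᵥ z = 0 ∧
    δ.g b ⬝ᵥ z = s ∧ δ.g b' ⬝ᵥ z = s'

lemma mem_sup4 {a a' b b' : T} (hI : δ.Ind4 a a' b b') {v : V4 K} (h1 : v ∈ δ.W4 a a' b b')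
    (h2 : δ.g b' ⬝ᵥ v 0 = δ.g b ⬝ᵥ v 1) (h3 : δ.g b' ⬝ᵥ v 2 = δ.g b ⬝ᵥ v 3)
    (h4 : δ.g a' ⬝ᵥ v 0 = δ.g a ⬝ᵥ v 2) (h5 : δ.g a' ⬝ᵥ v 1 = δ.g a ⬝ᵥ v 3) :
    v ∈ δ.Z4 a a' b b' ⊔ (δ.Z4 b b' a a').comap (sw4 K : V4 K →ₗ[F] V4 K) := by
  choose z hz0 hz1 hz2 hz3 hz4 using fun i => hI (δ.g b ⬝ᵥ v i) (δ.g b' ⬝ᵥ v i)
  rw [Submodule.mem_sup]
  refine ⟨z, ?_, v - z, ?_, by abel⟩
  · rw [mem_Z4, mem_W4]
    refine ⟨⟨?_, ?_, ?_, ?_⟩, hz1, hz2, ?_, ?_⟩
    · rintro w (hw | hw) <;> exact hz0 _ _ _ hw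
    · rintro w (hw | hw) <;> exact hz0 _ _ _ hw
    · rintro w (hw | hw) <;> exact hz0 _ _ _ hw
    · rintro w (hw | hw) <;> exact hz0 _ _ _ hw
    · rw [hz4, hz3, h2]
    · rw [hz4, hz3, h3]
  · rw [Submodule.mem_comap]
    change sw4 K (v - z) ∈ _
    rw [mem_Z4]
    refine ⟨?_, fun i => ?_, fun i => ?_, ?_, ?_⟩
    · have : v - z ∈ δ.W4 a a' b b' := by
        refine Submodule.sub_mem _ h1 ?_
        rw [mem_W4]
        refine ⟨?_, ?_, ?_, ?_⟩ <;> rintro w (hw | hw) <;> exact hz0 _ _ _ hw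
      rw [← W4_swap, Submodule.mem_comap] at this
      exact this
    · fin_cases i
      · change δ.g b ⬝ᵥ (v - z) 0 = 0
        rw [Pi.sub_apply, dotProduct_sub, hz3, sub_self]
      · change δ.g b ⬝ᵥ (v - z) 2 = 0
        rw [Pi.sub_apply, dotProduct_sub, hz3, sub_self]
      · change δ.g b ⬝ᵥ (v - z) 1 = 0
        rw [Pi.sub_apply, dotProduct_sub, hz3, sub_self]
      · change δ.g b ⬝ᵥ (v - z) 3 = 0
        rw [Pi.sub_apply, dotProduct_sub, hz3, sub_self]
    · fin_cases i
      · change δ.g b' ⬝ᵥ (v - z) 0 = 0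
        rw [Pi.sub_apply, dotProduct_sub, hz4, sub_self]
      · change δ.g b' ⬝ᵥ (v - z) 2 = 0
        rw [Pi.sub_apply, dotProduct_sub, hz4, sub_self]
      · change δ.g b' ⬝ᵥ (v - z) 1 = 0
        rw [Pi.sub_apply, dotProduct_sub, hz4, sub_self]
      · change δ.g b' ⬝ᵥ (v - z) 3 = 0
        rw [Pi.sub_apply, dotProduct_sub, hz4, sub_self]
    · change δ.g a' ⬝ᵥ (v - z) 0 = δ.g a ⬝ᵥ (v - z) 2
      rw [Pi.sub_apply, Pi.sub_apply, dotProduct_sub, dotProduct_sub, hz1, hz2, h4]
    · change δ.g a' ⬝ᵥ (v - z) 1 = δ.g a ⬝ᵥ (v - z) 3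
      rw [Pi.sub_apply, Pi.sub_apply, dotProduct_sub, dotProduct_sub, hz1, hz2, h5]

/-- Coordinate functionals at zero rows are trivial. -/
lemma Zab_le_W4 (a a' b b' : T) : δ.Zab a a' b b' ≤ δ.W4 a a' b b' := by
  intro m hm
  have hz : ∀ z, TrivPsi δ a a' b b' z → ∑ i, z i ⬝ᵥ m i = 0 := hm
  have hU : ∀ (c : T) (v : K → F) (w : K), (w ∈ δ.U c ∨ w ∈ δ.U b ∨ w ∈ δ.U b') →
      w ∈ δ.U c → sm (Pi.single w 1) v ∈ δ.Nn c := fun c v w _ hw =>
    Submodule.subset_span (Or.inl (Or.inr ⟨w, hw, v, rfl⟩))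
  have hC : ∀ (c b : T) (w : K), w ∈ δ.U b → sm (Pi.single w 1) (δ.g b) ∈ δ.Nn c :=
    fun c b w hw => Submodule.subset_span (Or.inl (Or.inl ⟨b, w, hw, rfl⟩))
  have hN : ∀ (c b : T) (w : K), (w ∈ δ.U c ∨ w ∈ δ.U b) →
      sm (Pi.single w 1) (δ.g b) ∈ δ.Nn c := by
    rintro c b w (hw | hw)
    · exact Submodule.subset_span (Or.inl (Or.inr ⟨w, hw, _, rfl⟩))
    · exact hC c b w hw
  have h0 : ∀ u : K → F, sm (0 : K → F) u = 0 := fun u => by
    unfold sm; simp [Matrix.zero_vecMulVec, Matrix.vecMulVec_zero]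
  have e1 : ∀ (z : V4 K), (smm ![z 0, z 1] ![δ.g b, δ.g b'] ∈ δ.Nn a) →
      (smm ![z 2, z 3] ![δ.g b, δ.g b'] ∈ δ.Nn a') → TrivPsi δ a a' b b' z := by
    intro z h h'
    exact ⟨⟨0, 0, by simpa using h⟩, ⟨0, 0, by simpa using h'⟩⟩
  have e2 : ∀ (u v : K → F), smm ![u, v] ![δ.g b, δ.g b'] = sm u (δ.g b) + sm v (δ.g b') := by
    intro u v
    unfold smm
    rw [Fin.sum_univ_two]
    rfl
  rw [mem_W4]
  refine ⟨fun w hw => ?_, fun w hw => ?_, fun w hw => ?_, fun w hw => ?_⟩
  · have := hz ![Pi.single w 1, 0, 0, 0] (e1 _ (by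
      change smm ![Pi.single w 1, 0] ![δ.g b, δ.g b'] ∈ _
      rw [e2, h0, add_zero]; exact hN a b w hw) (by
      change smm ![0, 0] ![δ.g b, δ.g b'] ∈ _
      rw [e2, h0, h0, add_zero]; exact Submodule.zero_mem _))
    simpa [Fin.sum_univ_four, single_dotProduct] using this
  · have := hz ![0, Pi.single w 1, 0, 0] (e1 _ (by
      change smm ![0, Pi.single w 1] ![δ.g b, δ.g b'] ∈ _
      rw [e2, h0, zero_add]; exact hN a b' w hw) (by
      change smm ![0, 0] ![δ.g b, δ.g b'] ∈ _
      rw [e2, h0, h0, add_zero]; exact Submodule.zero_mem _))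
    simpa [Fin.sum_univ_four, single_dotProduct] using this
  · have := hz ![0, 0, Pi.single w 1, 0] (e1 _ (by
      change smm ![0, 0] ![δ.g b, δ.g b'] ∈ _
      rw [e2, h0, h0, add_zero]; exact Submodule.zero_mem _) (by
      change smm ![Pi.single w 1, 0] ![δ.g b, δ.g b'] ∈ _
      rw [e2, h0, add_zero]; exact hN a' b w hw))
    simpa [Fin.sum_univ_four, single_dotProduct] using this
  · have := hz ![0, 0, 0, Pi.single w 1] (e1 _ (by
      change smm ![0, 0] ![δ.g b, δ.g b'] ∈ _
      rw [e2, h0, h0, add_zero]; exact Submodule.zero_mem _) (by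
      change smm ![0, Pi.single w 1] ![δ.g b, δ.g b'] ∈ _
      rw [e2, h0, zero_add]; exact hN a' b' w hw))
    simpa [Fin.sum_univ_four, single_dotProduct] using this

variable {δ}

lemma Form.mem_Com {a : T} {ι : Bool} {B : Matrix K K F} (hB : B ∈ δ.Form a ι) : B ∈ δ.Com := by
  have h1 : B - (if ι then δ.B0 a else 0) ∈ δ.Dir a := hB
  have h2 : (if ι then δ.B0 a else 0) ∈ δ.Com := by
    split_ifs
    · exact δ.B0_mem_Com a
    · exact Submodule.zero_mem _
  have h3 := Submodule.add_mem _ h1.1 h2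
  rwa [sub_add_cancel] at h3

lemma Form.row {a : T} {ι : Bool} {B : Matrix K K F} (hB : B ∈ δ.Form a ι) {w : K}
    (hw : w ∈ δ.U a) (v : K) : B w v = 0 := by
  have h1 : B - (if ι then δ.B0 a else 0) ∈ δ.Dir a := hB
  have h2 := h1.2.1 w hw v
  rw [Matrix.sub_apply, sub_eq_zero] at h2
  rw [h2]
  split_ifs
  · exact δ.B0_row a a hw v
  · rfl

lemma Form.row_mulVec {a : T} {ι : Bool} {B : Matrix K K F} (hB : B ∈ δ.Form a ι) {w : K}
    (hw : w ∈ δ.U a) (v : K → F) : (B.mulVec v) w = 0 := by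
  unfold Matrix.mulVec dotProduct
  refine Finset.sum_eq_zero fun j _ => ?_
  change B w j * v j = 0
  rw [Form.row hB hw, zero_mul]

/-- The structure of test values. -/
lemma tv_struct {a a' : T} {ι ι' : Bool} {B B' : Matrix K K F} (hB : B ∈ δ.Form a ι)
    (hB' : B' ∈ δ.Form a' ι') (b b' : T) : tv (δ.g b) (δ.g b') B B' ∈ δ.W4 a a' b b' ∧
      δ.g b' ⬝ᵥ tv (δ.g b) (δ.g b') B B' 0 = δ.g b ⬝ᵥ tv (δ.g b) (δ.g b') B B' 1 ∧
      δ.g b' ⬝ᵥ tv (δ.g b) (δ.g b') B B' 2 = δ.g b ⬝ᵥ tv (δ.g b) (δ.g b') B B' 3 := by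
  refine ⟨?_, ?_, ?_⟩
  · rw [mem_W4]
    refine ⟨?_, ?_, ?_, ?_⟩
    · rintro w (hw | hw)
      · exact Form.row_mulVec hB hw _
      · exact (Form.mem_Com hB).2 b w hw
    · rintro w (hw | hw)
      · exact Form.row_mulVec hB hw _
      · exact (Form.mem_Com hB).2 b' w hw
    · rintro w (hw | hw)
      · exact Form.row_mulVec hB' hw _
      · exact (Form.mem_Com hB').2 b w hw
    · rintro w (hw | hw)
      · exact Form.row_mulVec hB' hw _
      · exact (Form.mem_Com hB').2 b' w hw
  · exact symm_dot (Form.mem_Com hB).1 _ _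
  · exact symm_dot (Form.mem_Com hB').1 _ _

lemma tlaw_nonneg {w : Matrix K K F → Matrix K K F → ℝ} (hw : ∀ B B', 0 ≤ w B B') (g g' : K → F)
    (m : V4 K) : 0 ≤ tlaw w g g' m :=
  Finset.sum_nonneg fun B _ => Finset.sum_nonneg fun B' _ => by
    split_ifs; exacts [hw _ _, le_rfl]

lemma sum_tlaw (w : Matrix K K F → Matrix K K F → ℝ) (g g' : K → F) :
    ∑ m, tlaw w g g' m = ∑ B, ∑ B', w B B' := by
  unfold tlaw
  rw [Finset.sum_comm]
  refine Finset.sum_congr rfl fun B _ => ?_
  rw [Finset.sum_comm]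
  refine Finset.sum_congr rfl fun B' _ => ?_
  rw [Finset.sum_ite_eq Finset.univ (tv g g' B B') fun _ => w B B', if_pos (Finset.mem_univ _)]

lemma exists_of_tlaw {w : Matrix K K F → Matrix K K F → ℝ} {g g' : K → F} {m : V4 K}
    (h : tlaw w g g' m ≠ 0) : ∃ B B', w B B' ≠ 0 ∧ tv g g' B B' = m := by
  obtain ⟨B, -, hB⟩ := Finset.exists_ne_zero_of_sum_ne_zero h
  obtain ⟨B', -, hB'⟩ := Finset.exists_ne_zero_of_sum_ne_zero hB
  by_cases h1 : tv g g' B B' = m
  · rw [if_pos h1] at hB'
    exact ⟨B, B', hB', h1⟩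
  · rw [if_neg h1] at hB'
    exact absurd rfl hB'

variable (δ)

/-- Joint values onto `Y × Y`. -/
def JO (a b : T) : Prop := ∀ u ∈ Y, ∀ v ∈ Y, ∃ t ∈ δ.E, δ.g a t = u ∧ δ.g b t = v

lemma exists_dsel {a a' b b' : T} (h1 : δ.JO a' b') (h2 : δ.JO a' b) (h3 : δ.JO a b')
    (h4 : δ.JO a b) (s : Fin 4 → F) (hs : ∀ i, s i ∉ Y) :
    ∃ d : V4 K, (∀ i, ∃ t ∈ δ.E, ∃ u ∈ Y, d i = Pi.single t u) ∧
      δ.g a' ⬝ᵥ d 0 - δ.g a ⬝ᵥ d 2 = s 0 ∧ δ.g a' ⬝ᵥ d 1 - δ.g a ⬝ᵥ d 3 = s 1 ∧
      δ.g b ⬝ᵥ d 1 - δ.g b' ⬝ᵥ d 0 = s 2 ∧ δ.g b ⬝ᵥ d 3 - δ.g b' ⬝ᵥ d 2 = s 3 := by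
  obtain ⟨t1, t2, t3, t4, e1, e2, e3, e4⟩ := solve4 (κ := δ.E) (fun t => δ.g a t)
    (fun t => δ.g a' t) (fun t => δ.g b t) (fun t => δ.g b' t)
    (fun u hu w hw => by
      obtain ⟨t, ht, h⟩ := h1 u hu w hw
      exact ⟨⟨t, ht⟩, h⟩)
    (fun u hu w hw => by
      obtain ⟨t, ht, h⟩ := h2 u hu w hw
      exact ⟨⟨t, ht⟩, h⟩)
    (fun u hu w hw => by
      obtain ⟨t, ht, h⟩ := h3 u hu w hw
      exact ⟨⟨t, ht⟩, h⟩)
    (fun u hu w hw => by
      obtain ⟨t, ht, h⟩ := h4 u hu w hw
      exact ⟨⟨t, ht⟩, h⟩) (hs 0) (hs 1) (hs 2) (hs 3)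
  refine ⟨![Pi.single (t1 : K) 1, Pi.single (t2 : K) 1, Pi.single (t3 : K) 1,
    Pi.single (t4 : K) 1], ?_, ?_, ?_, ?_, ?_⟩
  · intro i
    fin_cases i
    · exact ⟨t1, t1.2, 1, one_mem_Y, rfl⟩
    · exact ⟨t2, t2.2, 1, one_mem_Y, rfl⟩
    · exact ⟨t3, t3.2, 1, one_mem_Y, rfl⟩
    · exact ⟨t4, t4.2, 1, one_mem_Y, rfl⟩
  · simpa using e1
  · simpa using e2
  · simpa using e3
  · simpa using e4

/-- **Overlap for a general design.** -/
theorem overlap4 {a a' b b' : T} (hI : δ.Ind4 a a' b b')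
    (h1 : δ.JO a' b') (h2 : δ.JO a' b) (h3 : δ.JO a b') (h4 : δ.JO a b)
    (hZ : δ.Z4 a a' b b' ≤ δ.Zab a a' b b') (hZ' : δ.Z4 b b' a a' ≤ δ.Zab b b' a a')
    {ι₁ ι₁' ι₂ ι₂' : Bool} {Λ M : ℝ} {w w' : Matrix K K F → Matrix K K F → ℝ}
    (hw : PLaw δ a a' ι₁ ι₁' Λ M w) (hw' : PLaw δ b b' ι₂ ι₂' Λ M w') {ε s s' : ℝ}
    (ht : tdist δ a a' w (b, b') ≤ ε) (ht' : tdist δ b b' w' (a, a') ≤ ε) (hs' : 0 ≤ s')
    (hu : s ≤ ∑ m, (if UncutT (δ.g a) (δ.g a') m then tlaw w (δ.g b) (δ.g b') m else 0))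
    (hu' : s' ≤ ∑ n, (if UncutT (δ.g b) (δ.g b') n then tlaw w' (δ.g a) (δ.g a') n else 0)) :
    (s * s' / 4 - 2521 ^ 14 * ε) / 2521 ^ (4 * Fintype.card K) ≤
      ∑ m, ∑ n, (if ConfT δ m n then tlaw w (δ.g b) (δ.g b') m * tlaw w' (δ.g a) (δ.g a') n
        else 0) := by
  set P : V4 K → ℝ := tlaw w (δ.g b) (δ.g b') with hP
  set Q' : V4 K → ℝ := tlaw w' (δ.g a) (δ.g a') with hQ'
  set Q : V4 K → ℝ := fun v => Q' (sw4 K v) with hQ
  have hP0 : ∀ m, 0 ≤ P m := fun m => tlaw_nonneg hw.nonneg _ _ m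
  have hQ'0 : ∀ m, 0 ≤ Q' m := fun m => tlaw_nonneg hw'.nonneg _ _ m
  have hQ0 : ∀ m, 0 ≤ Q m := fun m => hQ'0 _
  have hre : ∀ f : V4 K → ℝ, ∑ v, f (sw4 K v) = ∑ v, f v := fun f =>
    Fintype.sum_equiv (sw4 K).toEquiv _ _ fun v => rfl
  have hPs : ∑ m, P m = 1 := (sum_tlaw _ _ _).trans hw.sum_one
  have hQs : ∑ m, Q m = 1 := (hre Q').trans ((sum_tlaw _ _ _).trans hw'.sum_one)
  have hUA : δ.Zab a a' b b' ≤ δ.W4 a a' b b' := δ.Zab_le_W4 a a' b b'
  have hWA : (δ.Zab b b' a a').comap (sw4 K : V4 K →ₗ[F] V4 K) ≤ δ.W4 a a' b b' := by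
    rw [← W4_swap]
    exact Submodule.comap_mono (δ.Zab_le_W4 b b' a a')
  have hRU : ((carr (δ.W4 a a' b b')).card : ℝ) ≤ 2521 ^ 10 * (carr (δ.Zab a a' b b')).card := by
    refine (δ.card_W4_le a a' b b').trans ?_
    have : (carr (δ.Z4 a a' b b')).card ≤ (carr (δ.Zab a a' b b')).card :=
      Finset.card_le_card fun x hx => mem_carr.mpr (hZ (mem_carr.mp hx))
    exact mul_le_mul_of_nonneg_left (by exact_mod_cast this) (by positivity)
  have hRW : ((carr (δ.W4 a a' b b')).card : ℝ) ≤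
      2521 ^ 10 * (carr ((δ.Zab b b' a a').comap (sw4 K : V4 K →ₗ[F] V4 K))).card := by
    rw [← W4_swap, card_carr_comap', card_carr_comap']
    refine (δ.card_W4_le b b' a a').trans ?_
    have : (carr (δ.Z4 b b' a a')).card ≤ (carr (δ.Zab b b' a a')).card :=
      Finset.card_le_card fun x hx => mem_carr.mpr (hZ' (mem_carr.mp hx))
    exact mul_le_mul_of_nonneg_left (by exact_mod_cast this) (by positivity)
  have heP : ∑ v, |P v - avg (δ.Zab a a' b b') P v| ≤ ε := ht
  have heQ : ∑ v, |Q v - avg ((δ.Zab b b' a a').comap (sw4 K : V4 K →ₗ[F] V4 K)) Q v| ≤ ε := by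
    refine le_trans (le_of_eq ?_) ht'
    unfold tdist
    rw [← hre fun v => |tlaw w' (δ.g a) (δ.g a') v -
      avg (δ.Zab b b' a a') (tlaw w' (δ.g a) (δ.g a')) v|]
    refine Finset.sum_congr rfl fun v _ => ?_
    rw [hQ, avg_comap']
  -- the selected differences
  choose! sel hsel hsel0 hsel1 hsel2 hsel3 using δ.exists_dsel h1 h2 h3 h4
  obtain ⟨D, hD⟩ : ∃ D : Finset (V4 K), D = (Finset.univ.filter
    fun s : Fin 4 → F => ∀ i, s i ∉ Y).image sel := ⟨_, rfl⟩
  have hDcard : (D.card : ℝ) ≤ 2521 ^ 4 := by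
    have h : D.card ≤ Fintype.card (Fin 4 → F) := by
      rw [hD]
      exact Finset.card_image_le.trans (Finset.card_le_univ _)
    have e : Fintype.card (Fin 4 → F) = 2521 ^ 4 := by
      rw [Fintype.card_fun, ZMod.card, Fintype.card_fin]
    rw [e] at h
    exact_mod_cast h
  have hε : 0 ≤ ε := (Finset.sum_nonneg fun v _ => abs_nonneg _).trans heP
  obtain ⟨fL, hfL⟩ : ∃ fL : V4 K → V4 K → ℝ, ∀ m n, fL m n =
      (if UncutT (δ.g a) (δ.g a') m then P m else 0) *
        (if UncutT (δ.g b) (δ.g b') (sw4 K n) then Q n else 0) := ⟨_, fun _ _ => rfl⟩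
  obtain ⟨fR, hfR⟩ : ∃ fR : V4 K → V4 K → ℝ, ∀ m n, fR m n =
      if ConfT δ m (sw4 K n) then P m * Q n else 0 := ⟨_, fun _ _ => rfl⟩
  have key := overlap_abs' (δ.Zab a a' b b') ((δ.Zab b b' a a').comap (sw4 K : V4 K →ₗ[F] V4 K))
    (δ.W4 a a' b b') hUA hWA hP0 hQ0 hPs.le hQs.le heP heQ hRU hRW D fL fR
    (fun m n => by
      rw [hfL]
      refine mul_le_mul ?_ ?_ ?_ (hP0 m)
      · split_ifs
        exacts [le_rfl, hP0 m]
      · split_ifs
        exacts [le_rfl, hQ0 n]
      · split_ifs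
        exacts [hQ0 n, le_rfl])
    (fun m n => by
      rw [hfL]
      by_cases hz : P m * Q n = 0
      · left
        rcases mul_eq_zero.1 hz with h | h
        · rw [h, ite_self, zero_mul]
        · rw [h, ite_self, mul_zero]
      by_cases hcu1 : UncutT (δ.g a) (δ.g a') m
      swap
      · left
        rw [if_neg hcu1, zero_mul]
      by_cases hcu2 : UncutT (δ.g b) (δ.g b') (sw4 K n)
      swap
      · left
        rw [if_neg hcu2, mul_zero]
      right
      have hPm : P m ≠ 0 := left_ne_zero_of_mul hz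
      have hQn : Q' (sw4 K n) ≠ 0 := right_ne_zero_of_mul hz
      obtain ⟨B, B', hB, hBm⟩ := exists_of_tlaw hPm
      obtain ⟨C, C', hC, hCn⟩ := exists_of_tlaw hQn
      obtain ⟨k1, k2, k3⟩ := tv_struct (hw.supp B B' hB).1 (hw.supp B B' hB).2 b b'
      obtain ⟨l1, l2, l3⟩ := tv_struct (hw'.supp C C' hC).1 (hw'.supp C C' hC).2 a a'
      rw [hBm] at k1 k2 k3
      rw [hCn] at l1 l2 l3
      rw [sw4_zero, sw4_one] at l2
      rw [sw4_two, sw4_three] at l3
      obtain ⟨c1, c2⟩ := hcu1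
      obtain ⟨c3, c4⟩ := hcu2
      rw [sw4_zero, sw4_two] at c3
      rw [sw4_one, sw4_three] at c4
      obtain ⟨t, ht⟩ : ∃ t : Fin 4 → F, t = ![δ.g a' ⬝ᵥ m 0 - δ.g a ⬝ᵥ m 2,
        δ.g a' ⬝ᵥ m 1 - δ.g a ⬝ᵥ m 3, δ.g b' ⬝ᵥ n 0 - δ.g b ⬝ᵥ n 1,
        δ.g b' ⬝ᵥ n 2 - δ.g b ⬝ᵥ n 3] := ⟨_, rfl⟩
      have t0 : t 0 = δ.g a' ⬝ᵥ m 0 - δ.g a ⬝ᵥ m 2 := by rw [ht]; rfl
      have t1 : t 1 = δ.g a' ⬝ᵥ m 1 - δ.g a ⬝ᵥ m 3 := by rw [ht]; rfl
      have t2 : t 2 = δ.g b' ⬝ᵥ n 0 - δ.g b ⬝ᵥ n 1 := by rw [ht]; rfl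
      have t3 : t 3 = δ.g b' ⬝ᵥ n 2 - δ.g b ⬝ᵥ n 3 := by rw [ht]; rfl
      have htY : ∀ i, t i ∉ Y := by
        intro i
        fin_cases i
        · exact t0 ▸ c1
        · exact t1 ▸ c2
        · exact t2 ▸ c3
        · exact t3 ▸ c4
      have hst : sel t ∈ D := by
        rw [hD, Finset.mem_image]
        refine ⟨t, ?_, rfl⟩
        simp only [Finset.mem_filter, Finset.mem_univ, true_and]
        exact htY
      refine ⟨sel t, hst, ?_⟩
      have q0 := hsel0 t htY
      have q1 := hsel1 t htY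
      have q2 := hsel2 t htY
      have q3 := hsel3 t htY
      rw [t0] at q0
      rw [t1] at q1
      rw [t2] at q2
      rw [t3] at q3
      have hmem : m - n - sel t ∈ δ.Z4 a a' b b' ⊔
          (δ.Z4 b b' a a').comap (sw4 K : V4 K →ₗ[F] V4 K) := by
        refine δ.mem_sup4 hI ?_ ?_ ?_ ?_ ?_
        · refine Submodule.sub_mem _ (Submodule.sub_mem _ k1 ?_) ?_
          · rw [← W4_swap, Submodule.mem_comap]
            exact l1
          · have hz0 : ∀ i (c : T) (u : K), u ∈ δ.U c → sel t i u = 0 := by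
              intro i c u hu
              obtain ⟨e, he, y, -, hy⟩ := hsel t htY i
              rw [hy, Pi.single_apply, if_neg]
              rintro rfl
              exact δ.hU c _ hu he
            rw [mem_W4]
            refine ⟨?_, ?_, ?_, ?_⟩ <;> rintro u (hu | hu) <;> exact hz0 _ _ _ hu
        · simp only [Pi.sub_apply, dotProduct_sub]
          linear_combination k2 + q2
        · simp only [Pi.sub_apply, dotProduct_sub]
          linear_combination k3 + q3
        · simp only [Pi.sub_apply, dotProduct_sub]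
          linear_combination -l2 - q0
        · simp only [Pi.sub_apply, dotProduct_sub]
          linear_combination -l3 - q1
      exact (sup_le_sup hZ (Submodule.comap_mono hZ')) hmem)
    (fun m n => by
      rw [hfR]
      split_ifs
      exacts [mul_nonneg (hP0 m) (hQ0 n), le_rfl])
    (fun m n hmn => by
      rw [hfR]
      have hc : ConfT δ m (sw4 K n) := by
        rw [hD, Finset.mem_image] at hmn
        obtain ⟨t, ht, hmn⟩ := hmn
        rw [Finset.mem_filter] at ht
        have hd := hsel t ht.2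
        rw [hmn] at hd
        exact ⟨hd 0, hd 1, hd 2, hd 3⟩
      exact (if_pos hc).ge)
  -- identification of both sides
  have eL : s * s' ≤ ∑ m, ∑ n, fL m n := by
    have e1 : ∑ m, ∑ n, fL m n = (∑ m, (if UncutT (δ.g a) (δ.g a') m then P m else 0)) *
        ∑ n, (if UncutT (δ.g b) (δ.g b') (sw4 K n) then Q n else 0) := by
      rw [Finset.sum_mul_sum]
      exact Finset.sum_congr rfl fun m _ => Finset.sum_congr rfl fun n _ => hfL m n
    have e2 : ∑ n, (if UncutT (δ.g b) (δ.g b') (sw4 K n) then Q n else 0) =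
        ∑ n, (if UncutT (δ.g b) (δ.g b') n then Q' n else 0) :=
      hre fun n => if UncutT (δ.g b) (δ.g b') n then Q' n else 0
    rw [e1, e2]
    refine mul_le_mul hu hu' hs' (Finset.sum_nonneg fun m _ => ?_)
    split_ifs
    exacts [hP0 _, le_rfl]
  have eR : ∑ m, ∑ n, fR m n = ∑ m, ∑ n, (if ConfT δ m n then P m * Q' n else 0) := by
    refine Finset.sum_congr rfl fun m _ => ?_
    rw [← hre fun n => if ConfT δ m n then P m * Q' n else 0]
    exact Finset.sum_congr rfl fun n _ => hfR m n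
  rw [eR] at key
  -- conclusion
  have hA := carr_card_pos (δ.W4 a a' b b')
  have hAu := δ.card_W4_univ a a' b b'
  have hR0 : 0 ≤ ∑ m, ∑ n, (if ConfT δ m n then P m * Q' n else 0) :=
    Finset.sum_nonneg fun m _ => Finset.sum_nonneg fun n _ => by
      split_ifs; exacts [mul_nonneg (hP0 _) (hQ'0 _), le_rfl]
  have hpow : (0 : ℝ) < 2521 ^ (4 * Fintype.card K) := by positivity
  by_cases hneg : s * s' / 4 - 2521 ^ 14 * ε ≤ 0
  · exact (div_nonpos_of_nonpos_of_nonneg hneg hpow.le).trans hR0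
  · push Not at hneg
    refine le_trans ?_ key
    have herr : (D.card : ℝ) * 2521 ^ 10 * (ε * 1 + ε * 1) / 2 ≤ 2521 ^ 14 * ε := by
      have h10 : (0 : ℝ) ≤ 2521 ^ 10 * ε := mul_nonneg (by positivity) hε
      have := mul_le_mul_of_nonneg_right hDcard h10
      calc (D.card : ℝ) * 2521 ^ 10 * (ε * 1 + ε * 1) / 2 = D.card * (2521 ^ 10 * ε) := by ring
        _ ≤ 2521 ^ 4 * (2521 ^ 10 * ε) := this
        _ = 2521 ^ 14 * ε := by ring
    have h3 : s * s' / 4 - 2521 ^ 14 * ε ≤
        (∑ m, ∑ n, fL m n) / 4 - (D.card : ℝ) * 2521 ^ 10 * (ε * 1 + ε * 1) / 2 := by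
      linarith only [herr, eL]
    exact div_le_div₀ (hneg.le.trans h3) h3 hA hAu

end Design

end Vale.Agent.P060.HW
end
end

section

/-! Counting lemma without quadratic parts. -/

namespace Vale.Agent.P060.HW

open Module Submodule

section Squares

variable {F ι : Type*} [Field F] [Fintype ι] [DecidableEq ι] [Fintype F]

omit [DecidableEq ι] [Fintype F] in
theorem sq_mulVec {j : ℕ} (u : Fin j → ι → F) (v : ι → F) :
    (∑ l, Matrix.vecMulVec (u l) (u l)).mulVec v = ∑ l, (u l ⬝ᵥ v) • u l := by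
  rw [Matrix.sum_mulVec]
  refine Finset.sum_congr rfl fun l _ => ?_
  ext i
  simp only [Matrix.mulVec, dotProduct, Matrix.vecMulVec_apply, Pi.smul_apply, smul_eq_mul,
    Finset.sum_mul]
  exact Finset.sum_congr rfl fun m _ => by ring

omit [Fintype ι] [DecidableEq ι] [Fintype F] in
theorem indMod_bot {j : ℕ} {u : Fin j → ι → F} (hu : LinearIndependent F u) :
    IndMod (⊥ : Submodule F (ι → F)) u := by
  intro c hc
  rw [Submodule.mem_bot] at hc
  exact funext (Fintype.linearIndependent_iff.mp hu c hc)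

open Classical in
/-- Independent sequences from a set. -/
theorem card_indep_ge (S : Finset (ι → F)) (J : ℕ) : ∀ j, j ≤ J →
    (S.card - Fintype.card F ^ J) ^ j ≤
      (Finset.univ.filter fun u : Fin j → ι → F => (∀ l, u l ∈ S) ∧ LinearIndependent F u).card := by
  intro j
  induction j with
  | zero =>
    intro _
    rw [pow_zero]
    refine Nat.one_le_iff_ne_zero.mpr (Finset.card_ne_zero.mpr ⟨Fin.elim0, ?_⟩)
    exact Finset.mem_filter.mpr ⟨Finset.mem_univ _, fun l => l.elim0, linearIndependent_empty_type⟩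
  | succ j ih =>
    intro hj
    have ih' := ih (Nat.le_of_succ_le hj)
    set A := Finset.univ.filter fun u : Fin j → ι → F =>
      (∀ l, u l ∈ S) ∧ LinearIndependent F u with hA
    -- the extensions
    let X : Finset ((_ : Fin j → ι → F) × (ι → F)) :=
      A.sigma fun u => S.filter fun x => x ∉ span F (Set.range u)
    have h1 : A.card * (S.card - Fintype.card F ^ J) ≤ X.card := by
      rw [Finset.card_sigma, ← smul_eq_mul]
      refine Finset.card_nsmul_le_sum _ _ _ fun u _ => ?_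
      have h2 : (Finset.univ.filter fun x => x ∈ span F (Set.range u)).card ≤
          Fintype.card F ^ J := by
        refine (card_sub _ (s := j) ?_).trans (Nat.pow_le_pow_right Fintype.card_pos
          (Nat.le_of_succ_le hj))
        exact (finrank_range_le_card _).trans (by simp)
      have h3 : S.card ≤ (S.filter fun x => x ∉ span F (Set.range u)).card +
          (Finset.univ.filter fun x => x ∈ span F (Set.range u)).card := by
        rw [← Finset.card_filter_add_card_filter_not (s := S)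
          (fun x => x ∉ span F (Set.range u))]
        refine Nat.add_le_add_left (Finset.card_le_card fun x hx => ?_) _
        rw [Finset.mem_filter, not_not] at hx
        exact Finset.mem_filter.mpr ⟨Finset.mem_univ _, hx.2⟩
      omega
    have h4 : X.card ≤ (Finset.univ.filter fun u : Fin (j + 1) → ι → F =>
        (∀ l, u l ∈ S) ∧ LinearIndependent F u).card := by
      refine Finset.card_le_card_of_injOn (fun q => (Fin.cons q.2 q.1 : Fin (j + 1) → ι → F))
        ?_ ?_
      · rintro ⟨u, x⟩ hq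
        obtain ⟨hu, hx⟩ := Finset.mem_sigma.mp (Finset.mem_coe.mp hq)
        obtain ⟨-, hu1, hu2⟩ := Finset.mem_filter.mp hu
        obtain ⟨hx1, hx2⟩ := Finset.mem_filter.mp hx
        refine Finset.mem_coe.mpr (Finset.mem_filter.mpr ⟨Finset.mem_univ _, ?_, ?_⟩)
        · intro l
          refine Fin.cases ?_ (fun l => ?_) l
          · simpa using hx1
          · simpa using hu1 l
        · exact linearIndependent_finCons.mpr ⟨hu2, hx2⟩
      · rintro ⟨u, x⟩ _ ⟨u', x'⟩ _ h
        have h5 : (Fin.cons x u : Fin (j + 1) → ι → F) = Fin.cons x' u' := h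
        have h6 := Fin.cons_inj.mp h5
        rw [h6.1, h6.2]
    calc (S.card - Fintype.card F ^ J) ^ (j + 1)
        = (S.card - Fintype.card F ^ J) ^ j * (S.card - Fintype.card F ^ J) := pow_succ _ _
      _ ≤ A.card * (S.card - Fintype.card F ^ J) := Nat.mul_le_mul_right _ ih'
      _ ≤ X.card := h1
      _ ≤ _ := h4

open Classical in
/-- The number of squares in a space of matrices. -/
theorem card_sq_lt (L : Submodule F (Matrix ι ι F)) {D J B : ℕ} (hD : finrank F L ≤ D)
    (hB : Fintype.card F ^ (D + J * J) < B ^ J) :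
    (Finset.univ.filter fun u : ι → F => Matrix.vecMulVec u u ∈ L).card <
      B + Fintype.card F ^ J := by
  set S := Finset.univ.filter fun u : ι → F => Matrix.vecMulVec u u ∈ L with hS
  by_contra hcon
  rw [not_lt] at hcon
  have h1 := card_indep_ge S J J le_rfl
  have h2 : B ^ J ≤ (S.card - Fintype.card F ^ J) ^ J := Nat.pow_le_pow_left (by omega) J
  set A := Finset.univ.filter fun u : Fin J → ι → F =>
    (∀ l, u l ∈ S) ∧ LinearIndependent F u with hA
  let th : (Fin J → ι → F) → Matrix ι ι F := fun u => ∑ l, Matrix.vecMulVec (u l) (u l)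
  have hfib : ∀ T ∈ A.image th, (A.filter fun u => th u = T).card ≤
      Fintype.card F ^ (J * J) := by
    intro T hT
    obtain ⟨u0, hu0, rfl⟩ := Finset.mem_image.mp hT
    have hR : finrank F (LinearMap.range (th u0).mulVecLin) ≤ J := by
      have h3 : LinearMap.range (th u0).mulVecLin ≤ span F (Set.range u0) := by
        rintro _ ⟨v, rfl⟩
        rw [Matrix.mulVecLin_apply, sq_mulVec]
        exact sum_mem fun l _ => smul_mem _ _ (subset_span ⟨l, rfl⟩)
      exact (Submodule.finrank_mono h3).trans ((finrank_range_le_card _).trans (by simp))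
    have h4 : (A.filter fun u => th u = th u0) ⊆
        Fintype.piFinset fun _ : Fin J =>
          Finset.univ.filter fun x => x ∈ LinearMap.range (th u0).mulVecLin := by
      intro u hu
      obtain ⟨huA, hut⟩ := Finset.mem_filter.mp hu
      obtain ⟨-, -, hind⟩ := Finset.mem_filter.mp huA
      rw [Fintype.mem_piFinset]
      intro l
      refine Finset.mem_filter.mpr ⟨Finset.mem_univ _, ?_⟩
      obtain ⟨v, -, hv⟩ := exists_vals (indMod_bot hind) (Pi.single l 1)
      refine ⟨v, ?_⟩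
      rw [Matrix.mulVecLin_apply, ← hut, sq_mulVec, Finset.sum_eq_single l]
      · rw [hv, Pi.single_eq_same, one_smul]
      · intro m _ hm
        rw [hv, Pi.single_eq_of_ne hm, zero_smul]
      · intro h
        exact absurd (Finset.mem_univ _) h
    refine (Finset.card_le_card h4).trans ?_
    rw [Fintype.card_piFinset, Finset.prod_const, Finset.card_univ, Fintype.card_fin, pow_mul]
    exact Nat.pow_le_pow_left (card_sub _ hR) J
  have h5 := Finset.card_le_mul_card_image (f := th) A _ hfib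
  have h6 : (A.image th).card ≤ Fintype.card F ^ D := by
    have h7 : A.image th ⊆ Finset.univ.filter fun x => x ∈ L := by
      intro T hT
      obtain ⟨u, hu, rfl⟩ := Finset.mem_image.mp hT
      obtain ⟨-, huS, -⟩ := Finset.mem_filter.mp hu
      refine Finset.mem_filter.mpr ⟨Finset.mem_univ _, sum_mem fun l _ => ?_⟩
      exact (Finset.mem_filter.mp (huS l)).2
    refine (Finset.card_le_card h7).trans ?_
    have h8 : (Finset.univ.filter fun x => x ∈ L).card = Fintype.card L := by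
      rw [Fintype.card_subtype]
    rw [h8, Module.card_eq_pow_finrank (K := F) (V := L)]
    exact Nat.pow_le_pow_right Fintype.card_pos hD
  have h9 : B ^ J ≤ Fintype.card F ^ (D + J * J) := by
    calc B ^ J ≤ (S.card - Fintype.card F ^ J) ^ J := h2
      _ ≤ A.card := h1
      _ ≤ Fintype.card F ^ (J * J) * (A.image th).card := h5
      _ ≤ Fintype.card F ^ (J * J) * Fintype.card F ^ D := Nat.mul_le_mul_left _ h6
      _ = Fintype.card F ^ (D + J * J) := by rw [← pow_add, add_comm]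
  exact absurd hB (not_lt.mpr h9)

end Squares

section Quadratic

variable {F ι : Type*} [Field F] [Fintype ι] [DecidableEq ι] {d : ℕ}

/-- A quadratic expression in a tuple of vectors. -/
def qf (A : Matrix (Fin d) (Fin d) F) (g : Fin d → ι → F) : Matrix ι ι F :=
  ∑ i, ∑ j, A i j • Matrix.vecMulVec (g i) (g j)

omit [DecidableEq ι] [Fintype ι] in
theorem qf_apply (A : Matrix (Fin d) (Fin d) F) (g : Fin d → ι → F) (x y : ι) :
    qf A g x y = ∑ i, ∑ j, A i j * (g i x * g j y) := by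
  simp only [qf, Matrix.sum_apply, Matrix.smul_apply, Matrix.vecMulVec_apply, smul_eq_mul]

omit [DecidableEq ι] [Fintype ι] in
/-- Shifting all vectors by multiples of one vector and completing the square. -/
theorem qf_shift (A : Matrix (Fin d) (Fin d) F) (hA : ∀ i j, A i j = A j i) (a : Fin d → F)
    {c : F} (hc : c = ∑ i, ∑ j, A i j * (a i * a j)) (hc0 : c ≠ 0) (g : Fin d → ι → F) :
    ∃ m : ι → F, ∃ θ : Matrix ι ι F, ∀ u : ι → F,
      qf A (fun i => g i + a i • u) = c • Matrix.vecMulVec (u + m) (u + m) + θ := by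
  refine ⟨fun x => c⁻¹ * ∑ i, ∑ j, A i j * (a i * g j x),
    qf A g - c • Matrix.vecMulVec (fun x => c⁻¹ * ∑ i, ∑ j, A i j * (a i * g j x))
      (fun x => c⁻¹ * ∑ i, ∑ j, A i j * (a i * g j x)), fun u => ?_⟩
  ext x y
  rw [qf_apply]
  simp only [Matrix.add_apply, Matrix.sub_apply, Matrix.smul_apply, Matrix.vecMulVec_apply,
    smul_eq_mul, Pi.add_apply, Pi.smul_apply, qf_apply]
  set p := ∑ i, ∑ j, A i j * (a i * g j x) with hp
  set q := ∑ i, ∑ j, A i j * (a i * g j y) with hq
  have hp' : ∑ i, ∑ j, A i j * (g i x * a j) = p := by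
    rw [hp, Finset.sum_comm]
    refine Finset.sum_congr rfl fun i _ => Finset.sum_congr rfl fun j _ => ?_
    rw [hA j i]
    ring
  have e1 : ∑ i, ∑ j, A i j * ((g i x + a i * u x) * (g j y + a j * u y)) =
      ∑ i, ∑ j, A i j * (g i x * g j y) + u y * p + u x * q + u x * u y * c := by
    rw [← hp', hq, hc, Finset.mul_sum, Finset.mul_sum, Finset.mul_sum, ← Finset.sum_add_distrib,
      ← Finset.sum_add_distrib, ← Finset.sum_add_distrib]
    refine Finset.sum_congr rfl fun i _ => ?_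
    rw [Finset.mul_sum, Finset.mul_sum, Finset.mul_sum, ← Finset.sum_add_distrib,
      ← Finset.sum_add_distrib, ← Finset.sum_add_distrib]
    refine Finset.sum_congr rfl fun j _ => ?_
    ring
  rw [e1]
  field_simp
  ring

/-- A nonzero symmetric matrix has a nonzero value. -/
theorem exists_val_ne (h2 : (2 : F) ≠ 0) {A : Matrix (Fin d) (Fin d) F}
    (hA : ∀ i j, A i j = A j i) (hA0 : A ≠ 0) :
    ∃ a : Fin d → F, ∑ i, ∑ j, A i j * (a i * a j) ≠ 0 := by
  by_contra hcon
  push Not at hcon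
  apply hA0
  have h1 : ∀ k, A k k = 0 := by
    intro k
    have := hcon (Pi.single k 1)
    simpa [Pi.single_apply] using this
  ext k l
  have h3 := hcon (Pi.single k 1 + Pi.single l 1)
  have h4 : ∑ i, ∑ j, A i j * ((Pi.single k 1 + Pi.single l 1 : Fin d → F) i *
      (Pi.single k 1 + Pi.single l 1 : Fin d → F) j) = A k k + A k l + A l k + A l l := by
    simp only [Pi.add_apply, Pi.single_apply, mul_add, mul_ite, mul_one, mul_zero,
      Finset.sum_add_distrib, Finset.sum_ite_eq', Finset.mem_univ, if_true]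
    ring
  rw [h4, h1 k, h1 l, hA l k] at h3
  have h5 : (2 : F) * A k l = 0 := by
    rw [two_mul]
    simpa using h3
  simpa using (mul_eq_zero.mp h5).resolve_left h2

variable [Fintype F]

open Classical in
/-- The number of tuples whose quadratic expression lies in a space of matrices. -/
theorem card_qf_le (h2 : (2 : F) ≠ 0) (L : Submodule F (Matrix ι ι F)) {D J B : ℕ}
    (hD : finrank F L ≤ D) (hB : Fintype.card F ^ (D + 1 + J * J) < B ^ J)
    {A : Matrix (Fin d) (Fin d) F} (hA : ∀ i j, A i j = A j i) (hA0 : A ≠ 0) :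
    (Finset.univ.filter fun g : Fin d → ι → F => qf A g ∈ L).card ≤
      Fintype.card F ^ (Fintype.card ι * (d - 1)) * (B + Fintype.card F ^ J) := by
  obtain ⟨a, ha⟩ := exists_val_ne h2 hA hA0
  set c := ∑ i, ∑ j, A i j * (a i * a j) with hc
  -- for every tuple few shifts are bad
  have hfew : ∀ g : Fin d → ι → F,
      (Finset.univ.filter fun u : ι → F => qf A (fun i => g i + a i • u) ∈ L).card ≤
        B + Fintype.card F ^ J := by
    intro g
    obtain ⟨m, θ, hm⟩ := qf_shift A hA a hc ha g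
    have hD' : finrank F ↥(L ⊔ span F {θ}) ≤ D + 1 := by
      refine (Submodule.finrank_add_le_finrank_add_finrank _ _).trans ?_
      exact Nat.add_le_add hD ((finrank_span_le_card _).trans (by simp))
    refine le_trans ?_ (card_sq_lt (L ⊔ span F {θ}) hD' hB).le
    refine Finset.card_le_card_of_injOn (fun u => u + m) ?_ ?_
    · intro u hu
      have h3 := (Finset.mem_filter.mp (Finset.mem_coe.mp hu)).2
      rw [hm u] at h3
      refine Finset.mem_coe.mpr (Finset.mem_filter.mpr ⟨Finset.mem_univ _, ?_⟩)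
      have h4 : Matrix.vecMulVec (u + m) (u + m) =
          c⁻¹ • ((c • Matrix.vecMulVec (u + m) (u + m) + θ) - θ) := by
        rw [add_sub_cancel_right, smul_smul, inv_mul_cancel₀ ha, one_smul]
      change Matrix.vecMulVec (u + m) (u + m) ∈ L ⊔ span F {θ}
      rw [h4]
      exact smul_mem _ _ (sub_mem (mem_sup_left h3)
        (mem_sup_right (subset_span rfl)))
    · intro u _ v _ h
      exact add_right_cancel h
  -- double counting
  have hdc : (Finset.univ.filter fun g : Fin d → ι → F => qf A g ∈ L).card *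
      Fintype.card (ι → F) = ∑ g : Fin d → ι → F,
      (Finset.univ.filter fun u : ι → F => qf A (fun i => g i + a i • u) ∈ L).card := by
    simp_rw [Finset.card_filter]
    rw [Finset.sum_comm]
    have h5 : ∀ u : ι → F, (∑ g : Fin d → ι → F,
        if qf A (fun i => g i + a i • u) ∈ L then 1 else 0) =
        ∑ g : Fin d → ι → F, if qf A g ∈ L then 1 else 0 := by
      intro u
      exact Fintype.sum_equiv (Equiv.addRight fun i => a i • u) _ _ fun g => rfl
    rw [Finset.sum_congr rfl fun u _ => h5 u, Finset.sum_const, Finset.card_univ, smul_eq_mul,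
      mul_comm]
  have hd : 0 < d := by
    rcases Nat.eq_zero_or_pos d with h | h
    · subst h
      exact absurd (Subsingleton.elim A 0) hA0
    · exact h
  have hle : (Finset.univ.filter fun g : Fin d → ι → F => qf A g ∈ L).card *
      Fintype.card (ι → F) ≤ Fintype.card F ^ (Fintype.card ι * (d - 1)) *
        (B + Fintype.card F ^ J) * Fintype.card (ι → F) := by
    rw [hdc]
    refine (Finset.sum_le_card_nsmul _ _ _ fun g _ => hfew g).trans (le_of_eq ?_)
    rw [Finset.card_univ, smul_eq_mul, Fintype.card_fun, Fintype.card_fun, Fintype.card_fin,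
      ← pow_mul]
    have h6 : Fintype.card F ^ (Fintype.card ι * d) =
        Fintype.card F ^ (Fintype.card ι * (d - 1)) * Fintype.card F ^ Fintype.card ι := by
      rw [← pow_add]
      congr 1
      obtain ⟨e, rfl⟩ := Nat.exists_eq_succ_of_ne_zero hd.ne'
      rw [Nat.succ_sub_one, Nat.mul_succ]
    rw [h6]
    ring
  exact Nat.le_of_mul_le_mul_right hle Fintype.card_pos

omit [Fintype ι] [DecidableEq ι] [Fintype F] in
/-- Splitting off the combination of the vectors `g`. -/
theorem smm_split (w g : Fin d → ι → F) (A : Matrix (Fin d) (Fin d) F) :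
    smm (fun i => w i + ∑ j, A i j • g j) g = smm w g + qf (A + A.transpose) g := by
  ext x y
  have h1 : ∀ (h g : Fin d → ι → F), smm h g x y = ∑ i, (h i x * g i y + g i x * h i y) := by
    intro h g
    simp [smm, sm, Matrix.sum_apply, Matrix.vecMulVec_apply]
  rw [Matrix.add_apply, h1, h1, qf_apply]
  simp only [Pi.add_apply, Finset.sum_apply, Pi.smul_apply, smul_eq_mul, Matrix.add_apply,
    Matrix.transpose_apply]
  have h2 : ∑ i, ∑ j, (A i j + A j i) * (g i x * g j y) =
      ∑ i, ((∑ j, A i j * g j x) * g i y + g i x * ∑ j, A i j * g j y) := by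
    have h3 : ∑ i, (∑ j, A i j * g j x) * g i y = ∑ i, ∑ j, A j i * (g i x * g j y) := by
      rw [Finset.sum_comm]
      refine Finset.sum_congr rfl fun i _ => ?_
      rw [Finset.sum_mul]
      exact Finset.sum_congr rfl fun j _ => by ring
    rw [Finset.sum_add_distrib, h3, ← Finset.sum_add_distrib]
    refine Finset.sum_congr rfl fun i _ => ?_
    rw [Finset.mul_sum, ← Finset.sum_add_distrib]
    exact Finset.sum_congr rfl fun j _ => by ring
  rw [h2, ← Finset.sum_add_distrib]
  exact Finset.sum_congr rfl fun i _ => by ring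

open Classical in
/-- The counting lemma without quadratic parts: for all but few tuples `g`, every tuple `h` with
`∑ h_i . g_i` in `Lam` may be replaced by a tuple from `W`. -/
theorem exists_Wq (h2 : (2 : F) ≠ 0) (Lam : Submodule F (Matrix ι ι F)) {D j B J B' : ℕ}
    (hD : finrank F Lam ≤ D)
    (hj : Fintype.card F ^ (D + (d + 3 * d * j + Fintype.card ι * (d - 1)) * j) < B ^ j)
    (hJ : Fintype.card F ^ (D + d * Fintype.card ι + 1 + J * J) < B' ^ J) :
    ∃ (W : Submodule F (ι → F)) (E : Finset (Fin d → ι → F)), finrank F W ≤ 2 * d * (j - 1) ∧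
      E.card ≤ (B + Fintype.card F ^ (d + 2 * d * (j - 1) + Fintype.card ι * (d - 1))) +
        Fintype.card F ^ (2 * d * (j - 1) * d + d * d) *
          (Fintype.card F ^ (Fintype.card ι * (d - 1)) * (B' + Fintype.card F ^ J)) ∧
      ∀ g ∉ E, IndMod W g ∧ ∀ h : Fin d → ι → F, smm h g ∈ Lam →
        ∃ w : Fin d → ι → F, (∀ i, w i ∈ W) ∧ smm w g = smm h g := by
  obtain ⟨W, E, hW, hE, hg⟩ := exists_Wd Lam hD hj
  -- the enlarged spaces
  let big : (Fin d → W) → Submodule F (Matrix ι ι F) := fun w =>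
    Lam ⊔ span F (Set.range fun q : Fin d × ι => sm (w q.1 : ι → F) (Pi.single q.2 1))
  have hbig : ∀ w, finrank F (big w) ≤ D + d * Fintype.card ι := by
    intro w
    refine (Submodule.finrank_add_le_finrank_add_finrank _ _).trans (Nat.add_le_add hD ?_)
    refine (finrank_range_le_card _).trans (le_of_eq ?_)
    rw [Fintype.card_prod, Fintype.card_fin]
  have hsm : ∀ (w : Fin d → W) (g : Fin d → ι → F),
      smm (fun i => (w i : ι → F)) g ∈ big w := by
    intro w g
    refine sum_mem fun i _ => mem_sup_right ?_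
    have h3 : sm (w i : ι → F) (g i) = ∑ m, g i m • sm (w i : ι → F) (Pi.single m 1) := by
      ext x y
      simp only [sm, Matrix.add_apply, Matrix.vecMulVec_apply, Matrix.sum_apply,
        Matrix.smul_apply, smul_eq_mul, Pi.single_apply, mul_add, Finset.sum_add_distrib]
      simp [mul_comm]
    rw [h3]
    exact sum_mem fun m _ => smul_mem _ _ (subset_span ⟨(i, m), rfl⟩)
  let P : Finset ((Fin d → W) × Matrix (Fin d) (Fin d) F) :=
    Finset.univ.filter fun q => (∀ i j, q.2 i j = q.2 j i) ∧ q.2 ≠ 0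
  let E' : Finset (Fin d → ι → F) := E ∪ P.biUnion fun q =>
    Finset.univ.filter fun g => qf q.2 g ∈ big q.1
  refine ⟨W, E', hW, ?_, ?_⟩
  · refine (Finset.card_union_le _ _).trans (Nat.add_le_add hE.le ?_)
    refine Finset.card_biUnion_le.trans ((Finset.sum_le_card_nsmul _ _
      (Fintype.card F ^ (Fintype.card ι * (d - 1)) * (B' + Fintype.card F ^ J))
      fun q hq => ?_).trans ?_)
    · obtain ⟨-, hq1, hq2⟩ := Finset.mem_filter.mp hq
      exact card_qf_le h2 (big q.1) (hbig q.1) hJ hq1 hq2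
    · rw [smul_eq_mul]
      refine Nat.mul_le_mul_right _ ((Finset.card_filter_le _ _).trans ?_)
      have h3 : Fintype.card (Matrix (Fin d) (Fin d) F) = Fintype.card F ^ (d * d) := by
        change Fintype.card (Fin d → Fin d → F) = _
        rw [Fintype.card_fun, Fintype.card_fun, Fintype.card_fin, ← pow_mul]
      rw [Finset.card_univ, Fintype.card_prod, Fintype.card_fun, Fintype.card_fin, h3,
        Module.card_eq_pow_finrank (K := F) (V := W), ← pow_mul, ← pow_add]
      refine Nat.pow_le_pow_right Fintype.card_pos ?_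
      exact Nat.add_le_add_right (Nat.mul_le_mul_right _ hW) _
  · intro g hgE
    rw [Finset.mem_union, not_or] at hgE
    obtain ⟨hind, hh⟩ := hg g hgE.1
    refine ⟨hind, fun h hmem => ?_⟩
    have h4 := hh h hmem
    have h5 : ∀ i, ∃ w ∈ W, ∃ a : Fin d → F, w + ∑ j, a j • g j = h i := by
      intro i
      obtain ⟨w, hw, z, hz, hwz⟩ := mem_sup.mp (h4 i)
      obtain ⟨a, ha⟩ := (mem_span_range_iff_exists_fun F).mp hz
      exact ⟨w, hw, a, by rw [ha, hwz]⟩
    choose w hw A hA using h5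
    have h6 : h = fun i => w i + ∑ j, A i j • g j := (funext hA).symm
    have h7 := smm_split w g (Matrix.of A)
    have h8 : smm h g = smm w g + qf (Matrix.of A + (Matrix.of A).transpose) g := by
      rw [h6]
      exact h7
    by_cases h9 : Matrix.of A + (Matrix.of A).transpose = 0
    · refine ⟨w, hw, ?_⟩
      rw [h8, h9]
      simp [qf]
    · exfalso
      apply hgE.2
      refine Finset.mem_biUnion.mpr ⟨(fun i => ⟨w i, hw i⟩,
        Matrix.of A + (Matrix.of A).transpose), ?_, ?_⟩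
      · refine Finset.mem_filter.mpr ⟨Finset.mem_univ _, fun i j => ?_, h9⟩
        simp [add_comm]
      · refine Finset.mem_filter.mpr ⟨Finset.mem_univ _, ?_⟩
        have h10 : qf (Matrix.of A + (Matrix.of A).transpose) g = smm h g - smm w g := by
          rw [h8, add_sub_cancel_left]
        change qf (Matrix.of A + (Matrix.of A).transpose) g ∈ big fun i => ⟨w i, hw i⟩
        rw [h10]
        exact sub_mem (mem_sup_left hmem) (hsm (fun i => ⟨w i, hw i⟩) g)

end Quadratic

end Vale.Agent.P060.HW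
end

section

/-! The rank step: tests whose tensors span a small space modulo `N` and whose first parts
differ from a fixed one by vectors which are visible row by row. -/

namespace Vale.Agent.P060.HW

open Module Submodule

section Rank

variable {F ι : Type*} [Field F] [Fintype ι] {d : ℕ}

omit [Fintype ι] in
theorem smm_add_left (h h' g : Fin d → ι → F) :
    smm (fun i => h i + h' i) g = smm h g + smm h' g := by
  rw [smm, smm, smm, ← Finset.sum_add_distrib]
  refine Finset.sum_congr rfl fun i _ => ?_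
  ext x y
  simp only [sm, Matrix.add_apply, Matrix.vecMulVec_apply, Pi.add_apply]
  ring

omit [Fintype ι] in
theorem smm_sum_right {D : Type*} [Fintype D] (hs : Fin d → ι → F) (lam : D → F)
    (g : D → Fin d → ι → F) :
    ∑ b, lam b • smm hs (g b) = smm hs fun i => ∑ b, lam b • g b i := by
  ext x y
  simp only [smm, sm, Matrix.sum_apply, Matrix.smul_apply, Matrix.add_apply,
    Matrix.vecMulVec_apply, Finset.sum_apply, Pi.smul_apply, smul_eq_mul, Finset.mul_sum,
    Finset.sum_mul, ← Finset.sum_add_distrib]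
  rw [Finset.sum_comm]
  refine Finset.sum_congr rfl fun i _ => Finset.sum_congr rfl fun b _ => ?_
  ring

/-- The rank step. -/
theorem rank_step {D : Type*} [Fintype D] (Lam N : Submodule F (Matrix ι ι F))
    (h g : D → Fin d → ι → F) (hs : Fin d → ι → F)
    (hmem : ∀ b, smm (h b) (g b) ∈ Lam ⊔ N)
    (hrow : ∀ lam : D → F, (∑ b, lam b • smm (fun i => h b i - hs i) (g b)) ∈ N → lam = 0) :
    Fintype.card D ≤ finrank F Lam + d * Fintype.card ι := by
  classical
  by_contra hcon
  rw [not_le] at hcon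
  have hm : ∀ lam : D → F, N.mkQ (∑ b, lam b • smm (h b) (g b)) ∈ Lam.map N.mkQ := by
    intro lam
    have h1 : ∑ b, lam b • smm (h b) (g b) ∈ Lam ⊔ N :=
      sum_mem fun b _ => smul_mem _ _ (hmem b)
    obtain ⟨x, hx, y, hy, hxy⟩ := mem_sup.mp h1
    refine ⟨x, hx, ?_⟩
    rw [← hxy, map_add, Submodule.mkQ_apply N y, (Submodule.Quotient.mk_eq_zero N).mpr hy,
      add_zero]
  -- the relations
  let f₁ : (D → F) →ₗ[F] ↥(Lam.map N.mkQ) :=
    LinearMap.codRestrict (Lam.map N.mkQ)
      (N.mkQ ∘ₗ Fintype.linearCombination F fun b => smm (h b) (g b)) fun lam => by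
        simpa [Fintype.linearCombination_apply] using hm lam
  let f : (D → F) →ₗ[F] ↥(Lam.map N.mkQ) × (Fin d → ι → F) :=
    LinearMap.prod f₁ (Fintype.linearCombination F fun b => g b)
  have hlt : finrank F (↥(Lam.map N.mkQ) × (Fin d → ι → F)) < finrank F (D → F) := by
    rw [Module.finrank_prod, Module.finrank_fintype_fun_eq_card, Module.finrank_pi_fintype]
    simp only [Module.finrank_fintype_fun_eq_card, Finset.sum_const, Finset.card_univ,
      Fintype.card_fin, smul_eq_mul]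
    have := Submodule.finrank_map_le N.mkQ Lam
    omega
  obtain ⟨lam, hlam, hne⟩ := Submodule.exists_mem_ne_zero_of_ne_bot
    (LinearMap.ker_ne_bot_of_finrank_lt hlt (f := f))
  apply hne
  apply hrow
  have h0 := LinearMap.mem_ker.mp hlam
  have h1 : f₁ lam = 0 := congrArg Prod.fst h0
  have h2 : ∑ b, lam b • g b = 0 := by
    have := congrArg Prod.snd h0
    simpa [f, Fintype.linearCombination_apply] using this
  have h3 : ∑ b, lam b • smm (h b) (g b) ∈ N := by
    have h4 : N.mkQ (∑ b, lam b • smm (h b) (g b)) = 0 := by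
      have := congrArg Subtype.val h1
      simpa [f₁, Fintype.linearCombination_apply] using this
    rwa [Submodule.mkQ_apply, Submodule.Quotient.mk_eq_zero] at h4
  have h5 : ∑ b, lam b • smm (fun i => h b i - hs i) (g b) =
      (∑ b, lam b • smm (h b) (g b)) - ∑ b, lam b • smm hs (g b) := by
    rw [← Finset.sum_sub_distrib]
    refine Finset.sum_congr rfl fun b _ => ?_
    rw [← smul_sub]
    congr 1
    rw [eq_sub_iff_add_eq, ← smm_add_left]
    congr 1
    funext i
    exact sub_add_cancel _ _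
  rw [h5, smm_sum_right]
  have h6 : (fun i => ∑ b, lam b • g b i) = (0 : Fin d → ι → F) := by
    funext i
    have := congrFun h2 i
    simpa using this
  have h7 : smm hs (0 : Fin d → ι → F) = 0 := by
    ext x y
    simp [smm, sm, Matrix.sum_apply]
  rw [h6, h7, sub_zero]
  exact h3

/-- A private vector: in a relation between sums of independent vectors the coefficient of a
sum with a vector of its own vanishes. -/
theorem coeff_private {L S V : Type*} [AddCommGroup V] [Module F V] [Fintype S] (p : L → V)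
    (L' : Finset L) (hind : LinearIndependent F fun u : L' => p u) (ln : S → Finset L)
    (hln : ∀ s, ln s ⊆ L') (mu : S → F) (hrel : ∑ s, mu s • ∑ u ∈ ln s, p u = 0) (s₀ : S) (u₀ : L)
    (hu₀ : u₀ ∈ ln s₀) (hpriv : ∀ s, s ≠ s₀ → mu s = 0 ∨ u₀ ∉ ln s) : mu s₀ = 0 := by
  classical
  have h1 : ∑ u : L', (∑ s, if (u : L) ∈ ln s then mu s else 0) • p u = 0 := by
    rw [← hrel]
    simp only [Finset.sum_smul]
    rw [Finset.sum_comm]
    refine Finset.sum_congr rfl fun s _ => ?_
    rw [Finset.smul_sum, Finset.sum_coe_sort L' fun u => (if u ∈ ln s then mu s else 0) • p u]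
    rw [← Finset.sum_subset (hln s)]
    · refine Finset.sum_congr rfl fun u hu => ?_
      rw [if_pos hu]
    · intro u _ hu
      rw [if_neg hu, zero_smul]
  have h2 := Fintype.linearIndependent_iff.mp hind _ h1 ⟨u₀, hln s₀ hu₀⟩
  rw [Finset.sum_eq_single s₀] at h2
  · simpa [hu₀] using h2
  · intro s _ hs
    rcases hpriv s hs with h | h
    · simp [h]
    · simp [h]
  · intro h
    exact absurd (Finset.mem_univ _) h

end Rank

end Vale.Agent.P060.HW
end

section

/-! The rank step on a frame: rows of the trivial tensors and private lines. -/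

open scoped Classical

noncomputable section

set_option linter.unusedSectionVars false

namespace Vale.Agent.P060.HW

open Module

/-- A private vector, when only the sums with nonzero coefficient are controlled. -/
theorem coeff_private' {K L S V : Type*} [Field K] [AddCommGroup V] [Module K V] [Fintype S]
    (p : L → V) (L' : Finset L) (hind : LinearIndependent K fun u : L' => p u)
    (ln : S → Finset L) (mu : S → K) (hln : ∀ s, mu s ≠ 0 → ln s ⊆ L')
    (hrel : ∑ s, mu s • ∑ u ∈ ln s, p u = 0) (s₀ : S) (u₀ : L)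
    (hu₀ : u₀ ∈ ln s₀) (hpriv : ∀ s, s ≠ s₀ → mu s ≠ 0 → u₀ ∉ ln s) : mu s₀ = 0 := by
  by_contra hne
  refine hne (coeff_private p L' hind (fun s => if mu s = 0 then ∅ else ln s) ?_ mu ?_ s₀ u₀ ?_ ?_)
  · intro s
    by_cases h : mu s = 0
    · simp [h]
    · rw [if_neg h]
      exact hln s h
  · rw [← hrel]
    refine Finset.sum_congr rfl fun s _ => ?_
    by_cases h : mu s = 0
    · simp [h]
    · rw [if_neg h]
  · rw [if_neg hne]
    exact hu₀
  · intro s hs
    by_cases h : mu s = 0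
    · exact Or.inl h
    · rw [if_neg h]
      exact Or.inr (hpriv s hs h)

variable {N d : ℕ} {E P Om : Type} [Fintype E] [Fintype P] [Fintype Om] [NeZero N]

/-- The trivial tensors without those of the own test vector. -/
def Nz (fr : Frame N d E Om) (p : Lin N → Co E P Om → F) (a : Ty N d) :
    Submodule F (Matrix (Co E P Om) (Co E P Om) F) :=
  Submodule.span F
    ({Q | ∃ c, ∃ w ∈ fr.U c, Q = sm (Pi.single (Sum.inr w) 1) (gv p c)} ∪
     {Q | ∃ w ∈ fr.U a, ∃ v, Q = sm (Pi.single (Sum.inr w) 1) v})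

lemma sm_apply {K : Type*} (h g : K → F) (x y : K) : sm h g x y = h x * g y + g x * h y := by
  simp [sm, Matrix.vecMulVec_apply]

/-- The row of a trivial tensor. -/
theorem row_block (fr : Frame N d E Om) (p : Lin N → Co E P Om → F) (a : Ty N d)
    {Q : Matrix (Co E P Om) (Co E P Om) F} (hQ : Q ∈ Nz fr p a) {w : Om} (hw : w ∉ fr.U a) :
    ∃ mu : Ty N d → F, (∀ c, mu c ≠ 0 → w ∈ fr.U c) ∧
      ∀ j : E ⊕ P, Q (Sum.inr w) (Sum.inl j) = ∑ c, mu c * gv p c (Sum.inl j) := by
  unfold Nz at hQ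
  induction hQ using Submodule.span_induction with
  | mem Q hQ =>
    rcases hQ with ⟨c, w', hw', rfl⟩ | ⟨w', hw', v, rfl⟩
    · by_cases h : w = w'
      · subst h
        refine ⟨Pi.single c 1, ?_, fun j => ?_⟩
        · intro c' hc'
          by_cases hcc : c' = c
          · rw [hcc]
            exact hw'
          · exact absurd (Pi.single_eq_of_ne hcc _) hc'
        · rw [sm_apply, Finset.sum_eq_single c]
          · simp
          · intro c' _ hcc
            rw [Pi.single_eq_of_ne hcc, zero_mul]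
          · intro h
            exact absurd (Finset.mem_univ _) h
      · refine ⟨0, fun c hc => absurd rfl hc, fun j => ?_⟩
        rw [sm_apply]
        simp [h]
    · have h : w ≠ w' := fun h => hw (h ▸ hw')
      refine ⟨0, fun c hc => absurd rfl hc, fun j => ?_⟩
      rw [sm_apply]
      simp [h]
  | zero => exact ⟨0, fun c hc => absurd rfl hc, fun j => by simp⟩
  | add Q Q' _ _ ih ih' =>
    obtain ⟨mu, hmu, h⟩ := ih
    obtain ⟨mu', hmu', h'⟩ := ih'
    refine ⟨mu + mu', fun c hc => ?_, fun j => ?_⟩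
    · by_cases h1 : mu c = 0
      · refine hmu' c fun h2 => hc ?_
        rw [Pi.add_apply, h1, h2, add_zero]
      · exact hmu c h1
    · rw [Matrix.add_apply, h, h', ← Finset.sum_add_distrib]
      exact Finset.sum_congr rfl fun c _ => by rw [Pi.add_apply, add_mul]
  | smul r Q _ ih =>
    obtain ⟨mu, hmu, h⟩ := ih
    refine ⟨r • mu, fun c hc => ?_, fun j => ?_⟩
    · refine hmu c fun h2 => hc ?_
      rw [Pi.smul_apply, h2, smul_zero]
    · rw [Matrix.smul_apply, h, smul_eq_mul, Finset.mul_sum]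
      exact Finset.sum_congr rfl fun c _ => by rw [Pi.smul_apply, smul_eq_mul, mul_assoc]

lemma rr_mem_lins {c : Ty N d} {u : Lin N} : u ∈ lins c ↔ ln c u.1 = u.2 := by
  unfold lins lin
  rw [Finset.mem_image]
  constructor
  · rintro ⟨s, -, rfl⟩
    rfl
  · intro h
    exact ⟨u.1, Finset.mem_univ _, by rw [h]⟩

lemma rr_card_lins_le (c : Ty N d) : (lins c).card ≤ 3 := by
  unfold lins
  exact Finset.card_image_le.trans (by simp)

lemma lin_injective (c : Ty N d) : Function.Injective (lin c) := fun s s' h =>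
  congrArg Prod.fst h

lemma rr_gv_eq_sum (p : Lin N → Co E P Om → F) (c : Ty N d) : gv p c = ∑ u ∈ lins c, p u := by
  unfold gv lins
  rw [Finset.sum_image fun s _ s' _ h => lin_injective c h]

/-- A type without the zero row `w` has, besides another type, a line of its own. -/
theorem exists_private (fr : Frame N d E Om) {t t' : Ty N d} (htt : t ≠ t') {w : Om}
    (hw : w ∉ fr.U t) : ∃ s : Fin 3, lin t s ∉ lins t' ∧ ∀ c, w ∈ fr.U c → lin t s ∉ lins c := by
  by_contra hcon
  push Not at hcon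
  -- at most one line is shared with `t'`
  have h1 : ∀ s s' : Fin 3, lin t s ∈ lins t' → lin t s' ∈ lins t' → s = s' := by
    intro s s' hs hs'
    by_contra hne
    exact htt (fr.share_two t t' s s' hne (rr_mem_lins.mp hs).symm (rr_mem_lins.mp hs').symm)
  -- at most one line is covered
  have h2 : ∀ s s' : Fin 3, (∃ c, w ∈ fr.U c ∧ lin t s ∈ lins c) →
      (∃ c, w ∈ fr.U c ∧ lin t s' ∈ lins c) → s = s' := by
    rintro s s' ⟨c, hc, hs⟩ ⟨c', hc', hs'⟩
    by_contra hne
    exact fr.private_lines t c c' w s s' hw hc hc' hne (rr_mem_lins.mp hs).symm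
      (rr_mem_lins.mp hs').symm
  have h3 : ∀ s : Fin 3, lin t s ∈ lins t' ∨ ∃ c, w ∈ fr.U c ∧ lin t s ∈ lins c := by
    intro s
    by_cases h : lin t s ∈ lins t'
    · exact Or.inl h
    · exact Or.inr (hcon s h)
  rcases h3 0 with h | h <;> rcases h3 1 with h' | h' <;> rcases h3 2 with h'' | h''
  · exact absurd (h1 0 1 h h') (by decide)
  · exact absurd (h1 0 1 h h') (by decide)
  · exact absurd (h1 0 2 h h'') (by decide)
  · exact absurd (h2 1 2 h' h'') (by decide)
  · exact absurd (h1 1 2 h' h'') (by decide)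
  · exact absurd (h2 0 2 h h'') (by decide)
  · exact absurd (h2 0 1 h h') (by decide)
  · exact absurd (h2 0 1 h h') (by decide)

/-- The two test vectors of a pair of types. -/
def gg (p : Lin N → Co E P Om → F) (β : Ty N d × Ty N d) : Fin 2 → Co E P Om → F :=
  ![gv p β.1, gv p β.2]

/-- The types of a pair. -/
def tt (β : Ty N d × Ty N d) : Fin 2 → Ty N d := ![β.1, β.2]

lemma gg_apply (p : Lin N → Co E P Om → F) (β : Ty N d × Ty N d) (i : Fin 2) :
    gg p β i = gv p (tt β i) := by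
  fin_cases i <;> rfl

/-- Independence of all small sets of lines on the coordinates in `P`. -/
def Gen (p : Lin N → Co E P Om → F) (m : ℕ) : Prop := ∀ S : Finset (Lin N), S.card ≤ m →
  LinearIndependent F (fun u : S => fun j : P => p u (Sum.inl (Sum.inr j)))

/-- The row hypothesis of the rank step. -/
theorem row_vanish (fr : Frame N d E Om) (p : Lin N → Co E P Om → F) (a : Ty N d) {m : ℕ}
    (hgen : Gen p m) {D : Type} [Fintype D] (β : D → Ty N d × Ty N d)
    (hβ : ∀ b, (β b).1 ≠ (β b).2)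
    (hdis : ∀ b b', b ≠ b' → Disjoint (lins2 (β b)) (lins2 (β b')))
    (dl : D → Fin 2 → Co E P Om → F) (hsupp : ∀ b i j, dl b i (Sum.inl j) = 0)
    (hcnt : ∀ w, w ∉ fr.U a → 6 * (Finset.univ.filter fun b => ∃ i, dl b i (Sum.inr w) ≠ 0).card +
      3 * (Finset.univ.filter fun c : Ty N d => w ∈ fr.U c).card ≤ m)
    (hvis : ∀ b, ∃ w, w ∉ fr.U a ∧ ∃ i, dl b i (Sum.inr w) ≠ 0 ∧ w ∉ fr.U (tt (β b) i))
    (lam : D → F) (hrel : ∑ b, lam b • smm (dl b) (gg p (β b)) ∈ Nz fr p a) : lam = 0 := by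
  funext b₀
  obtain ⟨w, hwa, i₀, hne, hwt⟩ := hvis b₀
  obtain ⟨mu, hmu, hrow⟩ := row_block fr p a hrel hwa
  -- the relation between the test vectors on the coordinates in `P`
  let q : Lin N → P → F := fun u j => p u (Sum.inl (Sum.inr j))
  let ls : (D × Fin 2) ⊕ Ty N d → Finset (Lin N) :=
    Sum.elim (fun x => lins (tt (β x.1) x.2)) lins
  let co : (D × Fin 2) ⊕ Ty N d → F :=
    Sum.elim (fun x => lam x.1 * dl x.1 x.2 (Sum.inr w)) fun c => - mu c
  have hq : ∀ c : Ty N d, ∀ j, (∑ u ∈ lins c, q u) j = gv p c (Sum.inl (Sum.inr j)) := by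
    intro c j
    rw [rr_gv_eq_sum, Finset.sum_apply, Finset.sum_apply]
  have hR : ∑ s, co s • ∑ u ∈ ls s, q u = 0 := by
    funext j
    have h1 := hrow (Sum.inr j)
    rw [Matrix.sum_apply] at h1
    have h2 : ∀ b, (lam b • smm (dl b) (gg p (β b))) (Sum.inr w) (Sum.inl (Sum.inr j)) =
        ∑ i, (lam b * dl b i (Sum.inr w)) * gv p (tt (β b) i) (Sum.inl (Sum.inr j)) := by
      intro b
      rw [Matrix.smul_apply, smm, Matrix.sum_apply, smul_eq_mul, Finset.mul_sum]
      refine Finset.sum_congr rfl fun i _ => ?_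
      rw [sm_apply, hsupp, mul_zero, add_zero, gg_apply, mul_assoc]
    rw [Finset.sum_congr rfl fun b _ => h2 b] at h1
    rw [Fintype.sum_sum_type, Pi.add_apply, Finset.sum_apply, Finset.sum_apply, Pi.zero_apply,
      Fintype.sum_prod_type]
    have h3 : ∀ c : Ty N d, (co (Sum.inr c) • ∑ u ∈ ls (Sum.inr c), q u) j =
        - (mu c * gv p c (Sum.inl (Sum.inr j))) := by
      intro c
      rw [Pi.smul_apply, smul_eq_mul]
      change (- mu c) * (∑ u ∈ lins c, q u) j = _
      rw [hq, neg_mul]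
    have h4 : ∀ b i, (co (Sum.inl (b, i)) • ∑ u ∈ ls (Sum.inl (b, i)), q u) j =
        (lam b * dl b i (Sum.inr w)) * gv p (tt (β b) i) (Sum.inl (Sum.inr j)) := by
      intro b i
      rw [Pi.smul_apply, smul_eq_mul]
      change (lam b * dl b i (Sum.inr w)) * (∑ u ∈ lins (tt (β b) i), q u) j = _
      rw [hq]
    rw [Finset.sum_congr rfl fun b _ => Finset.sum_congr rfl fun i _ => h4 b i, h1,
      Finset.sum_congr rfl fun c _ => h3 c, Finset.sum_neg_distrib, add_neg_cancel]
  -- the private line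
  have htt : tt (β b₀) i₀ ≠ tt (β b₀) (1 - i₀) := by
    have := hβ b₀
    fin_cases i₀
    · exact this
    · exact fun h => this h.symm
  obtain ⟨s, hs1, hs2⟩ := exists_private fr htt hwt
  let L' : Finset (Lin N) :=
    ((Finset.univ.filter fun b => ∃ i, dl b i (Sum.inr w) ≠ 0).biUnion fun b => lins2 (β b)) ∪
      ((Finset.univ.filter fun c : Ty N d => w ∈ fr.U c).biUnion lins)
  have hL' : L'.card ≤ m := by
    refine le_trans (Finset.card_union_le _ _) (le_trans ?_ (hcnt w hwa))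
    refine Nat.add_le_add ?_ ?_
    · refine Finset.card_biUnion_le.trans ((Finset.sum_le_card_nsmul _ _ 6 fun b _ => ?_).trans
        (le_of_eq ?_))
      · refine (Finset.card_union_le _ _).trans ?_
        have := rr_card_lins_le (β b).1
        have := rr_card_lins_le (β b).2
        omega
      · rw [smul_eq_mul, mul_comm]
    · refine Finset.card_biUnion_le.trans ((Finset.sum_le_card_nsmul _ _ 3 fun c _ =>
        rr_card_lins_le c).trans (le_of_eq ?_))
      rw [smul_eq_mul, mul_comm]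
  have hsub : ∀ b i, lins (tt (β b) i) ⊆ lins2 (β b) := by
    intro b i
    fin_cases i
    · exact Finset.subset_union_left
    · exact Finset.subset_union_right
  have hzero : co (Sum.inl (b₀, i₀)) = 0 := by
    refine coeff_private' q L' (hgen L' hL') ls co ?_ hR (Sum.inl (b₀, i₀)) (lin (tt (β b₀) i₀) s)
      (Finset.mem_image_of_mem _ (Finset.mem_univ _)) ?_
    · rintro (⟨b, i⟩ | c) hco
      · have h1 : dl b i (Sum.inr w) ≠ 0 := right_ne_zero_of_mul hco
        refine Finset.Subset.trans (hsub b i) (Finset.Subset.trans ?_ Finset.subset_union_left)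
        exact Finset.subset_biUnion_of_mem (fun b => lins2 (β b))
          (Finset.mem_filter.mpr ⟨Finset.mem_univ _, i, h1⟩)
      · have h1 : mu c ≠ 0 := fun h => hco (by change - mu c = 0; rw [h, neg_zero])
        refine Finset.Subset.trans ?_ Finset.subset_union_right
        exact Finset.subset_biUnion_of_mem lins
          (Finset.mem_filter.mpr ⟨Finset.mem_univ _, hmu c h1⟩)
    · rintro (⟨b, i⟩ | c) hs hco
      · change lin (tt (β b₀) i₀) s ∉ lins (tt (β b) i)
        by_cases hb : b = b₀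
        · subst hb
          have hi : i = 1 - i₀ := by
            have : i ≠ i₀ := fun h => hs (by rw [h])
            fin_cases i <;> fin_cases i₀ <;> simp_all
          rw [hi]
          exact hs1
        · intro hmem
          have h1 := hdis b b₀ hb
          refine Finset.disjoint_left.mp h1 (hsub b i hmem) (hsub b₀ i₀ ?_)
          exact Finset.mem_image_of_mem _ (Finset.mem_univ _)
      · have h1 : mu c ≠ 0 := fun h => hco (by change - mu c = 0; rw [h, neg_zero])
        exact hs2 c (hmu c h1)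
  exact (mul_eq_zero.mp hzero).resolve_right hne

/-- The rank step on a frame. -/
theorem rank_rows (fr : Frame N d E Om) (p : Lin N → Co E P Om → F) (a : Ty N d) {m : ℕ}
    (hgen : Gen p m) {D : Type} [Fintype D] (β : D → Ty N d × Ty N d)
    (hβ : ∀ b, (β b).1 ≠ (β b).2)
    (hdis : ∀ b b', b ≠ b' → Disjoint (lins2 (β b)) (lins2 (β b')))
    (Lam : Submodule F (Matrix (Co E P Om) (Co E P Om) F))
    (h : D → Fin 2 → Co E P Om → F) (hs : Fin 2 → Co E P Om → F)
    (hmem : ∀ b, smm (h b) (gg p (β b)) ∈ Lam ⊔ Nz fr p a)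
    (hsupp : ∀ b i j, h b i (Sum.inl j) = hs i (Sum.inl j))
    (hcnt : ∀ w, w ∉ fr.U a →
      6 * (Finset.univ.filter fun b => ∃ i, h b i (Sum.inr w) ≠ hs i (Sum.inr w)).card +
      3 * (Finset.univ.filter fun c : Ty N d => w ∈ fr.U c).card ≤ m)
    (hvis : ∀ b, ∃ w, w ∉ fr.U a ∧ ∃ i, h b i (Sum.inr w) ≠ hs i (Sum.inr w) ∧
      w ∉ fr.U (tt (β b) i)) :
    Fintype.card D ≤ finrank F Lam + 2 * Fintype.card (Co E P Om) := by
  refine rank_step Lam (Nz fr p a) h (fun b => gg p (β b)) hs hmem fun lam hlam => ?_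
  refine row_vanish fr p a hgen β hβ hdis (fun b i => h b i - hs i) ?_ ?_ ?_ lam hlam
  · intro b i j
    rw [Pi.sub_apply, hsupp, sub_self]
  · intro w hw
    simpa only [Pi.sub_apply, sub_ne_zero] using hcnt w hw
  · intro b
    obtain ⟨w, hw, i, hi, hwt⟩ := hvis b
    exact ⟨w, hw, i, by rw [Pi.sub_apply]; exact sub_ne_zero.mpr hi, hwt⟩

end Vale.Agent.P060.HW
end
end

section

/-! Restriction of tensors to the coordinates in `P ∪ Z` and normalised first parts. -/

open scoped Classical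

noncomputable section

set_option linter.unusedSectionVars false

namespace Vale.Agent.P060.HW

open Module

variable {N d : ℕ} {E P Om : Type} [Fintype E] [Fintype P] [Fintype Om] [NeZero N]

/-- The coordinates which are kept. -/
def kp (Z : Finset Om) (j : Co E P Om) : Prop :=
  match j with
  | Sum.inl (Sum.inl _) => False
  | Sum.inl (Sum.inr _) => True
  | Sum.inr w => w ∈ Z

lemma rz_apply (Z : Finset Om) (v : Co E P Om → F) (j : Co E P Om) :
    rz Z v j = if kp Z j then v j else 0 := by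
  rcases j with (j | j) | w
  · have h : ¬ kp Z (Sum.inl (Sum.inl j) : Co E P Om) := fun h => h
    rw [if_neg h]
    rfl
  · have h : kp Z (Sum.inl (Sum.inr j) : Co E P Om) := trivial
    rw [if_pos h]
    rfl
  · have h1 : rz Z v (Sum.inr w) = if w ∈ Z then v (Sum.inr w) else 0 := rfl
    by_cases h : w ∈ Z
    · have h' : kp Z (Sum.inr w : Co E P Om) := h
      rw [h1, if_pos h, if_pos h']
    · have h' : ¬ kp Z (Sum.inr w : Co E P Om) := h
      rw [h1, if_neg h, if_neg h']

/-- Restriction of matrices. -/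
def rzm (Z : Finset Om) : Matrix (Co E P Om) (Co E P Om) F →ₗ[F]
    Matrix (Co E P Om) (Co E P Om) F where
  toFun Q := Matrix.of fun i j => if kp Z i ∧ kp Z j then Q i j else 0
  map_add' Q Q' := by
    ext i j
    simp only [Matrix.add_apply, Matrix.of_apply]
    split_ifs <;> simp
  map_smul' c Q := by
    ext i j
    simp only [Matrix.smul_apply, RingHom.id_apply, Matrix.of_apply]
    split_ifs <;> simp

lemma rzm_apply (Z : Finset Om) (Q : Matrix (Co E P Om) (Co E P Om) F) (i j : Co E P Om) :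
    rzm Z Q i j = if kp Z i ∧ kp Z j then Q i j else 0 := rfl

lemma rzm_sm (Z : Finset Om) (u v : Co E P Om → F) :
    rzm Z (sm u v) = sm (rz Z u) (rz Z v) := by
  ext i j
  rw [rzm_apply, sm_apply, sm_apply, rz_apply, rz_apply, rz_apply, rz_apply]
  by_cases hi : kp Z i <;> by_cases hj : kp Z j <;> simp [hi, hj]

lemma rzm_smm (Z : Finset Om) {D : ℕ} (h g : Fin D → Co E P Om → F) :
    rzm Z (smm h g) = smm (fun i => rz Z (h i)) (fun i => rz Z (g i)) := by
  rw [smm, smm, map_sum]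
  exact Finset.sum_congr rfl fun i _ => rzm_sm Z _ _

lemma sm_zero_left {K : Type*} (v : K → F) : sm (0 : K → F) v = 0 := by
  ext i j
  simp [sm, Matrix.vecMulVec_apply]

lemma single_eq {K : Type*} (i₁ i₂ : DecidableEq K) (w : K) (c : F) :
    @Pi.single K (fun _ => F) _ i₁ w c = @Pi.single K (fun _ => F) _ i₂ w c := by
  rw [Subsingleton.elim i₁ i₂]

lemma rz_single (Z : Finset Om) (inst : DecidableEq (Co E P Om)) (w : Om) :
    rz Z (@Pi.single (Co E P Om) (fun _ => F) _ inst (Sum.inr w) 1) =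
      if w ∈ Z then (Pi.single (Sum.inr w) 1 : Co E P Om → F) else 0 := by
  rw [single_eq inst (instDecidableEqSum) (Sum.inr w) 1]
  funext j
  rw [rz_apply]
  rcases j with (j | j) | w'
  · split_ifs <;> simp
  · split_ifs <;> simp
  · by_cases h : w' = w
    · subst h
      by_cases hZ : w' ∈ Z
      · simp [kp, hZ]
      · simp [kp, hZ]
    · split_ifs <;> simp [h]

/-- The restriction of a trivial tensor, when no row of `Z` is a zero row of `a`. -/
lemma rzm_Nn (fr : Frame N d E Om) (p : Lin N → Co E P Om → F) (hp : Ext fr p) (a : Ty N d)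
    (Z : Finset Om) (hZ : ∀ w ∈ Z, w ∉ fr.U a) (J : Finset (Ty N d × Ty N d))
    (H : Ty N d × Ty N d → Fin 2 → Co E P Om → F) {Q : Matrix (Co E P Om) (Co E P Om) F}
    (hQ : Q ∈ (dsg fr p hp).Nn a) : rzm Z Q ∈ LamZ fr p Z a J H := by
  have hle : (dsg fr p hp).Nn a ≤ (LamZ fr p Z a J H).comap (rzm (E := E) (P := P) Z) := by
    unfold Design.Nn
    rw [Submodule.span_le]
    rintro Q ((⟨c, w, hw, rfl⟩ | ⟨w, hw, v, rfl⟩) | ⟨v, rfl⟩)
    · obtain ⟨w', hw', rfl⟩ := Finset.mem_image.mp hw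
      rw [SetLike.mem_coe, Submodule.mem_comap, rzm_sm, rz_single]
      split_ifs with h
      · exact Submodule.subset_span (Or.inl (Or.inr ⟨c, w', h, hw',
          congrArg (fun x => sm x _) (single_eq _ _ _ _)⟩))
      · rw [sm_zero_left]
        exact Submodule.zero_mem _
    · obtain ⟨w', hw', rfl⟩ := Finset.mem_image.mp hw
      rw [SetLike.mem_coe, Submodule.mem_comap, rzm_sm, rz_single,
        if_neg fun h => hZ w' h hw', sm_zero_left]
      exact Submodule.zero_mem _
    · rw [SetLike.mem_coe, Submodule.mem_comap, rzm_sm]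
      exact Submodule.subset_span (Or.inr ⟨v, rfl⟩)
  exact hle hQ

/-- The span of the tensors of a basis. -/
def SpJ (p : Lin N → Co E P Om → F) (J : Finset (Ty N d × Ty N d))
    (H : Ty N d × Ty N d → Fin 2 → Co E P Om → F) :
    Submodule F (Matrix (Co E P Om) (Co E P Om) F) :=
  Submodule.span F {Q | ∃ β ∈ J, Q = smm (H β) (g2 p β)}

lemma rzm_mem_LamZ (fr : Frame N d E Om) (p : Lin N → Co E P Om → F) (hp : Ext fr p) (a : Ty N d)
    (Z : Finset Om) (hZ : ∀ w ∈ Z, w ∉ fr.U a) (J : Finset (Ty N d × Ty N d))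
    (H : Ty N d × Ty N d → Fin 2 → Co E P Om → F) {Q : Matrix (Co E P Om) (Co E P Om) F}
    (hQ : Q ∈ SpJ p J H ⊔ (dsg fr p hp).Nn a) : rzm Z Q ∈ LamZ fr p Z a J H := by
  have hle : SpJ p J H ⊔ (dsg fr p hp).Nn a ≤
      (LamZ fr p Z a J H).comap (rzm (E := E) (P := P) Z) := by
    refine sup_le ?_ fun Q hQ => rzm_Nn fr p hp a Z hZ J H hQ
    unfold SpJ
    rw [Submodule.span_le]
    rintro Q ⟨β, hβ, rfl⟩
    rw [SetLike.mem_coe, Submodule.mem_comap, rzm_smm]
    exact Submodule.subset_span (Or.inl (Or.inl ⟨β, hβ, rfl⟩))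
  exact hle hQ

/-! ### The kernel of the tensor map -/

lemma two_ne : (2 : F) ≠ 0 := by
  intro h
  have h1 : ((2 : ℕ) : F) = 0 := by exact_mod_cast h
  rw [ZMod.natCast_eq_zero_iff] at h1
  exact absurd (Nat.le_of_dvd (by norm_num) h1) (by norm_num)

lemma qf_mulVec {K : Type*} [Fintype K] {D : ℕ} (B : Matrix (Fin D) (Fin D) F)
    (g : Fin D → K → F) (v : K → F) :
    (qf B g).mulVec v = ∑ i, ∑ j, (B i j * (g j ⬝ᵥ v)) • g i := by
  rw [qf, Matrix.sum_mulVec]
  refine Finset.sum_congr rfl fun i _ => ?_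
  rw [Matrix.sum_mulVec]
  refine Finset.sum_congr rfl fun j _ => ?_
  ext x
  rw [Matrix.smul_mulVec, Pi.smul_apply, Pi.smul_apply, smul_eq_mul, smul_eq_mul]
  simp only [Matrix.mulVec, dotProduct, Matrix.vecMulVec_apply, Finset.mul_sum, Finset.sum_mul]
  exact Finset.sum_congr rfl fun y _ => by ring

/-- Tensors of an independent pair vanish only for multiples of `(g 1, - g 0)`. -/
theorem ker_two {K : Type*} [Fintype K] {W : Submodule F (K → F)} {g : Fin 2 → K → F}
    (hg : IndMod W g) {u : Fin 2 → K → F} (hu : smm u g = 0) :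
    ∃ s : F, u 0 = s • g 1 ∧ u 1 = - s • g 0 := by
  have hg0 : IndMod (⊥ : Submodule F (K → F)) g := fun c hc =>
    hg c (by rw [(Submodule.mem_bot F).mp hc]; exact W.zero_mem)
  have hmv : ∀ v : K → F, (∑ i, (g i ⬝ᵥ v) • u i) + ∑ i, (u i ⬝ᵥ v) • g i = 0 := by
    intro v
    rw [← smm_mulVec, hu, Matrix.zero_mulVec]
  -- the entries of `u` lie in the span of `g`
  have hspan : ∀ i, u i ∈ Submodule.span F (Set.range g) := by
    intro i
    by_contra hcon
    obtain ⟨v, hv, hv1⟩ := exists_sep hcon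
    have h1 := hmv v
    rw [Finset.sum_eq_zero fun i _ => by
      rw [hv (g i) (Submodule.subset_span ⟨i, rfl⟩), zero_smul], zero_add] at h1
    have h2 := hg0 (fun i => u i ⬝ᵥ v) (by rw [h1]; exact Submodule.zero_mem _)
    have h3 := congrFun h2 i
    rw [hv1] at h3
    exact one_ne_zero h3
  choose A hA using fun i => (Submodule.mem_span_range_iff_exists_fun F).mp (hspan i)
  have hsplit := smm_split (0 : Fin 2 → K → F) g (Matrix.of A)
  have hu' : (fun i => (0 : Fin 2 → K → F) i + ∑ j, (Matrix.of A) i j • g j) = u := by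
    funext i
    rw [Pi.zero_apply, zero_add]
    exact hA i
  have hz : smm (0 : Fin 2 → K → F) g = 0 := by
    ext x y
    simp [smm, sm, Matrix.sum_apply]
  rw [hu', hu, hz, zero_add] at hsplit
  -- the symmetric part of the coefficients vanishes
  have hB : ∀ k l, A k l + A l k = 0 := by
    intro k l
    obtain ⟨vk, -, hvk⟩ := exists_vals hg0 (Pi.single k 1)
    obtain ⟨vl, -, hvl⟩ := exists_vals hg0 (Pi.single l 1)
    have h1 : ((qf (Matrix.of A + (Matrix.of A).transpose) g).mulVec vl) ⬝ᵥ vk = 0 := by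
      rw [← hsplit, Matrix.zero_mulVec, zero_dotProduct]
    rw [qf_mulVec, sum_dotProduct] at h1
    simp only [sum_dotProduct, smul_dotProduct, hvk, hvl, smul_eq_mul, Matrix.add_apply,
      Matrix.transpose_apply, Matrix.of_apply] at h1
    simpa [Pi.single_apply] using h1
  refine ⟨A 0 1, ?_, ?_⟩
  · have h00 : A 0 0 = 0 := by
      have := hB 0 0
      rw [← two_mul] at this
      exact (mul_eq_zero.mp this).resolve_left two_ne
    rw [← hA 0, Fin.sum_univ_two, h00, zero_smul, zero_add]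
  · have h11 : A 1 1 = 0 := by
      have := hB 1 1
      rw [← two_mul] at this
      exact (mul_eq_zero.mp this).resolve_left two_ne
    have h10 : A 1 0 = - A 0 1 := eq_neg_of_add_eq_zero_left (hB 1 0)
    rw [← hA 1, Fin.sum_univ_two, h11, zero_smul, add_zero, h10]

end Vale.Agent.P060.HW
end
end

section

/-! Normalised first parts lie in a small space, up to few exceptional pairs. -/

open scoped Classical

noncomputable section

set_option linter.unusedSectionVars false

namespace Vale.Agent.P060.HW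

open Module

variable {N d : ℕ} {E P Om : Type} [Fintype E] [Fintype P] [Fintype Om] [NeZero N]

lemma lins_tt_subset (β : Ty N d × Ty N d) (i : Fin 2) : lins (tt β i) ⊆ lins2 β := by
  fin_cases i
  · exact Finset.subset_union_left
  · exact Finset.subset_union_right

lemma g2_apply (p : Lin N → Co E P Om → F) (β : Ty N d × Ty N d) (i : Fin 2) :
    g2 p β i = gv p (tt β i) := by
  fin_cases i <;> rfl

lemma card_lins2_le (β : Ty N d × Ty N d) : (lins2 β).card ≤ 6 := by
  refine (Finset.card_union_le _ _).trans ?_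
  have := rr_card_lins_le β.1
  have := rr_card_lins_le β.2
  omega

/-- Different types have a line which the other one does not have. -/
theorem exists_own (fr : Frame N d E Om) {t t' : Ty N d} (htt : t ≠ t') :
    ∃ s : Fin 3, lin t s ∉ lins t' := by
  by_contra hcon
  push Not at hcon
  exact htt (fr.share_two t t' 0 1 (by decide) (rr_mem_lins.mp (hcon 0)).symm
    (rr_mem_lins.mp (hcon 1)).symm)

/-- Members of a line-disjoint family meeting a set of lines. -/
theorem ld_meet {𝓕 : Finset (Ty N d × Ty N d)} (hLD : LD 𝓕) (L : Finset (Lin N)) :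
    (𝓕.filter fun β => ¬ Disjoint (lins2 β) L).card ≤ L.card := by
  have h1 : ∀ β ∈ 𝓕.filter (fun β => ¬ Disjoint (lins2 β) L), ∃ u, u ∈ lins2 β ∧ u ∈ L := by
    intro β hβ
    exact Finset.not_disjoint_iff.mp (Finset.mem_filter.mp hβ).2
  choose! f hf using h1
  refine Finset.card_le_card_of_injOn f (fun β hβ => (hf β hβ).2) ?_
  intro β hβ β' hβ' h
  by_contra hne
  have h2 := hLD β (Finset.mem_filter.mp hβ).1 β' (Finset.mem_filter.mp hβ').1 hne
  refine Finset.disjoint_left.mp h2 (hf β hβ).1 ?_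
  rw [h]
  exact (hf β' hβ').1

lemma rz_rz_empty (Z : Finset Om) (v : Co E P Om → F) : rz ∅ (rz Z v) = rz ∅ v := by
  funext j
  rw [rz_apply, rz_apply, rz_apply]
  rcases j with (j | j) | w
  · simp [kp]
  · simp [kp]
  · simp [kp]

/-- Few members of a line-disjoint family are dependent modulo a small space. -/
theorem few_dep (fr : Frame N d E Om) (p : Lin N → Co E P Om → F) {κ : ℕ} (h1 : Ev1 p κ)
    {S : ℕ} (hS : 6 * (S + 1) ≤ κ) (W : Submodule F (Co E P Om → F)) (hW : finrank F W ≤ S)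
    (𝓕 : Finset (Ty N d × Ty N d)) (hLD : LD 𝓕) (hne : ∀ β ∈ 𝓕, β.1 ≠ β.2)
    (hdep : ∀ β ∈ 𝓕, ¬ IndMod W fun i => rz ∅ (g2 p β i)) : 𝓕.card ≤ S := by
  by_contra hcon
  rw [not_le] at hcon
  obtain ⟨𝓖, h𝓖, hcard⟩ := Finset.exists_subset_card_eq hcon
  -- combinations in `W`
  have hc : ∀ β : 𝓖, ∃ c : Fin 2 → F, (∑ i, c i • rz ∅ (g2 p β.1 i)) ∈ W ∧ c ≠ 0 := by
    intro β
    have h2 := hdep β (h𝓖 β.2)
    unfold IndMod at h2
    push Not at h2
    exact h2
  choose c hcW hc0 using hc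
  let f : (𝓖 → F) →ₗ[F] W := Fintype.linearCombination F fun β : 𝓖 =>
    (⟨∑ i, c β i • rz ∅ (g2 p β.1 i), hcW β⟩ : W)
  have hlt : finrank F W < finrank F (𝓖 → F) := by
    rw [Module.finrank_fintype_fun_eq_card, Fintype.card_coe, hcard]
    omega
  obtain ⟨mu, hmu, hmu0⟩ := Submodule.exists_mem_ne_zero_of_ne_bot
    (LinearMap.ker_ne_bot_of_finrank_lt hlt (f := f))
  have hrel : ∑ β : 𝓖, mu β • ∑ i, c β i • rz ∅ (g2 p β.1 i) = 0 := by
    have h2 := congrArg Subtype.val (LinearMap.mem_ker.mp hmu)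
    simpa [f, Fintype.linearCombination_apply] using h2
  obtain ⟨β₀, hβ₀⟩ : ∃ β, mu β ≠ 0 := by
    by_contra h
    push Not at h
    exact hmu0 (funext h)
  obtain ⟨i₀, hi₀⟩ : ∃ i, c β₀ i ≠ 0 := by
    by_contra h
    push Not at h
    exact hc0 β₀ (funext h)
  let q : Lin N → P → F := fun u j => p u (Sum.inl (Sum.inr j))
  let ls : 𝓖 × Fin 2 → Finset (Lin N) := fun x => lins (tt (x.1 : Ty N d × Ty N d) x.2)
  let co : 𝓖 × Fin 2 → F := fun x => mu x.1 * c x.1 x.2
  have hR : ∑ s, co s • ∑ u ∈ ls s, q u = 0 := by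
    funext j
    have h2 := congrFun hrel (Sum.inl (Sum.inr j))
    rw [Finset.sum_apply, Pi.zero_apply] at h2
    rw [Finset.sum_apply, Pi.zero_apply, Fintype.sum_prod_type, ← h2]
    refine Finset.sum_congr rfl fun β _ => ?_
    rw [Pi.smul_apply, Finset.sum_apply, smul_eq_mul, Finset.mul_sum]
    refine Finset.sum_congr rfl fun i _ => ?_
    rw [Pi.smul_apply, Pi.smul_apply, smul_eq_mul, smul_eq_mul, rz_apply,
      if_pos (show kp ∅ (Sum.inl (Sum.inr j) : Co E P Om) from trivial), g2_apply, rr_gv_eq_sum, Finset.sum_apply, Finset.sum_apply]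
    change mu β * c β i * _ = mu β * (c β i * _)
    rw [mul_assoc]
  have htt : tt (β₀ : Ty N d × Ty N d) i₀ ≠ tt (β₀ : Ty N d × Ty N d) (1 - i₀) := by
    have := hne β₀ (h𝓖 β₀.2)
    fin_cases i₀
    · exact this
    · exact fun h => this h.symm
  obtain ⟨s, hs⟩ := exists_own fr htt
  let L' : Finset (Lin N) := 𝓖.biUnion lins2
  have hL' : L'.card ≤ κ := by
    refine le_trans (Finset.card_biUnion_le.trans ((Finset.sum_le_card_nsmul _ _ 6 fun β _ =>
      card_lins2_le β).trans ?_)) hS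
    rw [smul_eq_mul, hcard, mul_comm]
  have hzero : co (β₀, i₀) = 0 := by
    refine coeff_private' q L' (h1 L' hL') ls co ?_ hR (β₀, i₀)
      (lin (tt (β₀ : Ty N d × Ty N d) i₀) s) (Finset.mem_image_of_mem _ (Finset.mem_univ _)) ?_
    · rintro ⟨β, i⟩ _
      exact (lins_tt_subset (β : Ty N d × Ty N d) i).trans
        (Finset.subset_biUnion_of_mem lins2 β.2)
    · rintro ⟨β, i⟩ hs' _
      change _ ∉ lins (tt (β : Ty N d × Ty N d) i)
      by_cases hb : β = β₀
      · subst hb
        have hi : i = 1 - i₀ := by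
          have : i ≠ i₀ := fun h => hs' (by rw [h])
          fin_cases i <;> fin_cases i₀ <;> simp_all
        rw [hi]
        exact hs
      · intro hmem
        have h2 := hLD β (h𝓖 β.2) β₀ (h𝓖 β₀.2) fun h => hb (Subtype.ext h)
        exact Finset.disjoint_left.mp h2 (lins_tt_subset _ i hmem)
          (lins_tt_subset _ i₀ (Finset.mem_image_of_mem _ (Finset.mem_univ _)))
  exact mul_ne_zero hβ₀ hi₀ hzero

/-- Exceptional pairs for a set of rows. -/
def excZ (fr : Frame N d E Om) (a : Ty N d) (𝓕 J : Finset (Ty N d × Ty N d)) (Z : Finset Om) :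
    Finset (Ty N d × Ty N d) :=
  (𝓕.filter fun β => ¬ Disjoint (lins2 β) (lins a)) ∪ J ∪
    Z.biUnion fun w => 𝓕.filter fun β => ¬ Disjoint (lins2 β) (rowLines fr w)

lemma card_rowLines_le (fr : Frame N d E Om) {A : ℕ}
    (hA : ∀ w, (Finset.univ.filter fun c : Ty N d => w ∈ fr.U c).card ≤ A) (w : Om) :
    (rowLines fr w).card ≤ 3 * A := by
  unfold rowLines
  refine Finset.card_biUnion_le.trans ((Finset.sum_le_card_nsmul _ _ 3 fun c _ =>
    rr_card_lins_le c).trans ?_)
  rw [smul_eq_mul, mul_comm]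
  exact Nat.mul_le_mul_left _ (hA w)

lemma card_excZ (fr : Frame N d E Om) {A : ℕ}
    (hA : ∀ w, (Finset.univ.filter fun c : Ty N d => w ∈ fr.U c).card ≤ A) (a : Ty N d)
    {𝓕 J : Finset (Ty N d × Ty N d)} (hLD : LD 𝓕) {R t : ℕ} (hJR : J.card ≤ R) {Z : Finset Om}
    (hZ : Z.card ≤ t) : (excZ fr a 𝓕 J Z).card ≤ 3 + R + t * (3 * A) := by
  unfold excZ
  refine (Finset.card_union_le _ _).trans (Nat.add_le_add ((Finset.card_union_le _ _).trans
    (Nat.add_le_add ((ld_meet hLD _).trans (rr_card_lins_le a)) hJR)) ?_)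
  refine Finset.card_biUnion_le.trans ((Finset.sum_le_card_nsmul _ _ (3 * A) fun w _ =>
    (ld_meet hLD _).trans (card_rowLines_le fr hA w)).trans ?_)
  rw [smul_eq_mul]
  exact Nat.mul_le_mul_right _ hZ

/-- Event (i) for a family: a small space and few bad members. -/
theorem evI_apply (fr : Frame N d E Om) (p : Lin N → Co E P Om → F) (a : Ty N d)
    {t R s m A : ℕ} (hI : EvI fr p t R s m)
    (hA : ∀ w, (Finset.univ.filter fun c : Ty N d => w ∈ fr.U c).card ≤ A)
    {𝓕 J : Finset (Ty N d × Ty N d)} (hLD : LD 𝓕) (hne : ∀ β ∈ 𝓕, β.1 ≠ β.2) (hJ : J ⊆ 𝓕)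
    (hJR : J.card ≤ R) (H : Ty N d × Ty N d → Fin 2 → Co E P Om → F) (Z : Finset Om)
    (hZ : Z.card ≤ t) :
    ∃ (W : Submodule F (Co E P Om → F)) (Bd : Finset (Ty N d × Ty N d)), finrank F W ≤ s ∧
      Bd.card ≤ m + (3 + R + t * (3 * A)) ∧
      ∀ β ∈ 𝓕, β ∉ Bd → ¬ BadZ p Z (LamZ fr p Z a J H) W β := by
  obtain ⟨W, hW, -, hbad⟩ := hI Z hZ a J H hJR
  refine ⟨W, ((𝓕 \ excZ fr a 𝓕 J Z).filter fun β => BadZ p Z (LamZ fr p Z a J H) W β) ∪
    excZ fr a 𝓕 J Z, hW, ?_, ?_⟩
  · refine (Finset.card_union_le _ _).trans (Nat.add_le_add ?_ (card_excZ fr hA a hLD hJR hZ))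
    refine hbad _ ?_ ?_ ?_ ?_ ?_ ?_
    · intro β hβ β' hβ' hb
      exact hLD β (Finset.mem_sdiff.mp (Finset.mem_filter.mp hβ).1).1 β'
        (Finset.mem_sdiff.mp (Finset.mem_filter.mp hβ').1).1 hb
    · intro β hβ
      exact hne β (Finset.mem_sdiff.mp (Finset.mem_filter.mp hβ).1).1
    · intro β hβ
      obtain ⟨hβ1, hβ2⟩ := Finset.mem_sdiff.mp (Finset.mem_filter.mp hβ).1
      by_contra hcon
      refine hβ2 ?_
      unfold excZ
      exact Finset.mem_union_left _ (Finset.mem_union_left _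
        (Finset.mem_filter.mpr ⟨hβ1, hcon⟩))
    · intro β hβ β' hβ'
      obtain ⟨hβ1, hβ2⟩ := Finset.mem_sdiff.mp (Finset.mem_filter.mp hβ).1
      refine hLD β hβ1 β' (hJ hβ') fun h => hβ2 ?_
      unfold excZ
      exact Finset.mem_union_left _ (Finset.mem_union_right _ (h ▸ hβ'))
    · intro β hβ w hw
      obtain ⟨hβ1, hβ2⟩ := Finset.mem_sdiff.mp (Finset.mem_filter.mp hβ).1
      by_contra hcon
      refine hβ2 ?_
      unfold excZ
      exact Finset.mem_union_right _ (Finset.mem_biUnion.mpr ⟨w, hw,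
        Finset.mem_filter.mpr ⟨hβ1, hcon⟩⟩)
    · intro β hβ
      exact (Finset.mem_filter.mp hβ).2
  · intro β hβ hβB hb
    rw [Finset.mem_union, not_or] at hβB
    exact hβB.1 (Finset.mem_filter.mpr ⟨Finset.mem_sdiff.mpr ⟨hβ, hβB.2⟩, hb⟩)

lemma smm_sub_left {K : Type*} {D : ℕ} (h w g : Fin D → K → F) :
    smm (fun i => h i - w i) g = smm h g - smm w g := by
  rw [eq_sub_iff_add_eq, ← smm_add_left]
  congr 1
  funext i
  exact sub_add_cancel _ _

/-- Shifting by a multiple of `(g 1, - g 0)` does not change the tensor. -/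
lemma smm_shift {K : Type*} (h g : Fin 2 → K → F) (s : F) :
    smm ![h 0 - s • g 1, h 1 + s • g 0] g = smm h g := by
  ext x y
  simp only [smm, sm, Fin.sum_univ_two, Matrix.add_apply, Matrix.vecMulVec_apply,
    Matrix.cons_val_zero, Matrix.cons_val_one, Pi.sub_apply, Pi.add_apply, Pi.smul_apply,
    smul_eq_mul]
  ring

/-- One side: first parts can be normalised so that their restrictions lie in small spaces. -/
theorem one_side (fr : Frame N d E Om) (p : Lin N → Co E P Om → F) (hp : Ext fr p) (a : Ty N d)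
    {κ t R s m A : ℕ} (h1 : Ev1 p κ) (hI : EvI fr p t R s m) (hκ : 6 * (2 * s + 1) ≤ κ)
    (hA : ∀ w, (Finset.univ.filter fun c : Ty N d => w ∈ fr.U c).card ≤ A)
    {𝓕 J : Finset (Ty N d × Ty N d)} (hLD : LD 𝓕) (hne : ∀ β ∈ 𝓕, β.1 ≠ β.2) (hJ : J ⊆ 𝓕)
    (hJR : J.card ≤ R) (H : Ty N d × Ty N d → Fin 2 → Co E P Om → F)
    (hspan : ∀ β ∈ 𝓕, smm (H β) (g2 p β) ∈ SpJ p J H ⊔ (dsg fr p hp).Nn a) :
    ∃ Ht : Ty N d × Ty N d → Fin 2 → Co E P Om → F,
      (∀ β, smm (Ht β) (g2 p β) = smm (H β) (g2 p β)) ∧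
      ∀ Z : Finset Om, Z.card ≤ t → (∀ w ∈ Z, w ∉ fr.U a) →
        ∃ (W : Submodule F (Co E P Om → F)) (Bd : Finset (Ty N d × Ty N d)), finrank F W ≤ s ∧
          Bd.card ≤ 2 * (m + (3 + R + t * (3 * A))) + 2 * s ∧
          ∀ β ∈ 𝓕, β ∉ Bd → ∀ i, rz Z (Ht β i) ∈ W := by
  obtain ⟨W0, Bd0, hW0, hBd0, hgood0⟩ := evI_apply fr p a hI hA hLD hne hJ hJR H ∅ (Nat.zero_le _)
  -- the normalisation
  have hex : ∀ β, ∃ σ : F, β ∈ 𝓕 → β ∉ Bd0 →
      rz ∅ (H β 0 - σ • g2 p β 1) ∈ W0 ∧ rz ∅ (H β 1 + σ • g2 p β 0) ∈ W0 := by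
    intro β
    by_cases hβ : β ∈ 𝓕 ∧ β ∉ Bd0
    · have hb := hgood0 β hβ.1 hβ.2
      unfold BadZ at hb
      rw [not_or, not_not] at hb
      obtain ⟨hind, hh⟩ := hb
      push Not at hh
      have h2 := rzm_mem_LamZ fr p hp a ∅ (by simp) J H (hspan β hβ.1)
      rw [rzm_smm] at h2
      obtain ⟨w, hw, hwe⟩ := hh (H β) h2
      have h3 : smm (fun i => rz ∅ (H β i) - w i) (fun i => rz ∅ (g2 p β i)) = 0 := by
        rw [smm_sub_left, hwe, sub_self]
      obtain ⟨σ, hs0, hs1⟩ := ker_two hind h3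
      refine ⟨σ, fun _ _ => ⟨?_, ?_⟩⟩
      · have h4 : rz ∅ (H β 0 - σ • g2 p β 1) = w 0 := by
          rw [map_sub, map_smul, sub_eq_iff_eq_add, ← hs0]
          abel
        rw [h4]
        exact hw 0
      · have h4 : rz ∅ (H β 1 + σ • g2 p β 0) = w 1 := by
          have h5 : σ • rz ∅ (g2 p β 0) = - (rz ∅ (H β 1) - w 1) := by
            rw [hs1, neg_smul, neg_neg]
          rw [map_add, map_smul, h5]
          abel
        rw [h4]
        exact hw 1
    · exact ⟨0, fun h h' => absurd ⟨h, h'⟩ hβ⟩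
  choose σ hσ using hex
  refine ⟨fun β => ![H β 0 - σ β • g2 p β 1, H β 1 + σ β • g2 p β 0],
    fun β => smm_shift _ _ _, ?_⟩
  intro Z hZ hZa
  obtain ⟨W, Bd, hW, hBd, hgood⟩ := evI_apply fr p a hI hA hLD hne hJ hJR H Z hZ
  let W2 : Submodule F (Co E P Om → F) := W0 ⊔ W.map (rz ∅)
  have hW2 : finrank F W2 ≤ 2 * s := by
    refine (Submodule.finrank_add_le_finrank_add_finrank _ _).trans ?_
    have := Submodule.finrank_map_le (rz (E := E) (P := P) (Om := Om) ∅) W
    omega
  let Bd2 : Finset (Ty N d × Ty N d) :=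
    𝓕.filter fun β => ¬ IndMod W2 fun i => rz ∅ (g2 p β i)
  have hBd2 : Bd2.card ≤ 2 * s := by
    refine few_dep fr p h1 hκ W2 hW2 Bd2 ?_ ?_ ?_
    · intro β hβ β' hβ' hb
      exact hLD β (Finset.mem_filter.mp hβ).1 β' (Finset.mem_filter.mp hβ').1 hb
    · intro β hβ
      exact hne β (Finset.mem_filter.mp hβ).1
    · intro β hβ
      exact (Finset.mem_filter.mp hβ).2
  refine ⟨W, Bd0 ∪ Bd ∪ Bd2, hW, ?_, ?_⟩
  · refine (Finset.card_union_le _ _).trans (Nat.add_le_add ((Finset.card_union_le _ _).trans ?_)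
      hBd2)
    omega
  · intro β hβ hβB
    rw [Finset.mem_union, Finset.mem_union, not_or, not_or] at hβB
    obtain ⟨⟨hb0, hb1⟩, hb2⟩ := hβB
    have hind2 : IndMod W2 fun i => rz ∅ (g2 p β i) := by
      by_contra hcon
      exact hb2 (Finset.mem_filter.mpr ⟨hβ, hcon⟩)
    have hb := hgood β hβ hb1
    unfold BadZ at hb
    rw [not_or, not_not] at hb
    obtain ⟨hind, hh⟩ := hb
    push Not at hh
    set Hb : Fin 2 → Co E P Om → F := ![H β 0 - σ β • g2 p β 1, H β 1 + σ β • g2 p β 0] with hHb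
    have h2 : rzm Z (smm Hb (g2 p β)) ∈ LamZ fr p Z a J H := by
      rw [hHb, smm_shift]
      exact rzm_mem_LamZ fr p hp a Z hZa J H (hspan β hβ)
    rw [rzm_smm] at h2
    obtain ⟨w, hw, hwe⟩ := hh Hb h2
    have h3 : smm (fun i => rz Z (Hb i) - w i) (fun i => rz Z (g2 p β i)) = 0 := by
      rw [smm_sub_left, hwe, sub_self]
    obtain ⟨τ, ht0, ht1⟩ := ker_two hind h3
    -- the multiple vanishes
    have hτ : τ = 0 := by
      have h4 : τ • rz ∅ (g2 p β 1) ∈ W2 := by
        have h5 : τ • rz ∅ (g2 p β 1) = rz ∅ (Hb 0) - rz ∅ (w 0) := by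
          have h6 := congrArg (rz (E := E) (P := P) ∅) ht0
          rw [map_sub, rz_rz_empty, map_smul, rz_rz_empty] at h6
          exact h6.symm
        rw [h5]
        refine Submodule.sub_mem _ (Submodule.mem_sup_left (hσ β hβ hb0).1)
          (Submodule.mem_sup_right ⟨w 0, hw 0, rfl⟩)
      have h5 := hind2 (Pi.single 1 τ) (by
        rw [Fin.sum_univ_two]
        simpa using h4)
      simpa using congrFun h5 1
    rw [hτ, zero_smul, sub_eq_zero] at ht0
    rw [hτ, neg_zero, zero_smul, sub_eq_zero] at ht1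
    intro i
    fin_cases i
    · change rz Z (Hb 0) ∈ W
      rw [ht0]
      exact hw 0
    · change rz Z (Hb 1) ∈ W
      rw [ht1]
      exact hw 1

end Vale.Agent.P060.HW
end
end

section

/-! A large class of pairs with the same first parts, up to trivial tensors. -/

open scoped Classical

noncomputable section

set_option linter.unusedSectionVars false

namespace Vale.Agent.P060.HW

open Module

variable {N d : ℕ} {E P Om : Type} [Fintype E] [Fintype P] [Fintype Om] [NeZero N]

lemma card_image_le_image {A B C : Type*} (G : Finset A) (f : A → B) (φ : A → C)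
    (h : ∀ x ∈ G, ∀ y ∈ G, φ x = φ y → f x = f y) : (G.image f).card ≤ (G.image φ).card := by
  rcases isEmpty_or_nonempty A with hA | hA
  · rw [Finset.eq_empty_of_isEmpty G]
    simp
  have hex : ∀ y ∈ G.image f, ∃ x, x ∈ G ∧ f x = y := fun y hy => Finset.mem_image.mp hy
  choose! g hg hgf using hex
  refine Finset.card_le_card_of_injOn (fun y => φ (g y)) ?_ ?_
  · intro y hy
    exact Finset.mem_image_of_mem _ (hg y hy)
  · intro y hy y' hy' hyy
    rw [← hgf y hy, ← hgf y' hy']
    exact h _ (hg y hy) _ (hg y' hy') hyy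

/-- A first part supported on zero rows gives a trivial tensor. -/
theorem smm_supp_mem (fr : Frame N d E Om) (p : Lin N → Co E P Om → F) (hp : Ext fr p)
    (a : Ty N d) (β : Ty N d × Ty N d) (δ : Fin 2 → Co E P Om → F)
    (h0 : ∀ i j, δ i (Sum.inl j) = 0)
    (h1 : ∀ i w, δ i (Sum.inr w) ≠ 0 → w ∈ fr.U a ∨ w ∈ fr.U (tt β i)) :
    smm δ (g2 p β) ∈ (dsg fr p hp).Nn a := by
  rw [smm]
  refine Submodule.sum_mem _ fun i _ => ?_
  have h2 : sm (δ i) (g2 p β i) = ∑ w, δ i (Sum.inr w) •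
      sm (Pi.single (Sum.inr w) 1 : Co E P Om → F) (g2 p β i) := by
    ext x y
    rw [sm_apply, Matrix.sum_apply]
    simp only [Matrix.smul_apply, sm_apply, smul_eq_mul]
    have h3 : ∀ x : Co E P Om, δ i x = ∑ w, δ i (Sum.inr w) *
        (Pi.single (Sum.inr w) 1 : Co E P Om → F) x := by
      intro x
      rcases x with j | w
      · rw [h0]
        symm
        exact Finset.sum_eq_zero fun w _ => by simp
      · rw [Finset.sum_eq_single w]
        · simp
        · intro w' _ hw'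
          have : (Sum.inr w : Co E P Om) ≠ Sum.inr w' := fun h => hw' (Sum.inr.inj h).symm
          rw [Pi.single_eq_of_ne this, mul_zero]
        · intro h
          exact absurd (Finset.mem_univ _) h
    rw [h3 x, h3 y, Finset.sum_mul, Finset.mul_sum, ← Finset.sum_add_distrib]
    exact Finset.sum_congr rfl fun w _ => by ring
  rw [h2]
  refine Submodule.sum_mem _ fun w _ => ?_
  by_cases hw : δ i (Sum.inr w) = 0
  · rw [hw, zero_smul]
    exact Submodule.zero_mem _
  · refine Submodule.smul_mem _ _ (Submodule.subset_span ?_)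
    rcases h1 i w hw with h | h
    · exact Or.inl (Or.inr ⟨Sum.inr w, Finset.mem_image_of_mem _ h, g2 p β i,
        congrArg (fun x => sm x _) (single_eq _ _ _ _)⟩)
    · refine Or.inl (Or.inl ⟨tt β i, Sum.inr w, Finset.mem_image_of_mem _ h, ?_⟩)
      rw [g2_apply]
      exact congrArg (fun x => sm x _) (single_eq _ _ _ _)

/-- The tensors of the own test vector. -/
def Own (p : Lin N → Co E P Om → F) (a : Ty N d) :
    Submodule F (Matrix (Co E P Om) (Co E P Om) F) :=
  Submodule.span F (Set.range fun j : Co E P Om => sm (Pi.single j 1 : Co E P Om → F) (gv p a))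

lemma sm_mem_Own (p : Lin N → Co E P Om → F) (a : Ty N d) (v : Co E P Om → F) :
    sm v (gv p a) ∈ Own p a := by
  have h2 : sm v (gv p a) = ∑ j, v j • sm (Pi.single j 1 : Co E P Om → F) (gv p a) := by
    ext x y
    rw [sm_apply, Matrix.sum_apply]
    simp only [Matrix.smul_apply, sm_apply, smul_eq_mul, Pi.single_apply, mul_add, ite_mul,
      one_mul, zero_mul, mul_ite, mul_one, mul_zero, Finset.sum_add_distrib]
    simp [mul_comm]
  rw [h2]
  exact Submodule.sum_mem _ fun j _ => Submodule.smul_mem _ _ (Submodule.subset_span ⟨j, rfl⟩)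

lemma finrank_Own (p : Lin N → Co E P Om → F) (a : Ty N d) :
    finrank F (Own p a) ≤ Fintype.card (Co E P Om) :=
  finrank_range_le_card _

lemma Nn_le (fr : Frame N d E Om) (p : Lin N → Co E P Om → F) (hp : Ext fr p) (a : Ty N d) :
    (dsg fr p hp).Nn a ≤ Own p a ⊔ Nz fr p a := by
  unfold Design.Nn
  rw [Submodule.span_le]
  rintro Q ((⟨c, w, hw, rfl⟩ | ⟨w, hw, v, rfl⟩) | ⟨v, rfl⟩)
  · obtain ⟨w', hw', rfl⟩ := Finset.mem_image.mp hw
    refine Submodule.mem_sup_right (Submodule.subset_span (Or.inl ⟨c, w', hw', ?_⟩))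
    exact congrArg (fun x => sm x _) (single_eq _ _ _ _)
  · obtain ⟨w', hw', rfl⟩ := Finset.mem_image.mp hw
    refine Submodule.mem_sup_right (Submodule.subset_span (Or.inr ⟨w', hw', v, ?_⟩))
    exact congrArg (fun x => sm x _) (single_eq _ _ _ _)
  · exact Submodule.mem_sup_left (sm_mem_Own p a v)

lemma finrank_SpJ (p : Lin N → Co E P Om → F) (J : Finset (Ty N d × Ty N d))
    (H : Ty N d × Ty N d → Fin 2 → Co E P Om → F) : finrank F (SpJ p J H) ≤ J.card := by
  have h1 : SpJ p J H = Submodule.span F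
      ((J.image fun β => smm (H β) (g2 p β) : Finset _) : Set (Matrix _ _ F)) := by
    unfold SpJ
    congr 1
    ext Q
    rw [Finset.coe_image, Set.mem_image]
    constructor
    · rintro ⟨β, hβ, rfl⟩
      exact ⟨β, hβ, rfl⟩
    · rintro ⟨β, hβ, rfl⟩
      exact ⟨β, hβ, rfl⟩
  rw [h1]
  exact (finrank_span_finset_le_card _).trans Finset.card_image_le

/-- One side of the rank step. -/
theorem side_rank (fr : Frame N d E Om) (p : Lin N → Co E P Om → F) (hp : Ext fr p) (a : Ty N d)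
    {κ R A b : ℕ} (h1 : Ev1 p κ)
    (hA : ∀ w, (Finset.univ.filter fun c : Ty N d => w ∈ fr.U c).card ≤ A)
    {𝓕 J : Finset (Ty N d × Ty N d)} (hLD : LD 𝓕) (hne : ∀ β ∈ 𝓕, β.1 ≠ β.2)
    (hJR : J.card ≤ R) (H Ht : Ty N d × Ty N d → Fin 2 → Co E P Om → F)
    (hHt : ∀ β, smm (Ht β) (g2 p β) = smm (H β) (g2 p β))
    (hspan : ∀ β ∈ 𝓕, smm (H β) (g2 p β) ∈ SpJ p J H ⊔ (dsg fr p hp).Nn a)
    (T₁ : Finset (Ty N d × Ty N d)) (hT : T₁ ⊆ 𝓕) (hs : Fin 2 → Co E P Om → F)
    (hbase : ∀ β ∈ T₁, ∀ i j, Ht β i (Sum.inl j) = hs i (Sum.inl j))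
    (hrow : ∀ w, w ∉ fr.U a →
      (T₁.filter fun β => ∃ i, Ht β i (Sum.inr w) ≠ hs i (Sum.inr w)).card ≤ b)
    (hb : 6 * b + 3 * A ≤ κ) :
    (T₁.filter fun β => ¬ (smm (H β) (g2 p β) - smm hs (g2 p β) ∈ (dsg fr p hp).Nn a)).card ≤
      R + 3 * Fintype.card (Co E P Om) := by
  set D₀ : Finset (Ty N d × Ty N d) := T₁.filter fun β =>
    ∃ w, w ∉ fr.U a ∧ ∃ i, Ht β i (Sum.inr w) ≠ hs i (Sum.inr w) ∧ w ∉ fr.U (tt β i) with hD₀
  have hsub : (T₁.filter fun β => ¬ (smm (H β) (g2 p β) - smm hs (g2 p β) ∈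
      (dsg fr p hp).Nn a)) ⊆ D₀ := by
    intro β hβ
    obtain ⟨hβ1, hβ2⟩ := Finset.mem_filter.mp hβ
    refine Finset.mem_filter.mpr ⟨hβ1, ?_⟩
    by_contra hcon
    push Not at hcon
    apply hβ2
    rw [← hHt, ← smm_sub_left]
    refine smm_supp_mem fr p hp a β (fun i => Ht β i - hs i) ?_ ?_
    · intro i j
      rw [Pi.sub_apply, hbase β hβ1, sub_self]
    · intro i w hw
      rw [Pi.sub_apply, sub_ne_zero] at hw
      by_cases hwa : w ∈ fr.U a
      · exact Or.inl hwa
      · exact Or.inr (hcon w hwa i hw)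
  refine (Finset.card_le_card hsub).trans ?_
  have h2 := rank_rows fr p a (m := κ) h1 (D := D₀) (fun β => β.1)
    (fun β => hne _ (hT (Finset.mem_filter.mp β.2).1))
    (fun β β' hbb => hLD _ (hT (Finset.mem_filter.mp β.2).1) _
      (hT (Finset.mem_filter.mp β'.2).1) fun h => hbb (Subtype.ext h))
    (SpJ p J H ⊔ Own p a) (fun β => Ht β.1) hs ?_ ?_ ?_ ?_
  · rw [Fintype.card_coe] at h2
    refine h2.trans ?_
    have h3 : finrank F ↥(SpJ p J H ⊔ Own p a) ≤ R + Fintype.card (Co E P Om) :=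
      (Submodule.finrank_add_le_finrank_add_finrank _ _).trans
        (Nat.add_le_add ((finrank_SpJ p J H).trans hJR) (finrank_Own p a))
    omega
  · intro β
    have h3 := hspan _ (hT (Finset.mem_filter.mp β.2).1)
    rw [← hHt] at h3
    have h4 : SpJ p J H ⊔ (dsg fr p hp).Nn a ≤ SpJ p J H ⊔ Own p a ⊔ Nz fr p a := by
      rw [sup_assoc]
      exact sup_le_sup_left (Nn_le fr p hp a) _
    exact h4 h3
  · intro β i j
    exact hbase _ (Finset.mem_filter.mp β.2).1 i j
  · intro w hw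
    refine le_trans (Nat.add_le_add (Nat.mul_le_mul_left 6 ?_) (Nat.mul_le_mul_left 3 (hA w))) hb
    refine le_trans ?_ (hrow w hw)
    refine Finset.card_le_card_of_injOn (fun β => (β : Ty N d × Ty N d)) ?_
      fun β _ β' _ h => Subtype.ext h
    intro β hβ
    have h3 := (Finset.mem_filter.mp (Finset.mem_coe.mp hβ)).2
    exact Finset.mem_coe.mpr (Finset.mem_filter.mpr ⟨(Finset.mem_filter.mp β.2).1, h3⟩)
  · intro β
    exact (Finset.mem_filter.mp β.2).2

private lemma card_image_inst {A B : Type*} (i1 i2 : DecidableEq B) (f : A → B) (G : Finset A) :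
    (@Finset.image A B i1 f G).card = (@Finset.image A B i2 f G).card := by
  rw [Subsingleton.elim i1 i2]

/-- The number of tuples from a small space. -/
lemma card_pi_sub {n s : ℕ} (W : Submodule F (Co E P Om → F)) (hW : finrank F W ≤ s) :
    (Fintype.piFinset fun _ : Fin n => Finset.univ.filter fun v => v ∈ W).card ≤
      2521 ^ (n * s) := by
  rw [Fintype.card_piFinset, Finset.prod_const, Finset.card_univ, Fintype.card_fin, mul_comm,
    pow_mul]
  refine Nat.pow_le_pow_left ((card_sub W hW).trans (le_of_eq ?_)) n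
  rw [ZMod.card]

/-- A large class of pairs with constant first parts up to trivial tensors. -/
theorem class_extract (fr : Frame N d E Om) (p : Lin N → Co E P Om → F) (hp : Ext fr p)
    (a a' : Ty N d) {κ t R s m A b : ℕ} (h1 : Ev1 p κ) (hI : EvI fr p t R s m)
    (hκ : 6 * (2 * s + 1) ≤ κ)
    (hA : ∀ w, (Finset.univ.filter fun c : Ty N d => w ∈ fr.U c).card ≤ A)
    {𝓕 J : Finset (Ty N d × Ty N d)} (hLD : LD 𝓕) (hne : ∀ β ∈ 𝓕, β.1 ≠ β.2) (hJ : J ⊆ 𝓕)
    (hJR : J.card ≤ R) (H H' : Ty N d × Ty N d → Fin 2 → Co E P Om → F)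
    (hspan : ∀ β ∈ 𝓕, smm (H β) (g2 p β) ∈ SpJ p J H ⊔ (dsg fr p hp).Nn a)
    (hspan' : ∀ β ∈ 𝓕, smm (H' β) (g2 p β) ∈ SpJ p J H' ⊔ (dsg fr p hp).Nn a')
    (h𝓕 : 𝓕.Nonempty)
    (hX : 4 * (2 * (m + (3 + R + t * (3 * A))) + 2 * s) ≤ 𝓕.card)
    {M : ℕ} (hM : M = 2521 ^ (4 * s + 4 * Fintype.card E))
    {κ₀ : ℝ} (hκ₀ : 0 < κ₀) (hκt : 1 < κ₀ * (t + 1))
    (hb : κ₀ * 𝓕.card * (2 * M) ≤ b) (hbκ : 6 * b + 3 * A ≤ κ) :
    ∃ (T₂ : Finset (Ty N d × Ty N d)) (hs hs' : Fin 2 → Co E P Om → F), T₂ ⊆ 𝓕 ∧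
      (𝓕.card : ℝ) ≤ 2 * M * (T₂.card + 2 * (R + 3 * Fintype.card (Co E P Om))) ∧
      ∀ β ∈ T₂, smm (H β) (g2 p β) - smm hs (g2 p β) ∈ (dsg fr p hp).Nn a ∧
        smm (H' β) (g2 p β) - smm hs' (g2 p β) ∈ (dsg fr p hp).Nn a' := by
  obtain ⟨Ht, hHt, hsd⟩ := one_side fr p hp a h1 hI hκ hA hLD hne hJ hJR H hspan
  obtain ⟨Ht', hHt', hsd'⟩ := one_side fr p hp a' h1 hI hκ hA hLD hne hJ hJR H' hspan'
  have : Nonempty 𝓕 := h𝓕.coe_sort
  have hMpos : 0 < M := by rw [hM]; positivity
  -- labels and rows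
  let c₀ : 𝓕 → (Fin 2 → E ⊕ P → F) × (Fin 2 → E ⊕ P → F) := fun β =>
    (fun i j => Ht β.1 i (Sum.inl j), fun i j => Ht' β.1 i (Sum.inl j))
  let hh : 𝓕 → Om → (Fin 2 → F) × (Fin 2 → F) := fun β w =>
    (fun i => if w ∈ fr.U a then 0 else Ht β.1 i (Sum.inr w),
      fun i => if w ∈ fr.U a' then 0 else Ht' β.1 i (Sum.inr w))
  have hMr : (0 : ℝ) < M := Nat.cast_pos.mpr hMpos
  obtain ⟨T₁, t₁, ht₁, hT₁, hc, hrow⟩ := greedy_of_values c₀ hh (ε := 1 / 2) (M := M) hκ₀
    (by norm_num) hMpos (by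
      intro Z hZ
      have hZt : Z.card ≤ t := by
        by_contra hcon
        rw [not_le] at hcon
        have h2 : ((t : ℝ) + 1) ≤ Z.card := by exact_mod_cast hcon
        have h3 : κ₀ * (t + 1) ≤ κ₀ * Z.card := mul_le_mul_of_nonneg_left h2 hκ₀.le
        linarith only [h3, hZ, hκt]
      obtain ⟨W, Bd, hW, hBd, hg⟩ := hsd (Z.filter fun w => w ∉ fr.U a)
        ((Finset.card_filter_le _ _).trans hZt) fun w hw => (Finset.mem_filter.mp hw).2
      obtain ⟨W', Bd', hW', hBd', hg'⟩ := hsd' (Z.filter fun w => w ∉ fr.U a')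
        ((Finset.card_filter_le _ _).trans hZt) fun w hw => (Finset.mem_filter.mp hw).2
      let G : Finset 𝓕 := Finset.univ.filter fun β => β.1 ∉ Bd ∧ β.1 ∉ Bd'
      refine ⟨G, ?_, ?_⟩
      · -- the size of the good part
        have h2 : (Finset.univ.filter fun β : 𝓕 => ¬ (β.1 ∉ Bd ∧ β.1 ∉ Bd')).card ≤
            Bd.card + Bd'.card := by
          refine le_trans ?_ (Finset.card_union_le Bd Bd')
          refine Finset.card_le_card_of_injOn (fun β => β.1) ?_ fun β _ β' _ h => Subtype.ext h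
          intro β hβ
          have h3 := (Finset.mem_filter.mp (Finset.mem_coe.mp hβ)).2
          rw [not_and_or, not_not, not_not] at h3
          exact Finset.mem_coe.mpr (Finset.mem_union.mpr h3)
        have h3 := Finset.card_filter_add_card_filter_not (s := (Finset.univ : Finset 𝓕))
          (fun β => β.1 ∉ Bd ∧ β.1 ∉ Bd')
        rw [Finset.card_univ, Fintype.card_coe] at h3
        rw [Fintype.card_coe]
        have h4 : 𝓕.card ≤ 2 * G.card := by
          change G.card + _ = _ at h3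
          omega
        have h5 : (𝓕.card : ℝ) ≤ 2 * G.card := by exact_mod_cast h4
        linarith only [h5]
      · -- the number of values
        let φ : 𝓕 → (Fin 2 → Co E P Om → F) × (Fin 2 → Co E P Om → F) ×
            ((Fin 2 → E → F) × (Fin 2 → E → F)) := fun β =>
          (fun i => rz (Z.filter fun w => w ∉ fr.U a) (Ht β.1 i),
            fun i => rz (Z.filter fun w => w ∉ fr.U a') (Ht' β.1 i),
            (fun i e => Ht β.1 i (Sum.inl (Sum.inl e)), fun i e => Ht' β.1 i (Sum.inl (Sum.inl e))))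
        have h2 := card_image_le_image G (fun β => (c₀ β, fun w : Z => hh β w)) φ (by
          intro x _ y _ hxy
          have e1 : ∀ i, rz (Z.filter fun w => w ∉ fr.U a) (Ht x.1 i) =
            rz (Z.filter fun w => w ∉ fr.U a) (Ht y.1 i) := fun i =>
              congrFun (congrArg Prod.fst hxy) i
          have e2 : ∀ i, rz (Z.filter fun w => w ∉ fr.U a') (Ht' x.1 i) =
            rz (Z.filter fun w => w ∉ fr.U a') (Ht' y.1 i) := fun i =>
              congrFun (congrArg (fun q => q.2.1) hxy) i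
          have e3 : ∀ i e, Ht x.1 i (Sum.inl (Sum.inl e)) = Ht y.1 i (Sum.inl (Sum.inl e)) :=
            fun i e => congrFun (congrFun (congrArg (fun q => q.2.2.1) hxy) i) e
          have e4 : ∀ i e, Ht' x.1 i (Sum.inl (Sum.inl e)) = Ht' y.1 i (Sum.inl (Sum.inl e)) :=
            fun i e => congrFun (congrFun (congrArg (fun q => q.2.2.2) hxy) i) e
          refine Prod.ext (Prod.ext ?_ ?_) ?_
          · funext i j
            rcases j with j | j
            · exact e3 i j
            · have := congrFun (e1 i) (Sum.inl (Sum.inr j))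
              rw [rz_apply, rz_apply, if_pos (show kp (Z.filter fun w => w ∉ fr.U a)
                (Sum.inl (Sum.inr j) : Co E P Om) from trivial), if_pos (show kp (Z.filter
                fun w => w ∉ fr.U a) (Sum.inl (Sum.inr j) : Co E P Om) from trivial)] at this
              exact this
          · funext i j
            rcases j with j | j
            · exact e4 i j
            · have := congrFun (e2 i) (Sum.inl (Sum.inr j))
              rw [rz_apply, rz_apply, if_pos (show kp (Z.filter fun w => w ∉ fr.U a')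
                (Sum.inl (Sum.inr j) : Co E P Om) from trivial), if_pos (show kp (Z.filter
                fun w => w ∉ fr.U a') (Sum.inl (Sum.inr j) : Co E P Om) from trivial)] at this
              exact this
          · funext w
            refine Prod.ext ?_ ?_
            · funext i
              change (if (w : Om) ∈ fr.U a then 0 else Ht x.1 i (Sum.inr w)) =
                if (w : Om) ∈ fr.U a then 0 else Ht y.1 i (Sum.inr w)
              by_cases hw : (w : Om) ∈ fr.U a
              · rw [if_pos hw, if_pos hw]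
              · rw [if_neg hw, if_neg hw]
                have h3 : kp (Z.filter fun w => w ∉ fr.U a) (Sum.inr (w : Om) : Co E P Om) :=
                  Finset.mem_filter.mpr ⟨w.2, hw⟩
                have := congrFun (e1 i) (Sum.inr w)
                rw [rz_apply, rz_apply, if_pos h3, if_pos h3] at this
                exact this
            · funext i
              change (if (w : Om) ∈ fr.U a' then 0 else Ht' x.1 i (Sum.inr w)) =
                if (w : Om) ∈ fr.U a' then 0 else Ht' y.1 i (Sum.inr w)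
              by_cases hw : (w : Om) ∈ fr.U a'
              · rw [if_pos hw, if_pos hw]
              · rw [if_neg hw, if_neg hw]
                have h3 : kp (Z.filter fun w => w ∉ fr.U a') (Sum.inr (w : Om) : Co E P Om) :=
                  Finset.mem_filter.mpr ⟨w.2, hw⟩
                have := congrFun (e2 i) (Sum.inr w)
                rw [rz_apply, rz_apply, if_pos h3, if_pos h3] at this
                exact this)
        refine le_trans (le_of_eq ?_) (h2.trans ?_)
        · exact card_image_inst _ _ _ _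
        have h3 : G.image φ ⊆ (Fintype.piFinset fun _ : Fin 2 =>
            Finset.univ.filter fun v => v ∈ W) ×ˢ ((Fintype.piFinset fun _ : Fin 2 =>
            Finset.univ.filter fun v => v ∈ W') ×ˢ (Finset.univ : Finset
              ((Fin 2 → E → F) × (Fin 2 → E → F)))) := by
          intro y hy
          obtain ⟨β, hβ, rfl⟩ := Finset.mem_image.mp hy
          obtain ⟨hβ1, hβ2⟩ := (Finset.mem_filter.mp hβ).2
          refine Finset.mem_product.mpr ⟨?_, Finset.mem_product.mpr ⟨?_, Finset.mem_univ _⟩⟩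
          · exact Fintype.mem_piFinset.mpr fun i => Finset.mem_filter.mpr
              ⟨Finset.mem_univ _, hg β.1 β.2 hβ1 i⟩
          · exact Fintype.mem_piFinset.mpr fun i => Finset.mem_filter.mpr
              ⟨Finset.mem_univ _, hg' β.1 β.2 hβ2 i⟩
        refine (Finset.card_le_card h3).trans ?_
        rw [Finset.card_product, Finset.card_product, Finset.card_univ, Fintype.card_prod,
          Fintype.card_fun, Fintype.card_fun, Fintype.card_fin, ZMod.card, hM]
        calc _ ≤ 2521 ^ (2 * s) * (2521 ^ (2 * s) *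
              ((2521 ^ Fintype.card E) ^ 2 * (2521 ^ Fintype.card E) ^ 2)) :=
              Nat.mul_le_mul (card_pi_sub W hW) (Nat.mul_le_mul_right _ (card_pi_sub W' hW'))
          _ = 2521 ^ (4 * s + 4 * Fintype.card E) := by
              rw [← pow_mul, ← pow_add, ← pow_add, ← pow_add]
              congr 1
              ring)
  rw [Fintype.card_coe] at hT₁
  -- the fixed first parts
  choose av hav using hrow
  let hs : Fin 2 → Co E P Om → F := fun i j => match j with
    | Sum.inl j => (c₀ t₁).1 i j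
    | Sum.inr w => (av w).1 i
  let hs' : Fin 2 → Co E P Om → F := fun i j => match j with
    | Sum.inl j => (c₀ t₁).2 i j
    | Sum.inr w => (av w).2 i
  let T₁' : Finset (Ty N d × Ty N d) := T₁.map ⟨Subtype.val, Subtype.val_injective⟩
  have hT₁' : T₁' ⊆ 𝓕 := by
    intro β hβ
    obtain ⟨x, -, rfl⟩ := Finset.mem_map.mp hβ
    exact x.2
  have hT₁c : T₁'.card = T₁.card := Finset.card_map _
  have hfew : ∀ w, (T₁.filter fun s => hh s w ≠ av w).card ≤ b := by
    intro w
    have h2 : ((T₁.filter fun s => hh s w ≠ av w).card : ℝ) * ((1 - 1 / 2) / M) ≤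
        κ₀ * 𝓕.card := by
      have h2 := hav w
      rw [Fintype.card_coe] at h2
      convert h2
    have h3 : ((T₁.filter fun s => hh s w ≠ av w).card : ℝ) ≤ κ₀ * 𝓕.card * (2 * M) := by
      have h4 : ((T₁.filter fun s => hh s w ≠ av w).card : ℝ) =
          ((T₁.filter fun s => hh s w ≠ av w).card : ℝ) * ((1 - 1 / 2) / M) * (2 * M) := by
        field_simp
        norm_num
      rw [h4]
      exact mul_le_mul_of_nonneg_right h2 (by positivity)
    exact_mod_cast h3.trans hb
  have hmap : ∀ (w : Om) (q : Ty N d × Ty N d → Prop) [DecidablePred q],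
      (∀ x : 𝓕, q x.1 → hh x w ≠ av w) → (T₁'.filter q).card ≤ b := by
    intro w q _ hqq
    refine le_trans ?_ (hfew w)
    have h2 : T₁'.filter q ⊆ (T₁.filter fun s => hh s w ≠ av w).map
        ⟨Subtype.val, Subtype.val_injective⟩ := by
      intro β hβ
      obtain ⟨hβ1, hβ2⟩ := Finset.mem_filter.mp hβ
      obtain ⟨x, hx, rfl⟩ := Finset.mem_map.mp hβ1
      exact Finset.mem_map.mpr ⟨x, Finset.mem_filter.mpr ⟨hx, hqq x hβ2⟩, rfl⟩
    exact (Finset.card_le_card h2).trans (le_of_eq (Finset.card_map _))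
  have r1 := side_rank fr p hp a h1 hA hLD hne hJR H Ht hHt hspan T₁' hT₁' hs
    (by
      intro β hβ i j
      obtain ⟨x, hx, rfl⟩ := Finset.mem_map.mp hβ
      exact congrFun (congrFun (congrArg Prod.fst (hc x hx)) i) j)
    (b := b) (by
      intro w hw
      refine hmap w _ ?_
      rintro x ⟨i, hi⟩ heq
      apply hi
      have h2 := congrFun (congrArg Prod.fst heq) i
      change (if w ∈ fr.U a then 0 else Ht x.1 i (Sum.inr w)) = (av w).1 i at h2
      rw [if_neg hw] at h2
      exact h2) hbκ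
  have r2 := side_rank fr p hp a' h1 hA hLD hne hJR H' Ht' hHt' hspan' T₁' hT₁' hs'
    (by
      intro β hβ i j
      obtain ⟨x, hx, rfl⟩ := Finset.mem_map.mp hβ
      exact congrFun (congrFun (congrArg Prod.snd (hc x hx)) i) j)
    (b := b) (by
      intro w hw
      refine hmap w _ ?_
      rintro x ⟨i, hi⟩ heq
      apply hi
      have h2 := congrFun (congrArg Prod.snd heq) i
      change (if w ∈ fr.U a' then 0 else Ht' x.1 i (Sum.inr w)) = (av w).2 i at h2
      rw [if_neg hw] at h2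
      exact h2) hbκ
  let T₂ : Finset (Ty N d × Ty N d) := T₁'.filter fun β =>
    smm (H β) (g2 p β) - smm hs (g2 p β) ∈ (dsg fr p hp).Nn a ∧
      smm (H' β) (g2 p β) - smm hs' (g2 p β) ∈ (dsg fr p hp).Nn a'
  refine ⟨T₂, hs, hs', (Finset.filter_subset _ _).trans hT₁', ?_, ?_⟩
  · have h2 : T₁'.card ≤ T₂.card + (R + 3 * Fintype.card (Co E P Om)) +
        (R + 3 * Fintype.card (Co E P Om)) := by
      have h3 : T₁' ⊆ T₂ ∪ (T₁'.filter fun β => ¬ (smm (H β) (g2 p β) - smm hs (g2 p β) ∈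
          (dsg fr p hp).Nn a)) ∪ (T₁'.filter fun β => ¬ (smm (H' β) (g2 p β) -
          smm hs' (g2 p β) ∈ (dsg fr p hp).Nn a')) := by
        intro β hβ
        by_cases q1 : smm (H β) (g2 p β) - smm hs (g2 p β) ∈ (dsg fr p hp).Nn a
        · by_cases q2 : smm (H' β) (g2 p β) - smm hs' (g2 p β) ∈ (dsg fr p hp).Nn a'
          · exact Finset.mem_union_left _ (Finset.mem_union_left _
              (Finset.mem_filter.mpr ⟨hβ, q1, q2⟩))
          · exact Finset.mem_union_right _ (Finset.mem_filter.mpr ⟨hβ, q2⟩)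
        · exact Finset.mem_union_left _ (Finset.mem_union_right _
            (Finset.mem_filter.mpr ⟨hβ, q1⟩))
      refine (Finset.card_le_card h3).trans ((Finset.card_union_le _ _).trans
        (Nat.add_le_add ((Finset.card_union_le _ _).trans (Nat.add_le_add_left r1 _)) r2))
    rw [hT₁c] at h2
    have h3 : (T₁.card : ℝ) ≤ T₂.card + 2 * (R + 3 * Fintype.card (Co E P Om)) := by
      have : (T₁.card : ℝ) ≤ ((T₂.card + (R + 3 * Fintype.card (Co E P Om)) +
        (R + 3 * Fintype.card (Co E P Om)) : ℕ) : ℝ) := by exact_mod_cast h2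
      push_cast at this
      linarith only [this]
    have h4 : (𝓕.card : ℝ) ≤ 2 * M * T₁.card := by
      have h5 : (1 - 1 / 2) / (M : ℝ) * 𝓕.card * (2 * M) ≤ T₁.card * (2 * M) :=
        mul_le_mul_of_nonneg_right hT₁ (by positivity)
      have h6 : (1 - 1 / 2) / (M : ℝ) * 𝓕.card * (2 * M) = 𝓕.card := by
        field_simp
        norm_num
      rw [h6] at h5
      linarith only [h5]
    calc (𝓕.card : ℝ) ≤ 2 * M * T₁.card := h4
      _ ≤ 2 * M * (T₂.card + 2 * (R + 3 * Fintype.card (Co E P Om))) :=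
        mul_le_mul_of_nonneg_left h3 (by positivity)
  · intro β hβ
    exact (Finset.mem_filter.mp hβ).2

end Vale.Agent.P060.HW
end
end

section

/-! Existence of event (i), part 1: free parameters of a design, the spaces `Λ`. -/

open scoped Classical

noncomputable section

set_option linter.unusedSectionVars false

namespace Vale.Agent.P060.HW

open Module

variable {N d : ℕ} {E P Om : Type} [Fintype E] [Fintype P] [Fintype Om] [NeZero N]

/-- The line vectors with free part `x`. -/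
def extp (fr : Frame N d E Om) (x : Lin N → (P ⊕ Om) → F) : Lin N → Co E P Om → F :=
  fun u j => match j with
  | Sum.inl (Sum.inl t) => if u.1 = 1 then fr.γ u.2 t else 0
  | Sum.inl (Sum.inr i) => x u (Sum.inl i)
  | Sum.inr w => x u (Sum.inr w)

lemma extp_ext (fr : Frame N d E Om) (x : Lin N → (P ⊕ Om) → F) : Ext fr (extp fr x) :=
  fun _ _ _ => rfl

/-- Designs of a frame are given by their free part. -/
def exiDz (fr : Frame N d E Om) : (Lin N → (P ⊕ Om) → F) ≃ Dz fr P where
  toFun x := ⟨extp fr x, extp_ext fr x⟩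
  invFun p := fun u j => match j with
    | Sum.inl i => p.1 u (Sum.inl (Sum.inr i))
    | Sum.inr w => p.1 u (Sum.inr w)
  left_inv x := by
    funext u j
    rcases j with i | w <;> rfl
  right_inv p := by
    refine Subtype.ext ?_
    funext u j
    rcases j with (t | i) | w
    · exact (p.2 u.1 u.2 t).symm
    · rfl
    · rfl

/-- Rare events of designs in terms of the free part. -/
lemma rare_of_card (fr : Frame N d E Om) (A : Set (Dz fr P))
    (h : 100 * (Finset.univ.filter fun x : Lin N → (P ⊕ Om) → F => exiDz fr x ∈ A).card ≤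
      Fintype.card (Lin N → (P ⊕ Om) → F)) : Rare A := by
  unfold Rare
  have h1 : Nat.card A = (Finset.univ.filter fun x : Lin N → (P ⊕ Om) → F =>
      exiDz fr x ∈ A).card := by
    rw [← Fintype.card_subtype, ← Nat.card_eq_fintype_card]
    exact Nat.card_congr ((exiDz fr).subtypeEquiv (fun x => Iff.rfl)).symm
  have h2 : Nat.card (Dz fr P) = Fintype.card (Lin N → (P ⊕ Om) → F) := by
    rw [← Nat.card_eq_fintype_card]
    exact Nat.card_congr (exiDz fr).symm
  rw [h1, h2]
  exact h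

lemma gv_congr {p p' : Lin N → Co E P Om → F} {c : Ty N d} (h : ∀ u ∈ lins c, p u = p' u) :
    gv p c = gv p' c := by
  unfold gv
  exact Finset.sum_congr rfl fun s _ => h _ (Finset.mem_image_of_mem _ (Finset.mem_univ s))

lemma g2_congr {p p' : Lin N → Co E P Om → F} {β : Ty N d × Ty N d}
    (h : ∀ u ∈ lins2 β, p u = p' u) : g2 p β = g2 p' β := by
  unfold g2
  rw [gv_congr (fun u hu => h u (Finset.mem_union_left _ hu)),
    gv_congr (fun u hu => h u (Finset.mem_union_right _ hu))]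

/-- A test with a tensor. -/
abbrev Dat (E P Om : Type) (N d : ℕ) : Type := (Ty N d × Ty N d) × (Fin 2 → Co E P Om → F)

/-- The space `Λ` of a sequence of tests with tensors. -/
def LamQ (fr : Frame N d E Om) (p : Lin N → Co E P Om → F) (Z : Finset Om) (a : Ty N d)
    {R : ℕ} (q : Fin R → Option (Dat E P Om N d)) :
    Submodule F (Matrix (Co E P Om) (Co E P Om) F) :=
  Submodule.span F
    ({Q | ∃ i β h, q i = some (β, h) ∧ Q = smm (fun i => rz Z (h i)) (fun i => rz Z (g2 p β i))} ∪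
     {Q | ∃ c, ∃ w ∈ Z, w ∈ fr.U c ∧ Q = sm (Pi.single (Sum.inr w) 1) (rz Z (gv p c))} ∪
     {Q | ∃ v, Q = sm (rz Z v) (rz Z (gv p a))})

lemma exists_q (fr : Frame N d E Om) (Z : Finset Om) (a : Ty N d)
    (J : Finset (Ty N d × Ty N d)) (H : Ty N d × Ty N d → Fin 2 → Co E P Om → F) {R : ℕ}
    (hJ : J.card ≤ R) : ∃ q : Fin R → Option (Dat E P Om N d),
      (∀ i β h, q i = some (β, h) → β ∈ J) ∧
      ∀ p : Lin N → Co E P Om → F, LamZ fr p Z a J H = LamQ fr p Z a q := by
  let e := J.equivFin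
  refine ⟨fun i => if hi : i.val < J.card then
    some ((e.symm ⟨i.val, hi⟩).1, H (e.symm ⟨i.val, hi⟩).1) else none, ?_, ?_⟩
  · intro i β h hq
    by_cases hi : i.val < J.card
    · simp only [hi, dif_pos, Option.some.injEq, Prod.mk.injEq] at hq
      rw [← hq.1]
      exact (e.symm ⟨i.val, hi⟩).2
    · simp only [hi, dif_neg, not_false_eq_true, reduceCtorEq] at hq
  · intro p
    unfold LamZ LamQ
    congr 3
    ext Q
    constructor
    · rintro ⟨β, hβ, rfl⟩
      have hlt : (e ⟨β, hβ⟩).val < R := lt_of_lt_of_le (e ⟨β, hβ⟩).2 hJ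
      refine ⟨⟨(e ⟨β, hβ⟩).val, hlt⟩, β, H β, ?_, rfl⟩
      simp
    · rintro ⟨i, β, h, hq, rfl⟩
      by_cases hi : i.val < J.card
      · simp only [hi, dif_pos, Option.some.injEq, Prod.mk.injEq] at hq
        refine ⟨β, ?_, ?_⟩
        · rw [← hq.1]
          exact (e.symm ⟨i.val, hi⟩).2
        · rw [← hq.2, ← hq.1]
      · simp only [hi, dif_neg, not_false_eq_true, reduceCtorEq] at hq

/-- The lines which determine `Λ`. -/
def linQ (fr : Frame N d E Om) (Z : Finset Om) (a : Ty N d)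
    {R : ℕ} (q : Fin R → Option (Dat E P Om N d)) : Finset (Lin N) :=
  Finset.univ.filter fun u => u ∈ lins a ∨ (∃ i β h, q i = some (β, h) ∧ u ∈ lins2 β) ∨
    ∃ w ∈ Z, u ∈ rowLines fr w

lemma lamQ_congr (fr : Frame N d E Om) {p p' : Lin N → Co E P Om → F} (Z : Finset Om) (a : Ty N d)
    {R : ℕ} (q : Fin R → Option (Dat E P Om N d)) (h : ∀ u ∈ linQ fr Z a q, p u = p' u) :
    LamQ fr p Z a q = LamQ fr p' Z a q := by
  unfold LamQ
  congr 1
  have ha : gv p a = gv p' a := gv_congr fun u hu => h u (by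
    unfold linQ
    exact Finset.mem_filter.2 ⟨Finset.mem_univ _, Or.inl hu⟩)
  have hq : ∀ i β h, q i = some (β, h) → g2 p β = g2 p' β := fun i β h' hi =>
    g2_congr fun u hu => h u (by
      unfold linQ
      exact Finset.mem_filter.2 ⟨Finset.mem_univ _, Or.inr (Or.inl ⟨i, β, h', hi, hu⟩)⟩)
  have hw : ∀ (c : Ty N d) (w : Om), w ∈ Z → w ∈ fr.U c → gv p c = gv p' c := fun c w hw hc =>
    gv_congr fun u hu => h u (by
      unfold linQ
      refine Finset.mem_filter.2 ⟨Finset.mem_univ _, Or.inr (Or.inr ⟨w, hw, ?_⟩)⟩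
      unfold rowLines
      exact Finset.mem_biUnion.2 ⟨c, Finset.mem_filter.2 ⟨Finset.mem_univ _, hc⟩, hu⟩)
  ext Q
  simp only [Set.mem_union, Set.mem_ofPred_eq]
  constructor
  · rintro ((⟨i, β, h', hi, rfl⟩ | ⟨c, w, hw', hc, rfl⟩) | ⟨v, rfl⟩)
    · exact Or.inl (Or.inl ⟨i, β, h', hi, by rw [hq i β h' hi]⟩)
    · exact Or.inl (Or.inr ⟨c, w, hw', hc, by rw [hw c w hw' hc]⟩)
    · exact Or.inr ⟨v, by rw [ha]⟩
  · rintro ((⟨i, β, h', hi, rfl⟩ | ⟨c, w, hw', hc, rfl⟩) | ⟨v, rfl⟩)
    · exact Or.inl (Or.inl ⟨i, β, h', hi, by rw [hq i β h' hi]⟩)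
    · exact Or.inl (Or.inr ⟨c, w, hw', hc, by rw [hw c w hw' hc]⟩)
    · exact Or.inr ⟨v, by rw [ha]⟩

/-- The dimension of `Λ`. -/
lemma finrank_lamQ (fr : Frame N d E Om) (p : Lin N → Co E P Om → F) (Z : Finset Om) (a : Ty N d)
    {R : ℕ} (q : Fin R → Option (Dat E P Om N d)) (M : ℕ)
    (hM : ∑ w ∈ Z, (Finset.univ.filter fun c : Ty N d => w ∈ fr.U c).card ≤ M) :
    finrank F (LamQ fr p Z a q) ≤ R + M + Fintype.card (Co E P Om) := by
  unfold LamQ
  rw [Submodule.span_union, Submodule.span_union]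
  refine le_trans (Submodule.finrank_add_le_finrank_add_finrank _ _) ?_
  refine Nat.add_le_add (le_trans (Submodule.finrank_add_le_finrank_add_finrank _ _)
    (Nat.add_le_add ?_ ?_)) ?_
  · -- the tests
    have hsub : ({Q | ∃ i β h, q i = some (β, h) ∧
        Q = smm (fun i => rz Z (h i)) (fun i => rz Z (g2 p β i))} :
        Set (Matrix (Co E P Om) (Co E P Om) F)) ⊆
        ((Finset.univ.image fun i : Fin R => match q i with
          | none => 0
          | some (β, h) => smm (fun i => rz Z (h i)) (fun i => rz Z (g2 p β i)) : Finset _) :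
          Set (Matrix (Co E P Om) (Co E P Om) F)) := by
      rintro Q ⟨i, β, h, hi, rfl⟩
      refine Finset.mem_coe.2 (Finset.mem_image.2 ⟨i, Finset.mem_univ _, ?_⟩)
      simp only [hi]
    refine le_trans (Submodule.finrank_mono (Submodule.span_mono hsub)) ?_
    refine le_trans (finrank_span_finset_le_card _) ?_
    refine le_trans Finset.card_image_le ?_
    simp
  · have hsub : ({Q | ∃ c, ∃ w ∈ Z, w ∈ fr.U c ∧
        Q = sm (Pi.single (Sum.inr w) 1) (rz Z (gv p c))} :
        Set (Matrix (Co E P Om) (Co E P Om) F)) ⊆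
        (((Z.sigma fun w => Finset.univ.filter fun c : Ty N d => w ∈ fr.U c).image
          fun x : (_ : Om) × Ty N d => sm (Pi.single (Sum.inr x.1) 1) (rz Z (gv p x.2)) : Finset _) :
          Set (Matrix (Co E P Om) (Co E P Om) F)) := by
      rintro Q ⟨c, w, hw, hc, rfl⟩
      refine Finset.mem_coe.2 (Finset.mem_image.2 ⟨⟨w, c⟩, ?_, rfl⟩)
      exact Finset.mem_sigma.2 ⟨hw, Finset.mem_filter.2 ⟨Finset.mem_univ _, hc⟩⟩
    refine le_trans (Submodule.finrank_mono (Submodule.span_mono hsub)) ?_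
    refine le_trans (finrank_span_finset_le_card _) ?_
    refine le_trans Finset.card_image_le ?_
    rw [Finset.card_sigma]
    exact hM
  · let f : (Co E P Om → F) →ₗ[F] Matrix (Co E P Om) (Co E P Om) F :=
      { toFun := fun v => sm (rz Z v) (rz Z (gv p a))
        map_add' := fun u v => by
          ext x y
          simp only [sm, map_add, Matrix.add_apply, Matrix.vecMulVec_apply, Pi.add_apply]
          ring
        map_smul' := fun c v => by
          ext x y
          simp only [sm, map_smul, Matrix.add_apply, Matrix.vecMulVec_apply, Pi.smul_apply,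
            smul_eq_mul, RingHom.id_apply, Matrix.smul_apply]
          ring }
    have hsub : ({Q | ∃ v, Q = sm (rz Z v) (rz Z (gv p a))} :
        Set (Matrix (Co E P Om) (Co E P Om) F)) ⊆ LinearMap.range f := by
      rintro Q ⟨v, rfl⟩
      exact ⟨v, rfl⟩
    refine le_trans (Submodule.finrank_mono (Submodule.span_le.2 hsub)) ?_
    refine le_trans (LinearMap.finrank_range_le f) ?_
    rw [Module.finrank_fintype_fun_eq_card]

end Vale.Agent.P060.HW
end
end
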