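import Mathlib
import Vale.Agent.P060.Bd3.B1

set_option linter.all false

section

/-!
# The entropic reduction, final form
-/

open scoped Classical

noncomputable section

namespace Vale.Agent.P060.HW

/-- Numerics of the time horizon. -/
lemma numerics {n m p J : ℕ} {δ ε₁ : ℝ} (hδ : 0 < δ) (hε₁ : 0 < ε₁) (hε₁' : ε₁ ≤ 1 / 4)
    (hδε : δ ≤ ε₁ / 100) (hlog : 1 ≤ Real.log n) (h3 : 10 ≤ δ ^ 2 * n)
    (hp : (p : ℝ) ≤ δ * n + 1) (hm : n ≤ 2 * m + 4 * p + 1)
    (hJ1 : (J : ℝ) ≤ δ ^ 2 * n / Real.log n) :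
    (n : ℝ) / 4 ≤ m ∧ J < m ∧ n * (1 - 8 * δ) ≤ 2 * ((m - J : ℕ) : ℝ) ∧
      (m : ℝ) ≤ (1 + ε₁) * ((m - J : ℕ) : ℝ) ∧ 100 ≤ (n : ℝ) := by
  have hδ1 : δ ≤ 1 / 400 := by linarith only [hδε, hε₁']
  have hn0 : (0 : ℝ) < n := by
    by_contra h
    have : δ ^ 2 * (n : ℝ) ≤ 0 := mul_nonpos_of_nonneg_of_nonpos (sq_nonneg δ) (not_lt.1 h)
    linarith only [this, h3]
  have hdn : 4000 ≤ δ * n := by
    have h1 : δ ^ 2 * n = δ * (δ * n) := by ring
    rw [h1] at h3
    have h2 : δ * (δ * n) ≤ 1 / 400 * (δ * n) := mul_le_mul_of_nonneg_right hδ1 (by positivity)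
    linarith only [h2, h3]
  have hn100 : 100 ≤ (n : ℝ) := by
    have : δ * n ≤ 1 / 400 * n := mul_le_mul_of_nonneg_right hδ1 hn0.le
    linarith only [this, hdn, hδ1, hδ]
  have hm' : (n : ℝ) ≤ 2 * m + 4 * p + 1 := by exact_mod_cast hm
  have hmlow : n * (1 / 2 - 3 * δ) ≤ (m : ℝ) := by linarith only [hm', hdn, hδ1, hp, hδ]
  have hJδ : (J : ℝ) ≤ δ ^ 2 * n := by
    refine hJ1.trans ?_
    rw [div_le_iff₀ (by linarith only [hδ1, hlog, hδ])]
    have : 0 ≤ δ ^ 2 * n := by positivity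
    (by_contra nlg; linarith only [mul_pos (sub_pos.2 (not_le.1 nlg)) (sub_pos.2 hε₁), mul_nonneg (le_of_lt (sub_pos.2 (not_le.1 nlg))) (sub_nonneg.2 hε₁'), mul_nonneg (sub_nonneg.2 hlog) (sub_nonneg.2 this)])
  have hJδ2 : (J : ℝ) ≤ δ * n / 400 := by
    have h1 : δ ^ 2 * n = δ * (δ * n) := by ring
    have h2 : δ * (δ * n) ≤ 1 / 400 * (δ * n) := mul_le_mul_of_nonneg_right hδ1 (by positivity)
    linarith only [hJδ, h2]
  have hm4 : (n : ℝ) / 4 ≤ m := by
    have : n * (1 / 4 : ℝ) ≤ n * (1 / 2 - 3 * δ) := mul_le_mul_of_nonneg_left (by linarith only [hδ, hδ1]) hn0.le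
    linarith only [this, hmlow]
  have hJm : (J : ℝ) < m := by
    have : δ * n ≤ 1 / 400 * n := mul_le_mul_of_nonneg_right hδ1 hn0.le
    linarith only [this, hm4, hJδ2, hdn, hδ1, hδ]
  have hJm' : J < m := by exact_mod_cast hJm
  have hsub : ((m - J : ℕ) : ℝ) = m - J := by rw [Nat.cast_sub hJm'.le]
  refine ⟨hm4, hJm', ?_, ?_, hn100⟩
  · rw [hsub]
    linarith only [hδ, hδ1, hdn, hmlow, hJδ2]
  · rw [hsub]
    have h5 : (J : ℝ) ≤ ε₁ * n / 100 / 400 := by
      have : δ * n ≤ ε₁ / 100 * n := mul_le_mul_of_nonneg_right hδε hn0.le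
      linarith only [this, hJδ2]
    have h6 : ε₁ * (n / 4) ≤ ε₁ * m := mul_le_mul_of_nonneg_left hm4 hε₁.le
    have hJ0 : (0 : ℝ) ≤ J := Nat.cast_nonneg _
    have h7 : ε₁ * J ≤ 1 / 4 * J := mul_le_mul_of_nonneg_right hε₁' hJ0
    linarith only [h7, h6, h5]

lemma tvb_le {n m J : ℕ} {δ : ℝ} (hδ : 0 < δ) (hδ1 : δ ≤ 1 / 400) (hlog : 1 ≤ Real.log n)
    (h3 : 10 ≤ δ ^ 2 * n) (hJ1 : (J : ℝ) ≤ δ ^ 2 * n / Real.log n)
    (hq : n * (1 - 8 * δ) ≤ 2 * ((m - J : ℕ) : ℝ)) :
    Samp.tvb n m 2 J δ (Real.log 2) ≤ 15 * δ := by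
  have hn0 : (0 : ℝ) < n := by
    by_contra h
    have : δ ^ 2 * (n : ℝ) ≤ 0 := mul_nonpos_of_nonneg_of_nonpos (sq_nonneg δ) (not_lt.1 h)
    linarith only [this, h3]
  have hq0 : (0 : ℝ) < 2 * ((m - J : ℕ) : ℝ) := by
    refine lt_of_lt_of_le ?_ hq
    have : (0 : ℝ) < 1 - 8 * δ := by linarith
    positivity
  have hJlog : (J : ℝ) * Real.log n ≤ δ ^ 2 * n := by
    rw [le_div_iff₀ (by linarith)] at hJ1
    exact hJ1
  have hJ0 : (0 : ℝ) ≤ J := Nat.cast_nonneg _
  have hJδ : (J : ℝ) ≤ δ ^ 2 * n := by (by_contra nlg; linarith only [nlg, mul_nonneg (sub_nonneg.2 hlog) (sub_nonneg.2 hJ0), mul_nonneg (sub_nonneg.2 hδ1) (sub_nonneg.2 hJlog), mul_nonneg (le_of_lt (sub_pos.2 hδ)) (sub_nonneg.2 hJlog), mul_nonneg (le_of_lt (sub_pos.2 (not_le.1 nlg))) (sub_nonneg.2 hδ1), mul_pos (sub_pos.2 (not_le.1 nlg)) (sub_pos.2 hδ)])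
  have hexp : Real.exp δ - 1 ≤ δ + δ ^ 2 := by
    have := (abs_le.1 (Real.abs_exp_sub_one_sub_id_le (x := δ) (by
      rw [abs_of_pos hδ]; linarith only [hδ1, hδ]))).2
    linarith
  have hlog2 : Real.log 2 ≤ 1 := by
    have := Real.log_two_lt_d9; linarith only [hδ, hδ1, this]
  unfold Samp.tvb
  push_cast
  set q : ℝ := 2 * ((m - J : ℕ) : ℝ) with hqdef
  have hdq : 0 < δ * q := by positivity
  rw [sub_add_eq_add_sub, ← add_div, sub_le_iff_le_add, div_le_iff₀ hdq]
  have h4 : n * (Real.exp δ - 1) ≤ n * (δ + δ ^ 2) := mul_le_mul_of_nonneg_left hexp hn0.le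
  have h5 : δ * (J * 2) ≤ δ * (δ ^ 2 * n * 2) := by
    apply mul_le_mul_of_nonneg_left _ hδ.le
    linarith only [hJδ]
  have h6 : (15 * δ + 1) * (δ * (n * (1 - 8 * δ))) ≤ (15 * δ + 1) * (δ * q) := by
    apply mul_le_mul_of_nonneg_left _ (by linarith only [hδ1, hδ])
    exact mul_le_mul_of_nonneg_left hq hδ.le
  refine le_trans ?_ h6
  have h7 : 0 ≤ δ ^ 2 * n := by positivity
  have h8 : δ * (δ ^ 2 * n) ≤ 1 / 400 * (δ ^ 2 * n) := mul_le_mul_of_nonneg_right hδ1 h7
  have h9 : (15 * δ + 1) * (δ * (n * (1 - 8 * δ)))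
      = n * δ + 7 * (δ ^ 2 * n) - 120 * (δ * (δ ^ 2 * n)) := by ring
  rw [h9]
  linarith only [h3, hlog2, hJlog, h8, h5, h4, hδ1, hδ]

/-- The pair case, all numbers inserted. -/
lemma outB_final {X : Type*} [Fintype X] [Nonempty X] {Adj : X → X → Prop}
    (hsym : ∀ x y, Adj x y → Adj y x) {n m J : ℕ} (D : Samp X n m 2)
    (hS : Fintype.card X ^ n ≤ 2 * D.S.card)
    (hD1 : ∀ s ∈ D.S, ∀ i, ¬ Adj (s (D.e s i 0)) (s (D.e s i 1)))
    (hD2 : ∀ s ∈ D.S, ∀ i j, i ≠ j → ¬ ∀ k l, Adj (s (D.e s i k)) (s (D.e s j l)))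
    (hnpos' : 0 < n) (hJ0 : 0 < J) (hJm : J < m) {δ ε₁ ε C : ℝ} (hδ0 : 0 < δ)
    (hδ1 : δ ≤ 1 / 400) (hε₁0 : 0 < ε₁) (hε₁1 : ε₁ ≤ 1 / 4) (hε₁2 : 4 * ε₁ ≤ ε)
    (hlog : 1 ≤ Real.log n) (h3 : 10 ≤ δ ^ 2 * n) (hm4 : (n : ℝ) / 4 ≤ m)
    (hq : n * (1 - 8 * δ) ≤ 2 * ((m - J : ℕ) : ℝ))
    (hmJ : (m : ℝ) ≤ (1 + ε₁) * ((m - J : ℕ) : ℝ)) (hn100 : 100 ≤ (n : ℝ))
    (hJ1 : (J : ℝ) ≤ δ ^ 2 * n / Real.log n) (hJ2 : δ ^ 2 * n / (2 * Real.log n) ≤ J)
    (hδM : 30 * (2 * (1 + ε₁) / ε₁) * δ ≤ ε) (hC3 : 5 ≤ C)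
    (hC4 : 10 * (2 * (1 + ε₁) / ε₁) / δ ^ 2 ≤ C) :
    OutB Adj ((1 + ε) * Real.log n + C) ε (C * (Real.log n) ^ 2 / n) := by
  have hlogpos : 0 < Real.log n := by linarith only [hlog, hδ1, hδ0]
  have hnpos : (0 : ℝ) < n := by linarith only [hn100, hδ1, hδ0]
  have hm0 : (0 : ℝ) < m := by linarith only [hn100, hm4, hδ1, hδ0]
  have hm0' : 0 < m := by exact_mod_cast hm0
  have hmJ0 : (0 : ℝ) < ((m - J : ℕ) : ℝ) := by
    have : 0 < m - J := by omega
    exact_mod_cast this
  have hlog2 : Real.log 2 ≤ 7 / 10 := by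
    have := Real.log_two_lt_d9; linarith only [this, hδ1, hδ0]
  have hL : D.L ≤ m * (Real.log n + 3) := by
    have h4 := D.L_le Fintype.card_pos hS hm0' hnpos'
    have h5 : Real.log n - 2 * Real.log 2 ≤ Real.log m := by
      have h6 : Real.log ((n : ℝ) / 4) ≤ Real.log m := Real.log_le_log (by positivity) hm4
      rw [Real.log_div hnpos.ne' (by norm_num)] at h6
      have h7 : Real.log 4 = 2 * Real.log 2 := by
        rw [show (4 : ℝ) = 2 ^ 2 by norm_num, Real.log_pow]; push_cast; ring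
      rw [h7] at h6
      exact h6
    push_cast at h4
    have h8 : (m : ℝ) * (2 * Real.log n - Real.log m + 1) ≤ m * (Real.log n + 12 / 5) := by
      apply mul_le_mul_of_nonneg_left _ hm0.le
      linarith only [h5, hlog2]
    have h9 : (m : ℝ) * (Real.log n + 3) = m * (Real.log n + 12 / 5) + 3 / 5 * m := by ring
    linarith only [h8, h4, hlog2, hn100, hm4, hδ1, hδ0]
  set a : ℝ := (1 + ε₁) * (Real.log n + 3) with ha
  have ha0 : 0 < a := by positivity
  have hLa : D.L / ((m - J : ℕ) : ℝ) ≤ a := by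
    rw [div_le_iff₀ hmJ0]
    calc D.L ≤ m * (Real.log n + 3) := hL
      _ ≤ ((1 + ε₁) * ((m - J : ℕ) : ℝ)) * (Real.log n + 3) :=
          mul_le_mul_of_nonneg_right hmJ (by linarith only [hlog, hδ1, hδ0])
      _ = a * ((m - J : ℕ) : ℝ) := by rw [ha]; ring
  have hout := outB_of_samp Adj hsym D hS hD1 hD2 hnpos' hJ0 hJm ha0
    (show (0 : ℝ) < 15 * δ by positivity) hδ0 hε₁0 hLa (tvb_le hδ0 hδ1 hlog h3 hJ1 hq)
  set M : ℝ := 2 * (1 + ε₁) / ε₁ with hM
  have hM0 : 0 < M := by positivity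
  refine outB_mono ?_ ?_ ?_ hout
  · rw [ha]
    have h5 : (1 + ε₁) * (1 + ε₁) ≤ 1 + ε := by (by_contra nlg; linarith only [nlg, mul_nonneg (sub_nonneg.2 hε₁1) (sub_nonneg.2 hε₁2), mul_nonneg (le_of_lt (sub_pos.2 hε₁0)) (sub_nonneg.2 hε₁2), mul_nonneg (le_of_lt (sub_pos.2 hε₁0)) (sub_nonneg.2 hε₁1), mul_nonneg (sub_nonneg.2 hδ1) (le_of_lt (sub_pos.2 hε₁0)), mul_pos (sub_pos.2 hδ0) (sub_pos.2 hε₁0), mul_nonneg (le_of_lt (sub_pos.2 (not_le.1 nlg))) (sub_nonneg.2 hε₁1), mul_pos (sub_pos.2 (not_le.1 nlg)) (sub_pos.2 hε₁0)])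
    have h6 : (1 + ε₁) * (1 + ε₁) ≤ 25 / 16 := by nlinarith
    have h7 : (1 + ε₁) * (1 + ε₁) * Real.log n ≤ (1 + ε) * Real.log n :=
      mul_le_mul_of_nonneg_right h5 hlogpos.le
    have h8 : (1 + ε₁) * ((1 + ε₁) * (Real.log n + 3))
        = (1 + ε₁) * (1 + ε₁) * Real.log n + 3 * ((1 + ε₁) * (1 + ε₁)) := by ring
    rw [h8]
    linarith only [h7, h6, hC3, hδ1, hδ0]
  · linarith only [hδM]
  · have hJr : (0 : ℝ) < J := by exact_mod_cast hJ0
    have h5 : a ≤ 5 * Real.log n := by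
      have e1 : a ≤ 5 / 4 * (Real.log n + 3) := by
        rw [ha]
        exact mul_le_mul_of_nonneg_right (by linarith only [hε₁1]) (by linarith only [hlog, hδ1, hδ0])
      linarith only [e1, hlog]
    have h6 : a / J ≤ 10 * (Real.log n) ^ 2 / (δ ^ 2 * n) := by
      rw [div_le_div_iff₀ hJr (by positivity)]
      rw [div_le_iff₀ (by positivity)] at hJ2
      have h7 : a * (δ ^ 2 * n) ≤ 5 * Real.log n * (δ ^ 2 * n) :=
        mul_le_mul_of_nonneg_right h5 (by positivity)
      have h8 : 5 * Real.log n * (δ ^ 2 * n) ≤ 5 * Real.log n * (J * (2 * Real.log n)) :=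
        mul_le_mul_of_nonneg_left hJ2 (by positivity)
      have h9 : 5 * Real.log n * (J * (2 * Real.log n)) = 10 * (Real.log n) ^ 2 * J := by ring
      linarith only [h8, h7]
    calc M * (a / J) ≤ M * (10 * (Real.log n) ^ 2 / (δ ^ 2 * n)) :=
          mul_le_mul_of_nonneg_left h6 hM0.le
      _ = 10 * M / δ ^ 2 * ((Real.log n) ^ 2 / n) := by field_simp
      _ ≤ C * ((Real.log n) ^ 2 / n) :=
          mul_le_mul_of_nonneg_right hC4 (by positivity)
      _ = C * (Real.log n) ^ 2 / n := by ring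

/-- **Entropic reduction.** If Hadwiger's conjecture holds for all graphs on `n` vertices with
independence number at most two, then every triangle-free relation on a finite set carries a cheap
law with few adjacencies or a cheap symmetric coupling with few conflicts. -/
theorem reduction (ε : ℝ) (hε : 0 < ε) : ∃ C : ℝ, ∃ n0 : ℕ, ∀ n : ℕ, n0 ≤ n →
    (∀ G : SimpleGraph (Fin n), G.indepNum ≤ 2 →
      G.chromaticNumber ≤ (hadwigerNumber G : ℕ∞)) →
    ∀ (X : Type*) [Fintype X] [Nonempty X] (Adj : X → X → Prop),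
      (∀ x y, Adj x y → Adj y x) → (∀ x y z, Adj x y → Adj y z → Adj x z → False) →
      OutA Adj C (C / n) ∨
      OutB Adj ((1 + ε) * Real.log n + C) ε (C * (Real.log n) ^ 2 / n) := by
  set ε₁ : ℝ := min ε 1 / 4 with hε₁
  have hε₁0 : 0 < ε₁ := by
    have : 0 < min ε 1 := lt_min hε one_pos
    positivity
  have hε₁1 : ε₁ ≤ 1 / 4 := by
    have : min ε 1 ≤ 1 := min_le_right _ _
    rw [hε₁]; linarith only [this]
  have hε₁2 : 4 * ε₁ ≤ ε := by
    have : min ε 1 ≤ ε := min_le_left _ _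
    rw [hε₁]; linarith only [this]
  set M : ℝ := 2 * (1 + ε₁) / ε₁ with hM
  have hM0 : 0 < M := by positivity
  set δ : ℝ := min (ε₁ / 100) (ε / (30 * M)) with hδdef
  have hδ0 : 0 < δ := lt_min (by positivity) (by positivity)
  have hδε : δ ≤ ε₁ / 100 := min_le_left _ _
  have hδ1 : δ ≤ 1 / 400 := by linarith only [hδε, hε₁1]
  have hδM : 30 * M * δ ≤ ε := by
    have : δ ≤ ε / (30 * M) := min_le_right _ _
    rw [le_div_iff₀ (by positivity)] at this
    linarith only [this]
  set l : ℝ := 2 + Real.log (1 / δ) with hl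
  have hl0 : 0 < l := by
    have : 0 ≤ Real.log (1 / δ) := Real.log_nonneg (by rw [le_div_iff₀ hδ0]; linarith only [hδ1, hδ0])
    linarith only [this, hδ1, hδ0]
  set C : ℝ := max (max (4 * l) (24 * l / δ)) (max 5 (10 * M / δ ^ 2)) with hC
  have hC1 : 4 * l ≤ C := (le_max_left _ _).trans (le_max_left _ _)
  have hC2 : 24 * l / δ ≤ C := (le_max_right _ _).trans (le_max_left _ _)
  have hC3 : 5 ≤ C := (le_max_left _ _).trans (le_max_right _ _)
  have hC4 : 10 * M / δ ^ 2 ≤ C := (le_max_right _ _).trans (le_max_right _ _)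
  have ev1 : ∀ᶠ n : ℕ in Filter.atTop, 1 ≤ Real.log n :=
    (Real.tendsto_log_atTop.comp tendsto_natCast_atTop_atTop).eventually_ge_atTop 1
  have ev2 : ∀ᶠ n : ℕ in Filter.atTop, Real.log n ≤ δ ^ 2 / 2 * n := by
    have h := Real.isLittleO_log_id_atTop.bound (show (0 : ℝ) < δ ^ 2 / 2 by positivity)
    have h2 := tendsto_natCast_atTop_atTop (R := ℝ) |>.eventually h
    filter_upwards [h2] with n hn
    simp only [Real.norm_eq_abs, id] at hn
    rw [abs_of_nonneg (Nat.cast_nonneg n : (0 : ℝ) ≤ n)] at hn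
    exact (le_abs_self _).trans hn
  have ev3 : ∀ᶠ n : ℕ in Filter.atTop, 10 / δ ^ 2 ≤ (n : ℝ) :=
    tendsto_natCast_atTop_atTop.eventually_ge_atTop _
  obtain ⟨n0, hn0⟩ := Filter.eventually_atTop.1 (ev1.and (ev2.and ev3))
  refine ⟨C, n0, fun n hn hHad X _ _ Adj hsym htri => ?_⟩
  obtain ⟨hlog, hlogn, hn3⟩ := hn0 n hn
  have h3 : 10 ≤ δ ^ 2 * n := by
    rw [div_le_iff₀ (by positivity)] at hn3
    linarith only [hn3]
  have hnpos : (0 : ℝ) < n := by
    by_contra h
    have : δ ^ 2 * (n : ℝ) ≤ 0 := mul_nonpos_of_nonneg_of_nonpos (sq_nonneg δ) (not_lt.1 h)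
    linarith only [this, h3]
  have hnpos' : 0 < n := by exact_mod_cast hnpos
  set p : ℕ := ⌈δ * n⌉₊ with hp
  set J : ℕ := ⌊δ ^ 2 * n / Real.log n⌋₊ with hJ
  have hp1 : δ * n ≤ p := Nat.le_ceil _
  have hp2 : (p : ℝ) ≤ δ * n + 1 := (Nat.ceil_lt_add_one (by (clear * - hε hnpos'; positivity))).le
  have hlogpos : 0 < Real.log n := by linarith only [hlog, hδ1, hδ0]
  have hJ1 : (J : ℝ) ≤ δ ^ 2 * n / Real.log n := Nat.floor_le (by positivity)
  have h2le : 2 ≤ δ ^ 2 * n / Real.log n := by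
    rw [le_div_iff₀ hlogpos]; linarith only [hlogn]
  have hJ2 : δ ^ 2 * n / (2 * Real.log n) ≤ J := by
    have h4 : δ ^ 2 * n / Real.log n < J + 1 := Nat.lt_floor_add_one _
    have h5 : δ ^ 2 * n / (2 * Real.log n) = δ ^ 2 * n / Real.log n / 2 := by
      field_simp
    rw [h5]; linarith only [h2le, h4]
  have hJ0 : 0 < J := by
    have : (0 : ℝ) < J := lt_of_lt_of_le (by positivity) hJ2
    exact_mod_cast this
  have hp4 : 2 * p ≤ n / 2 := by
    have h4 : (4 * p : ℝ) ≤ n - 1 := by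
      have : δ * n ≤ 1 / 400 * n := mul_le_mul_of_nonneg_right hδ1 hnpos.le
      have h6 : 4000 ≤ δ * n := by
        have h1 : δ ^ 2 * n = δ * (δ * n) := by ring
        rw [h1] at h3
        have h2 : δ * (δ * n) ≤ 1 / 400 * (δ * n) :=
          mul_le_mul_of_nonneg_right hδ1 (by positivity)
        linarith only [h2, h3]
      linarith only [h6, this, hp2, hδ1, hδ0]
    have h5 : (4 * p + 1 : ℝ) ≤ n := by linarith only [h4]
    have h6 : 4 * p + 1 ≤ n := by exact_mod_cast h5
    omega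
  have hmp : 2 * (n / 2 - 2 * p) + 4 * p ≤ n := by omega
  have hmn : n ≤ 2 * (n / 2 - 2 * p) + 4 * p + 1 := by omega
  set m : ℕ := n / 2 - 2 * p with hm
  obtain ⟨hm4, hJm, hq, hmJ, hn100⟩ := numerics hδ0 hε₁0 hε₁1 hδε hlog h3 hp2 hmn hJ1
  have hp3 : 3 ≤ p := by
    have h6 : (3 : ℝ) ≤ p := by
      refine le_trans ?_ hp1
      have h1 : δ ^ 2 * n = δ * (δ * n) := by ring
      rw [h1] at h3
      have h2 : δ * (δ * n) ≤ 1 / 400 * (δ * n) :=
        mul_le_mul_of_nonneg_right hδ1 (by positivity)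
      linarith only [h2, h3, hδ1, hδ0]
    exact_mod_cast h6
  rcases exists_samp Adj hsym htri hmp hHad with ⟨D, hS, hD⟩ | ⟨D, hS, hD1, hD2⟩
  · left
    have := outA_of_samp Adj D hS hD hnpos' hp3 hδ0 (by linarith only [hδ1, hδ0]) hp1
    refine outA_mono hC1 ?_ this
    rw [← hl]
    calc 24 * l / (δ * n) = 24 * l / δ / n := by rw [div_div]
      _ ≤ C / n := div_le_div_of_nonneg_right hC2 hnpos.le
  · right
    exact outB_final hsym D hS hD1 hD2 hnpos' hJ0 hJm hδ0 hδ1 hε₁0 hε₁1 hε₁2 hlog h3 hm4 hq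
      hmJ hn100 hJ1 hJ2 hδM hC3 hC4

end Vale.Agent.P060.HW
end
end

section

/-!
# Truncation of the cheap coupling

From output (b) of the reduction one passes to a coupling with pointwise bounded density and
pointwise bounded marginals.
-/

open scoped Classical

noncomputable section

namespace Vale.Agent.P060.HW

/-- Truncated form of output (b): pointwise density at most `Λ`, marginal at most `4 / |X|`. -/
def OutC {X : Type*} [Fintype X] (Adj : X → X → Prop) (Λ ε I : ℝ) : Prop :=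
  ∃ ν : X → X → ℝ, (∀ x y, 0 ≤ ν x y) ∧ ∑ x, ∑ y, ν x y = 1 ∧ (∀ x y, ν x y = ν y x) ∧
    (∀ x y, ν x y ≠ 0 → ¬ Adj x y) ∧
    (∀ x y, ν x y * (Fintype.card X : ℝ) ^ 2 ≤ Λ) ∧
    (∀ x, (∑ y, ν x y) * (Fintype.card X : ℝ) ≤ 4) ∧
    ∑ x, |∑ y, ν x y - 1 / (Fintype.card X : ℝ)| ≤ ε ∧
    ∑ x, ∑ x', ∑ y, ∑ y',
      (if Adj x y ∧ Adj x y' ∧ Adj x' y ∧ Adj x' y' then ν x x' * ν y y' else 0) ≤ I

/-- Markov inequality for the log-density. -/
lemma mass_large {Z : Type*} [Fintype Z] (f : Z → ℝ) (h0 : ∀ z, 0 ≤ f z) (h1 : ∑ z, f z = 1)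
    {K L : ℝ} (hL : 0 < L)
    (hK : ∑ z, f z * Real.log (f z * (Fintype.card Z : ℝ)) ≤ K) :
    ∑ z, (if Real.exp L < f z * (Fintype.card Z : ℝ) then f z else 0) ≤ (K + 1) / L := by
  have hne : Nonempty Z := by
    by_contra h
    rw [not_nonempty_iff] at h
    simp at h1
  have hN : (0 : ℝ) < Fintype.card Z := by exact_mod_cast Fintype.card_pos
  rw [le_div_iff₀ hL, Finset.sum_mul]
  have key : ∀ z, (if Real.exp L < f z * (Fintype.card Z : ℝ) then f z else 0) * L
      ≤ f z * Real.log (f z * (Fintype.card Z : ℝ)) + 1 / (Fintype.card Z : ℝ) := by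
    intro z
    have hlow : -(1 / (Fintype.card Z : ℝ)) ≤ f z * Real.log (f z * (Fintype.card Z : ℝ)) := by
      rcases (h0 z).eq_or_lt with h | h
      · rw [← h]; simp
      · have h3 := Real.one_sub_inv_le_log_of_pos (mul_pos h hN)
        have h4 := mul_le_mul_of_nonneg_left h3 h.le
        have h5 : f z * (1 - (f z * (Fintype.card Z : ℝ))⁻¹) = f z - 1 / (Fintype.card Z : ℝ) := by
          field_simp
        rw [h5] at h4
        linarith only [h4, h]
    split_ifs with hz
    · have hpos : 0 < f z := by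
        rcases (h0 z).eq_or_lt with h | h
        · rw [← h, zero_mul] at hz
          exact absurd hz (not_lt.2 (Real.exp_pos L).le)
        · exact h
      have h6 : L ≤ Real.log (f z * (Fintype.card Z : ℝ)) := by
        rw [Real.le_log_iff_exp_le (by positivity)]
        exact hz.le
      have h7 := mul_le_mul_of_nonneg_left h6 hpos.le
      have h8 : 0 < 1 / (Fintype.card Z : ℝ) := by positivity
      linarith only [h8, h7]
    · linarith
  refine (Finset.sum_le_sum fun z _ => key z).trans ?_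
  rw [Finset.sum_add_distrib, Finset.sum_const, nsmul_eq_mul, Finset.card_univ, mul_one_div,
    div_self hN.ne']
  linarith

/-- The mass of points with large marginal. -/
lemma mass_marg {X : Type*} [Fintype X] (f : X → ℝ) (N : ℝ) (hN : 0 < N) {ε : ℝ}
    (h : ∑ x, |f x - 1 / N| ≤ ε) :
    ∑ x, (if 3 < f x * N then f x else 0) ≤ 3 / 2 * ε := by
  refine le_trans ?_ (mul_le_mul_of_nonneg_left h (by norm_num))
  rw [Finset.mul_sum]
  refine Finset.sum_le_sum fun x _ => ?_
  split_ifs with hx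
  · have h1 : 3 / N < f x := by rwa [div_lt_iff₀ hN]
    have h2 : f x - 1 / N ≤ |f x - 1 / N| := le_abs_self _
    have h3 : 1 / N = (3 / N) / 3 := by ring
    linarith only [h1, h2, h3]
  · (clear * -; positivity)

theorem outC_of_outB {X : Type*} [Fintype X] [Nonempty X] {Adj : X → X → Prop}
    {K ε I : ℝ} (hK : 0 ≤ K) (hε : 0 < ε) (hε1 : ε ≤ 1 / 40) (h : OutB Adj K ε I) :
    OutC Adj (2 * Real.exp ((K + 1) / ε)) (12 * ε) (2 * I) := by
  obtain ⟨ν, h0, h1, hsy, h2, h3, h4, h5⟩ := h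
  set N : ℝ := (Fintype.card X : ℝ) with hN
  have hN0 : 0 < N := by rw [hN]; exact_mod_cast Fintype.card_pos
  set L : ℝ := (K + 1) / ε with hL
  have hL0 : 0 < L := by positivity
  set m : X → ℝ := fun x => ∑ y, ν x y with hm
  have hm0 : ∀ x, 0 ≤ m x := fun x => Finset.sum_nonneg fun y _ => h0 x y
  -- the good set
  set Bad : X → X → Prop := fun x y => Real.exp L < ν x y * N ^ 2 ∨ 3 < m x * N ∨ 3 < m y * N
    with hBad
  have hBsym : ∀ x y, Bad x y ↔ Bad y x := by
    intro x y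
    simp only [hBad]
    rw [hsy x y]
    tauto
  set ρ : X → X → ℝ := fun x y => if Bad x y then 0 else ν x y with hρ
  have hρ0 : ∀ x y, 0 ≤ ρ x y := fun x y => by
    simp only [hρ]; split_ifs; exacts [le_rfl, h0 x y]
  have hρν : ∀ x y, ρ x y ≤ ν x y := fun x y => by
    simp only [hρ]; split_ifs; exacts [h0 x y, le_rfl]
  -- lost mass
  have hlost : ∑ x, ∑ y, (ν x y - ρ x y) ≤ 4 * ε := by
    have hA : ∑ x, ∑ y, (if Real.exp L < ν x y * N ^ 2 then ν x y else 0) ≤ ε := by
      have := mass_large (Z := X × X) (fun z => ν z.1 z.2) (fun z => h0 _ _)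
        (by rw [Fintype.sum_prod_type]; exact h1) hL0 (K := K)
        (by
          rw [Fintype.sum_prod_type]
          simp only [Fintype.card_prod]
          push_cast
          have : ∀ x y, ν x y * Real.log (ν x y * (N * N)) = ν x y * Real.log (ν x y * N ^ 2) := by
            intro x y; rw [sq]
          simp only [← hN, this]
          exact h3)
      rw [Fintype.sum_prod_type] at this
      simp only [Fintype.card_prod] at this
      push_cast at this
      simp only [← hN, ← sq] at this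
      refine this.trans (le_of_eq ?_)
      rw [hL]
      field_simp
    have hM : ∑ x, (if 3 < m x * N then m x else 0) ≤ 3 / 2 * ε := mass_marg m N hN0 h4
    have hB : ∑ x, ∑ y, (if 3 < m x * N then ν x y else 0) ≤ 3 / 2 * ε := by
      refine le_trans (le_of_eq ?_) hM
      refine Finset.sum_congr rfl fun x _ => ?_
      split_ifs
      · rfl
      · simp
    have hC : ∑ x, ∑ y, (if 3 < m y * N then ν x y else 0) ≤ 3 / 2 * ε := by
      refine le_trans (le_of_eq ?_) hB
      rw [Finset.sum_comm]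
      refine Finset.sum_congr rfl fun x _ => Finset.sum_congr rfl fun y _ => ?_
      rw [hsy]
    have hpt : ∀ x y, ν x y - ρ x y ≤ (if Real.exp L < ν x y * N ^ 2 then ν x y else 0)
        + ((if 3 < m x * N then ν x y else 0) + (if 3 < m y * N then ν x y else 0)) := by
      intro x y
      have := h0 x y
      simp only [hρ]
      by_cases hb : Bad x y
      · rw [if_pos hb]
        simp only [hBad] at hb
        rcases hb with hb | hb | hb
        · rw [if_pos hb]
          split_ifs <;> linarith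
        · rw [if_pos hb]
          split_ifs <;> linarith
        · rw [if_pos hb]
          split_ifs <;> linarith
      · rw [if_neg hb, sub_self]
        split_ifs <;> linarith
    calc ∑ x, ∑ y, (ν x y - ρ x y)
        ≤ ∑ x, ∑ y, ((if Real.exp L < ν x y * N ^ 2 then ν x y else 0)
          + ((if 3 < m x * N then ν x y else 0) + (if 3 < m y * N then ν x y else 0))) :=
          Finset.sum_le_sum fun x _ => Finset.sum_le_sum fun y _ => hpt x y
      _ = ∑ x, ∑ y, (if Real.exp L < ν x y * N ^ 2 then ν x y else 0)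
          + (∑ x, ∑ y, (if 3 < m x * N then ν x y else 0)
            + ∑ x, ∑ y, (if 3 < m y * N then ν x y else 0)) := by
          simp only [Finset.sum_add_distrib]
      _ ≤ 4 * ε := by linarith only [hC, hB, hA]
  set M : ℝ := ∑ x, ∑ y, ρ x y with hMdef
  have hM1 : 1 - 4 * ε ≤ M := by
    have : ∑ x, ∑ y, (ν x y - ρ x y) = 1 - M := by
      simp only [Finset.sum_sub_distrib]
      rw [h1]
    linarith only [this, hlost]
  have hM2 : M ≤ 1 := by
    rw [← h1]
    exact Finset.sum_le_sum fun x _ => Finset.sum_le_sum fun y _ => hρν x y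
  have hM0 : 0 < M := by linarith only [hM1, hε1, hε]
  have hMinv : 1 / M ≤ 1 + 5 * ε := by
    rw [div_le_iff₀ hM0]
    (by_contra nlg; linarith only [nlg, mul_nonneg (sub_nonneg.2 hM1) (le_of_lt (sub_pos.2 hM0)), mul_nonneg (sub_nonneg.2 hM1) (sub_nonneg.2 hM2), mul_nonneg (sub_nonneg.2 hε1) (sub_nonneg.2 hM2), mul_nonneg (sub_nonneg.2 hε1) (sub_nonneg.2 hM1), mul_pos (sub_pos.2 hε) (sub_pos.2 hε), mul_pos (sub_pos.2 (not_le.1 nlg)) (sub_pos.2 hM0), mul_nonneg (le_of_lt (sub_pos.2 (not_le.1 nlg))) (sub_nonneg.2 hM2)])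
  have hMinv0 : 0 < 1 / M := by (clear * - hM0; positivity)
  have hMinv1 : 1 ≤ 1 / M := by rw [le_div_iff₀ hM0]; linarith only [hM2]
  have hMinv2 : 1 / M ≤ 9 / 8 := by linarith only [hMinv, hε1]
  refine ⟨fun x y => ρ x y * (1 / M), ?_, ?_, ?_, ?_, ?_, ?_, ?_, ?_⟩
  · intro x y
    exact mul_nonneg (hρ0 x y) hMinv0.le
  · simp only [← Finset.sum_mul]
    rw [← hMdef, mul_one_div, div_self hM0.ne']
  · intro x y
    simp only [hρ]
    by_cases hb : Bad x y
    · rw [if_pos hb, if_pos ((hBsym x y).1 hb)]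
    · rw [if_neg hb, if_neg (fun h' => hb ((hBsym x y).2 h')), hsy x y]
  · intro x y hxy
    apply h2
    intro h'
    apply hxy
    simp only [hρ]
    by_cases hb : Bad x y
    · rw [if_pos hb, zero_mul]
    · rw [if_neg hb, h', zero_mul]
  · intro x y
    have hb1 : ρ x y * N ^ 2 ≤ Real.exp L := by
      simp only [hρ]
      split_ifs with hb
      · rw [zero_mul]; exact (Real.exp_pos L).le
      · simp only [hBad, not_or, not_lt] at hb
        exact hb.1
    have hb2 : 0 ≤ ρ x y * N ^ 2 := mul_nonneg (hρ0 x y) (by positivity)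
    calc ρ x y * (1 / M) * N ^ 2 = (ρ x y * N ^ 2) * (1 / M) := by ring
      _ ≤ Real.exp L * 2 := by
          apply mul_le_mul hb1 (by linarith only [hMinv2, hε1, hε]) hMinv0.le (Real.exp_pos L).le
      _ = 2 * Real.exp L := by ring
  · intro x
    rw [← Finset.sum_mul]
    have hb : (∑ y, ρ x y) * N ≤ 3 := by
      by_cases hx : 3 < m x * N
      · have : ∑ y, ρ x y = 0 := Finset.sum_eq_zero fun y _ => by
          simp only [hρ]
          rw [if_pos]
          exact Or.inr (Or.inl hx)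
        rw [this, zero_mul]; norm_num
      · refine le_trans ?_ (not_lt.1 hx)
        exact mul_le_mul_of_nonneg_right (Finset.sum_le_sum fun y _ => hρν x y) hN0.le
    have hb0 : 0 ≤ (∑ y, ρ x y) * N :=
      mul_nonneg (Finset.sum_nonneg fun y _ => hρ0 x y) hN0.le
    calc (∑ y, ρ x y) * (1 / M) * N = ((∑ y, ρ x y) * N) * (1 / M) := by ring
      _ ≤ 3 * (9 / 8) := by
          apply mul_le_mul hb hMinv2 hMinv0.le (by norm_num)
      _ ≤ 4 := by norm_num
  · have hpt : ∀ x, |∑ y, ρ x y * (1 / M) - 1 / N|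
        ≤ |m x - 1 / N| + (∑ y, (ν x y - ρ x y)) + (1 / M - 1) * ∑ y, ρ x y := by
      intro x
      have e1 : ∑ y, ρ x y * (1 / M) - 1 / N
          = (m x - 1 / N) - (∑ y, (ν x y - ρ x y)) + (1 / M - 1) * ∑ y, ρ x y := by
        rw [← Finset.sum_mul, Finset.sum_sub_distrib]
        simp only [hm]
        ring
      rw [e1]
      have p1 : 0 ≤ ∑ y, (ν x y - ρ x y) :=
        Finset.sum_nonneg fun y _ => by linarith only [hρν x y]
      have p2 : 0 ≤ (1 / M - 1) * ∑ y, ρ x y :=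
        mul_nonneg (by linarith only [hMinv1]) (Finset.sum_nonneg fun y _ => hρ0 x y)
      rw [abs_le]
      have q1 := neg_abs_le (m x - 1 / N)
      have q2 := le_abs_self (m x - 1 / N)
      constructor <;> linarith
    refine (Finset.sum_le_sum fun x _ => hpt x).trans ?_
    rw [Finset.sum_add_distrib, Finset.sum_add_distrib, ← Finset.mul_sum, ← hMdef]
    have q1 : (1 / M - 1) * M ≤ 5 * ε * 1 :=
      mul_le_mul (by linarith only [hMinv]) hM2 hM0.le (by positivity)
    linarith [hε, h4, hlost, q1]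
  · have hpt : ∀ x x' y y', (if Adj x y ∧ Adj x y' ∧ Adj x' y ∧ Adj x' y' then
        ρ x x' * (1 / M) * (ρ y y' * (1 / M)) else 0)
        ≤ 2 * (if Adj x y ∧ Adj x y' ∧ Adj x' y ∧ Adj x' y' then ν x x' * ν y y' else 0) := by
      intro x x' y y'
      split_ifs
      · have e1 : ρ x x' * ρ y y' ≤ ν x x' * ν y y' :=
          mul_le_mul (hρν _ _) (hρν _ _) (hρ0 _ _) (h0 _ _)
        have e0 : 0 ≤ ρ x x' * ρ y y' := mul_nonneg (hρ0 _ _) (hρ0 _ _)
        have e2 : (1 / M) * (1 / M) ≤ 2 := by (by_contra nlg; linarith only [nlg, mul_nonneg (sub_nonneg.2 hMinv2) (sub_nonneg.2 hMinv2), mul_nonneg (sub_nonneg.2 hMinv1) (sub_nonneg.2 hMinv2), mul_nonneg (sub_nonneg.2 hε1) (sub_nonneg.2 hMinv2), mul_nonneg (sub_nonneg.2 hε1) (sub_nonneg.2 hMinv1), mul_nonneg (sub_nonneg.2 hε1) (sub_nonneg.2 hMinv), mul_pos (sub_pos.2 hε) (sub_pos.2 hε), mul_nonneg (le_of_lt (sub_pos.2 (not_le.1 nlg))) (sub_nonneg.2 hMinv2), mul_nonneg (le_of_lt (sub_pos.2 (not_le.1 nlg))) (sub_nonneg.2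 hMinv1)])
        calc ρ x x' * (1 / M) * (ρ y y' * (1 / M)) = (ρ x x' * ρ y y') * ((1 / M) * (1 / M)) := by
              ring
          _ ≤ (ν x x' * ν y y') * 2 :=
              mul_le_mul e1 e2 (by (clear * - hM0; positivity)) (e0.trans e1)
          _ = _ := by ring
      · simp
    refine (Finset.sum_le_sum fun x _ => Finset.sum_le_sum fun x' _ =>
      Finset.sum_le_sum fun y _ => Finset.sum_le_sum fun y' _ => hpt x x' y y').trans ?_
    simp only [← Finset.mul_sum]
    linarith only [h5]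

lemma outC_mono {X : Type*} [Fintype X] {Adj : X → X → Prop} {K ε I K' ε' I' : ℝ} (hK : K ≤ K')
    (hε : ε ≤ ε') (hI : I ≤ I') (h : OutC Adj K ε I) : OutC Adj K' ε' I' := by
  obtain ⟨q, h1, h2, h3, h4, h5, h6, h7, h8⟩ := h
  exact ⟨q, h1, h2, h3, h4, fun x y => (h5 x y).trans hK, h6, h7.trans hε, h8.trans hI⟩

/-- **Entropic reduction, truncated form.** -/
theorem reduction_trunc (ε : ℝ) (hε : 0 < ε) : ∃ C : ℝ, ∃ n0 : ℕ, ∀ n : ℕ, n0 ≤ n →
    (∀ G : SimpleGraph (Fin n), G.indepNum ≤ 2 →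
      G.chromaticNumber ≤ (hadwigerNumber G : ℕ∞)) →
    ∀ (X : Type*) [Fintype X] [Nonempty X] (Adj : X → X → Prop),
      (∀ x y, Adj x y → Adj y x) → (∀ x y z, Adj x y → Adj y z → Adj x z → False) →
      OutA Adj C (C / n) ∨
      OutC Adj ((n : ℝ) ^ C) ε (C * (Real.log n) ^ 2 / n) := by
  set ε₁ : ℝ := min ε 1 / 40 with hε₁
  have hε₁0 : 0 < ε₁ := by
    have : 0 < min ε 1 := lt_min hε one_pos
    positivity
  have hε₁1 : ε₁ ≤ 1 / 40 := by
    have : min ε 1 ≤ 1 := min_le_right _ _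
    rw [hε₁]; linarith only [this]
  have hε₁2 : 40 * ε₁ ≤ ε := by
    have : min ε 1 ≤ ε := min_le_left _ _
    rw [hε₁]; linarith only [this]
  obtain ⟨C, n0, hC⟩ := reduction ε₁ hε₁0
  set C0 : ℝ := max C 1 with hC0
  have hC01 : 1 ≤ C0 := le_max_right _ _
  have hC0C : C ≤ C0 := le_max_left _ _
  set C1 : ℝ := (2 + C0 + 1) / ε₁ + 1 with hC1
  have hC1C : 2 * C0 ≤ C1 := by
    have h1 : (2 + C0 + 1) / ε₁ ≥ (2 + C0 + 1) * 40 := by
      rw [ge_iff_le, le_div_iff₀ hε₁0]
      nlinarith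
    rw [hC1]; linarith only [hε₁0, hε₁1, hC01, h1]
  have ev1 : ∀ᶠ n : ℕ in Filter.atTop, 1 ≤ Real.log n :=
    (Real.tendsto_log_atTop.comp tendsto_natCast_atTop_atTop).eventually_ge_atTop 1
  obtain ⟨n1, hn1⟩ := Filter.eventually_atTop.1 ev1
  refine ⟨C1, max n0 n1, fun n hn hHad X _ _ Adj hsym htri => ?_⟩
  have hlog := hn1 n ((le_max_right _ _).trans hn)
  have hnpos : (0 : ℝ) < n := by
    by_contra h
    have h2 : (n : ℝ) = 0 := le_antisymm (not_lt.1 h) (Nat.cast_nonneg n)
    rw [h2, Real.log_zero] at hlog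
    linarith only [hlog]
  rcases hC n ((le_max_left _ _).trans hn) hHad X Adj hsym htri with h | h
  · left
    refine outA_mono (by linarith only [hC1C, hC0C, hC01, hε₁1, hε₁0]) ?_ h
    exact div_le_div_of_nonneg_right (by linarith only [hC1C, hC0C, hC01, hε₁1, hε₁0]) hnpos.le
  · right
    have h' : OutB Adj ((1 + ε₁) * Real.log n + C0) ε₁ (C0 * (Real.log n) ^ 2 / n) := by
      refine outB_mono (by linarith only [hC0C]) le_rfl ?_ h
      exact div_le_div_of_nonneg_right (mul_le_mul_of_nonneg_right hC0C (sq_nonneg _)) hnpos.le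
    have h2 := outC_of_outB (by (clear * - hε hlog; positivity)) hε₁0 hε₁1 h'
    refine outC_mono ?_ (by linarith only [hε₁2, hε₁0]) ?_ h2
    · rw [Real.rpow_def_of_pos hnpos]
      have h3 : (2 : ℝ) ≤ Real.exp 1 := by
        have := Real.add_one_le_exp (1 : ℝ); linarith only [this]
      calc 2 * Real.exp (((1 + ε₁) * Real.log n + C0 + 1) / ε₁)
          ≤ Real.exp 1 * Real.exp (((1 + ε₁) * Real.log n + C0 + 1) / ε₁) :=
            mul_le_mul_of_nonneg_right h3 (Real.exp_pos _).le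
        _ = Real.exp (1 + ((1 + ε₁) * Real.log n + C0 + 1) / ε₁) := by rw [Real.exp_add]
        _ ≤ Real.exp (Real.log n * C1) := by
            apply Real.exp_le_exp.2
            rw [hC1]
            have e1 : ((1 + ε₁) * Real.log n + C0 + 1) / ε₁
                ≤ Real.log n * ((2 + C0 + 1) / ε₁) := by
              rw [← mul_div_assoc]
              apply div_le_div_of_nonneg_right _ hε₁0.le
              (by_contra nlg; linarith only [nlg, mul_nonneg (sub_nonneg.2 hC01) (sub_nonneg.2 hlog), mul_nonneg (sub_nonneg.2 hε₁1) (sub_nonneg.2 hlog), mul_nonneg (sub_nonneg.2 hε₁1) (sub_nonneg.2 hε₁1), mul_nonneg (le_of_lt (sub_pos.2 hε₁0)) (sub_nonneg.2 hlog), mul_nonneg (le_of_lt (sub_pos.2 hε₁0)) (sub_nonneg.2 hε₁1), mul_pos (sub_pos.2 hε₁0) (sub_pos.2 hε₁0), mul_nonneg (le_of_lt (sub_pos.2 (not_le.1 nlg))) (sub_nonneg.2 hε₁1), mul_pos (sub_pos.2 (not_le.1 nlg)) (sub_pos.2 hε₁0)])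
            linarith only [e1, hlog]
    · calc 2 * (C0 * (Real.log n) ^ 2 / n) = (2 * C0) * (Real.log n) ^ 2 / n := by ring
        _ ≤ C1 * (Real.log n) ^ 2 / n :=
            div_le_div_of_nonneg_right (mul_le_mul_of_nonneg_right hC1C (sq_nonneg _)) hnpos.le

end Vale.Agent.P060.HW
end
end

section

/-!
# Conditioning the coupling on the labels (type, bit)
-/

open scoped Classical

noncomputable section

set_option linter.unusedSectionVars false

namespace Vale.Agent.P060.HW

namespace Design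

variable {K T : Type*} [Fintype K] [Fintype T] (δ : Design K T)

/-- Labels. -/
abbrev Lb (T : Type*) := T × Bool

/-- The label of a vertex. -/
def lb (x : Vtx K T) : Lb T := (x.1, x.2.1)

/-- The mass of a pair of labels. -/
def mass (ν : Vtx K T → Vtx K T → ℝ) (α : Lb T × Lb T) : ℝ :=
  ∑ x, ∑ x', if lb x = α.1 ∧ lb x' = α.2 then ν x x' else 0

lemma mass_nonneg {ν : Vtx K T → Vtx K T → ℝ} (h0 : ∀ x y, 0 ≤ ν x y) (α : Lb T × Lb T) :
    0 ≤ mass ν α := Finset.sum_nonneg fun x _ => Finset.sum_nonneg fun x' _ => by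
  split_ifs; exacts [h0 _ _, le_rfl]

lemma sum_mass (ν : Vtx K T → Vtx K T → ℝ) : ∑ α, mass ν α = ∑ x, ∑ x', ν x x' := by
  unfold mass
  rw [Finset.sum_comm]
  refine Finset.sum_congr rfl fun x _ => ?_
  rw [Finset.sum_comm]
  refine Finset.sum_congr rfl fun x' _ => ?_
  rw [Finset.sum_eq_single (lb x, lb x')]
  · simp
  · intro α _ hα
    rw [if_neg]
    rintro ⟨h1, h2⟩
    exact hα (Prod.ext h1.symm h2.symm)
  · intro h; exact absurd (Finset.mem_univ _) h

/-- **Selection of the labels.** -/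
theorem exists_types (ν : Vtx K T → Vtx K T → ℝ) (h0 : ∀ x y, 0 ≤ ν x y)
    (h1 : ∑ x, ∑ y, ν x y = 1) [Nonempty T]
    (Good : Vtx K T → Vtx K T → Vtx K T → Vtx K T → Prop)
    (hG : 1 / 40 ≤ ∑ x, ∑ x', ∑ y, ∑ y', (if Good x x' y y' then ν x x' * ν y y' else 0))
    (Bad : Lb T × Lb T → Lb T × Lb T → Prop)
    (hBad : ∑ α, ∑ β, (if Bad α β then mass ν α * mass ν β else 0) ≤ 1 / 100) :
    ∃ α β, ¬ Bad α β ∧ 1 / (400 * (Fintype.card (Lb T) : ℝ) ^ 2) ≤ mass ν α ∧
      1 / (400 * (Fintype.card (Lb T) : ℝ) ^ 2) ≤ mass ν β ∧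
      1 / 200 * (mass ν α * mass ν β) ≤ ∑ x, ∑ x', ∑ y, ∑ y',
        (if Good x x' y y' ∧ (lb x = α.1 ∧ lb x' = α.2) ∧ (lb y = β.1 ∧ lb y' = β.2)
          then ν x x' * ν y y' else 0) := by
  by_contra hcon
  push Not at hcon
  set G : Lb T × Lb T → Lb T × Lb T → ℝ := fun α β => ∑ x, ∑ x', ∑ y, ∑ y',
        (if Good x x' y y' ∧ (lb x = α.1 ∧ lb x' = α.2) ∧ (lb y = β.1 ∧ lb y' = β.2)
          then ν x x' * ν y y' else 0) with hGdef
  set s : ℝ := 1 / (400 * (Fintype.card (Lb T) : ℝ) ^ 2) with hs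
  have hcard : (0 : ℝ) < Fintype.card (Lb T) := by exact_mod_cast Fintype.card_pos
  have hm := mass_nonneg h0
  -- the total
  have htot : ∑ x, ∑ x', ∑ y, ∑ y', (if Good x x' y y' then ν x x' * ν y y' else 0)
      = ∑ α, ∑ β, G α β := by
    have e1 : ∀ x x' y y', (if Good x x' y y' then ν x x' * ν y y' else 0)
        = ∑ α : Lb T × Lb T, ∑ β : Lb T × Lb T,
          (if Good x x' y y' ∧ (lb x = α.1 ∧ lb x' = α.2) ∧ (lb y = β.1 ∧ lb y' = β.2)
          then ν x x' * ν y y' else 0) := by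
      intro x x' y y'
      rw [Finset.sum_eq_single (lb x, lb x'), Finset.sum_eq_single (lb y, lb y')]
      · by_cases h : Good x x' y y' <;> simp [h]
      · intro β _ hβ
        rw [if_neg]
        rintro ⟨-, -, h3, h4⟩
        exact hβ (Prod.ext h3.symm h4.symm)
      · intro h; exact absurd (Finset.mem_univ _) h
      · intro α _ hα
        refine Finset.sum_eq_zero fun β _ => ?_
        rw [if_neg]
        rintro ⟨-, ⟨h3, h4⟩, -⟩
        exact hα (Prod.ext h3.symm h4.symm)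
      · intro h; exact absurd (Finset.mem_univ _) h
    have e2 : ∀ x x', ∑ y, ∑ y', (if Good x x' y y' then ν x x' * ν y y' else 0)
        = ∑ α : Lb T × Lb T, ∑ β : Lb T × Lb T, ∑ y, ∑ y',
          (if Good x x' y y' ∧ (lb x = α.1 ∧ lb x' = α.2) ∧ (lb y = β.1 ∧ lb y' = β.2)
          then ν x x' * ν y y' else 0) := by
      intro x x'
      simp only [e1]
      rw [Finset.sum_congr rfl fun y _ => Finset.sum_comm, Finset.sum_comm]
      refine Finset.sum_congr rfl fun α _ => ?_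
      rw [Finset.sum_congr rfl fun y _ => Finset.sum_comm, Finset.sum_comm]
    simp only [e2]
    rw [Finset.sum_congr rfl fun x _ => Finset.sum_comm, Finset.sum_comm]
    refine Finset.sum_congr rfl fun α _ => ?_
    rw [Finset.sum_congr rfl fun x _ => Finset.sum_comm, Finset.sum_comm]
  have hGle : ∀ α β, G α β ≤ mass ν α * mass ν β := by
    intro α β
    unfold mass
    simp only [hGdef]
    rw [Finset.sum_mul]
    refine Finset.sum_le_sum fun x _ => ?_
    rw [Finset.sum_mul]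
    refine Finset.sum_le_sum fun x' _ => ?_
    rw [Finset.mul_sum]
    refine Finset.sum_le_sum fun y _ => ?_
    rw [Finset.mul_sum]
    refine Finset.sum_le_sum fun y' _ => ?_
    by_cases ha : lb x = α.1 ∧ lb x' = α.2
    · by_cases hb : lb y = β.1 ∧ lb y' = β.2
      · rw [if_pos ha, if_pos hb]
        split_ifs
        · exact le_rfl
        · exact mul_nonneg (h0 _ _) (h0 _ _)
      · rw [if_neg hb, mul_zero, if_neg]
        rintro ⟨-, -, h⟩; exact hb h
    · rw [if_neg ha, zero_mul, if_neg]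
      rintro ⟨-, h, -⟩; exact ha h
  have hpt : ∀ α β, G α β ≤ (if Bad α β then mass ν α * mass ν β else 0)
      + s * mass ν β + s * mass ν α + 1 / 200 * (mass ν α * mass ν β) := by
    intro α β
    have hmm : 0 ≤ mass ν α * mass ν β := mul_nonneg (hm _) (hm _)
    have hs0 : 0 ≤ s := by positivity
    have p1 : 0 ≤ s * mass ν β := mul_nonneg hs0 (hm _)
    have p2 : 0 ≤ s * mass ν α := mul_nonneg hs0 (hm _)
    have hG2 := hGle α β
    by_cases hb : Bad α β
    · rw [if_pos hb]; linarith only [hmm, p1, p2, hG2]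
    · rw [if_neg hb]
      by_cases ha1 : s ≤ mass ν α
      · by_cases hb1 : s ≤ mass ν β
        · have := hcon α β hb ha1 hb1
          linarith only [this, p2, p1]
        · have : mass ν α * mass ν β ≤ mass ν α * s :=
            mul_le_mul_of_nonneg_left (not_le.1 hb1).le (hm _)
          linarith only [this, hG2, p2, p1]
      · have : mass ν α * mass ν β ≤ s * mass ν β :=
          mul_le_mul_of_nonneg_right (not_le.1 ha1).le (hm _)
        linarith only [this, hG2, p2, p1]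
  have hsum := Finset.sum_le_sum (s := Finset.univ) fun α _ =>
    Finset.sum_le_sum (s := Finset.univ) fun β _ => hpt α β
  rw [← htot] at hsum
  have hM : ∑ α, mass ν α = 1 := by rw [sum_mass, h1]
  have hcc : (Fintype.card (Lb T × Lb T) : ℝ) = (Fintype.card (Lb T) : ℝ) ^ 2 := by
    rw [Fintype.card_prod]; push_cast; ring
  have e3 : ∑ _α : Lb T × Lb T, ∑ β : Lb T × Lb T, s * mass ν β = 1 / 400 := by
    rw [Finset.sum_const, nsmul_eq_mul, Finset.card_univ, hcc, ← Finset.mul_sum, hM, hs]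
    field_simp
  have e4 : ∑ α : Lb T × Lb T, ∑ _β : Lb T × Lb T, s * mass ν α = 1 / 400 := by
    simp only [Finset.sum_const, nsmul_eq_mul, Finset.card_univ]
    rw [← Finset.mul_sum, hcc, ← Finset.mul_sum, hM, hs]
    field_simp
  have e5 : ∑ α : Lb T × Lb T, ∑ β : Lb T × Lb T, 1 / 200 * (mass ν α * mass ν β) = 1 / 200 := by
    simp only [← Finset.mul_sum]
    rw [hM]
    simp only [mul_one]
    rw [hM, mul_one]
  simp only [Finset.sum_add_distrib] at hsum
  rw [e3, e4, e5] at hsum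
  linarith only [hsum, hBad, hG]

/-- The conditional law of the pair of vertices given the labels. -/
def condP (ν : Vtx K T → Vtx K T → ℝ) (h0 : ∀ x y, 0 ≤ ν x y) (α : Lb T × Lb T)
    (hα : 0 < mass ν α) : FinProb (Vtx K T × Vtx K T) where
  w z := if lb z.1 = α.1 ∧ lb z.2 = α.2 then ν z.1 z.2 / mass ν α else 0
  nonneg z := by
    split_ifs
    · exact div_nonneg (h0 _ _) hα.le
    · exact le_rfl
  sum_one := by
    rw [Fintype.sum_prod_type]
    have : ∀ x x' : Vtx K T, (if lb x = α.1 ∧ lb x' = α.2 then ν x x' / mass ν α else 0)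
        = (if lb x = α.1 ∧ lb x' = α.2 then ν x x' else 0) / mass ν α := by
      intro x x'; split_ifs <;> simp
    simp only [this, ← Finset.sum_div]
    exact div_self hα.ne'

lemma condP_w (ν : Vtx K T → Vtx K T → ℝ) (h0 : ∀ x y, 0 ≤ ν x y) (α : Lb T × Lb T)
    (hα : 0 < mass ν α) (z : Vtx K T × Vtx K T) : (condP ν h0 α hα).w z
      = if lb z.1 = α.1 ∧ lb z.2 = α.2 then ν z.1 z.2 / mass ν α else 0 := rfl

/-- The size of the fibres of the form map. -/
lemma card_fiber (a : T) (D : δ.Dir a) :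
    ((Finset.univ.filter (fun m : Matrix K K F => δ.proj a m = D)).card : ℝ)
      * Fintype.card (δ.Dir a) = Fintype.card (Matrix K K F) := by
  have hfib : ∀ D' : δ.Dir a, (Finset.univ.filter (fun m : Matrix K K F => δ.proj a m = D')).card
      = (Finset.univ.filter (fun m : Matrix K K F => δ.proj a m = D)).card := by
    intro D'
    refine Finset.card_bij' (fun m _ => m + ((D : Matrix K K F) - (D' : Matrix K K F)))
      (fun m _ => m - ((D : Matrix K K F) - (D' : Matrix K K F))) ?_ ?_ ?_ ?_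
    · intro m hm
      rw [Finset.mem_filter] at hm ⊢
      refine ⟨Finset.mem_univ _, ?_⟩
      rw [map_add, map_sub, hm.2, δ.proj_apply, δ.proj_apply]
      abel
    · intro m hm
      rw [Finset.mem_filter] at hm ⊢
      refine ⟨Finset.mem_univ _, ?_⟩
      rw [map_sub, map_sub, hm.2, δ.proj_apply, δ.proj_apply]
      abel
    · intro m _; simp
    · intro m _; simp
  have h := Finset.card_eq_sum_card_fiberwise (f := δ.proj a)
    (s := (Finset.univ : Finset (Matrix K K F))) (t := Finset.univ)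
    (fun _ _ => Finset.mem_coe.2 (Finset.mem_univ _))
  rw [Finset.sum_congr rfl fun D' _ => hfib D', Finset.sum_const, Finset.card_univ,
    Finset.card_univ, smul_eq_mul] at h
  rw [h]
  push_cast
  ring

lemma card_frm_le (a : T) (ι : Bool) (B : Matrix K K F) :
    ((Finset.univ.filter (fun x : Vtx K T => lb x = (a, ι) ∧ δ.frm x = B)).card : ℝ)
      * Fintype.card (δ.Dir a) ≤ Fintype.card (Matrix K K F) := by
  by_cases hB : ∃ D : δ.Dir a, (if ι then δ.B0 a else 0) + (D : Matrix K K F) = B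
  · obtain ⟨D, hD⟩ := hB
    rw [← δ.card_fiber a D]
    refine mul_le_mul_of_nonneg_right ?_ (Nat.cast_nonneg _)
    norm_cast
    refine Finset.card_le_card_of_injOn (fun x => x.2.2) ?_ ?_
    · intro x hx
      rw [Finset.mem_coe, Finset.mem_filter] at hx ⊢
      obtain ⟨-, hl, hf⟩ := hx
      refine ⟨Finset.mem_univ _, ?_⟩
      obtain ⟨x1, x2, x3⟩ := x
      simp only [lb, Prod.mk.injEq] at hl
      obtain ⟨rfl, rfl⟩ := hl
      apply Subtype.ext
      unfold frm at hf
      simp only at hf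
      rw [← hD] at hf
      exact add_left_cancel hf
    · intro x hx y hy hxy
      rw [Finset.mem_coe, Finset.mem_filter] at hx hy
      obtain ⟨-, hl, -⟩ := hx
      obtain ⟨-, hl', -⟩ := hy
      obtain ⟨x1, x2, x3⟩ := x
      obtain ⟨y1, y2, y3⟩ := y
      simp only [lb, Prod.mk.injEq] at hl hl'
      simp only at hxy
      rw [hl.1, hl.2, hl'.1, hl'.2, hxy]
  · have : Finset.univ.filter (fun x : Vtx K T => lb x = (a, ι) ∧ δ.frm x = B) = ∅ := by
      rw [Finset.filter_eq_empty_iff]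
      rintro ⟨x1, x2, x3⟩ _ ⟨hl, hf⟩
      simp only [lb, Prod.mk.injEq] at hl
      obtain ⟨rfl, rfl⟩ := hl
      exact hB ⟨δ.proj x1 x3, hf⟩
    rw [this]
    simp

lemma card_vtx : (Fintype.card (Vtx K T) : ℝ)
    = Fintype.card (Lb T) * Fintype.card (Matrix K K F) := by
  rw [Fintype.card_prod, Fintype.card_prod, Fintype.card_prod]
  push_cast
  ring

/-- Pointwise bound for the joint law of the two forms. -/
theorem law_forms_le [Nonempty T] (ν : Vtx K T → Vtx K T → ℝ) (h0 : ∀ x y, 0 ≤ ν x y) {Λ : ℝ}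
    (hΛ : ∀ x y, ν x y * (Fintype.card (Vtx K T) : ℝ) ^ 2 ≤ Λ) (α : Lb T × Lb T)
    (hα : 0 < mass ν α) (hα' : 1 / (400 * (Fintype.card (Lb T) : ℝ) ^ 2) ≤ mass ν α)
    (B B' : Matrix K K F) :
    (condP ν h0 α hα).p (fun z => (δ.frm z.1, δ.frm z.2)) (B, B')
      ≤ 400 * Λ / (Fintype.card (δ.Dir α.1.1) * Fintype.card (δ.Dir α.2.1)) := by
  have hL : (0 : ℝ) < Fintype.card (Lb T) := by exact_mod_cast Fintype.card_pos
  have hMat : (0 : ℝ) < Fintype.card (Matrix K K F) := by exact_mod_cast Fintype.card_pos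
  have hD1 : (0 : ℝ) < Fintype.card (δ.Dir α.1.1) := by exact_mod_cast Fintype.card_pos
  have hD2 : (0 : ℝ) < Fintype.card (δ.Dir α.2.1) := by exact_mod_cast Fintype.card_pos
  have hN : (0 : ℝ) < Fintype.card (Vtx K T) := by rw [card_vtx]; positivity
  have hΛ0 : 0 ≤ Λ := by
    obtain ⟨x⟩ : Nonempty (Vtx K T) := ⟨(Classical.arbitrary T, true, 0)⟩
    exact (mul_nonneg (h0 x x) (by positivity)).trans (hΛ x x)
  set A1 := Finset.univ.filter (fun x : Vtx K T => lb x = (α.1.1, α.1.2) ∧ δ.frm x = B) with hA1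
  set A2 := Finset.univ.filter (fun x : Vtx K T => lb x = (α.2.1, α.2.2) ∧ δ.frm x = B') with hA2
  have c1 := δ.card_frm_le α.1.1 α.1.2 B
  have c2 := δ.card_frm_le α.2.1 α.2.2 B'
  rw [← hA1] at c1
  rw [← hA2] at c2
  have hsum : (condP ν h0 α hα).p (fun z => (δ.frm z.1, δ.frm z.2)) (B, B')
      ≤ ∑ _z ∈ A1 ×ˢ A2, Λ / (Fintype.card (Vtx K T) : ℝ) ^ 2 / mass ν α := by
    have e1 : (condP ν h0 α hα).p (fun z => (δ.frm z.1, δ.frm z.2)) (B, B')
        = ∑ z ∈ A1 ×ˢ A2, ν z.1 z.2 / mass ν α := by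
      unfold FinProb.p
      simp only [condP_w]
      rw [← Finset.sum_subset (Finset.subset_univ (A1 ×ˢ A2))]
      · refine Finset.sum_congr rfl fun z hz => ?_
        rw [Finset.mem_product, hA1, hA2, Finset.mem_filter, Finset.mem_filter] at hz
        obtain ⟨⟨-, h1, h2⟩, -, h3, h4⟩ := hz
        have h5 : (δ.frm z.1, δ.frm z.2) = (B, B') := by rw [h2, h4]
        rw [if_pos h5, if_pos ⟨h1, h3⟩]
      · intro z _ hz
        by_cases hf : (δ.frm z.1, δ.frm z.2) = (B, B')
        · rw [if_pos hf]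
          rw [Prod.mk.injEq] at hf
          rw [if_neg]
          rintro ⟨h1, h2⟩
          apply hz
          rw [Finset.mem_product, hA1, hA2, Finset.mem_filter, Finset.mem_filter]
          exact ⟨⟨Finset.mem_univ _, h1, hf.1⟩, Finset.mem_univ _, h2, hf.2⟩
        · rw [if_neg hf]
    rw [e1]
    refine Finset.sum_le_sum fun z _ => ?_
    refine div_le_div_of_nonneg_right ?_ hα.le
    rw [le_div_iff₀ (by positivity)]
    exact hΛ _ _
  refine hsum.trans ?_
  rw [Finset.sum_const, nsmul_eq_mul, Finset.card_product]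
  push_cast
  rw [le_div_iff₀ (mul_pos hD1 hD2)]
  have e2 : (A1.card : ℝ) * A2.card * (Λ / (Fintype.card (Vtx K T) : ℝ) ^ 2 / mass ν α)
      * (Fintype.card (δ.Dir α.1.1) * Fintype.card (δ.Dir α.2.1))
      = ((A1.card : ℝ) * Fintype.card (δ.Dir α.1.1)) * (A2.card * Fintype.card (δ.Dir α.2.1))
        * (Λ / (Fintype.card (Vtx K T) : ℝ) ^ 2 / mass ν α) := by ring
  rw [e2]
  have e3 : ((A1.card : ℝ) * Fintype.card (δ.Dir α.1.1)) * (A2.card * Fintype.card (δ.Dir α.2.1))
      ≤ Fintype.card (Matrix K K F) * Fintype.card (Matrix K K F) :=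
    mul_le_mul c1 c2 (by (clear * -; positivity)) hMat.le
  refine (mul_le_mul_of_nonneg_right e3 (by (clear * - hΛ0 hα; positivity))).trans ?_
  rw [card_vtx]
  have e4 : (Fintype.card (Matrix K K F) : ℝ) * Fintype.card (Matrix K K F)
      * (Λ / (Fintype.card (Lb T) * Fintype.card (Matrix K K F)) ^ 2 / mass ν α)
      = Λ * (1 / ((Fintype.card (Lb T) : ℝ) ^ 2 * mass ν α)) := by
    field_simp
  rw [e4, mul_comm 400 Λ]
  refine mul_le_mul_of_nonneg_left ?_ hΛ0
  rw [div_le_iff₀ (by positivity)]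
  rw [div_le_iff₀ (by positivity)] at hα'
  linarith only [hα']

/-- Pointwise bound for the law of the first form. -/
theorem law_frm_le [Nonempty T] (ν : Vtx K T → Vtx K T → ℝ) (h0 : ∀ x y, 0 ≤ ν x y)
    (hm : ∀ x, (∑ y, ν x y) * (Fintype.card (Vtx K T) : ℝ) ≤ 4) (α : Lb T × Lb T)
    (hα : 0 < mass ν α) (hα' : 1 / (400 * (Fintype.card (Lb T) : ℝ) ^ 2) ≤ mass ν α)
    (B : Matrix K K F) :
    (condP ν h0 α hα).p (fun z => δ.frm z.1) B
      ≤ 1600 * Fintype.card (Lb T) / Fintype.card (δ.Dir α.1.1) := by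
  have hL : (0 : ℝ) < Fintype.card (Lb T) := by exact_mod_cast Fintype.card_pos
  have hMat : (0 : ℝ) < Fintype.card (Matrix K K F) := by exact_mod_cast Fintype.card_pos
  have hD1 : (0 : ℝ) < Fintype.card (δ.Dir α.1.1) := by exact_mod_cast Fintype.card_pos
  have hN : (0 : ℝ) < Fintype.card (Vtx K T) := by rw [card_vtx]; positivity
  set A1 := Finset.univ.filter (fun x : Vtx K T => lb x = (α.1.1, α.1.2) ∧ δ.frm x = B) with hA1
  have c1 := δ.card_frm_le α.1.1 α.1.2 B
  rw [← hA1] at c1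
  have hsum : (condP ν h0 α hα).p (fun z => δ.frm z.1) B
      ≤ ∑ _x ∈ A1, 4 / (Fintype.card (Vtx K T) : ℝ) / mass ν α := by
    have e1 : (condP ν h0 α hα).p (fun z => δ.frm z.1) B
        ≤ ∑ x ∈ A1, (∑ y, ν x y) / mass ν α := by
      unfold FinProb.p
      simp only [condP_w]
      rw [Fintype.sum_prod_type, ← Finset.sum_subset (Finset.subset_univ A1)]
      · refine Finset.sum_le_sum fun x hx => ?_
        rw [Finset.sum_div]
        refine Finset.sum_le_sum fun y _ => ?_
        simp only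
        split_ifs
        · exact le_rfl
        · exact div_nonneg (h0 _ _) hα.le
        · exact div_nonneg (h0 _ _) hα.le
      · intro x _ hx
        refine Finset.sum_eq_zero fun y _ => ?_
        simp only
        by_cases hf : δ.frm x = B
        · rw [if_pos hf, if_neg]
          rintro ⟨h1, -⟩
          apply hx
          rw [hA1, Finset.mem_filter]
          exact ⟨Finset.mem_univ _, h1, hf⟩
        · rw [if_neg hf]
    refine e1.trans (Finset.sum_le_sum fun x _ => ?_)
    refine div_le_div_of_nonneg_right ?_ hα.le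
    rw [le_div_iff₀ hN]
    exact hm x
  refine hsum.trans ?_
  rw [Finset.sum_const, nsmul_eq_mul, le_div_iff₀ hD1]
  have e2 : (A1.card : ℝ) * (4 / (Fintype.card (Vtx K T) : ℝ) / mass ν α)
      * Fintype.card (δ.Dir α.1.1)
      = ((A1.card : ℝ) * Fintype.card (δ.Dir α.1.1))
        * (4 / (Fintype.card (Vtx K T) : ℝ) / mass ν α) := by ring
  rw [e2]
  refine (mul_le_mul_of_nonneg_right c1 (by positivity)).trans ?_
  rw [card_vtx]
  have e4 : (Fintype.card (Matrix K K F) : ℝ)
      * (4 / (Fintype.card (Lb T) * Fintype.card (Matrix K K F)) / mass ν α)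
      = 4 / (Fintype.card (Lb T) * mass ν α) := by
    field_simp
  rw [e4, div_le_iff₀ (by positivity)]
  rw [div_le_iff₀ (by positivity)] at hα'
  linarith only [hα']

lemma mass_swap (ν : Vtx K T → Vtx K T → ℝ) (hsy : ∀ x y, ν x y = ν y x) (α : Lb T × Lb T) :
    mass ν α.swap = mass ν α := by
  unfold mass
  rw [Finset.sum_comm]
  refine Finset.sum_congr rfl fun x _ => Finset.sum_congr rfl fun x' _ => ?_
  rw [hsy x' x]
  refine if_congr ?_ rfl rfl
  simp only [Prod.fst_swap, Prod.snd_swap]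
  tauto

end Design

end Vale.Agent.P060.HW
end
end

section

/-!
# Assembly, first layer: a family of hosts disproves Hadwiger's conjecture
-/

noncomputable section

namespace Vale.Agent.P060.HW

/-- If for all constants there are arbitrarily large `n` and triangle-free hosts with neither a
cheap law with few adjacencies nor a cheap coupling with few conflicts, then some graph with
independence number at most two violates Hadwiger's conjecture. -/
theorem not_hadwiger_of {ε : ℝ} (hε : 0 < ε)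
    (H : ∀ C : ℝ, ∀ n0 : ℕ, ∃ n : ℕ, n0 ≤ n ∧ ∃ (X : Type) (_ : Fintype X) (_ : Nonempty X)
      (Adj : X → X → Prop), (∀ x y, Adj x y → Adj y x) ∧
      (∀ x y z, Adj x y → Adj y z → Adj x z → False) ∧ ¬ OutA Adj C (C / n) ∧
      ¬ OutC Adj ((n : ℝ) ^ C) ε (C * (Real.log n) ^ 2 / n)) :
    ∃ n : ℕ, ∃ G : SimpleGraph (Fin n), G.indepNum ≤ 2 ∧
      (hadwigerNumber G : ℕ∞) < G.chromaticNumber := by
  by_contra hcon
  push Not at hcon
  obtain ⟨C, n0, hC⟩ := reduction_trunc ε hε
  obtain ⟨n, hn, X, _, _, Adj, hs, ht, hA, hB⟩ := H C n0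
  rcases hC n hn (fun G hG => hcon n G hG) X Adj hs ht with h | h
  · exact hA h
  · exact hB h

end Vale.Agent.P060.HW
end
end

section

/-!
# Assembly, second layer: from the overlap estimate to the failure of output (c)
-/

open scoped Classical

noncomputable section

namespace Vale.Agent.P060.HW

namespace Design

variable {K T : Type*} [Fintype K] [Fintype T] (δ : Design K T)

/-- The four cuts are avoided. -/
def Uncut (x x' y y' : Vtx K T) : Prop :=
  dotProduct (δ.dif x x') (δ.g y.1) ∉ Y ∧ dotProduct (δ.dif x x') (δ.g y'.1) ∉ Y ∧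
  dotProduct (δ.dif y y') (δ.g x.1) ∉ Y ∧ dotProduct (δ.dif y y') (δ.g x'.1) ∉ Y

/-- The two pairs are in conflict. -/
def Conf (x x' y y' : Vtx K T) : Prop :=
  δ.Adj x y ∧ δ.Adj x y' ∧ δ.Adj x' y ∧ δ.Adj x' y'

/-- The labels of the four vertices. -/
def InLb (α β : Lb T × Lb T) (x x' y y' : Vtx K T) : Prop :=
  (lb x = α.1 ∧ lb x' = α.2) ∧ (lb y = β.1 ∧ lb y' = β.2)

/-- Product mass of an event of quadruples. -/
def mass4 (ν : Vtx K T → Vtx K T → ℝ) (Q : Vtx K T → Vtx K T → Vtx K T → Vtx K T → Prop) : ℝ :=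
  ∑ x, ∑ x', ∑ y, ∑ y', if Q x x' y y' then ν x x' * ν y y' else 0

lemma mass4_eq (ν : Vtx K T → Vtx K T → ℝ) (Q : Vtx K T → Vtx K T → Vtx K T → Vtx K T → Prop)
    (_dec : ∀ x x' y y', Decidable (Q x x' y y')) :
    (∑ x, ∑ x', ∑ y, ∑ y', if Q x x' y y' then ν x x' * ν y y' else 0) = mass4 ν Q := by
  refine Finset.sum_congr rfl fun x _ => Finset.sum_congr rfl fun x' _ => Finset.sum_congr rfl
    fun y _ => Finset.sum_congr rfl fun y' _ => ?_
  by_cases hq : Q x x' y y'
  · rw [if_pos hq, if_pos hq]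
  · rw [if_neg hq, if_neg hq]

lemma mass4_mono {ν : Vtx K T → Vtx K T → ℝ} (h0 : ∀ x y, 0 ≤ ν x y)
    {Q Q' : Vtx K T → Vtx K T → Vtx K T → Vtx K T → Prop}
    (h : ∀ x x' y y', Q x x' y y' → Q' x x' y y') : mass4 ν Q ≤ mass4 ν Q' := by
  refine Finset.sum_le_sum fun x _ => Finset.sum_le_sum fun x' _ => Finset.sum_le_sum
    fun y _ => Finset.sum_le_sum fun y' _ => ?_
  by_cases hq : Q x x' y y'
  · rw [if_pos hq, if_pos (h _ _ _ _ hq)]
  · rw [if_neg hq]
    split_ifs
    · exact mul_nonneg (h0 _ _) (h0 _ _)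
    · exact le_rfl

lemma mass4_congr {ν : Vtx K T → Vtx K T → ℝ}
    {Q Q' : Vtx K T → Vtx K T → Vtx K T → Vtx K T → Prop}
    (h : ∀ x x' y y', Q x x' y y' ↔ Q' x x' y y') : mass4 ν Q = mass4 ν Q' := by
  refine Finset.sum_congr rfl fun x _ => Finset.sum_congr rfl fun x' _ => Finset.sum_congr rfl
    fun y _ => Finset.sum_congr rfl fun y' _ => ?_
  by_cases hq : Q x x' y y'
  · rw [if_pos hq, if_pos ((h _ _ _ _).1 hq)]
  · rw [if_neg hq, if_neg (fun h' => hq ((h _ _ _ _).2 h'))]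

/-- A coupling as in output (c). -/
structure IsCpl (ν : Vtx K T → Vtx K T → ℝ) (Λ ε : ℝ) : Prop where
  nonneg : ∀ x y, 0 ≤ ν x y
  sum_one : ∑ x, ∑ y, ν x y = 1
  symm : ∀ x y, ν x y = ν y x
  supp : ∀ x y, ν x y ≠ 0 → ¬ δ.Adj x y
  dens : ∀ x y, ν x y * (Fintype.card (Vtx K T) : ℝ) ^ 2 ≤ Λ
  marg : ∀ x, (∑ y, ν x y) * (Fintype.card (Vtx K T) : ℝ) ≤ 4
  tv : ∑ x, |∑ y, ν x y - 1 / (Fintype.card (Vtx K T) : ℝ)| ≤ ε

/-- The cut inequality for a design. -/
def CutIneq (ρ : ℝ) : Prop := ∀ x x' : Vtx K T, ¬ δ.Adj x x' → x.1 ≠ x'.1 →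
  ((Finset.univ.filter (fun b => dotProduct (δ.dif x x') (δ.g b) ∈ Y)).card : ℝ)
    ≤ ρ * Fintype.card T

/-- The overlap estimate for a design: for every coupling, up to label pairs of product mass
`1 / 100`, uncut configurations produce conflicts. -/
def OverlapEst (Λ ε κ : ℝ) : Prop := ∀ ν : Vtx K T → Vtx K T → ℝ, δ.IsCpl ν Λ ε →
  ∃ Bad : Lb T × Lb T → Lb T × Lb T → Prop,
    ∑ α, ∑ β, (if Bad α β then mass ν α * mass ν β else 0) ≤ 1 / 100 ∧
    ∀ α β, ¬ Bad α β → α.1.1 ≠ α.2.1 → β.1.1 ≠ β.2.1 →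
      1 / (400 * (Fintype.card (Lb T) : ℝ) ^ 2) ≤ mass ν α →
      1 / (400 * (Fintype.card (Lb T) : ℝ) ^ 2) ≤ mass ν β →
      κ * (mass4 ν (fun x x' y y' => δ.Uncut x x' y y' ∧ InLb α β x x' y y')
        - 1 / 400 * (mass ν α * mass ν β))
        ≤ mass4 ν (fun x x' y y' => δ.Conf x x' y y' ∧ InLb α β x x' y y')

/-- **Failure of output (c)** for a design with the cut inequality and the overlap estimate. -/
theorem not_outC [Nonempty T] {Λ ε κ I : ℝ} (hε1 : ε ≤ 1 / 2000)
    (hcut : δ.CutIneq (1 / 10 + ε)) (hκ : 0 < κ) (hov : δ.OverlapEst Λ ε κ)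
    (hIε : Fintype.card T * Real.sqrt I ≤ ε)
    (hI : I < κ / 400 * (1 / (400 * (Fintype.card (Lb T) : ℝ) ^ 2)) ^ 2) :
    ¬ OutC δ.Adj Λ ε I := by
  rintro ⟨ν, h0, h1, hsy, h2, h3, h4, h5, h6⟩
  obtain ⟨Bad, hBad, hest⟩ := hov ν ⟨h0, h1, hsy, h2, h3, h4, h5⟩
  obtain ⟨Cut, hCut⟩ : ∃ Cut : Vtx K T → Vtx K T → T → Prop,
      ∀ x x' b, Cut x x' b ↔ dotProduct (δ.dif x x') (δ.g b) ∈ Y :=
    ⟨_, fun _ _ _ => Iff.rfl⟩
  have hcut' : ∀ x x' : Vtx K T, ν x x' ≠ 0 → x.1 ≠ x'.1 →
      ((Finset.univ.filter (fun b => Cut x x' b)).card : ℝ)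
        ≤ (1 / 10 + ε) * Fintype.card T := by
    intro x x' hν hne
    have he := hcut x x' (h2 _ _ hν) hne
    rw [Finset.filter_congr (fun b _ => hCut x x' b)]
    exact he
  have hfc := δ.final_count ν h0 h1 hsy h2 h5 h6 Cut hcut' le_rfl hε1 hIε
  set Good : Vtx K T → Vtx K T → Vtx K T → Vtx K T → Prop := fun x x' y y' =>
    (x.1 ≠ x'.1 ∧ y.1 ≠ y'.1) ∧ δ.Uncut x x' y y' with hGood
  have hG : 1 / 40 ≤ mass4 ν Good := by
    refine hfc.trans (le_of_eq ?_)
    refine Finset.sum_congr rfl fun x _ => Finset.sum_congr rfl fun x' _ => Finset.sum_congr rfl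
      fun y _ => Finset.sum_congr rfl fun y' _ => ?_
    have hiff : (x.1 ≠ x'.1 ∧ y.1 ≠ y'.1 ∧ ¬ Cut x x' y.1 ∧ ¬ Cut x x' y'.1 ∧
        ¬ Cut y y' x.1 ∧ ¬ Cut y y' x'.1) ↔ Good x x' y y' := by
      simp only [hGood, Uncut, hCut]
      tauto
    by_cases h : Good x x' y y'
    · rw [if_pos h, if_pos (hiff.2 h)]
    · rw [if_neg h, if_neg (fun h' => h (hiff.1 h'))]
  obtain ⟨α, β, hnb, hα, hβ, hmass⟩ := exists_types ν h0 h1 Good hG Bad hBad
  set s : ℝ := 1 / (400 * (Fintype.card (Lb T) : ℝ) ^ 2) with hs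
  have hcard : (0 : ℝ) < Fintype.card (Lb T) := by exact_mod_cast Fintype.card_pos
  have hs0 : 0 < s := by positivity
  have hα0 : 0 < mass ν α := lt_of_lt_of_le hs0 hα
  have hβ0 : 0 < mass ν β := lt_of_lt_of_le hs0 hβ
  have hmm : 0 < mass ν α * mass ν β := mul_pos hα0 hβ0
  -- the labels are cross
  have hcross : α.1.1 ≠ α.2.1 ∧ β.1.1 ≠ β.2.1 := by
    by_contra hno
    have hzero : 1 / 200 * (mass ν α * mass ν β) ≤ 0 := by
      refine hmass.trans (le_of_eq ?_)
      refine Finset.sum_eq_zero fun x _ => Finset.sum_eq_zero fun x' _ => Finset.sum_eq_zero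
        fun y _ => Finset.sum_eq_zero fun y' _ => ?_
      rw [if_neg]
      rintro ⟨⟨⟨g1, g2⟩, -⟩, ⟨l1, l2⟩, l3, l4⟩
      apply hno
      constructor
      · intro h
        apply g1
        rw [← l1, ← l2] at h
        exact h
      · intro h
        apply g2
        rw [← l3, ← l4] at h
        exact h
    have : 0 < 1 / 200 * (mass ν α * mass ν β) := by (clear * - hα0 hβ0; positivity)
    linarith only [hzero, this]
  have hov' := hest α β hnb hcross.1 hcross.2 hα hβ
  have hU : 1 / 200 * (mass ν α * mass ν β)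
      ≤ mass4 ν (fun x x' y y' => δ.Uncut x x' y y' ∧ InLb α β x x' y y') := by
    refine (hmass.trans (le_of_eq (mass4_eq ν _ _))).trans ?_
    refine mass4_mono (Q := fun x x' y y' => Good x x' y y' ∧
      (lb x = α.1 ∧ lb x' = α.2) ∧ (lb y = β.1 ∧ lb y' = β.2)) h0 ?_
    rintro x x' y y' ⟨hg, hl⟩
    exact ⟨hg.2, hl⟩
  have hC : mass4 ν (fun x x' y y' => δ.Conf x x' y y' ∧ InLb α β x x' y y') ≤ I := by
    refine le_trans ?_ ((le_of_eq (mass4_eq ν _ _).symm).trans h6)
    refine mass4_mono (Q' := fun x x' y y' => δ.Adj x y ∧ δ.Adj x y' ∧ δ.Adj x' y ∧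
      δ.Adj x' y') h0 ?_
    rintro x x' y y' ⟨hg, -⟩
    exact hg
  have h7 : κ * (1 / 400 * (mass ν α * mass ν β)) ≤ I := by
    refine le_trans ?_ (hov'.trans hC)
    apply mul_le_mul_of_nonneg_left _ hκ.le
    linarith only [hU]
  have h8 : s ^ 2 ≤ mass ν α * mass ν β := by
    rw [sq]
    exact mul_le_mul hα hβ hs0.le hα0.le
  have h9 : κ / 400 * s ^ 2 ≤ κ * (1 / 400 * (mass ν α * mass ν β)) := by
    have := mul_le_mul_of_nonneg_left h8 (by positivity : 0 ≤ κ / 400)
    linarith only [this, h7, hI]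
  linarith only [h9, h7, hI]

end Design

end Vale.Agent.P060.HW
end
end

section

/-!
# An instance of the frame of Design H3

The zero rows come from `Combi`, the classes from an equidistributed map; all sizes.
-/

open scoped Classical

noncomputable section

set_option linter.unusedSectionVars false

namespace Vale.Agent.P060.HW

namespace FrI

open Finset

theorem filter_le {α : Type*} {p q : α → Prop} {i1 : DecidablePred p} {i2 : DecidablePred q}
    {s : Finset α} (h : ∀ a, p a → q a) :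
    (@Finset.filter α p i1 s).card ≤ (@Finset.filter α q i2 s).card := by
  apply Finset.card_le_card
  intro a ha
  rw [Finset.mem_filter] at ha ⊢
  exact ⟨ha.1, h a ha.2⟩

theorem filter_eq {α : Type*} {p q : α → Prop} {i1 : DecidablePred p} {i2 : DecidablePred q}
    {s : Finset α} (h : ∀ a, p a ↔ q a) :
    (@Finset.filter α p i1 s).card = (@Finset.filter α q i2 s).card :=
  le_antisymm (filter_le fun a => (h a).1) (filter_le fun a => (h a).2)

/-! ### Equidistributed classes -/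

/-- Equidistributed map from the residues modulo `N` to a finite type whose size divides `N`. -/
theorem exists_equi {α : Type*} [Fintype α] [Nonempty α] (N : ℕ) [NeZero N]
    (h : Fintype.card α ∣ N) :
    ∃ γ : ZMod N → α, ∀ a, (univ.filter fun j => γ j = a).card * Fintype.card α = N := by
  obtain ⟨m, hm⟩ := h
  have hn : 0 < N := Nat.pos_of_ne_zero (NeZero.ne N)
  have e1 : Fintype.card (ZMod N) = Fintype.card (α × Fin m) := by
    rw [ZMod.card, Fintype.card_prod, Fintype.card_fin, ← hm]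
  let e : ZMod N ≃ α × Fin m := Fintype.equivOfCardEq e1
  refine ⟨fun j => (e j).1, fun a => ?_⟩
  have : (univ.filter fun j : ZMod N => (e j).1 = a).card
      = (univ.filter fun x : α × Fin m => x.1 = a).card := by
    apply card_bij (fun j _ => e j)
    · intro j hj
      rw [mem_filter] at hj ⊢
      exact ⟨mem_univ _, hj.2⟩
    · intro i _ j _ hij
      exact e.injective hij
    · intro x hx
      refine ⟨e.symm x, ?_, e.apply_symm_apply x⟩
      rw [mem_filter] at hx ⊢
      refine ⟨mem_univ _, ?_⟩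
      rw [e.apply_symm_apply]
      exact hx.2
  rw [this]
  have h2 : (univ.filter fun x : α × Fin m => x.1 = a) = ({a} : Finset α) ×ˢ (univ : Finset (Fin m)) := by
    ext ⟨x, y⟩
    rw [mem_filter, mem_product, mem_singleton]
    simp
  rw [h2, card_product, card_singleton, card_univ, Fintype.card_fin, one_mul, hm, Nat.mul_comm]

/-- Number of maps which are not onto. -/
theorem card_not_surj (E β : Type*) [Fintype E] [Fintype β] :
    (univ.filter fun f : E → β => ¬ Function.Surjective f).card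
      ≤ Fintype.card β * (Fintype.card β - 1) ^ Fintype.card E := by
  have hsub : (univ.filter fun f : E → β => ¬ Function.Surjective f)
      ⊆ (univ : Finset β).biUnion fun b => Fintype.piFinset fun _ : E => univ.erase b := by
    intro f hf
    have h := (mem_filter.1 hf).2
    unfold Function.Surjective at h
    push Not at h
    obtain ⟨b, hb⟩ := h
    rw [mem_biUnion]
    refine ⟨b, mem_univ _, ?_⟩
    rw [Fintype.mem_piFinset]
    intro a
    exact mem_erase.2 ⟨hb a, mem_univ _⟩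
  refine (card_le_card hsub).trans (card_biUnion_le.trans ?_)
  have h3 : ∀ b : β, (Fintype.piFinset fun _ : E => univ.erase b).card
      = (Fintype.card β - 1) ^ Fintype.card E := by
    intro b
    rw [Fintype.card_piFinset, prod_const, card_univ, card_erase_of_mem (mem_univ b), card_univ]
  rw [sum_congr rfl fun b _ => h3 b, sum_const, card_univ, smul_eq_mul]

/-- The values in `Y` as a type. -/
abbrev YY : Type := {y : F // y ∈ Y}

theorem card_YY : Fintype.card YY = 140 := by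
  rw [Fintype.card_coe, card_Y]

instance : Nonempty YY := ⟨⟨1, by unfold Y; simp⟩⟩

/-- the number of classes -/
theorem card_cls (E : Type) [Fintype E] : Fintype.card (E → YY) = 140 ^ Fintype.card E := by
  rw [Fintype.card_fun, card_YY]

/-! ### The frame -/

variable {N d : ℕ} {E : Type} {Q M : ℕ} [Fact Q.Prime] [NeZero M] [NeZero N]

/-- The frame with zero rows `Combi.U Q M (Q / 4)`. -/
def mk (hM : M ∣ N) (hMd : 2 * d ≤ M) (hN : N ≤ M * Q ^ (Q / 4 + 1)) (e0 : E)
    (γ : ZMod N → E → YY) : Frame N d E (Combi.Om Q M d) where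
  U := Combi.U Q M (Q / 4)
  γ := fun i t => (γ i t : F)
  e0 := e0
  q := Q
  hγ := fun i t => (γ i t).2
  card_U := fun c => Combi.card_U c
  card_inter := fun c c' h => by
    have h1 := Combi.card_U_inter_le (Q := Q) (M := M) (D := Q / 4) h hN
    have h2 := Nat.mul_div_le Q 4
    refine le_trans (Nat.mul_le_mul_left 4 (le_trans (le_of_eq ?_) h1)) h2
    congr
    exact Subsingleton.elim _ _
  share_two := fun c c' s s' hs h h' => by
    have hN0 : 0 < N := Nat.pos_of_ne_zero (NeZero.ne N)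
    exact Combi.eq_of_share_two (hMd.trans (Nat.le_of_dvd hN0 hM)) hs h h'
  line_disj := fun c c' w hw hw' hne s h =>
    hne (Combi.eq_of_share_of_dir h ((Combi.dir_of_mem hw).trans (Combi.dir_of_mem hw').symm))
  private_lines := fun b c c' w s s' hb hc hc' hs h h' => by
    have := Combi.eq_of_share_cls hM hMd hs ((Combi.dir_of_mem hc).trans (Combi.dir_of_mem hc').symm)
      ((Combi.res_of_mem hc).trans (Combi.res_of_mem hc').symm) h h'
    exact hb (this.1 ▸ hc)
  star_disj := fun b c c' s s' hne h h' => by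
    rw [Finset.disjoint_left]
    intro w hw hw'
    by_cases hs : s = s'
    · subst hs
      exact hne (Combi.eq_of_share_of_dir (h.symm.trans h')
        ((Combi.dir_of_mem hw).trans (Combi.dir_of_mem hw').symm))
    · have := Combi.eq_of_share_cls hM hMd hs
        ((Combi.dir_of_mem hw).trans (Combi.dir_of_mem hw').symm)
        ((Combi.res_of_mem hw).trans (Combi.res_of_mem hw').symm) h h'
      exact hne (this.1.symm.trans this.2)

/-- types with a given zero row -/
theorem mk_row (hM : M ∣ N) (hMd : 2 * d ≤ M) (hN : N ≤ M * Q ^ (Q / 4 + 1)) (e0 : E)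
    (γ : ZMod N → E → YY) (w : Combi.Om Q M d) :
    (univ.filter fun c : Ty N d => w ∈ (mk hM hMd hN e0 γ).U c).card ≤ (N / M) / Q + 1 := by
  refine le_trans (card_le_card ?_) (Combi.card_A_le (N := N) (D := Q / 4) hM w)
  intro c hc
  exact Combi.mem_A.2 (mem_filter.1 hc).2

/-- types whose zero rows meet those of `a` -/
theorem mk_meet (hM : M ∣ N) (hMd : 2 * d ≤ M) (hN : N ≤ M * Q ^ (Q / 4 + 1)) (e0 : E)
    (γ : ZMod N → E → YY) (a : Ty N d) :
    (univ.filter fun c : Ty N d =>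
      ¬ Disjoint ((mk hM hMd hN e0 γ).U a) ((mk hM hMd hN e0 γ).U c)).card ≤ N / M := by
  refine le_trans (card_le_card ?_) (Combi.card_AA_le (N := N) (D := Q / 4) (Q := Q) hM a)
  intro c hc
  have h := (mem_filter.1 hc).2
  rw [Finset.not_disjoint_iff] at h
  obtain ⟨w, h1, h2⟩ := h
  rw [Combi.mem_AA]
  exact ⟨w, by rw [mem_inter]; exact ⟨h1, h2⟩⟩

theorem natLog_le (m : ℕ) (hm : 0 < m) : (Nat.log 2 m : ℝ) ≤ 3 / 2 * Real.log m := by
  have h1 : (2 : ℝ) ^ (Nat.log 2 m) ≤ m := by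
    exact_mod_cast Nat.pow_log_le_self 2 hm.ne'
  have h2 := Real.log_le_log (by positivity) h1
  rw [Real.log_pow] at h2
  have h3 : (2 : ℝ) / 3 ≤ Real.log 2 := by
    have := Real.log_two_gt_d9
    linarith only [this]
  have h4 : (0 : ℝ) ≤ Nat.log 2 m := Nat.cast_nonneg _
  linarith only [mul_le_mul_of_nonneg_left h3 h4, h2]

end FrI

open FrI in
/-- Frames with all sizes. `D0, d` are constants, `k` is large. -/
theorem exists_frame (E : Type) [Fintype E] (e0 : E) (D0 d : ℕ) (C eps : ℝ) (hD0 : 0 < D0)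
    (heps : 0 < eps) : ∃ k0 : ℕ, ∀ k : ℕ, k0 ≤ k →
    ∃ (N : ℕ) (_ : NeZero N) (Om : Type) (_ : Fintype Om) (fr : Frame N d E Om),
      fr.e0 = e0 ∧ D0 * k ≤ N ∧ N ≤ 2 * (D0 * k) ∧ (2 * d + 1) ∣ N ∧
      C * Real.log k ≤ fr.q ∧ (fr.q : ℝ) ≤ eps * k ∧
      (∀ w, ((Finset.univ.filter fun c : Ty N d => w ∈ fr.U c).card : ℝ) ≤ eps * k) ∧
      (∀ a, (Finset.univ.filter fun c : Ty N d => ¬ Disjoint (fr.U a) (fr.U c)).card
        ≤ N / (2 * d + 1)) ∧
      (Fintype.card Om : ℝ) ≤ eps * k ∧ (Fintype.card Om : ℝ) ≤ Real.log k ^ 3 ∧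
      (∀ v : E → F, (∀ t, v t ∈ Y) →
        (Finset.univ.filter fun i => fr.γ i = v).card * 140 ^ Fintype.card E = N) := by
  set M := 2 * d + 1 with hM
  set y := 140 ^ Fintype.card E with hy
  have hy0 : 0 < y := Nat.pos_of_ne_zero (by rw [hy]; positivity)
  set M' := M * y with hM'
  have hM0 : 0 < M' := Nat.mul_pos (by omega) hy0
  set P : ℕ := ⌈4 * D0 / eps⌉₊ with hP
  have hP1 : 4 * (D0 : ℝ) / eps ≤ P := Nat.le_ceil _
  set B : ℝ := |C| + 8 with hB
  have hB8 : 8 ≤ B := by rw [hB]; have := abs_nonneg C; linarith only [this]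
  have hD1 : (1 : ℝ) ≤ D0 := by exact_mod_cast hD0
  have hlog : 0 ≤ Real.log (2 * (D0 : ℝ)) := Real.log_nonneg (by linarith only [hD1])
  have hdn : (0 : ℝ) ≤ (d : ℝ) := Nat.cast_nonneg _
  have hPn : (0 : ℝ) ≤ (P : ℝ) := Nat.cast_nonneg _
  have hdB : 0 ≤ 4 * ((d : ℝ) * (2 * d + 1)) * B ^ 2 := by (clear * -; positivity)
  set LL : ℝ := 1 + 6 * Real.log (2 * D0) + 5 + P + 2 * B + 4 * (d * (2 * d + 1)) * B ^ 2 with hLL
  have hev : ∀ᶠ k : ℕ in Filter.atTop, LL ≤ Real.log k :=
    (Real.tendsto_log_atTop.comp tendsto_natCast_atTop_atTop).eventually_ge_atTop LL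
  have hev2 : ∀ᶠ k : ℕ in Filter.atTop, 2 / eps ≤ (k : ℝ) :=
    tendsto_natCast_atTop_atTop.eventually_ge_atTop (2 / eps)
  have hev3 : ∀ᶠ k : ℕ in Filter.atTop, M' + 1 ≤ k := Filter.eventually_ge_atTop (M' + 1)
  have hev4 : ∀ᶠ k : ℕ in Filter.atTop, Real.log k ^ 3 ≤ eps * k := by
    have h1 : (fun x : ℝ => Real.log x ^ 3) =o[Filter.atTop] (fun x : ℝ => x) :=
      Real.isLittleO_pow_log_id_atTop
    have h2 := (h1.bound heps).filter_mono (le_refl _)
    have h3 := tendsto_natCast_atTop_atTop.eventually h2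
    filter_upwards [h3, hev] with k hk hk2
    have h4 : 0 ≤ Real.log (k : ℝ) := by linarith only [hB8, hlog, hdB, hLL, hk2]
    rw [Real.norm_of_nonneg (by positivity), Real.norm_of_nonneg (by positivity)] at hk
    exact hk
  obtain ⟨k0, hk0⟩ := Filter.eventually_atTop.1 (((hev.and hev2).and hev3).and hev4)
  refine ⟨k0, fun k hk => ?_⟩
  obtain ⟨⟨⟨hL, hk2⟩, hkM⟩, hk4⟩ := hk0 k hk
  have hL1 : 1 ≤ Real.log k := by linarith only [hL, hLL, hdB, hlog, hB8]
  have hkpos : (0 : ℝ) < k := by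
    have : 0 < k := by omega
    exact_mod_cast this
  -- the modulus
  obtain ⟨N, h1, h2, hNM, hNy⟩ : ∃ N : ℕ, D0 * k ≤ N ∧ N ≤ D0 * k + M' ∧ M ∣ N ∧ y ∣ N := by
    refine ⟨M' * (D0 * k / M' + 1), (Nat.lt_mul_div_succ (D0 * k) hM0).le, ?_,
      ⟨y * (D0 * k / M' + 1), by rw [hM', Nat.mul_assoc]⟩,
      ⟨M * (D0 * k / M' + 1), by rw [hM']; ring⟩⟩
    rw [Nat.mul_add, Nat.mul_one]
    exact Nat.add_le_add_right (Nat.mul_div_le (D0 * k) M') M'
  have hkD : k ≤ D0 * k := Nat.le_mul_of_pos_left k hD0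
  have hN2 : N ≤ 2 * (D0 * k) := by omega
  have hN0 : 0 < N := by omega
  have : NeZero N := ⟨hN0.ne'⟩
  have : NeZero M := ⟨by omega⟩
  -- the prime
  obtain ⟨X, hX1, hX2, hX3, hXB⟩ : ∃ X : ℕ, ⌈C * Real.log k⌉₊ ≤ X ∧ 4 * Nat.log 2 N + 4 ≤ X ∧ P ≤ X ∧
      (X : ℝ) ≤ B * Real.log k := by
    refine ⟨max (max ⌈C * Real.log k⌉₊ (4 * Nat.log 2 N + 4)) P,
      (le_max_left _ _).trans (le_max_left _ _), (le_max_right _ _).trans (le_max_left _ _),
      le_max_right _ _, ?_⟩
    rw [Nat.cast_max, Nat.cast_max]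
    apply max_le
    · apply max_le
      · have f1 : C * Real.log k ≤ |C| * Real.log k :=
          mul_le_mul_of_nonneg_right (le_abs_self C) (by linarith only [hL, hLL, hdB, hlog, hB8])
        have f2 : ((⌈C * Real.log k⌉₊ : ℕ) : ℝ) ≤ |C| * Real.log k + 1 := by
          refine (Nat.cast_le.2 (Nat.ceil_mono f1)).trans ?_
          exact (Nat.ceil_lt_add_one (by (clear * - hL1; positivity))).le
        rw [hB, add_mul]
        linarith only [f2, hL, hLL, hdB, hlog, hB8]
      · push_cast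
        have f1 : ((Nat.log 2 N : ℕ) : ℝ) ≤ 3 / 2 * (Real.log (2 * D0) + Real.log k) := by
          refine (natLog_le _ hN0).trans ?_
          rw [← Real.log_mul (by positivity) hkpos.ne']
          apply mul_le_mul_of_nonneg_left _ (by norm_num)
          apply Real.log_le_log
          · exact_mod_cast hN0
          · have : N ≤ 2 * D0 * k := by
              rw [Nat.mul_assoc]
              exact hN2
            exact_mod_cast this
        have f2 : 7 * Real.log k ≤ B * Real.log k :=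
          mul_le_mul_of_nonneg_right (by linarith only [hB8]) (by linarith only [hL, hLL, hdB, hlog, hB8])
        linarith only [f2, f1, hL, hLL, hdB, hB8]
    · have : (8 : ℝ) * Real.log k ≤ B * Real.log k := mul_le_mul_of_nonneg_right hB8 (by linarith only [hL, hLL, hdB, hlog, hB8])
      linarith only [this, hL, hLL, hdB, hlog, hB8]
  obtain ⟨Q, hQ, hXQ, hQX, hNQ, _⟩ := Combi.exists_Q N X hX2
  have : Fact Q.Prime := ⟨hQ⟩
  have hNQ' : N ≤ M * Q ^ (Q / 4 + 1) := hNQ.trans (Nat.le_mul_of_pos_left _ (by omega))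
  have hcls : Fintype.card (E → YY) ∣ N := by rw [card_cls]; exact hNy
  have : Nonempty (E → YY) := ⟨fun _ => Classical.arbitrary _⟩
  obtain ⟨γ, hγ⟩ := exists_equi (α := E → YY) N hcls
  have hQB : (Q : ℝ) ≤ 2 * (B * Real.log k) := by
    have : (Q : ℝ) ≤ 2 * X := by exact_mod_cast hQX
    linarith only [this, hXB]
  have hXR : (X : ℝ) ≤ Q := by exact_mod_cast hXQ.le
  have hOm : (Fintype.card (Combi.Om Q M d) : ℝ) ≤ Real.log k ^ 3 := by
    have e1 : (Fintype.card (Combi.Om Q M d) : ℝ) = (d * (2 * d + 1)) * (Q * Q) := by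
      simp only [Fintype.card_prod, Fintype.card_fin, ZMod.card]
      push_cast [hM]
      ring
    rw [e1]
    have e2 : (Q : ℝ) * Q ≤ (2 * (B * Real.log k)) * (2 * (B * Real.log k)) :=
      mul_le_mul hQB hQB (Nat.cast_nonneg _) (by (clear * - hL1; positivity))
    have e3 : ((d : ℝ) * (2 * d + 1)) * (Q * Q)
        ≤ (d * (2 * d + 1)) * ((2 * (B * Real.log k)) * (2 * (B * Real.log k))) :=
      mul_le_mul_of_nonneg_left e2 (by (clear * -; positivity))
    refine e3.trans ?_
    have e4 : ((d : ℝ) * (2 * d + 1)) * ((2 * (B * Real.log k)) * (2 * (B * Real.log k)))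
        = (4 * (d * (2 * d + 1)) * B ^ 2) * Real.log k ^ 2 := by ring
    rw [e4, pow_succ (Real.log k) 2, mul_comm]
    apply mul_le_mul_of_nonneg_left _ (by positivity)
    linarith only [hL, hLL, hlog, hB8]
  have hrow : ((N / M / Q + 1 : ℕ) : ℝ) ≤ eps * k := by
    have hQ0 : (0 : ℝ) < Q := by exact_mod_cast hQ.pos
    have e0 : N / M / Q ≤ N / Q := Nat.div_le_div_right (Nat.div_le_self N M)
    have e1 : ((N / Q : ℕ) : ℝ) ≤ eps * k / 2 := by
      refine Nat.cast_div_le.trans ?_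
      rw [div_le_iff₀ hQ0]
      have f1 : (N : ℝ) ≤ 2 * (D0 * k) := by exact_mod_cast hN2
      have f2 : 4 * (D0 : ℝ) / eps ≤ Q := by
        refine hP1.trans (le_trans ?_ hXR)
        exact_mod_cast hX3
      rw [div_le_iff₀ heps] at f2
      have f3 : 4 * (D0 : ℝ) * k ≤ Q * eps * k := mul_le_mul_of_nonneg_right f2 hkpos.le
      linarith only [f3, f1]
    have e2 : 1 ≤ eps * k / 2 := by
      rw [div_le_iff₀ heps] at hk2
      linarith only [hk2]
    have e3 : ((N / M / Q : ℕ) : ℝ) ≤ ((N / Q : ℕ) : ℝ) := by exact_mod_cast e0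
    push_cast
    linarith only [e3, e2, e1]
  have hq1 : C * Real.log k ≤ (Q : ℝ) := by
    refine (Nat.le_ceil _).trans (le_trans ?_ hXR)
    exact_mod_cast hX1
  have hq2 : (Q : ℝ) ≤ eps * k := by
    refine hQB.trans (le_trans ?_ hk4)
    have e1 : 2 * B * Real.log k ≤ Real.log k * Real.log k :=
      mul_le_mul_of_nonneg_right (by linarith only [hlog, hdB, hLL, hL]) (by linarith only [hL, hLL, hdB, hlog, hB8])
    have e2 : Real.log k * Real.log k * 1 ≤ Real.log k * Real.log k * Real.log k :=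
      mul_le_mul_of_nonneg_left hL1 (by (clear * - hL1; positivity))
    calc 2 * (B * Real.log k) = 2 * B * Real.log k := by ring
      _ ≤ Real.log k * Real.log k := e1
      _ = Real.log k * Real.log k * 1 := by ring
      _ ≤ Real.log k * Real.log k * Real.log k := e2
      _ = Real.log k ^ 3 := by ring
  have hMd : 2 * d ≤ M := by omega
  have hrow' : ∀ w, ((Finset.univ.filter fun c : Ty N d => w ∈ (mk hNM hMd hNQ' e0 γ).U c).card : ℝ)
      ≤ eps * k := by
    intro w
    have h := mk_row hNM hMd hNQ' e0 γ w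
    refine le_trans ?_ hrow
    exact_mod_cast h
  have hmeet := mk_meet hNM hMd hNQ' e0 γ
  refine ⟨N, inferInstance, Combi.Om Q M d, inferInstance, mk hNM hMd hNQ' e0 γ, rfl, h1, hN2, hNM,
    hq1, hq2, ?_, ?_, hOm.trans hk4, hOm, ?_⟩
  · intro w
    exact le_trans (Nat.cast_le.2 (filter_le fun _ h => h)) (hrow' w)
  · intro a
    exact le_trans (filter_le fun _ h => h) (hmeet a)
  · intro v hv
    have h5 := hγ (fun t => ⟨v t, hv t⟩)
    rw [card_cls] at h5
    refine Eq.trans ?_ h5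
    refine congrArg (fun x : ℕ => x * 140 ^ Fintype.card E) ?_
    refine filter_eq fun i => ?_
    constructor
    · intro h
      funext t
      exact Subtype.ext (congrFun h t)
    · intro h
      funext t
      exact congrArg Subtype.val (congrFun h t)

/-! ### Pairs of classes covering all pairs of values -/

/-- The classes `v, v'` cover all pairs of values. -/
def Covers {E : Type} (v v' : E → F) : Prop := ∀ y ∈ Y, ∀ y' ∈ Y, ∃ t, v t = y ∧ v' t = y'

open FrI in
/-- Pairs of residues whose classes do not cover all pairs of values. -/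
theorem card_not_covers {N : ℕ} [NeZero N] {E : Type} [Fintype E] (γ : ZMod N → E → F)
    (hY : ∀ i t, γ i t ∈ Y)
    (h : ∀ v : E → F, (∀ t, v t ∈ Y) →
        (Finset.univ.filter fun i => γ i = v).card * 140 ^ Fintype.card E = N) :
    (Finset.univ.filter fun x : ZMod N × ZMod N => ¬ Covers (γ x.1) (γ x.2)).card *
      (140 ^ 2) ^ Fintype.card E ≤ (140 ^ 2 * (140 ^ 2 - 1) ^ Fintype.card E) * N ^ 2 := by
  set B : Finset (E → YY × YY) := Finset.univ.filter fun f => ¬ Function.Surjective f with hB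
  have hBc : B.card ≤ 140 ^ 2 * (140 ^ 2 - 1) ^ Fintype.card E := by
    have h0 := card_not_surj E (YY × YY)
    have e : Fintype.card (YY × YY) = 140 ^ 2 := by rw [Fintype.card_prod, card_YY, ← pow_two]
    rw [e] at h0
    exact le_trans (filter_le fun _ h => h) h0
  have h1 : (Finset.univ.filter fun x : ZMod N × ZMod N => ¬ Covers (γ x.1) (γ x.2)) ⊆
      B.biUnion fun f => (Finset.univ.filter fun i => γ i = fun t => ((f t).1 : F)) ×ˢ
        (Finset.univ.filter fun i => γ i = fun t => ((f t).2 : F)) := by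
    intro x hx
    have hx2 := (Finset.mem_filter.1 hx).2
    rw [Finset.mem_biUnion]
    refine ⟨fun t => (⟨γ x.1 t, hY _ _⟩, ⟨γ x.2 t, hY _ _⟩), ?_, ?_⟩
    · refine Finset.mem_filter.2 ⟨Finset.mem_univ _, fun hs => hx2 ?_⟩
      intro y hy y' hy'
      obtain ⟨t, ht⟩ := hs (⟨y, hy⟩, ⟨y', hy'⟩)
      exact ⟨t, congrArg (fun z : YY × YY => (z.1 : F)) ht, congrArg (fun z : YY × YY => (z.2 : F)) ht⟩
    · exact Finset.mem_product.2 ⟨Finset.mem_filter.2 ⟨Finset.mem_univ _, rfl⟩,
        Finset.mem_filter.2 ⟨Finset.mem_univ _, rfl⟩⟩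
  have h2 := (Finset.card_le_card h1).trans Finset.card_biUnion_le
  calc _ ≤ (∑ f ∈ B, ((Finset.univ.filter fun i => γ i = fun t => ((f t).1 : F)) ×ˢ
        (Finset.univ.filter fun i => γ i = fun t => ((f t).2 : F))).card) * (140 ^ 2) ^ Fintype.card E :=
        Nat.mul_le_mul_right _ h2
    _ = ∑ _f ∈ B, N ^ 2 := by
        rw [Finset.sum_mul]
        refine Finset.sum_congr rfl fun f _ => ?_
        rw [Finset.card_product]
        have e1 := h (fun t => ((f t).1 : F)) fun t => (f t).1.2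
        have e2 := h (fun t => ((f t).2 : F)) fun t => (f t).2.2
        calc _ = ((Finset.univ.filter fun i => γ i = fun t => ((f t).1 : F)).card * 140 ^ Fintype.card E) *
              ((Finset.univ.filter fun i => γ i = fun t => ((f t).2 : F)).card * 140 ^ Fintype.card E) := by
                rw [← pow_mul, Nat.mul_comm 2, pow_mul]
                ring
          _ = N ^ 2 := by rw [e1, e2, pow_two]
    _ = B.card * N ^ 2 := by rw [Finset.sum_const, smul_eq_mul]
    _ ≤ _ := Nat.mul_le_mul_right _ hBc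

/-- every line is a line of exactly `d` types -/
theorem card_ln {N d : ℕ} [NeZero N] (s : Fin 3) (j : ZMod N) :
    (Finset.univ.filter fun c : Ty N d => ln c s = j).card = d := by
  have : (Finset.univ.filter fun c : Ty N d => ln c s = j)
      = Finset.univ.image (fun l : Fin d => ((j - ((s.val * l.val : ℕ) : ZMod N), l) : Ty N d)) := by
    ext a
    simp only [Finset.mem_filter, Finset.mem_univ, true_and, Finset.mem_image]
    constructor
    · intro h
      refine ⟨a.2, Prod.ext ?_ rfl⟩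
      rw [← h]
      unfold ln
      ring
    · rintro ⟨l, rfl⟩
      unfold ln
      ring
  rw [this, Finset.card_image_of_injective, Finset.card_univ, Fintype.card_fin]
  intro l m h
  exact (Prod.mk.inj h).2

/-- Pairs of types whose classes do not cover all pairs of values. -/
theorem card_not_covers_types {N d : ℕ} [NeZero N] {E : Type} [Fintype E] (γ : ZMod N → E → F)
    (hY : ∀ i t, γ i t ∈ Y)
    (h : ∀ v : E → F, (∀ t, v t ∈ Y) →
        (Finset.univ.filter fun i => γ i = v).card * 140 ^ Fintype.card E = N) :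
    (Finset.univ.filter fun x : Ty N d × Ty N d => ¬ Covers (γ (ln x.1 1)) (γ (ln x.2 1))).card *
      (140 ^ 2) ^ Fintype.card E ≤ (140 ^ 2 * (140 ^ 2 - 1) ^ Fintype.card E) * (N * d) ^ 2 := by
  have h1 : (Finset.univ.filter fun x : Ty N d × Ty N d => ¬ Covers (γ (ln x.1 1)) (γ (ln x.2 1))) ⊆
      (Finset.univ.filter fun x : ZMod N × ZMod N => ¬ Covers (γ x.1) (γ x.2)).biUnion fun x =>
        (Finset.univ.filter fun c : Ty N d => ln c 1 = x.1) ×ˢ
        (Finset.univ.filter fun c : Ty N d => ln c 1 = x.2) := by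
    intro x hx
    refine Finset.mem_biUnion.2 ⟨(ln x.1 1, ln x.2 1),
      Finset.mem_filter.2 ⟨Finset.mem_univ _, (Finset.mem_filter.1 hx).2⟩, ?_⟩
    exact Finset.mem_product.2 ⟨Finset.mem_filter.2 ⟨Finset.mem_univ _, rfl⟩,
        Finset.mem_filter.2 ⟨Finset.mem_univ _, rfl⟩⟩
  have h2 := (Finset.card_le_card h1).trans Finset.card_biUnion_le
  rw [Finset.sum_congr rfl fun x _ => by rw [Finset.card_product, card_ln, card_ln],
    Finset.sum_const, smul_eq_mul] at h2
  have h3 := card_not_covers γ hY h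
  calc _ ≤ ((Finset.univ.filter fun x : ZMod N × ZMod N => ¬ Covers (γ x.1) (γ x.2)).card * (d * d)) *
        (140 ^ 2) ^ Fintype.card E := Nat.mul_le_mul_right _ h2
    _ = ((Finset.univ.filter fun x : ZMod N × ZMod N => ¬ Covers (γ x.1) (γ x.2)).card *
        (140 ^ 2) ^ Fintype.card E) * (d * d) := by ring
    _ ≤ ((140 ^ 2 * (140 ^ 2 - 1) ^ Fintype.card E) * N ^ 2) * (d * d) := Nat.mul_le_mul_right _ h3
    _ = _ := by ring

/-! ### Final form -/

/-- Existence of frames: `E0` depends only on `εJ`. -/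
def FrameInst : Prop := ∀ εJ > (0 : ℝ), ∃ E₀ : ℕ, ∀ (D₀ d : ℕ), 0 < D₀ → ∀ θ > (0 : ℝ), ∀ C : ℝ,
  ∃ k₀ : ℕ, ∀ k : ℕ, k₀ ≤ k → ∃ (N m : ℕ) (_ : NeZero N) (fr : Frame N d (Fin E₀) (Fin m)),
    Sizes fr (Fin k) D₀ θ C ∧ EvJ fr εJ

/-- Renaming the rows. -/
def Frame.rename {N d : ℕ} {E Om Om' : Type} [Fintype Om] [Fintype Om'] (fr : Frame N d E Om)
    (e : Om ≃ Om') : Frame N d E Om' where
  U := fun c => (fr.U c).map e.toEmbedding
  γ := fr.γ
  e0 := fr.e0
  q := fr.q
  hγ := fr.hγ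
  card_U := fun c => by rw [Finset.card_map]; exact fr.card_U c
  card_inter := fun c c' h => by
    rw [← Finset.map_inter, Finset.card_map]
    exact fr.card_inter c c' h
  share_two := fr.share_two
  line_disj := fun c c' w hw hw' => by
    rw [Finset.mem_map_equiv] at hw hw'
    exact fr.line_disj c c' _ hw hw'
  private_lines := fun b c c' w s s' hb hc hc' => by
    rw [Finset.mem_map_equiv] at hb hc hc'
    exact fr.private_lines b c c' _ s s' hb hc hc'
  star_disj := fun b c c' s s' h1 h2 h3 => by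
    rw [Finset.disjoint_map]
    exact fr.star_disj b c c' s s' h1 h2 h3

theorem frameInst : FrameInst := by
  intro εJ hεJ
  have hr : Filter.Tendsto (fun n : ℕ => (140 : ℝ) ^ 2 * ((140 ^ 2 - 1) / 140 ^ 2) ^ n) Filter.atTop (nhds 0) := by
    have := (tendsto_pow_atTop_nhds_zero_of_lt_one (r := ((140 : ℝ) ^ 2 - 1) / 140 ^ 2) (by norm_num)
      (by norm_num)).const_mul ((140 : ℝ) ^ 2)
    rwa [mul_zero] at this
  obtain ⟨E₀, hE, hE1⟩ := ((hr.eventually (ge_mem_nhds hεJ)).and (Filter.eventually_ge_atTop 1)).exists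
  refine ⟨E₀, fun D₀ d hD₀ θ hθ C => ?_⟩
  obtain ⟨k0, hk0⟩ := exists_frame (Fin E₀) ⟨0, by omega⟩ D₀ d C θ hD₀ hθ
  refine ⟨k0, fun k hk => ?_⟩
  obtain ⟨N, hN, Om, hOm, fr, -, h1, h2, h3, h4, -, h6, -, h8, -, h10⟩ := hk0 k hk
  have hNpos : 0 < N := Nat.pos_of_ne_zero (NeZero.ne N)
  refine ⟨N, Fintype.card Om, hN, fr.rename (Fintype.equivFin Om), ⟨?_, ?_, ?_, ?_, ?_, ?_, ?_⟩, ?_⟩
  · rw [Fintype.card_fin]; exact h1
  · rw [Fintype.card_fin, Nat.mul_assoc]; exact h2
  · have := Nat.le_of_dvd hNpos h3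
    omega
  · rw [Fintype.card_fin, Fintype.card_fin]; exact h8
  · intro w
    rw [Fintype.card_fin]
    refine le_trans (Nat.cast_le.2 (FrI.filter_le fun c hc => ?_)) (h6 ((Fintype.equivFin Om).symm w))
    have hc' : w ∈ (fr.U c).map (Fintype.equivFin Om).toEmbedding := hc
    rw [Finset.mem_map_equiv] at hc'
    exact hc'
  · rw [Fintype.card_fin]; exact h4
  · intro u hu
    have := h10 u hu
    exact_mod_cast this
  · have hJ := card_not_covers_types (d := d) fr.γ fr.hγ h10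
    rw [Fintype.card_fin] at hJ
    have hJ' : ((Finset.univ.filter fun ab : Ty N d × Ty N d =>
        ¬ Covers (fr.γ (ln ab.1 1)) (fr.γ (ln ab.2 1))).card : ℝ) * (140 ^ 2) ^ E₀ ≤
        (140 ^ 2 * (140 ^ 2 - 1) ^ E₀) * (N * d) ^ 2 := by
      have h0 : (((140 ^ 2 * (140 ^ 2 - 1) ^ E₀) * (N * d) ^ 2 : ℕ) : ℝ) =
          (140 ^ 2 * (140 ^ 2 - 1) ^ E₀) * (N * d) ^ 2 := by
        push_cast
        norm_num
      rw [← h0]
      exact_mod_cast hJ
    have h5 : (Finset.univ.filter fun ab : Ty N d × Ty N d =>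
        ¬ JointOnto (fr.rename (Fintype.equivFin Om)) ab.1 ab.2).card ≤
        (Finset.univ.filter fun ab : Ty N d × Ty N d =>
        ¬ Covers (fr.γ (ln ab.1 1)) (fr.γ (ln ab.2 1))).card := FrI.filter_le fun c hc => hc
    have hp : (0 : ℝ) < (140 ^ 2) ^ E₀ := by positivity
    rw [← le_div_iff₀ hp] at hJ'
    refine (Nat.cast_le.2 h5).trans (hJ'.trans ?_)
    rw [div_pow] at hE
    calc (140 ^ 2 * (140 ^ 2 - 1) ^ E₀) * ((N : ℝ) * d) ^ 2 / (140 ^ 2) ^ E₀
        = (140 ^ 2 * ((140 ^ 2 - 1) ^ E₀ / (140 ^ 2) ^ E₀)) * ((N : ℝ) * d) ^ 2 := by ring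
      _ ≤ εJ * (N * d) ^ 2 := mul_le_mul_of_nonneg_right hE (by (clear * -; positivity))

end Vale.Agent.P060.HW
end
end

section

/-!
# Assembly, last layer: numerical estimates and choice of a good design
-/

open scoped Classical

noncomputable section

set_option linter.unusedSectionVars false

namespace Vale.Agent.P060.HW

namespace ConstN

open Filter

lemma ev_poly (A : ℝ) (j : ℕ) : ∀ᶠ k : ℕ in atTop, A * (k : ℝ) ^ j ≤ (2521 : ℝ) ^ k := by
  have h := (tendsto_pow_const_div_const_pow_of_one_lt j (r := (2521 : ℝ)) (by norm_num)).const_mul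
    |A|
  rw [mul_zero] at h
  have h1 := h.eventually (ge_mem_nhds (zero_lt_one))
  filter_upwards [h1] with k hk
  have hp : (0 : ℝ) < 2521 ^ k := by positivity
  have h2 : |A| * ((k : ℝ) ^ j / 2521 ^ k) = |A| * (k : ℝ) ^ j / 2521 ^ k := by ring
  rw [h2, div_le_one hp] at hk
  refine le_trans ?_ hk
  exact mul_le_mul_of_nonneg_right (le_abs_self A) (by positivity)

lemma log_le : Real.log 2521 ≤ 8 := by
  have h1 : Real.log 2521 ≤ Real.log (Real.exp 8) := by
    apply Real.log_le_log (by norm_num)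
    have h2 : (2.7182818283 : ℝ) ^ 8 ≤ Real.exp 8 := by
      rw [show (8 : ℝ) = ((8 : ℕ) : ℝ) * 1 by norm_num, Real.exp_nat_mul]
      exact pow_le_pow_left₀ (by norm_num) Real.exp_one_gt_d9.le 8
    exact le_trans (by norm_num) h2
  rwa [Real.log_exp] at h1

/-- All numerical estimates. -/
lemma numerics (C : ℝ) (hC : 1 ≤ C) (n0 D₀ d c : ℕ) : ∃ k₀ : ℕ, ∀ k : ℕ, k₀ ≤ k → ∀ kk : ℕ,
    k ≤ kk → kk ≤ 3 * k → ∀ t : ℕ, t ≤ 2 * D₀ * k * d → 0 < t →
    n0 ≤ 2521 ^ (5 * kk) ∧
    C / ((2521 ^ (5 * kk) : ℕ) : ℝ) ≤ ((2521 : ℝ) ^ (2 * kk))⁻¹ ∧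
    (t : ℝ) * Real.sqrt (C * (Real.log ((2521 ^ (5 * kk) : ℕ) : ℝ)) ^ 2 /
      ((2521 ^ (5 * kk) : ℕ) : ℝ)) ≤ 1 / 2000 ∧
    C * (Real.log ((2521 ^ (5 * kk) : ℕ) : ℝ)) ^ 2 / ((2521 ^ (5 * kk) : ℕ) : ℝ) <
      ((2521 : ℝ) ^ (4 * kk + c))⁻¹ / 400 * (1 / (400 * (((2 * t : ℕ) : ℝ)) ^ 2)) ^ 2 ∧
    400 * (((2521 ^ (5 * kk) : ℕ) : ℝ)) ^ C ≤ (2521 : ℝ) ^ ((15 * C + 1) * (k : ℝ)) ∧
    1600 * (((2 * t : ℕ) : ℝ)) ≤ (k : ℝ) ^ (15 * C + 1) := by
  have hC0 : 0 < C := by linarith
  set A : ℝ := C * 1600 * 9 * (4 * 10 ^ 6) * (2 * D₀ * d + 1) ^ 2 with hA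
  set B : ℝ := C * 1600 * 9 * 400 * (400 ^ 2) * (4 * D₀ * d + 1) ^ 4 * 2521 ^ c * 2 with hB
  have e1 := ev_poly A 4
  have e2 := ev_poly B 6
  have e3 := eventually_ge_atTop n0
  have e4 := eventually_ge_atTop (⌈C⌉₊)
  have e5 := eventually_ge_atTop (6400 * D₀ * d + 1)
  obtain ⟨k₀, hk₀⟩ := eventually_atTop.1 (e1.and (e2.and (e3.and (e4.and e5))))
  refine ⟨k₀, fun k hk kk h1 h2 t ht ht0 => ?_⟩
  obtain ⟨g1, g2, g3, g4, g5⟩ := hk₀ k hk
  have hk1 : 1 ≤ k := by omega
  have hkR : (1 : ℝ) ≤ k := by exact_mod_cast hk1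
  have hkk1 : 1 ≤ kk := by omega
  have hkkR : (1 : ℝ) ≤ kk := by exact_mod_cast hkk1
  have h1R : (k : ℝ) ≤ kk := by exact_mod_cast h1
  have h2R : (kk : ℝ) ≤ 3 * k := by exact_mod_cast h2
  have htR : (t : ℝ) ≤ 2 * D₀ * k * d := by exact_mod_cast ht
  have ht0R : (0 : ℝ) < t := by exact_mod_cast ht0
  have hnc : ((2521 ^ (5 * kk) : ℕ) : ℝ) = (2521 : ℝ) ^ (5 * kk) := by push_cast; ring
  have hn0 : (0 : ℝ) < (2521 : ℝ) ^ (5 * kk) := by positivity
  have hlog : Real.log ((2521 : ℝ) ^ (5 * kk)) ≤ 40 * kk := by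
    rw [Real.log_pow]
    push_cast
    have := log_le
    nlinarith
  have hlog0 : 0 ≤ Real.log ((2521 : ℝ) ^ (5 * kk)) := by
    apply Real.log_nonneg
    exact one_le_pow₀ (by norm_num)
  have hlog2 : (Real.log ((2521 : ℝ) ^ (5 * kk))) ^ 2 ≤ 1600 * (9 * (k : ℝ) ^ 2) := by
    have h3 : Real.log ((2521 : ℝ) ^ (5 * kk)) ≤ 40 * (3 * k) := by
      refine hlog.trans ?_
      linarith only [h2R]
    calc (Real.log ((2521 : ℝ) ^ (5 * kk))) ^ 2 ≤ (40 * (3 * (k : ℝ))) ^ 2 :=
          pow_le_pow_left₀ hlog0 h3 2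
      _ = 1600 * (9 * (k : ℝ) ^ 2) := by ring
  have hI : C * (Real.log ((2521 : ℝ) ^ (5 * kk))) ^ 2 / (2521 : ℝ) ^ (5 * kk)
      ≤ C * (1600 * (9 * (k : ℝ) ^ 2)) / (2521 : ℝ) ^ (5 * kk) := by
    apply div_le_div_of_nonneg_right _ hn0.le
    exact mul_le_mul_of_nonneg_left hlog2 hC0.le
  have hpk : ∀ j : ℕ, k ≤ j → (2521 : ℝ) ^ k ≤ (2521 : ℝ) ^ j := fun j hj =>
    pow_le_pow_right₀ (by norm_num) hj
  have hkpow : k ≤ 2521 ^ k := (Nat.lt_pow_self (by norm_num)).le
  refine ⟨?_, ?_, ?_, ?_, ?_, ?_⟩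
  · refine g3.trans (hkpow.trans ?_)
    exact Nat.pow_le_pow_right (by norm_num) (by omega)
  · rw [hnc, div_le_iff₀ hn0, show 5 * kk = 2 * kk + 3 * kk by ring, pow_add, ← mul_assoc,
      inv_mul_cancel₀ (by positivity), one_mul]
    have h3 : C ≤ k := (Nat.le_ceil C).trans (by exact_mod_cast g4)
    refine h3.trans ?_
    have h4 : (k : ℝ) ≤ 2521 ^ k := by exact_mod_cast hkpow
    exact h4.trans (hpk _ (by omega))
  · rw [hnc]
    have h3 : (t : ℝ) * Real.sqrt (C * (Real.log ((2521 : ℝ) ^ (5 * kk))) ^ 2 /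
        (2521 : ℝ) ^ (5 * kk)) = Real.sqrt ((t : ℝ) ^ 2 * (C * (Real.log ((2521 : ℝ) ^ (5 * kk))) ^ 2 /
        (2521 : ℝ) ^ (5 * kk))) := by
      rw [Real.sqrt_mul (by positivity), Real.sqrt_sq ht0R.le]
    rw [h3]
    apply Real.sqrt_le_iff.2
    refine ⟨by norm_num, ?_⟩
    have h4 : (t : ℝ) ^ 2 * (C * (Real.log ((2521 : ℝ) ^ (5 * kk))) ^ 2 / (2521 : ℝ) ^ (5 * kk))
        ≤ (2 * D₀ * k * d) ^ 2 * (C * (1600 * (9 * (k : ℝ) ^ 2)) / (2521 : ℝ) ^ (5 * kk)) := by
      apply mul_le_mul (pow_le_pow_left₀ ht0R.le htR 2) hI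
      · (clear * - hC; positivity)
      · (clear * -; positivity)
    refine h4.trans ?_
    rw [← mul_div_assoc, div_le_iff₀ hn0]
    have h5 : (2521 : ℝ) ^ k ≤ (2521 : ℝ) ^ (5 * kk) := hpk _ (by omega)
    have h6 : (2 * (D₀ : ℝ) * d) ^ 2 ≤ (2 * D₀ * d + 1) ^ 2 := by
      apply pow_le_pow_left₀ (by (clear * -; positivity))
      linarith only []
    have h7 : (2 * (D₀ : ℝ) * k * d) ^ 2 * (C * (1600 * (9 * (k : ℝ) ^ 2)))
        = (C * 1600 * 9 * (k : ℝ) ^ 4) * (2 * D₀ * d) ^ 2 := by ring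
    rw [h7]
    have h8 : (C * 1600 * 9 * (k : ℝ) ^ 4) * (2 * D₀ * d) ^ 2
        ≤ (C * 1600 * 9 * (k : ℝ) ^ 4) * (2 * D₀ * d + 1) ^ 2 :=
      mul_le_mul_of_nonneg_left h6 (by positivity)
    have h9 : (C * 1600 * 9 * (k : ℝ) ^ 4) * (2 * D₀ * d + 1) ^ 2
        = (1 / 2000) ^ 2 * (A * (k : ℝ) ^ 4) := by
      rw [hA]; ring
    refine h8.trans ?_
    rw [h9]
    apply mul_le_mul_of_nonneg_left (g1.trans h5) (by norm_num)
  · rw [hnc]
    refine lt_of_le_of_lt hI ?_
    have ht1 : (((2 * t : ℕ) : ℝ)) ≤ (4 * D₀ * d + 1) * k := by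
      push_cast
      linarith only [htR, hkR]
    have ht2 : (0 : ℝ) < (((2 * t : ℕ) : ℝ)) := by push_cast; linarith only [ht0R]
    set u : ℝ := (((2 * t : ℕ) : ℝ)) with hu
    rw [div_lt_iff₀ hn0]
    have h3 : ((2521 : ℝ) ^ (4 * kk + c))⁻¹ / 400 * (1 / (400 * u ^ 2)) ^ 2 * 2521 ^ (5 * kk)
        = 2521 ^ kk / (2521 ^ c * 400 * 400 ^ 2 * u ^ 4) := by
      rw [show 5 * kk = 4 * kk + kk by ring, pow_add, pow_add]
      field_simp
    rw [h3, lt_div_iff₀ (by positivity)]
    have h4 : u ^ 4 ≤ ((4 * D₀ * d + 1) * k) ^ 4 := pow_le_pow_left₀ ht2.le ht1 4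
    have h5 : C * (1600 * (9 * (k : ℝ) ^ 2)) * (2521 ^ c * 400 * 400 ^ 2 * u ^ 4)
        ≤ C * (1600 * (9 * (k : ℝ) ^ 2)) * (2521 ^ c * 400 * 400 ^ 2 * ((4 * D₀ * d + 1) * k) ^ 4) := by
      apply mul_le_mul_of_nonneg_left _ (by positivity)
      exact mul_le_mul_of_nonneg_left h4 (by positivity)
    refine lt_of_le_of_lt h5 ?_
    have h6 : C * (1600 * (9 * (k : ℝ) ^ 2)) * (2521 ^ c * 400 * 400 ^ 2 * ((4 * D₀ * d + 1) * k) ^ 4)
        = B * (k : ℝ) ^ 6 / 2 := by
      rw [hB]; ring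
    rw [h6]
    have h7 : (2521 : ℝ) ^ k ≤ 2521 ^ kk := hpk _ h1
    have h8 : (0 : ℝ) < 2521 ^ kk := by positivity
    linarith only [g2.trans h7, h8]
  · rw [hnc]
    have h3 : ((2521 : ℝ) ^ (5 * kk)) ^ C = (2521 : ℝ) ^ (C * (5 * kk)) := by
      rw [← Real.rpow_natCast, ← Real.rpow_mul (by norm_num)]
      push_cast
      ring_nf
    rw [h3]
    have h4 : (2521 : ℝ) ^ (C * (5 * (kk : ℝ))) ≤ (2521 : ℝ) ^ (15 * C * (k : ℝ)) := by
      apply Real.rpow_le_rpow_of_exponent_le (by norm_num)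
      linarith only [mul_nonneg (le_of_lt (sub_pos.2 hC0)) (sub_nonneg.2 h2R)]
    have h5 : (400 : ℝ) ≤ (2521 : ℝ) ^ (k : ℝ) := by
      calc (400 : ℝ) ≤ (2521 : ℝ) ^ (1 : ℝ) := by rw [Real.rpow_one]; norm_num
        _ ≤ _ := Real.rpow_le_rpow_of_exponent_le (by norm_num) hkR
    calc 400 * (2521 : ℝ) ^ (C * (5 * (kk : ℝ))) ≤ (2521 : ℝ) ^ (k : ℝ) * (2521 : ℝ) ^ (15 * C * (k : ℝ)) := by
          apply mul_le_mul h5 h4 (by positivity) (by positivity)
      _ = _ := by
          rw [← Real.rpow_add (by norm_num)]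
          ring_nf
  · have h3 : (k : ℝ) ^ (2 : ℝ) ≤ (k : ℝ) ^ (15 * C + 1) :=
      Real.rpow_le_rpow_of_exponent_le hkR (by linarith only [hC0, hC])
    refine le_trans ?_ h3
    rw [Real.rpow_two]
    push_cast
    have h4 : (6400 * (D₀ : ℝ) * d + 1) ≤ k := by exact_mod_cast g5
    have h5 : (6400 * (D₀ : ℝ) * d + 1) * k ≤ k * k := mul_le_mul_of_nonneg_right h4 (by linarith only [hkR])
    linarith only [h5, htR, hkR]

end ConstN

end Vale.Agent.P060.HW
end
end

section

/-!
# Assembly, third layer: the overlap estimate from the statements on laws of test values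
-/

open scoped Classical

noncomputable section

set_option linter.unusedSectionVars false

namespace Vale.Agent.P060.HW

/-- A pushed-forward double sum. -/
lemma sum_pair_proj {A B T : Type*} [Fintype A] [Fintype B] [Fintype T] (π : A → T) (π' : B → T)
    (m : A → ℝ) (m' : B → ℝ) (R : T → T → Prop) :
    ∑ α, ∑ β, (if R (π α) (π' β) then m α * m' β else 0)
      = ∑ a, ∑ b, if R a b then (∑ α, if π α = a then m α else 0)
        * (∑ β, if π' β = b then m' β else 0) else 0 := by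
  have e1 : ∀ a b, (if R a b then (∑ α, if π α = a then m α else 0)
        * (∑ β, if π' β = b then m' β else 0) else 0)
      = ∑ α, ∑ β, if π α = a then (if π' β = b then (if R a b then m α * m' β else 0) else 0)
        else 0 := by
    intro a b
    by_cases hR : R a b
    · simp only [if_pos hR]
      rw [Finset.sum_mul_sum]
      refine Finset.sum_congr rfl fun α _ => Finset.sum_congr rfl fun β _ => ?_
      by_cases h1 : π α = a <;> by_cases h2 : π' β = b <;> simp [h1, h2]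
    · simp [hR]
  simp only [e1]
  symm
  rw [Finset.sum_congr rfl fun a _ => Finset.sum_comm, Finset.sum_comm]
  refine Finset.sum_congr rfl fun α _ => ?_
  have e2 : ∀ a, ∑ b, ∑ β, (if π α = a then (if π' β = b then
      (if R a b then m α * m' β else 0) else 0) else 0)
      = if π α = a then ∑ β, (if R a (π' β) then m α * m' β else 0) else 0 := by
    intro a
    by_cases h : π α = a
    · simp only [if_pos h]
      rw [Finset.sum_comm]
      refine Finset.sum_congr rfl fun β _ => ?_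
      rw [Finset.sum_ite_eq]
      simp
    · simp [h]
  simp only [e2]
  rw [Finset.sum_ite_eq]
  simp

lemma sum_pair_le {A B T : Type*} [Fintype A] [Fintype B] [Fintype T] (π : A → T) (π' : B → T)
    {m : A → ℝ} {m' : B → ℝ} (h0 : ∀ α, 0 ≤ m α) (h0' : ∀ β, 0 ≤ m' β) (R : T → T → Prop)
    {c : ℝ} (hc : ∀ a, (∑ α, if π α = a then m α else 0) ≤ c)
    (hc' : ∀ b, (∑ β, if π' β = b then m' β else 0) ≤ c) :
    ∑ α, ∑ β, (if R (π α) (π' β) then m α * m' β else 0)
      ≤ c ^ 2 * ((Finset.univ.filter fun ab : T × T => R ab.1 ab.2).card : ℝ) := by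
  rw [sum_pair_proj, Finset.card_filter, Nat.cast_sum, Finset.mul_sum, Fintype.sum_prod_type]
  refine Finset.sum_le_sum fun a _ => Finset.sum_le_sum fun b _ => ?_
  simp only
  split_ifs
  · rw [Nat.cast_one, mul_one, sq]
    refine mul_le_mul (hc a) (hc' b) ?_ ?_
    · exact Finset.sum_nonneg fun β _ => by split_ifs; exacts [h0' _, le_rfl]
    · exact (Finset.sum_nonneg fun α _ => by split_ifs; exacts [h0 _, le_rfl]).trans (hc a)
  · rw [Nat.cast_zero, mul_zero]

lemma p_pair {A B C : Type*} [Fintype A] [Fintype B] (P : FinProb (A × B)) (f : A × B → C)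
    (c : C) : P.p f c = ∑ x, ∑ y, if f (x, y) = c then P.w (x, y) else 0 := by
  unfold FinProb.p
  exact Fintype.sum_prod_type _

namespace Design

variable {K T : Type*} [Fintype K] [Fintype T] (δ : Design K T)

/-- The law of the two forms, given a pair of labels. -/
def wfl (ν : Vtx K T → Vtx K T → ℝ) (α : Lb T × Lb T) (B B' : Matrix K K F) : ℝ :=
  (∑ x, ∑ x', if (lb x = α.1 ∧ lb x' = α.2) ∧ (δ.frm x = B ∧ δ.frm x' = B') then ν x x' else 0)
    / mass ν α

lemma wfl_eq (ν : Vtx K T → Vtx K T → ℝ) (h0 : ∀ x y, 0 ≤ ν x y) (α : Lb T × Lb T)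
    (hα : 0 < mass ν α) (B B' : Matrix K K F) :
    δ.wfl ν α B B' = (condP ν h0 α hα).p (fun z => (δ.frm z.1, δ.frm z.2)) (B, B') := by
  unfold wfl
  rw [p_pair, Finset.sum_div]
  refine Finset.sum_congr rfl fun x _ => ?_
  rw [Finset.sum_div]
  refine Finset.sum_congr rfl fun x' _ => ?_
  simp only [condP_w, Prod.mk.injEq]
  by_cases h1 : lb x = α.1 ∧ lb x' = α.2
  · by_cases h2 : δ.frm x = B ∧ δ.frm x' = B'
    · rw [if_pos ⟨h1, h2⟩, if_pos h2, if_pos h1]
    · rw [if_neg (fun h => h2 h.2), if_neg h2, zero_div]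
  · rw [if_neg (fun h => h1 h.1), zero_div]
    split_ifs
    · rfl
    · rfl

lemma wfl_nonneg {ν : Vtx K T → Vtx K T → ℝ} (h0 : ∀ x y, 0 ≤ ν x y) (α : Lb T × Lb T)
    (B B' : Matrix K K F) : 0 ≤ δ.wfl ν α B B' :=
  div_nonneg (Finset.sum_nonneg fun x _ => Finset.sum_nonneg fun x' _ => by
    split_ifs; exacts [h0 _ _, le_rfl]) (mass_nonneg h0 α)

/-- Transfer of sums over vertices to sums over forms. -/
lemma sum_wfl (ν : Vtx K T → Vtx K T → ℝ) (α : Lb T × Lb T) (hα : 0 < mass ν α)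
    (f : Matrix K K F → Matrix K K F → ℝ) :
    ∑ x, ∑ x', (if lb x = α.1 ∧ lb x' = α.2 then ν x x' * f (δ.frm x) (δ.frm x') else 0)
      = mass ν α * ∑ B, ∑ B', δ.wfl ν α B B' * f B B' := by
  have e1 : ∀ B B', mass ν α * (δ.wfl ν α B B' * f B B')
      = ∑ x, ∑ x', (if δ.frm x = B then (if δ.frm x' = B' then
        (if lb x = α.1 ∧ lb x' = α.2 then ν x x' * f B B' else 0) else 0) else 0) := by
    intro B B'
    unfold wfl
    rw [← mul_assoc, mul_div_cancel₀ _ hα.ne', Finset.sum_mul]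
    refine Finset.sum_congr rfl fun x _ => ?_
    rw [Finset.sum_mul]
    refine Finset.sum_congr rfl fun x' _ => ?_
    by_cases h1 : lb x = α.1 ∧ lb x' = α.2 <;> by_cases h2 : δ.frm x = B <;>
      by_cases h3 : δ.frm x' = B' <;> simp [h1, h2, h3]
  rw [Finset.mul_sum]
  simp only [Finset.mul_sum, e1]
  symm
  rw [Finset.sum_congr rfl fun B _ => Finset.sum_comm, Finset.sum_comm]
  refine Finset.sum_congr rfl fun x _ => ?_
  have e2 : ∀ B, ∑ B', ∑ x', (if δ.frm x = B then (if δ.frm x' = B' then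
        (if lb x = α.1 ∧ lb x' = α.2 then ν x x' * f B B' else 0) else 0) else 0)
      = if δ.frm x = B then ∑ x', (if lb x = α.1 ∧ lb x' = α.2 then ν x x' * f B (δ.frm x')
        else 0) else 0 := by
    intro B
    by_cases h : δ.frm x = B
    · simp only [if_pos h]
      rw [Finset.sum_comm]
      refine Finset.sum_congr rfl fun x' _ => ?_
      rw [Finset.sum_ite_eq]
      simp
    · simp [h]
  simp only [e2]
  rw [Finset.sum_ite_eq]
  simp

end Design

/-- Transfer of sums over forms to sums over test values. -/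
lemma sum_tlaw {K : Type*} [Fintype K] (w : Matrix K K F → Matrix K K F → ℝ) (g g' : K → F)
    (f : (Fin 4 → K → F) → ℝ) :
    ∑ B, ∑ B', w B B' * f (tv g g' B B') = ∑ m, tlaw w g g' m * f m := by
  unfold tlaw
  have e1 : ∀ m, (∑ B, ∑ B', (if tv g g' B B' = m then w B B' else 0)) * f m
      = ∑ B, ∑ B', (if tv g g' B B' = m then w B B' * f m else 0) := by
    intro m
    rw [Finset.sum_mul]
    refine Finset.sum_congr rfl fun B _ => ?_
    rw [Finset.sum_mul]
    refine Finset.sum_congr rfl fun B' _ => ?_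
    rw [ite_mul, zero_mul]
  simp only [e1]
  symm
  rw [Finset.sum_comm]
  refine Finset.sum_congr rfl fun B _ => ?_
  rw [Finset.sum_comm]
  refine Finset.sum_congr rfl fun B' _ => ?_
  rw [Finset.sum_ite_eq]
  simp

lemma tlaw_nonneg {K : Type*} [Fintype K] {w : Matrix K K F → Matrix K K F → ℝ}
    (h : ∀ B B', 0 ≤ w B B') (g g' : K → F) (m : Fin 4 → K → F) : 0 ≤ tlaw w g g' m :=
  Finset.sum_nonneg fun _ _ => Finset.sum_nonneg fun _ _ => by split_ifs; exacts [h _ _, le_rfl]

lemma sum_tlaw_one {K : Type*} [Fintype K] (w : Matrix K K F → Matrix K K F → ℝ) (g g' : K → F) :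
    ∑ m, tlaw w g g' m = ∑ B, ∑ B', w B B' := by
  have := sum_tlaw w g g' (fun _ => 1)
  simp only [mul_one] at this
  exact this.symm

namespace Design

variable {K T : Type*} [Fintype K] [Fintype T] (δ : Design K T)

/-- The law of the second form. -/
theorem law_frm_le' [Nonempty T] (ν : Vtx K T → Vtx K T → ℝ) (h0 : ∀ x y, 0 ≤ ν x y)
    (hsy : ∀ x y, ν x y = ν y x)
    (hm : ∀ x, (∑ y, ν x y) * (Fintype.card (Vtx K T) : ℝ) ≤ 4) (α : Lb T × Lb T)
    (hα : 0 < mass ν α) (hα' : 1 / (400 * (Fintype.card (Lb T) : ℝ) ^ 2) ≤ mass ν α)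
    (B : Matrix K K F) :
    (condP ν h0 α hα).p (fun z => δ.frm z.2) B
      ≤ 1600 * Fintype.card (Lb T) / Fintype.card (δ.Dir α.2.1) := by
  have hs : mass ν α.swap = mass ν α := mass_swap ν hsy α
  have h := δ.law_frm_le ν h0 hm α.swap (by rw [hs]; exact hα) (by rw [hs]; exact hα') B
  refine le_trans (le_of_eq ?_) h
  rw [p_pair, p_pair, Finset.sum_comm]
  refine Finset.sum_congr rfl fun x' _ => Finset.sum_congr rfl fun x _ => ?_
  simp only [condP_w, hs, Prod.fst_swap, Prod.snd_swap]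
  by_cases h1 : δ.frm x' = B
  · rw [if_pos h1, if_pos h1, hsy x x']
    refine if_congr ?_ rfl rfl
    tauto
  · rw [if_neg h1, if_neg h1]

/-- The law of the two forms is a law of pairs. -/
theorem plaw_wfl [Nonempty T] {ν : Vtx K T → Vtx K T → ℝ} {Λ ε : ℝ} (hν : δ.IsCpl ν Λ ε)
    (α : Lb T × Lb T) (hα' : 1 / (400 * (Fintype.card (Lb T) : ℝ) ^ 2) ≤ mass ν α) :
    PLaw δ α.1.1 α.2.1 α.1.2 α.2.2 (400 * Λ) (1600 * Fintype.card (Lb T)) (δ.wfl ν α) := by
  have hL : (0 : ℝ) < Fintype.card (Lb T) := by exact_mod_cast Fintype.card_pos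
  have hα : 0 < mass ν α := lt_of_lt_of_le (by positivity) hα'
  have hD1 : (0 : ℝ) < Fintype.card (δ.Dir α.1.1) := by exact_mod_cast Fintype.card_pos
  have hD2 : (0 : ℝ) < Fintype.card (δ.Dir α.2.1) := by exact_mod_cast Fintype.card_pos
  have hfrm : ∀ x : Vtx K T, δ.frm x ∈ δ.Form x.1 x.2.1 := by
    intro x
    show δ.frm x - _ ∈ δ.Dir x.1
    unfold frm
    rw [add_sub_cancel_left]
    exact (δ.proj x.1 x.2.2).2
  refine ⟨fun B B' => δ.wfl_nonneg hν.nonneg α B B', ?_, ?_, ?_, ?_, ?_⟩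
  · have h := δ.sum_wfl ν α hα (fun _ _ => 1)
    simp only [mul_one] at h
    have h2 : mass ν α * ∑ B, ∑ B', δ.wfl ν α B B' = mass ν α * 1 := by
      rw [← h, mul_one]; rfl
    exact mul_left_cancel₀ hα.ne' h2
  · intro B B' h
    by_contra hcon
    apply h
    unfold wfl
    rw [Finset.sum_eq_zero, zero_div]
    intro x _
    refine Finset.sum_eq_zero fun x' _ => ?_
    rw [if_neg]
    rintro ⟨⟨h1, h2⟩, h3, h4⟩
    apply hcon
    have e1 : x.1 = α.1.1 ∧ x.2.1 = α.1.2 := by rw [← h1]; exact ⟨rfl, rfl⟩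
    have e2 : x'.1 = α.2.1 ∧ x'.2.1 = α.2.2 := by rw [← h2]; exact ⟨rfl, rfl⟩
    have f1 := hfrm x
    have f2 := hfrm x'
    rw [h3, e1.1, e1.2] at f1
    rw [h4, e2.1, e2.2] at f2
    exact ⟨f1, f2⟩
  · intro B B'
    have h := δ.law_forms_le ν hν.nonneg hν.dens α hα hα' B B'
    rw [← δ.wfl_eq ν hν.nonneg α hα B B', le_div_iff₀ (mul_pos hD1 hD2)] at h
    simpa only [Nat.card_eq_fintype_card] using h
  · intro B
    have h := δ.law_frm_le ν hν.nonneg hν.marg α hα hα' B
    rw [le_div_iff₀ hD1] at h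
    have e : ∑ B', δ.wfl ν α B B' = (condP ν hν.nonneg α hα).p (fun z => δ.frm z.1) B := by
      simp only [δ.wfl_eq ν hν.nonneg α hα]
      unfold FinProb.p
      rw [Finset.sum_comm]
      refine Finset.sum_congr rfl fun z _ => ?_
      simp only [Prod.mk.injEq]
      by_cases h1 : δ.frm z.1 = B
      · simp [h1]
      · simp [h1]
    rw [e, Nat.card_eq_fintype_card]
    exact h
  · intro B'
    have h := δ.law_frm_le' ν hν.nonneg hν.symm hν.marg α hα hα' B'
    rw [le_div_iff₀ hD2] at h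
    have e : ∑ B, δ.wfl ν α B B' = (condP ν hν.nonneg α hα).p (fun z => δ.frm z.2) B' := by
      simp only [δ.wfl_eq ν hν.nonneg α hα]
      unfold FinProb.p
      rw [Finset.sum_comm]
      refine Finset.sum_congr rfl fun z _ => ?_
      simp only [Prod.mk.injEq]
      by_cases h1 : δ.frm z.2 = B'
      · simp [h1]
      · simp [h1]
    rw [e, Nat.card_eq_fintype_card]
    exact h

/-- Product masses of events of test values. -/
theorem mass4_tlaw (ν : Vtx K T → Vtx K T → ℝ) (α β : Lb T × Lb T) (hα : 0 < mass ν α)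
    (hβ : 0 < mass ν β) (Q : Vtx K T → Vtx K T → Vtx K T → Vtx K T → Prop)
    (Φ : (Fin 4 → K → F) → (Fin 4 → K → F) → Prop)
    (hQ : ∀ x x' y y', InLb α β x x' y y' → (Q x x' y y' ↔
      Φ (tv (δ.g β.1.1) (δ.g β.2.1) (δ.frm x) (δ.frm x'))
        (tv (δ.g α.1.1) (δ.g α.2.1) (δ.frm y) (δ.frm y')))) :
    mass4 ν (fun x x' y y' => Q x x' y y' ∧ InLb α β x x' y y')
      = mass ν α * mass ν β * ∑ m, ∑ n, (if Φ m n then
        tlaw (δ.wfl ν α) (δ.g β.1.1) (δ.g β.2.1) m * tlaw (δ.wfl ν β) (δ.g α.1.1) (δ.g α.2.1) n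
        else 0) := by
  set f : (Fin 4 → K → F) → ℝ := fun m => ∑ y, ∑ y', (if lb y = β.1 ∧ lb y' = β.2 then
    ν y y' * (if Φ m (tv (δ.g α.1.1) (δ.g α.2.1) (δ.frm y) (δ.frm y')) then 1 else 0) else 0)
    with hf
  have e1 : mass4 ν (fun x x' y y' => Q x x' y y' ∧ InLb α β x x' y y')
      = ∑ x, ∑ x', (if lb x = α.1 ∧ lb x' = α.2 then ν x x' *
        f (tv (δ.g β.1.1) (δ.g β.2.1) (δ.frm x) (δ.frm x')) else 0) := by
    unfold mass4
    refine Finset.sum_congr rfl fun x _ => Finset.sum_congr rfl fun x' _ => ?_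
    by_cases h1 : lb x = α.1 ∧ lb x' = α.2
    · rw [if_pos h1, hf]
      simp only
      rw [Finset.mul_sum]
      refine Finset.sum_congr rfl fun y _ => ?_
      rw [Finset.mul_sum]
      refine Finset.sum_congr rfl fun y' _ => ?_
      by_cases h2 : lb y = β.1 ∧ lb y' = β.2
      · have h3 := hQ x x' y y' ⟨h1, h2⟩
        rw [if_pos h2]
        by_cases h4 : Q x x' y y'
        · rw [if_pos ⟨h4, h1, h2⟩, if_pos (h3.1 h4), mul_one]
        · rw [if_neg (fun h => h4 h.1), if_neg (fun h => h4 (h3.2 h)), mul_zero, mul_zero]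
      · rw [if_neg h2, if_neg (fun h => h2 h.2.2), mul_zero]
    · rw [if_neg h1]
      refine Finset.sum_eq_zero fun y _ => Finset.sum_eq_zero fun y' _ => ?_
      rw [if_neg (fun h => h1 h.2.1)]
  rw [e1, δ.sum_wfl ν α hα (fun B B' => f (tv (δ.g β.1.1) (δ.g β.2.1) B B')),
    sum_tlaw (δ.wfl ν α) (δ.g β.1.1) (δ.g β.2.1) f, mul_assoc]
  congr 1
  rw [Finset.mul_sum]
  refine Finset.sum_congr rfl fun m _ => ?_
  have e2 : f m = mass ν β * ∑ n, tlaw (δ.wfl ν β) (δ.g α.1.1) (δ.g α.2.1) n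
      * (if Φ m n then 1 else 0) := by
    rw [hf]
    simp only
    rw [δ.sum_wfl ν β hβ (fun B B' => if Φ m (tv (δ.g α.1.1) (δ.g α.2.1) B B') then 1 else 0),
      sum_tlaw (δ.wfl ν β) (δ.g α.1.1) (δ.g α.2.1) (fun n => if Φ m n then 1 else 0)]
  rw [e2, mul_left_comm, Finset.mul_sum]
  congr 1
  refine Finset.sum_congr rfl fun n _ => ?_
  by_cases h : Φ m n <;> simp [h]

/-- The mass of the first type. -/
lemma sum_mass_fst [Nonempty T] {ν : Vtx K T → Vtx K T → ℝ} {Λ ε : ℝ} (hν : δ.IsCpl ν Λ ε)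
    (a : T) : (∑ α : Lb T × Lb T, if α.1.1 = a then mass ν α else 0) ≤ 4 / Fintype.card T := by
  have hT : (0 : ℝ) < Fintype.card T := by exact_mod_cast Fintype.card_pos
  have hN : (0 : ℝ) < Fintype.card (Vtx K T) := by
    have : Nonempty (Vtx K T) := ⟨(Classical.arbitrary T, true, 0)⟩
    exact_mod_cast Fintype.card_pos
  have e1 : (∑ α : Lb T × Lb T, if α.1.1 = a then mass ν α else 0)
      = ∑ x : Vtx K T, if x.1 = a then ∑ y, ν x y else 0 := by
    unfold mass
    have e2 : ∀ α : Lb T × Lb T, (if α.1.1 = a then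
        ∑ x : Vtx K T, ∑ x' : Vtx K T, (if lb x = α.1 ∧ lb x' = α.2 then ν x x' else 0) else 0)
        = ∑ x : Vtx K T, ∑ x' : Vtx K T, (if (lb x, lb x') = α then
          (if x.1 = a then ν x x' else 0) else 0) := by
      rintro ⟨α1, α2⟩
      simp only [Prod.mk.injEq]
      by_cases h : α1.1 = a
      · rw [if_pos h]
        refine Finset.sum_congr rfl fun x _ => Finset.sum_congr rfl fun x' _ => ?_
        by_cases h2 : lb x = α1 ∧ lb x' = α2
        · rw [if_pos h2, if_pos h2, if_pos]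
          rw [← h, ← h2.1]; rfl
        · rw [if_neg h2, if_neg h2]
      · rw [if_neg h]
        symm
        refine Finset.sum_eq_zero fun x _ => Finset.sum_eq_zero fun x' _ => ?_
        by_cases h2 : lb x = α1 ∧ lb x' = α2
        · rw [if_pos h2, if_neg]
          intro h3
          apply h
          rw [← h3, ← h2.1]; rfl
        · rw [if_neg h2]
    simp only [e2]
    rw [Finset.sum_comm]
    refine Finset.sum_congr rfl fun x _ => ?_
    rw [Finset.sum_comm]
    have e3 : ∀ x' : Vtx K T, (∑ α : Lb T × Lb T, if (lb x, lb x') = α then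
        (if x.1 = a then ν x x' else 0) else 0) = if x.1 = a then ν x x' else 0 := by
      intro x'
      rw [Finset.sum_ite_eq]
      simp
    simp only [e3]
    by_cases h : x.1 = a <;> simp [h]
  rw [e1]
  have e4 : ∀ x : Vtx K T, (if x.1 = a then ∑ y, ν x y else 0)
      ≤ if x.1 = a then 4 / (Fintype.card (Vtx K T) : ℝ) else 0 := by
    intro x
    split_ifs
    · rw [le_div_iff₀ hN]
      exact hν.marg x
    · exact le_rfl
  refine (Finset.sum_le_sum fun x _ => e4 x).trans ?_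
  have e5 : ∑ x : Vtx K T, (if x.1 = a then 4 / (Fintype.card (Vtx K T) : ℝ) else 0)
      = ∑ b : T, ∑ _z : Bool × Matrix K K F,
        (if b = a then 4 / (Fintype.card (Vtx K T) : ℝ) else 0) := by
    exact Fintype.sum_prod_type _
  rw [e5]
  simp only [Finset.sum_const, nsmul_eq_mul, Finset.card_univ]
  rw [← Finset.mul_sum, Finset.sum_ite_eq']
  simp only [Finset.mem_univ, if_true]
  have hc : (Fintype.card (Vtx K T) : ℝ)
      = Fintype.card T * Fintype.card (Bool × Matrix K K F) := by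
    rw [Fintype.card_prod]; push_cast; ring
  have hB : (0 : ℝ) < Fintype.card (Bool × Matrix K K F) := by exact_mod_cast Fintype.card_pos
  rw [hc]
  apply le_of_eq
  field_simp

/-- The mass of the second type. -/
lemma sum_mass_snd [Nonempty T] {ν : Vtx K T → Vtx K T → ℝ} {Λ ε : ℝ} (hν : δ.IsCpl ν Λ ε)
    (a : T) : (∑ α : Lb T × Lb T, if α.2.1 = a then mass ν α else 0) ≤ 4 / Fintype.card T := by
  refine le_trans (le_of_eq ?_) (δ.sum_mass_fst hν a)
  refine Fintype.sum_equiv (Equiv.prodComm _ _) _ _ fun α => ?_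
  rw [Equiv.prodComm_apply, mass_swap ν hν.symm]
  rfl

/-- The coupling of the types. -/
def rho (ν : Vtx K T → Vtx K T → ℝ) (β : T × T) : ℝ :=
  if β.1 = β.2 then 0 else ∑ α : Lb T × Lb T, if (α.1.1, α.2.1) = β then mass ν α else 0

lemma rho_tcoup [Nonempty T] {ν : Vtx K T → Vtx K T → ℝ} {Λ ε : ℝ} (hν : δ.IsCpl ν Λ ε) :
    TCoup 8 (rho ν) := by
  have hT : (0 : ℝ) < Fintype.card T := by exact_mod_cast Fintype.card_pos
  have hm := mass_nonneg hν.nonneg
  have hle : ∀ β : T × T, rho ν β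
      ≤ ∑ α : Lb T × Lb T, if (α.1.1, α.2.1) = β then mass ν α else 0 := by
    intro β
    unfold rho
    split_ifs
    · exact Finset.sum_nonneg fun α _ => by split_ifs; exacts [hm _, le_rfl]
    · exact le_rfl
  refine ⟨fun β => ?_, fun b => ?_, fun b => ?_, fun b' => ?_⟩
  · unfold rho
    split_ifs
    · exact le_rfl
    · exact Finset.sum_nonneg fun α _ => by split_ifs; exacts [hm _, le_rfl]
  · unfold rho
    rw [if_pos rfl]
  · have h1 : ∑ b', rho ν (b, b') ≤ 4 / Fintype.card T := by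
      refine le_trans ?_ (δ.sum_mass_fst hν b)
      refine (Finset.sum_le_sum fun b' _ => hle (b, b')).trans ?_
      rw [Finset.sum_comm]
      refine Finset.sum_le_sum fun α _ => ?_
      simp only [Prod.mk.injEq]
      by_cases h : α.1.1 = b
      · simp [h]
      · simp [h]
    rw [le_div_iff₀ hT] at h1
    linarith
  · have h1 : ∑ b, rho ν (b, b') ≤ 4 / Fintype.card T := by
      refine le_trans ?_ (δ.sum_mass_snd hν b')
      refine (Finset.sum_le_sum fun b _ => hle (b, b')).trans ?_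
      rw [Finset.sum_comm]
      refine Finset.sum_le_sum fun α _ => ?_
      simp only [Prod.mk.injEq]
      by_cases h : α.2.1 = b'
      · simp [h]
      · simp [h]
    rw [le_div_iff₀ hT] at h1
    linarith

/-- The mass of the pairs of labels whose types are far. -/
lemma sum_far (ν : Vtx K T → Vtx K T → ℝ) (Q : T × T → Prop) :
    (∑ β : Lb T × Lb T, if β.1.1 ≠ β.2.1 ∧ Q (β.1.1, β.2.1) then mass ν β else 0)
      = ∑ β : T × T, if Q β then rho ν β else 0 := by
  have e1 : ∀ β : T × T, (if Q β then rho ν β else 0) = ∑ α : Lb T × Lb T,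
      if (α.1.1, α.2.1) = β then (if α.1.1 ≠ α.2.1 ∧ Q (α.1.1, α.2.1) then mass ν α else 0)
        else 0 := by
    rintro ⟨b, b'⟩
    unfold rho
    by_cases hQ : Q (b, b')
    · rw [if_pos hQ]
      by_cases hb : b = b'
      · rw [if_pos hb]
        symm
        refine Finset.sum_eq_zero fun α _ => ?_
        by_cases h : (α.1.1, α.2.1) = (b, b')
        · rw [if_pos h, if_neg]
          rintro ⟨h1, -⟩
          rw [Prod.mk.injEq] at h
          exact h1 (by rw [h.1, h.2, hb])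
        · rw [if_neg h]
      · rw [if_neg hb]
        refine Finset.sum_congr rfl fun α _ => ?_
        by_cases h : (α.1.1, α.2.1) = (b, b')
        · rw [if_pos h, if_pos h, if_pos]
          rw [h]
          rw [Prod.mk.injEq] at h
          exact ⟨by rw [h.1, h.2]; exact hb, hQ⟩
        · rw [if_neg h, if_neg h]
    · rw [if_neg hQ]
      symm
      refine Finset.sum_eq_zero fun α _ => ?_
      by_cases h : (α.1.1, α.2.1) = (b, b')
      · rw [if_pos h, if_neg]
        rintro ⟨-, h1⟩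
        rw [h] at h1
        exact hQ h1
      · rw [if_neg h]
  simp only [e1]
  symm
  rw [Finset.sum_comm]
  refine Finset.sum_congr rfl fun α _ => ?_
  rw [Finset.sum_ite_eq]
  simp

/-- The vectors of the cut functionals. -/
lemma dif_dot (x x' : Vtx K T) (b : T) : dotProduct (δ.dif x x') (δ.g b)
    = dotProduct (δ.g x'.1) ((δ.frm x).mulVec (δ.g b))
      - dotProduct (δ.g x.1) ((δ.frm x').mulVec (δ.g b)) := by
  unfold dif
  rw [dotProduct_comm, dotProduct_sub, symm_dot (δ.frm_symm x) (δ.g b) (δ.g x'.1),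
    symm_dot (δ.frm_symm x') (δ.g b) (δ.g x.1)]

/-- **The overlap estimate of a design**, from the closeness of the laws of the test values to
their averages for most pairs, and the conflict bound for good quadruples. -/
theorem overlapEst_gen [Nonempty T] {Λ ε ε₀ κ θ : ℝ} (hκ : 0 ≤ κ) (hε₀ : 0 ≤ ε₀)
    (R : T → T → Prop)
    (hTV : ∀ (a a' : T) (ι ι' : Bool), a ≠ a' → ∀ w,
      PLaw δ a a' ι ι' (400 * Λ) (1600 * Fintype.card (Lb T)) w → ∀ ρ, TCoup 8 ρ →
      ∑ β, (if ε₀ < tdist δ a a' w β then ρ β else 0) ≤ ε₀)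
    (hOv : ∀ a a' b b' : T, a ≠ a' → b ≠ b' → ¬ R a b → ¬ R a b' → ¬ R a' b → ¬ R a' b' →
      ∀ (ι₁ ι₁' ι₂ ι₂' : Bool) (w w' : _ → _ → ℝ),
      PLaw δ a a' ι₁ ι₁' (400 * Λ) (1600 * Fintype.card (Lb T)) w →
      PLaw δ b b' ι₂ ι₂' (400 * Λ) (1600 * Fintype.card (Lb T)) w' →
      tdist δ a a' w (b, b') ≤ ε₀ → tdist δ b b' w' (a, a') ≤ ε₀ →
      1 / 400 ≤ ∑ m, (if UncutT (δ.g a) (δ.g a') m then tlaw w (δ.g b) (δ.g b') m else 0) →
      1 / 400 ≤ ∑ n, (if UncutT (δ.g b) (δ.g b') n then tlaw w' (δ.g a) (δ.g a') n else 0) →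
      κ ≤ ∑ m, ∑ n, (if ConfT δ m n then tlaw w (δ.g b) (δ.g b') m
        * tlaw w' (δ.g a) (δ.g a') n else 0))
    (hR : ((Finset.univ.filter fun ab : T × T => R ab.1 ab.2).card : ℝ)
      ≤ θ * (Fintype.card T : ℝ) ^ 2) (hnum : 2 * ε₀ + 64 * θ ≤ 1 / 100) :
    δ.OverlapEst Λ ε κ := by
  intro ν hν
  have hT : (0 : ℝ) < Fintype.card T := by exact_mod_cast Fintype.card_pos
  have hm := mass_nonneg hν.nonneg
  set s : ℝ := 1 / (400 * (Fintype.card (Lb T) : ℝ) ^ 2) with hs
  have hL : (0 : ℝ) < Fintype.card (Lb T) := by exact_mod_cast Fintype.card_pos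
  have hs0 : 0 < s := by positivity
  obtain ⟨Far, hFar⟩ : ∃ Far : Lb T × Lb T → Lb T × Lb T → Prop, ∀ α β, Far α β ↔
      (s ≤ mass ν α ∧ α.1.1 ≠ α.2.1) ∧ (β.1.1 ≠ β.2.1 ∧
        ε₀ < tdist δ α.1.1 α.2.1 (δ.wfl ν α) (β.1.1, β.2.1)) := ⟨_, fun _ _ => Iff.rfl⟩
  have hsum1 : ∑ α : Lb T × Lb T, mass ν α = 1 := by rw [sum_mass, hν.sum_one]
  -- far pairs
  have hfar : ∀ α, ∑ β, (if Far α β then mass ν β else 0) ≤ ε₀ := by
    intro α
    by_cases h1 : s ≤ mass ν α ∧ α.1.1 ≠ α.2.1
    · have h2 := hTV α.1.1 α.2.1 α.1.2 α.2.2 h1.2 (δ.wfl ν α) (δ.plaw_wfl hν α h1.1) (rho ν)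
        (δ.rho_tcoup hν)
      refine le_trans (le_of_eq ?_) h2
      rw [← sum_far ν (fun β => ε₀ < tdist δ α.1.1 α.2.1 (δ.wfl ν α) β)]
      refine Finset.sum_congr rfl fun β _ => ?_
      refine if_congr ?_ rfl rfl
      rw [hFar]
      tauto
    · have h3 : ∑ β, (if Far α β then mass ν β else 0) = 0 := by
        refine Finset.sum_eq_zero fun β _ => ?_
        rw [if_neg]
        rw [hFar]
        exact fun h => h1 h.1
      rw [h3]
      exact hε₀
  obtain ⟨Bad, hBad⟩ : ∃ Bad : Lb T × Lb T → Lb T × Lb T → Prop, ∀ α β, Bad α β ↔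
      (Far α β ∨ Far β α ∨ R α.1.1 β.1.1 ∨ R α.1.1 β.2.1 ∨ R α.2.1 β.1.1 ∨ R α.2.1 β.2.1) :=
    ⟨_, fun _ _ => Iff.rfl⟩
  refine ⟨Bad, ?_, ?_⟩
  · have hRs : ∀ (π π' : Lb T × Lb T → T),
        (∀ a, (∑ α : Lb T × Lb T, if π α = a then mass ν α else 0) ≤ 4 / Fintype.card T) →
        (∀ a, (∑ α : Lb T × Lb T, if π' α = a then mass ν α else 0) ≤ 4 / Fintype.card T) →
        ∑ α, ∑ β, (if R (π α) (π' β) then mass ν α * mass ν β else 0) ≤ 16 * θ := by
      intro π π' h1 h2
      refine (sum_pair_le π π' hm hm R h1 h2).trans ?_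
      refine (mul_le_mul_of_nonneg_left hR (by positivity)).trans (le_of_eq ?_)
      field_simp
      ring
    have b1 := hRs (fun α => α.1.1) (fun β => β.1.1) (δ.sum_mass_fst hν) (δ.sum_mass_fst hν)
    have b2 := hRs (fun α => α.1.1) (fun β => β.2.1) (δ.sum_mass_fst hν) (δ.sum_mass_snd hν)
    have b3 := hRs (fun α => α.2.1) (fun β => β.1.1) (δ.sum_mass_snd hν) (δ.sum_mass_fst hν)
    have b4 := hRs (fun α => α.2.1) (fun β => β.2.1) (δ.sum_mass_snd hν) (δ.sum_mass_snd hν)
    have b5 : ∑ α, ∑ β, (if Far α β then mass ν α * mass ν β else 0) ≤ ε₀ := by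
      have e1 : ∀ α, ∑ β, (if Far α β then mass ν α * mass ν β else 0)
          = mass ν α * ∑ β, (if Far α β then mass ν β else 0) := by
        intro α
        rw [Finset.mul_sum]
        refine Finset.sum_congr rfl fun β _ => ?_
        rw [mul_ite, mul_zero]
      simp only [e1]
      refine (Finset.sum_le_sum fun α _ => mul_le_mul_of_nonneg_left (hfar α) (hm α)).trans ?_
      rw [← Finset.sum_mul, hsum1, one_mul]
    have b6 : ∑ α, ∑ β, (if Far β α then mass ν α * mass ν β else 0) ≤ ε₀ := by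
      rw [Finset.sum_comm]
      refine le_trans (le_of_eq ?_) b5
      refine Finset.sum_congr rfl fun α _ => Finset.sum_congr rfl fun β _ => ?_
      rw [mul_comm]
    have hpt : ∀ α β : Lb T × Lb T, (if Bad α β then mass ν α * mass ν β else 0)
        ≤ (if Far α β then mass ν α * mass ν β else 0)
        + (if Far β α then mass ν α * mass ν β else 0)
        + (if R α.1.1 β.1.1 then mass ν α * mass ν β else 0)
        + (if R α.1.1 β.2.1 then mass ν α * mass ν β else 0)
        + (if R α.2.1 β.1.1 then mass ν α * mass ν β else 0)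
        + (if R α.2.1 β.2.1 then mass ν α * mass ν β else 0) := by
      intro α β
      have hmm : 0 ≤ mass ν α * mass ν β := mul_nonneg (hm _) (hm _)
      have g : ∀ Q : Prop, 0 ≤ (if Q then mass ν α * mass ν β else 0) := by
        intro Q; split_ifs; exacts [hmm, le_rfl]
      have g1 := g (Far α β)
      have g2 := g (Far β α)
      have g3 := g (R α.1.1 β.1.1)
      have g4 := g (R α.1.1 β.2.1)
      have g5 := g (R α.2.1 β.1.1)
      have g6 := g (R α.2.1 β.2.1)
      by_cases hb : Bad α β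
      · rw [if_pos hb]
        rcases (hBad α β).1 hb with h | h | h | h | h | h
        · rw [if_pos h] at g1 ⊢; linarith only [g6, g5, g4, g3, g2]
        · rw [if_pos h] at g2 ⊢; linarith only [g6, g5, g4, g3, g1]
        · rw [if_pos h] at g3 ⊢; linarith only [g6, g5, g4, g2, g1]
        · rw [if_pos h] at g4 ⊢; linarith only [g6, g5, g3, g2, g1]
        · rw [if_pos h] at g5 ⊢; linarith only [g6, g4, g3, g2, g1]
        · rw [if_pos h] at g6 ⊢; linarith only [g5, g4, g3, g2, g1]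
      · rw [if_neg hb]; linarith only [g6, g5, g4, g3, g2, g1]
    have hsum := Finset.sum_le_sum (s := Finset.univ) fun α _ =>
      Finset.sum_le_sum (s := Finset.univ) fun β _ => hpt α β
    simp only [Finset.sum_add_distrib] at hsum
    linarith
  · intro α β hnb hαc hβc hα hβ
    rw [hBad] at hnb
    have hnb2 : ¬ Far α β ∧ ¬ Far β α ∧ ¬ R α.1.1 β.1.1 ∧ ¬ R α.1.1 β.2.1 ∧ ¬ R α.2.1 β.1.1 ∧
      ¬ R α.2.1 β.2.1 := by tauto
    obtain ⟨n1, n2, n3, n4, n5, n6⟩ := hnb2
    have hα0 : 0 < mass ν α := lt_of_lt_of_le hs0 hα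
    have hβ0 : 0 < mass ν β := lt_of_lt_of_le hs0 hβ
    have hmm : 0 < mass ν α * mass ν β := mul_pos hα0 hβ0
    have hwα := δ.plaw_wfl hν α hα
    have hwβ := δ.plaw_wfl hν β hβ
    have t1 : tdist δ α.1.1 α.2.1 (δ.wfl ν α) (β.1.1, β.2.1) ≤ ε₀ := by
      by_contra h
      exact n1 ((hFar α β).2 ⟨⟨hα, hαc⟩, hβc, not_le.1 h⟩)
    have t2 : tdist δ β.1.1 β.2.1 (δ.wfl ν β) (α.1.1, α.2.1) ≤ ε₀ := by
      by_contra h
      exact n2 ((hFar β α).2 ⟨⟨hβ, hβc⟩, hαc, not_le.1 h⟩)
    set P : (Fin 4 → K → F) → ℝ := tlaw (δ.wfl ν α) (δ.g β.1.1) (δ.g β.2.1) with hP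
    set P' : (Fin 4 → K → F) → ℝ := tlaw (δ.wfl ν β) (δ.g α.1.1) (δ.g α.2.1) with hP'
    have hP0 : ∀ m, 0 ≤ P m := tlaw_nonneg hwα.nonneg _ _
    have hP0' : ∀ m, 0 ≤ P' m := tlaw_nonneg hwβ.nonneg _ _
    have hP1 : ∑ m, P m = 1 := by rw [hP, sum_tlaw_one]; exact hwα.sum_one
    have hP1' : ∑ m, P' m = 1 := by rw [hP', sum_tlaw_one]; exact hwβ.sum_one
    -- the two masses
    have hU : mass4 ν (fun x x' y y' => δ.Uncut x x' y y' ∧ InLb α β x x' y y')
        = mass ν α * mass ν β * ((∑ m, (if UncutT (δ.g α.1.1) (δ.g α.2.1) m then P m else 0))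
          * ∑ n, (if UncutT (δ.g β.1.1) (δ.g β.2.1) n then P' n else 0)) := by
      rw [δ.mass4_tlaw ν α β hα0 hβ0 δ.Uncut (fun m n => UncutT (δ.g α.1.1) (δ.g α.2.1) m ∧
        UncutT (δ.g β.1.1) (δ.g β.2.1) n)]
      · congr 1
        rw [Finset.sum_mul_sum]
        refine Finset.sum_congr rfl fun m _ => Finset.sum_congr rfl fun n _ => ?_
        by_cases h1 : UncutT (δ.g α.1.1) (δ.g α.2.1) m <;>
          by_cases h2 : UncutT (δ.g β.1.1) (δ.g β.2.1) n <;> simp [h1, h2, hP, hP']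
      · rintro x x' y y' ⟨⟨l1, l2⟩, l3, l4⟩
        have k1 : x.1 = α.1.1 := by rw [← l1]; rfl
        have k2 : x'.1 = α.2.1 := by rw [← l2]; rfl
        have k3 : y.1 = β.1.1 := by rw [← l3]; rfl
        have k4 : y'.1 = β.2.1 := by rw [← l4]; rfl
        unfold Uncut UncutT tv
        rw [dif_dot, dif_dot, dif_dot, dif_dot, k1, k2, k3, k4]
        simp only [Matrix.cons_val_zero, Matrix.cons_val_one, Matrix.cons_val]
        tauto
    have hC : mass4 ν (fun x x' y y' => δ.Conf x x' y y' ∧ InLb α β x x' y y')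
        = mass ν α * mass ν β * ∑ m, ∑ n, (if ConfT δ m n then P m * P' n else 0) := by
      rw [δ.mass4_tlaw ν α β hα0 hβ0 δ.Conf (fun m n => ConfT δ m n)]
      rintro x x' y y' ⟨⟨l1, l2⟩, l3, l4⟩
      have k1 : x.1 = α.1.1 := by rw [← l1]; rfl
      have k2 : x'.1 = α.2.1 := by rw [← l2]; rfl
      have k3 : y.1 = β.1.1 := by rw [← l3]; rfl
      have k4 : y'.1 = β.2.1 := by rw [← l4]; rfl
      unfold Conf ConfT tv Adj dif
      rw [k1, k2, k3, k4]
      simp only [Matrix.cons_val_zero, Matrix.cons_val_one, Matrix.cons_val]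
    rw [hU, hC]
    set u := ∑ m, (if UncutT (δ.g α.1.1) (δ.g α.2.1) m then P m else 0) with hu
    set u' := ∑ n, (if UncutT (δ.g β.1.1) (δ.g β.2.1) n then P' n else 0) with hu'
    have hu0 : 0 ≤ u := Finset.sum_nonneg fun m _ => by split_ifs; exacts [hP0 m, le_rfl]
    have hu0' : 0 ≤ u' := Finset.sum_nonneg fun m _ => by split_ifs; exacts [hP0' m, le_rfl]
    have hu1 : u ≤ 1 := by
      rw [← hP1]
      exact Finset.sum_le_sum fun m _ => by split_ifs; exacts [le_rfl, hP0 m]
    have hu1' : u' ≤ 1 := by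
      rw [← hP1']
      exact Finset.sum_le_sum fun m _ => by split_ifs; exacts [le_rfl, hP0' m]
    have huu : u * u' ≤ 1 := mul_le_one₀ hu1 hu0' hu1'
    have hC0 : 0 ≤ ∑ m, ∑ n, (if ConfT δ m n then P m * P' n else 0) :=
      Finset.sum_nonneg fun m _ => Finset.sum_nonneg fun n _ => by
        split_ifs; exacts [mul_nonneg (hP0 m) (hP0' n), le_rfl]
    have e1 : κ * (mass ν α * mass ν β * (u * u') - 1 / 400 * (mass ν α * mass ν β))
        = mass ν α * mass ν β * (κ * (u * u' - 1 / 400)) := by ring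
    rw [e1]
    refine mul_le_mul_of_nonneg_left ?_ hmm.le
    by_cases hbig : u * u' ≤ 1 / 400
    · refine le_trans ?_ hC0
      exact mul_nonpos_of_nonneg_of_nonpos hκ (by linarith only [hbig])
    · push Not at hbig
      have c1 : 1 / 400 ≤ u := by
        have : u * u' ≤ u * 1 := mul_le_mul_of_nonneg_left hu1' hu0
        linarith only [this, hbig]
      have c2 : 1 / 400 ≤ u' := by
        have : u * u' ≤ 1 * u' := mul_le_mul_of_nonneg_right hu1 hu0'
        linarith only [this, hbig]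
      have := hOv α.1.1 α.2.1 β.1.1 β.2.1 hαc hβc n3 n4 n5 n6 _ _ _ _ _ _ hwα hwβ t1 t2 c1 c2
      refine le_trans ?_ this
      have h5 : κ * (u * u' - 1 / 400) ≤ κ * 1 :=
        mul_le_mul_of_nonneg_left (by linarith only [huu]) hκ
      linarith only [h5]

end Design

lemma PLaw.mono {K T : Type*} [Fintype K] {δ : Design K T} {a a' : T} {ι ι' : Bool}
    {Λ M Λ' M' : ℝ} {w : Matrix K K F → Matrix K K F → ℝ} (h : PLaw δ a a' ι ι' Λ M w)
    (hΛ : Λ ≤ Λ') (hM : M ≤ M') : PLaw δ a a' ι ι' Λ' M' w :=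
  ⟨h.nonneg, h.sum_one, h.supp, fun B B' => (h.joint B B').trans hΛ,
    fun B => (h.left B).trans hM, fun B' => (h.right B').trans hM⟩

section Concrete

variable {N d : ℕ} {E P Om : Type} [Fintype E] [Fintype P] [Fintype Om] [NeZero N]

lemma card_Ty : Fintype.card (Ty N d) = N * d := by
  rw [Fintype.card_prod, ZMod.card, Fintype.card_fin]

private lemma card_lins_le_aux (c : Ty N d) : (lins c).card ≤ 3 := by
  unfold lins
  refine Finset.card_image_le.trans ?_
  simp

private lemma card_types_line_aux (u : Lin N) :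
    ((Finset.univ : Finset (Ty N d)).filter fun c => u ∈ lins c).card ≤ d := by
  have hinj : Set.InjOn (fun c : Ty N d => c.2)
      (((Finset.univ : Finset (Ty N d)).filter fun c => u ∈ lins c : Finset (Ty N d)) :
        Set (Ty N d)) := by
    intro c hc c' hc' h
    have hc1 := (Finset.mem_filter.1 (Finset.mem_coe.1 hc)).2
    have hc2 := (Finset.mem_filter.1 (Finset.mem_coe.1 hc')).2
    unfold lins at hc1 hc2
    obtain ⟨s, -, hs⟩ := Finset.mem_image.1 hc1
    obtain ⟨s', -, hs'⟩ := Finset.mem_image.1 hc2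
    unfold lin at hs hs'
    have e1 : s = s' := by
      have := congrArg Prod.fst (hs.trans hs'.symm)
      simpa using this
    subst e1
    have e2 : Combi.ln c s = Combi.ln c' s := by
      have := congrArg Prod.snd (hs.trans hs'.symm)
      simpa using this
    exact Combi.eq_of_share_of_dir e2 h
  rw [← Finset.card_image_of_injOn hinj]
  refine (Finset.card_le_univ _).trans ?_
  simp

/-- The number of pairs of types with a common line. -/
lemma card_share_le : ((Finset.univ.filter fun ab : Ty N d × Ty N d =>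
    ¬ Disjoint (lins ab.1) (lins ab.2)).card : ℝ) ≤ 3 * d * (N * d) := by
  have h1 : ∀ a : Ty N d, (Finset.univ.filter fun b : Ty N d =>
      ¬ Disjoint (lins a) (lins b)).card ≤ 3 * d := by
    intro a
    have hsub : (Finset.univ.filter fun b : Ty N d => ¬ Disjoint (lins a) (lins b))
        ⊆ (lins a).biUnion fun u => Finset.univ.filter fun c : Ty N d => u ∈ lins c := by
      intro b hb
      rw [Finset.mem_filter] at hb
      obtain ⟨u, hu1, hu2⟩ := Finset.not_disjoint_iff.1 hb.2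
      rw [Finset.mem_biUnion]
      exact ⟨u, hu1, Finset.mem_filter.2 ⟨Finset.mem_univ _, hu2⟩⟩
    refine (Finset.card_le_card hsub).trans (Finset.card_biUnion_le.trans ?_)
    refine (Finset.sum_le_sum fun u _ => card_types_line_aux u).trans ?_
    rw [Finset.sum_const, smul_eq_mul]
    exact Nat.mul_le_mul_right _ (card_lins_le_aux a)
  have h2 : (Finset.univ.filter fun ab : Ty N d × Ty N d =>
      ¬ Disjoint (lins ab.1) (lins ab.2)).card
      = ∑ a : Ty N d, (Finset.univ.filter fun b : Ty N d => ¬ Disjoint (lins a) (lins b)).card := by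
    simp only [Finset.card_filter]
    exact Fintype.sum_prod_type _
  have h3 : (Finset.univ.filter fun ab : Ty N d × Ty N d =>
      ¬ Disjoint (lins ab.1) (lins ab.2)).card ≤ (N * d) * (3 * d) := by
    rw [h2]
    refine (Finset.sum_le_sum fun a _ => h1 a).trans ?_
    rw [Finset.sum_const, Finset.card_univ, card_Ty, smul_eq_mul]
  have h4 : ((Finset.univ.filter fun ab : Ty N d × Ty N d =>
      ¬ Disjoint (lins ab.1) (lins ab.2)).card : ℝ) ≤ ((N * d) * (3 * d) : ℕ) := by
    exact_mod_cast h3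
  refine h4.trans (le_of_eq ?_)
  push_cast
  ring

/-- Sums do not depend on the finiteness instance. -/
lemma fin2_sum_inst {α : Type*} (i₁ i₂ : Fintype α) (f : α → ℝ) :
    @Finset.sum α ℝ _ (@Finset.univ α i₁) f = @Finset.sum α ℝ _ (@Finset.univ α i₂) f := by
  rw [Subsingleton.elim i₁ i₂]

/-- The cut inequality of a good design. -/
theorem cutIneq_of {fr : Frame N d E Om} {p : Lin N → Co E P Om → F} (h : Ext fr p) {ε : ℝ}
    (hC : EvC p d ε) : (dsg fr p h).CutIneq (1 / 10 + ε) := by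
  intro x x' hadj _
  have h1 := hC ((dsg fr p h).dif x x') (by
    rintro ⟨t, u, hu, hv⟩
    apply hadj
    refine ⟨Sum.inl (Sum.inl t), Finset.mem_image_of_mem _ (Finset.mem_univ _), u, hu, ?_⟩
    rw [hv]
    congr
    exact Subsingleton.elim _ _)
  rw [card_Ty]
  push_cast
  refine le_trans (le_of_eq ?_) h1
  congr

/-- **The overlap estimate of a good design.** -/
theorem overlapEst_of (hOv : Overlap) : ∃ c : ℕ, ∃ ε₁ > (0 : ℝ), ∀ (N d : ℕ) (E P Om : Type)
    [Fintype E] [Fintype P] [Fintype Om] [NeZero N] (fr : Frame N d E Om)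
    (p : Lin N → Co E P Om → F) (h : Ext fr p) (κ₀ : ℕ) (Λ Λ' M' ε ε₀ εJ : ℝ),
    12 ≤ κ₀ → (∀ w, 12 + (rowLines fr w).card ≤ κ₀) → Ev1 p κ₀ → 0 < d → EvJ fr εJ →
    0 ≤ ε₀ → ε₀ ≤ ε₁ → 2 * ε₀ + 192 / N + 64 * εJ ≤ 1 / 100 →
    400 * Λ ≤ Λ' → 3200 * ((N : ℝ) * d) ≤ M' →
    (∀ (a a' : Ty N d) (ι ι' : Bool), a ≠ a' → ∀ w, PLaw (dsg fr p h) a a' ι ι' Λ' M' w →
      ∀ ρ, TCoup 8 ρ → ∑ β, (if ε₀ < tdist (dsg fr p h) a a' w β then ρ β else 0) ≤ ε₀) →
    (dsg fr p h).OverlapEst Λ ε ((2521 : ℝ) ^ (4 * Fintype.card (Co E P Om) + c))⁻¹ := by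
  obtain ⟨c, ε₁, hε₁, H⟩ := hOv
  refine ⟨c, ε₁, hε₁, ?_⟩
  intro N d E P Om _ _ _ _ fr p h κ₀ Λ Λ' M' ε ε₀ εJ h12 hrow hEv1 hd hJ hε₀ hε₀1 hnum hΛ hM hTV
  have : Nonempty (Ty N d) := ⟨((0 : ZMod N), (⟨0, hd⟩ : Fin d))⟩
  have hN : (0 : ℝ) < N := by exact_mod_cast Nat.pos_of_ne_zero (NeZero.ne N)
  have hd' : (0 : ℝ) < d := by exact_mod_cast hd
  obtain ⟨R, hR⟩ : ∃ R : Ty N d → Ty N d → Prop, ∀ a b, R a b ↔
    (¬ Disjoint (lins a) (lins b) ∨ ¬ JointOnto fr a b) := ⟨_, fun _ _ => Iff.rfl⟩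
  have hcardR : ((Finset.univ.filter fun ab : Ty N d × Ty N d => R ab.1 ab.2).card : ℝ)
      ≤ (3 / N + εJ) * (Fintype.card (Ty N d) : ℝ) ^ 2 := by
    have e1 : (Finset.univ.filter fun ab : Ty N d × Ty N d => R ab.1 ab.2)
        ⊆ (Finset.univ.filter fun ab : Ty N d × Ty N d => ¬ Disjoint (lins ab.1) (lins ab.2))
        ∪ (Finset.univ.filter fun ab : Ty N d × Ty N d => ¬ JointOnto fr ab.1 ab.2) := by
      intro ab hab
      rw [Finset.mem_filter, hR] at hab
      rw [Finset.mem_union, Finset.mem_filter, Finset.mem_filter]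
      rcases hab.2 with h | h
      · exact Or.inl ⟨Finset.mem_univ _, h⟩
      · exact Or.inr ⟨Finset.mem_univ _, h⟩
    have e2 : ((Finset.univ.filter fun ab : Ty N d × Ty N d => R ab.1 ab.2).card : ℝ)
        ≤ ((Finset.univ.filter fun ab : Ty N d × Ty N d =>
          ¬ Disjoint (lins ab.1) (lins ab.2)).card : ℝ)
        + ((Finset.univ.filter fun ab : Ty N d × Ty N d => ¬ JointOnto fr ab.1 ab.2).card : ℝ) := by
      exact_mod_cast (Finset.card_le_card e1).trans (Finset.card_union_le _ _)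
    have e3 := card_share_le (N := N) (d := d)
    have e4 : ((Finset.univ.filter fun ab : Ty N d × Ty N d =>
        ¬ JointOnto fr ab.1 ab.2).card : ℝ) ≤ εJ * (N * d) ^ 2 := hJ
    refine (e2.trans (add_le_add e3 e4)).trans (le_of_eq ?_)
    rw [card_Ty]
    push_cast
    field_simp
  refine (dsg fr p h).overlapEst_gen (ε₀ := ε₀) (θ := 3 / N + εJ) (by positivity) hε₀ R ?_ ?_
    hcardR ?_
  · intro a a' ι ι' hne w hw ρ hρ
    refine hTV a a' ι ι' hne w (hw.mono hΛ (le_trans (le_of_eq ?_) hM)) ρ hρ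
    rw [Fintype.card_prod, card_Ty, Fintype.card_bool]
    push_cast
    ring
  · intro a a' b b' hab hbb n1 n2 n3 n4 ι₁ ι₁' ι₂ ι₂' w w' hw hw' t1 t2 c1 c2
    rw [hR, not_or, not_not, not_not] at n1 n2 n3 n4
    have hdisj : Disjoint (lins2 (a, a')) (lins2 (b, b')) := by
      unfold lins2
      rw [Finset.disjoint_union_left, Finset.disjoint_union_right, Finset.disjoint_union_right]
      exact ⟨⟨n1.1, n2.1⟩, n3.1, n4.1⟩
    have := H N d E P Om fr p h κ₀ h12 hrow hEv1 a a' b b' hab hbb hdisj n1.2 n2.2 n3.2 n4.2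
      ι₁ ι₁' ι₂ ι₂' _ _ w w' hw hw' (t1.trans hε₀1) (t2.trans hε₀1)
      (c1.trans (le_of_eq (fin2_sum_inst _ _ _))) (c2.trans (le_of_eq (fin2_sum_inst _ _ _)))
    refine this.trans (le_of_eq ?_)
    exact (fin2_sum_inst _ _ _).trans (Finset.sum_congr rfl fun m _ => fin2_sum_inst _ _ _)
  · have : 64 * (3 / (N : ℝ) + εJ) = 192 / N + 64 * εJ := by ring
    linarith only [this, hnum]

end Concrete

end Vale.Agent.P060.HW
end
end

section

/-!
# Biased functionals of a random design, and atoms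

Helper file for `P060` (disproof of Hadwiger's conjecture for independence number two).
`K` is a finite field, `ψ` a nontrivial additive character, `κ → K` a space of test vectors.
-/

open Finset

namespace Vale.Agent.P060.HW

section Hoeffding

theorem exp_mul_le_cosh_sinh {x : ℝ} (lam : ℝ) (h1 : -1 ≤ x) (h2 : x ≤ 1) :
    Real.exp (lam * x) ≤ Real.cosh lam + x * Real.sinh lam := by
  have hc := convexOn_exp.2 (Set.mem_univ lam) (Set.mem_univ (-lam))
    (show 0 ≤ (1 + x) / 2 by linarith) (show 0 ≤ (1 - x) / 2 by linarith) (by ring)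
  simp only [smul_eq_mul] at hc
  have e1 : (1 + x) / 2 * lam + (1 - x) / 2 * -lam = lam * x := by ring
  rw [e1] at hc
  rw [Real.cosh_eq, Real.sinh_eq]
  linarith only [hc]

variable {K : Type*} [Field K] [Fintype K] [DecidableEq K]

theorem re_psi_le (ψ : AddChar K ℂ) (t : K) : (ψ t).re ≤ 1 := by
  have h := AddChar.norm_apply ψ t
  have := Complex.abs_re_le_norm (ψ t)
  rw [h] at this
  exact (abs_le.1 this).2

theorem neg_one_le_re_psi (ψ : AddChar K ℂ) (t : K) : -1 ≤ (ψ t).re := by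
  have h := AddChar.norm_apply ψ t
  have := Complex.abs_re_le_norm (ψ t)
  rw [h] at this
  exact (abs_le.1 this).1

theorem sum_re_psi {ψ : AddChar K ℂ} (hψ : ψ ≠ 0) : ∑ t : K, (ψ t).re = 0 := by
  have h : ∑ t : K, ψ t = 0 := AddChar.sum_eq_zero_iff_ne_zero.2 hψ
  have := congrArg Complex.re h
  simpa using this

/-- Hoeffding's lemma for a nontrivial additive character. -/
theorem sum_exp_psi_le {ψ : AddChar K ℂ} (hψ : ψ ≠ 0) (lam : ℝ) :
    ∑ t : K, Real.exp (lam * (ψ t).re) ≤ (Fintype.card K : ℝ) * Real.exp (lam ^ 2 / 2) := by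
  have h1 : ∑ t : K, Real.exp (lam * (ψ t).re) ≤
      ∑ t : K, (Real.cosh lam + (ψ t).re * Real.sinh lam) :=
    Finset.sum_le_sum fun t _ =>
      exp_mul_le_cosh_sinh lam (neg_one_le_re_psi ψ t) (re_psi_le ψ t)
  have h2 : ∑ t : K, (Real.cosh lam + (ψ t).re * Real.sinh lam) =
      (Fintype.card K : ℝ) * Real.cosh lam := by
    rw [Finset.sum_add_distrib, ← Finset.sum_mul, sum_re_psi hψ]
    simp
  rw [h2] at h1
  refine h1.trans (mul_le_mul_of_nonneg_left ?_ (by positivity))
  have := Real.cosh_le_exp_half_sq lam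
  simpa using this

end Hoeffding

section Fibres

/-- Sums of a function pulled back by a surjective homomorphism of finite groups. -/
theorem card_mul_sum_comp {U W : Type*} [AddCommGroup U] [Fintype U] [AddCommGroup W] [Fintype W]
    [DecidableEq W] (f : U →+ W) (hf : Function.Surjective f) (φ : W → ℝ) :
    (Fintype.card W : ℝ) * ∑ u : U, φ (f u) = (Fintype.card U : ℝ) * ∑ w : W, φ w := by
  classical
  set c : ℕ := #{u : U | f u = 0} with hc
  have hfib : ∀ w : W, #{u : U | f u = w} = c := fun w =>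
    AddMonoidHom.card_fiber_eq_of_mem_range f (hf w) (hf 0)
  have h1 : ∑ u : U, φ (f u) = (c : ℝ) * ∑ w : W, φ w := by
    rw [← Finset.sum_fiberwise_of_maps_to (s := (Finset.univ : Finset U))
      (t := (Finset.univ : Finset W)) (g := f) (fun _ _ => Finset.mem_univ _)]
    rw [Finset.mul_sum]
    refine Finset.sum_congr rfl fun w _ => ?_
    rw [Finset.sum_congr rfl (g := fun _ => φ w)]
    · rw [Finset.sum_const, hfib w, nsmul_eq_mul]
    · intro u hu
      rw [(Finset.mem_filter.1 hu).2]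
  have h2 : (Fintype.card U : ℝ) = (c : ℝ) * (Fintype.card W : ℝ) := by
    have := Finset.card_eq_sum_card_fiberwise (f := f) (s := (Finset.univ : Finset U))
      (t := (Finset.univ : Finset W)) (fun _ _ => Finset.mem_univ _)
    have h3 : Fintype.card U = ∑ w : W, c := by
      rw [← Finset.card_univ, this]
      exact Finset.sum_congr rfl fun w _ => hfib w
    rw [h3]
    simp [mul_comm]
  rw [h1, h2]
  ring

end Fibres

section Count

variable {K : Type*} [Field K] [Fintype K] [DecidableEq K]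
variable {κ : Type*} [Fintype κ] [DecidableEq κ]

/-- Linearly independent vectors give a surjective evaluation map. -/
theorem dot_surjective {n : ℕ} {z : Fin n → κ → K} (hz : LinearIndependent K z) :
    Function.Surjective (fun (u : κ → K) (l : Fin n) => z l ⬝ᵥ u) := by
  classical
  let Z : (κ → K) →ₗ[K] (Fin n → K) := (Matrix.of z).mulVecLin
  have hZ : ∀ u l, Z u l = z l ⬝ᵥ u := by
    intro u l
    rfl
  have hrange : LinearMap.range Z = ⊤ := by
    by_contra hne
    obtain ⟨f, hf0, hf⟩ := Submodule.exists_le_ker_of_lt_top _ (lt_top_iff_ne_top.2 hne)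
    apply hf0
    have hfr : ∀ t : Fin n → K, f t = ∑ l, t l * f (Pi.single l 1) := by
      intro t
      conv_lhs => rw [pi_eq_sum_univ' t]
      simp [map_sum]
    have hzero : ∑ l, f (Pi.single l 1) • z l = 0 := by
      funext i
      have h1 : f (Z (Pi.single i 1)) = 0 := by
        have := hf (LinearMap.mem_range_self Z (Pi.single i 1))
        simpa using this
      rw [hfr] at h1
      simp only [hZ, dotProduct_single, mul_one] at h1
      simp only [Finset.sum_apply, Pi.smul_apply, smul_eq_mul, Pi.zero_apply]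
      rw [← h1]
      exact Finset.sum_congr rfl fun l _ => mul_comm _ _
    have hc := (Fintype.linearIndependent_iff.1 hz) _ hzero
    apply LinearMap.ext
    intro t
    rw [hfr t]
    simp [hc]
  intro t
  obtain ⟨u, hu⟩ := (LinearMap.range_eq_top.1 hrange) t
  exact ⟨u, by rw [← hu]; rfl⟩

/-- The exponential moment of one random test vector. -/
theorem sum_exp_dot_le {ψ : AddChar K ℂ} (hψ : ψ ≠ 0) {n : ℕ} {z : Fin n → κ → K}
    (hz : LinearIndependent K z) (lam : ℝ) :
    ∑ u : κ → K, Real.exp (lam * ∑ l, (ψ (z l ⬝ᵥ u)).re) ≤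
      (Fintype.card (κ → K) : ℝ) * Real.exp (lam ^ 2 / 2 * n) := by
  classical
  let Z : (κ → K) →+ (Fin n → K) := ((Matrix.of z).mulVecLin).toAddMonoidHom
  have hsurj : Function.Surjective Z := dot_surjective hz
  have key := card_mul_sum_comp Z hsurj
    (fun t : Fin n → K => Real.exp (lam * ∑ l, (ψ (t l)).re))
  have hpt : ∀ t : Fin n → K, Real.exp (lam * ∑ l, (ψ (t l)).re) =
      ∏ l, Real.exp (lam * (ψ (t l)).re) := by
    intro t
    rw [Finset.mul_sum, Real.exp_sum]
  have hprod : ∑ t : Fin n → K, Real.exp (lam * ∑ l, (ψ (t l)).re) =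
      (∑ t : K, Real.exp (lam * (ψ t).re)) ^ n := by
    simp_rw [hpt]
    rw [← Fintype.piFinset_univ, Finset.sum_prod_piFinset (Finset.univ : Finset K)
      (fun (_ : Fin n) t => Real.exp (lam * (ψ t).re))]
    simp
  have hle : (∑ t : K, Real.exp (lam * (ψ t).re)) ^ n ≤
      (Fintype.card (Fin n → K) : ℝ) * Real.exp (lam ^ 2 / 2 * n) := by
    have := pow_le_pow_left₀ (Finset.sum_nonneg fun t _ => (Real.exp_pos _).le)
      (sum_exp_psi_le hψ lam) n
    refine this.trans (le_of_eq ?_)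
    rw [mul_pow, ← Real.exp_nat_mul]
    simp [mul_comm]
  rw [hprod] at key
  have hW : (0 : ℝ) < (Fintype.card (Fin n → K) : ℝ) := by
    exact_mod_cast Fintype.card_pos
  have hU : (0 : ℝ) ≤ (Fintype.card (κ → K) : ℝ) := by positivity
  have h3 : (Fintype.card (Fin n → K) : ℝ) *
      ∑ u : κ → K, Real.exp (lam * ∑ l, (ψ (Z u l)).re) ≤
      (Fintype.card (Fin n → K) : ℝ) *
        ((Fintype.card (κ → K) : ℝ) * Real.exp (lam ^ 2 / 2 * n)) := by
    rw [key]
    calc (Fintype.card (κ → K) : ℝ) * (∑ t : K, Real.exp (lam * (ψ t).re)) ^ n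
        ≤ (Fintype.card (κ → K) : ℝ) *
          ((Fintype.card (Fin n → K) : ℝ) * Real.exp (lam ^ 2 / 2 * n)) :=
          mul_le_mul_of_nonneg_left hle hU
      _ = _ := by ring
  exact le_of_mul_le_mul_left h3 hW

/-- `z` is `eta`-biased for the tests `G`. -/
def BiasedAt (ψ : AddChar K ℂ) (eta : ℝ) {m : ℕ} (G : Fin m → κ → K) (z : κ → K) : Prop :=
  eta * m ≤ ∑ s, (ψ (z ⬝ᵥ G s)).re

open Classical in
/-- (1) The number of test families for which `n` given independent vectors are all biased. -/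
theorem card_biased_le {ψ : AddChar K ℂ} (hψ : ψ ≠ 0) {n m : ℕ} {z : Fin n → κ → K}
    (hz : LinearIndependent K z) {eta : ℝ} (heta : 0 ≤ eta) :
    (#{G : Fin m → κ → K | ∀ l, BiasedAt ψ eta G (z l)} : ℝ) ≤
      (Fintype.card (Fin m → κ → K) : ℝ) * Real.exp (-(eta ^ 2 * m * n / 2)) := by
  have hsum : ∑ G : Fin m → κ → K, Real.exp (eta * ∑ l, ∑ s, (ψ (z l ⬝ᵥ G s)).re) ≤
      (Fintype.card (Fin m → κ → K) : ℝ) * Real.exp (eta ^ 2 / 2 * n * m) := by
    have hpt : ∀ G : Fin m → κ → K, Real.exp (eta * ∑ l, ∑ s, (ψ (z l ⬝ᵥ G s)).re) =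
        ∏ s, Real.exp (eta * ∑ l, (ψ (z l ⬝ᵥ G s)).re) := by
      intro G
      rw [Finset.sum_comm, Finset.mul_sum, Real.exp_sum]
    simp_rw [hpt]
    rw [← Fintype.piFinset_univ, Finset.sum_prod_piFinset (Finset.univ : Finset (κ → K))
      (fun (_ : Fin m) u => Real.exp (eta * ∑ l, (ψ (z l ⬝ᵥ u)).re))]
    have := pow_le_pow_left₀ (Finset.sum_nonneg fun t _ => (Real.exp_pos _).le)
      (sum_exp_dot_le hψ hz eta) m
    simp only [Finset.prod_const, Finset.card_univ, Fintype.card_fin]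
    refine this.trans (le_of_eq ?_)
    rw [mul_pow, ← Real.exp_nat_mul]
    congr 1
    · simp
    · ring_nf
  have hmark : (#{G : Fin m → κ → K | ∀ l, BiasedAt ψ eta G (z l)} : ℝ) *
      Real.exp (eta ^ 2 * m * n) ≤
      ∑ G : Fin m → κ → K, Real.exp (eta * ∑ l, ∑ s, (ψ (z l ⬝ᵥ G s)).re) := by
    rw [← nsmul_eq_mul, ← Finset.sum_const]
    refine (Finset.sum_le_sum (fun G hG => ?_)).trans
      (Finset.sum_le_sum_of_subset_of_nonneg (Finset.subset_univ _)
        fun _ _ _ => (Real.exp_pos _).le)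
    have hG' := (Finset.mem_filter.1 hG).2
    apply Real.exp_le_exp.2
    have : ∑ _l : Fin n, eta * (m : ℝ) ≤ ∑ l, ∑ s, (ψ (z l ⬝ᵥ G s)).re :=
      Finset.sum_le_sum fun l _ => hG' l
    simp only [Finset.sum_const, Finset.card_univ, Fintype.card_fin, nsmul_eq_mul] at this
    have := mul_le_mul_of_nonneg_left this heta
    linarith only [this]
  have h := hmark.trans hsum
  rw [← le_div_iff₀ (Real.exp_pos _)] at h
  refine h.trans (le_of_eq ?_)
  rw [mul_div_assoc, ← Real.exp_sub]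
  ring_nf

open Classical in
/-- (2) Union bound over a finite family of surjective linear maps from the design space to the
families of tests and over all independent tuples. -/
theorem card_design_le {ψ : AddChar K ℂ} (hψ : ψ ≠ 0) {n m : ℕ}
    {P : Type*} [AddCommGroup P] [Fintype P]
    {Λ : Type*} [Fintype Λ] (L : Λ → P →+ (Fin m → κ → K))
    (hL : ∀ a, Function.Surjective (L a)) {eta : ℝ} (heta : 0 ≤ eta) :
    (#{p : P | ∃ a, ∃ z : Fin n → κ → K, LinearIndependent K z ∧
        ∀ l, BiasedAt ψ eta (L a p) (z l)} : ℝ) ≤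
      (Fintype.card P : ℝ) * Fintype.card Λ * (Fintype.card (κ → K) : ℝ) ^ n *
        Real.exp (-(eta ^ 2 * m * n / 2)) := by
  have h1 : (#{p : P | ∃ a, ∃ z : Fin n → κ → K, LinearIndependent K z ∧
        ∀ l, BiasedAt ψ eta (L a p) (z l)} : ℝ) ≤
      ∑ x : Λ × (Fin n → κ → K), (#{p : P | LinearIndependent K x.2 ∧
        ∀ l, BiasedAt ψ eta (L x.1 p) (x.2 l)} : ℝ) := by
    have : ({p : P | ∃ a, ∃ z : Fin n → κ → K, LinearIndependent K z ∧
        ∀ l, BiasedAt ψ eta (L a p) (z l)} : Finset P) ⊆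
        (Finset.univ : Finset (Λ × (Fin n → κ → K))).biUnion fun x =>
          {p : P | LinearIndependent K x.2 ∧ ∀ l, BiasedAt ψ eta (L x.1 p) (x.2 l)} := by
      intro p hp
      obtain ⟨a, z, hz, hb⟩ := (Finset.mem_filter.1 hp).2
      exact Finset.mem_biUnion.2 ⟨(a, z), Finset.mem_univ _,
        Finset.mem_filter.2 ⟨Finset.mem_univ _, hz, hb⟩⟩
    exact_mod_cast (Finset.card_le_card this).trans Finset.card_biUnion_le
  refine h1.trans ?_
  have h2 : ∀ x : Λ × (Fin n → κ → K), (#{p : P | LinearIndependent K x.2 ∧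
        ∀ l, BiasedAt ψ eta (L x.1 p) (x.2 l)} : ℝ) ≤
      (Fintype.card P : ℝ) * Real.exp (-(eta ^ 2 * m * n / 2)) := by
    rintro ⟨a, z⟩
    by_cases hz : LinearIndependent K z
    · have key := card_mul_sum_comp (L a) (hL a)
        (fun G => if ∀ l, BiasedAt ψ eta G (z l) then (1 : ℝ) else 0)
      have e1 : ∑ u : P, (if ∀ l, BiasedAt ψ eta (L a u) (z l) then (1 : ℝ) else 0) =
          (#{p : P | ∀ l, BiasedAt ψ eta (L a p) (z l)} : ℝ) := by
        rw [Finset.sum_boole]
      have e2 : ∑ G : Fin m → κ → K, (if ∀ l, BiasedAt ψ eta G (z l) then (1 : ℝ) else 0) =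
          (#{G : Fin m → κ → K | ∀ l, BiasedAt ψ eta G (z l)} : ℝ) := by
        rw [Finset.sum_boole]
      simp only [e1, e2] at key
      have hW : (0 : ℝ) < (Fintype.card (Fin m → κ → K) : ℝ) := by
        exact_mod_cast Fintype.card_pos
      have hb := card_biased_le hψ (m := m) hz heta
      have h3 : (Fintype.card (Fin m → κ → K) : ℝ) *
          (#{p : P | ∀ l, BiasedAt ψ eta (L a p) (z l)} : ℝ) ≤
          (Fintype.card (Fin m → κ → K) : ℝ) *
            ((Fintype.card P : ℝ) * Real.exp (-(eta ^ 2 * m * n / 2))) := by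
        rw [key]
        calc _ ≤ (Fintype.card P : ℝ) * ((Fintype.card (Fin m → κ → K) : ℝ) *
              Real.exp (-(eta ^ 2 * m * n / 2))) :=
              mul_le_mul_of_nonneg_left hb (by positivity)
          _ = _ := by ring
      have h4 := le_of_mul_le_mul_left h3 hW
      simpa [hz] using h4
    · simp only [hz, false_and]
      simp only [Finset.filter_false, Finset.card_empty, Nat.cast_zero]
      positivity
  refine (Finset.sum_le_sum fun x _ => h2 x).trans (le_of_eq ?_)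
  simp only [Finset.sum_const, Finset.card_univ, Fintype.card_prod, nsmul_eq_mul]
  simp only [Fintype.card_fun, Fintype.card_fin]
  push_cast
  ring


end Count

section Atom

variable {K : Type*} [Field K] [Fintype K] [DecidableEq K]
variable {κ : Type*} [Fintype κ] [DecidableEq κ]

open Classical in
/-- If `S` contains no `n` linearly independent vectors then `|S| ≤ |K|^n`. -/
theorem card_le_of_no_indep {n : ℕ} (S : Set (κ → K))
    (hS : ¬ ∃ z : Fin n → κ → K, LinearIndependent K z ∧ ∀ l, z l ∈ S) :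
    (#{z : κ → K | z ∈ S} : ℝ) ≤ (Fintype.card K : ℝ) ^ n := by
  have hlt : Module.finrank K (Submodule.span K S) < n := by
    by_contra hge
    push Not at hge
    obtain ⟨b, hbS, hspan, hb⟩ := exists_linearIndependent K S
    have hfin : Finite b := Set.Finite.subset (Set.toFinite (Set.univ : Set (κ → K)))
      (Set.subset_univ b)
    let _ : Fintype b := Fintype.ofFinite b
    have hcard : Fintype.card b = Module.finrank K (Submodule.span K S) := by
      rw [← hspan]
      have := finrank_span_eq_card hb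
      rw [Subtype.range_coe] at this
      exact this.symm
    have hn : n ≤ Fintype.card b := by rw [hcard]; exact hge
    obtain ⟨e⟩ : Nonempty (Fin n ↪ b) := by
      rw [Function.Embedding.nonempty_iff_card_le]
      simpa using hn
    apply hS
    refine ⟨fun l => (e l : κ → K), hb.comp e e.injective, fun l => hbS (e l).2⟩
  have h1 : #{z : κ → K | z ∈ S} ≤ Fintype.card (Submodule.span K S) := by
    rw [← Fintype.card_subtype]
    exact Fintype.card_le_of_injective
      (fun z => (⟨z.1, Submodule.subset_span z.2⟩ : Submodule.span K S))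
      (fun a b h => Subtype.ext (by simpa using congrArg Subtype.val h))
  have h2 : Fintype.card (Submodule.span K S) =
      Fintype.card K ^ Module.finrank K (Submodule.span K S) := Module.card_eq_pow_finrank
  have h3 : #{z : κ → K | z ∈ S} ≤ Fintype.card K ^ n := by
    rw [h2] at h1
    exact h1.trans (Nat.pow_le_pow_right Fintype.card_pos hlt.le)
  exact_mod_cast h3

/-- (3) ATOM LEMMA.  A random vector `y` (law `P`) for which all tests of a good family are
biased has an atom of size at least `(η²/2) / |K|^n`. -/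
theorem exists_atom {ψ : AddChar K ℂ} {n m : ℕ} (hm : 0 < m) {G : Fin m → κ → K}
    {eta : ℝ}
    (hgood : ¬ ∃ z : Fin n → κ → K, LinearIndependent K z ∧
      ∀ l, BiasedAt ψ (eta ^ 2 / 2) G (z l))
    {P : (κ → K) → ℝ} (hP : ∀ y, 0 ≤ P y) (hP1 : ∑ y, P y = 1) (heta : 0 < eta)
    (hbias : ∀ s, eta ≤ ‖∑ y, (P y : ℂ) * ψ (y ⬝ᵥ G s)‖) :
    ∃ y, eta ^ 2 / 2 / (Fintype.card K : ℝ) ^ n ≤ P y := by
  classical
  set R : (κ → K) → ℝ := fun z => ∑ y, P (y + z) * P y with hR
  have hR0 : ∀ z, 0 ≤ R z := fun z => Finset.sum_nonneg fun y _ => mul_nonneg (hP _) (hP _)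
  have hR1 : ∑ z, R z = 1 := by
    simp only [hR]
    rw [Finset.sum_comm]
    have : ∀ y, ∑ z, P (y + z) * P y = P y := by
      intro y
      rw [← Finset.sum_mul, Fintype.sum_equiv (Equiv.addLeft y) (fun z => P (y + z)) P
        (fun z => rfl), hP1, one_mul]
    rw [Finset.sum_congr rfl fun y _ => this y, hP1]
  have hRψ : ∀ s, ∑ z, R z * (ψ (z ⬝ᵥ G s)).re = ‖∑ y, (P y : ℂ) * ψ (y ⬝ᵥ G s)‖ ^ 2 := by
    intro s
    set E : ℂ := ∑ y, (P y : ℂ) * ψ (y ⬝ᵥ G s) with hE
    have h1 : ∑ z, (R z : ℂ) * ψ (z ⬝ᵥ G s) = E * (starRingEnd ℂ) E := by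
      have h2 : ∀ z, (R z : ℂ) * ψ (z ⬝ᵥ G s) =
          ∑ y, ((P (y + z) : ℂ) * ψ ((y + z) ⬝ᵥ G s)) *
            (starRingEnd ℂ) ((P y : ℂ) * ψ (y ⬝ᵥ G s)) := by
        intro z
        simp only [hR]
        push_cast
        rw [Finset.sum_mul]
        refine Finset.sum_congr rfl fun y _ => ?_
        rw [map_mul, Complex.conj_ofReal, add_dotProduct, AddChar.map_add_eq_mul]
        have hu : ψ (y ⬝ᵥ G s) * (starRingEnd ℂ) (ψ (y ⬝ᵥ G s)) = 1 := by
          rw [Complex.mul_conj, Complex.normSq_eq_norm_sq, AddChar.norm_apply]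
          simp
        linear_combination (-(P (y + z) : ℂ) * (P y : ℂ) * ψ (z ⬝ᵥ G s)) * hu
      rw [Finset.sum_congr rfl fun z _ => h2 z, Finset.sum_comm]
      have h3 : ∀ y, ∑ z, ((P (y + z) : ℂ) * ψ ((y + z) ⬝ᵥ G s)) *
            (starRingEnd ℂ) ((P y : ℂ) * ψ (y ⬝ᵥ G s)) =
          E * (starRingEnd ℂ) ((P y : ℂ) * ψ (y ⬝ᵥ G s)) := by
        intro y
        rw [← Finset.sum_mul, Fintype.sum_equiv (Equiv.addLeft y)
          (fun z => (P (y + z) : ℂ) * ψ ((y + z) ⬝ᵥ G s))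
          (fun z => (P z : ℂ) * ψ (z ⬝ᵥ G s)) (fun z => rfl)]
      rw [Finset.sum_congr rfl fun y _ => h3 y, ← Finset.mul_sum, ← map_sum]
    have h4 : ∑ z, R z * (ψ (z ⬝ᵥ G s)).re = (∑ z, (R z : ℂ) * ψ (z ⬝ᵥ G s)).re := by
      rw [Complex.re_sum]
      exact Finset.sum_congr rfl fun z _ => by rw [Complex.re_ofReal_mul]
    rw [h4, h1, Complex.mul_conj, Complex.ofReal_re, Complex.normSq_eq_norm_sq]
  set S : Set (κ → K) := {z | BiasedAt ψ (eta ^ 2 / 2) G z} with hSdef
  have hScard := card_le_of_no_indep (n := n) S hgood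
  have hmR : (0 : ℝ) < m := by exact_mod_cast hm
  -- mass of `S` under `R`
  have hmass : eta ^ 2 / 2 ≤ ∑ z ∈ ({z : κ → K | z ∈ S} : Finset (κ → K)), R z := by
    have hlow : eta ^ 2 * m ≤ ∑ z, R z * ∑ s, (ψ (z ⬝ᵥ G s)).re := by
      have : ∑ z, R z * ∑ s, (ψ (z ⬝ᵥ G s)).re = ∑ s, ∑ z, R z * (ψ (z ⬝ᵥ G s)).re := by
        rw [Finset.sum_comm]
        exact Finset.sum_congr rfl fun z _ => Finset.mul_sum _ _ _
      rw [this]
      have h5 : ∑ _s : Fin m, eta ^ 2 ≤ ∑ s : Fin m, ∑ z, R z * (ψ (z ⬝ᵥ G s)).re := by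
        refine Finset.sum_le_sum fun s _ => ?_
        rw [hRψ s]
        exact pow_le_pow_left₀ heta.le (hbias s) 2
      simp only [Finset.sum_const, Finset.card_univ, Fintype.card_fin, nsmul_eq_mul] at h5
      linarith
    have hup : ∑ z, R z * ∑ s, (ψ (z ⬝ᵥ G s)).re ≤
        (∑ z ∈ ({z : κ → K | z ∈ S} : Finset (κ → K)), R z) * m + eta ^ 2 / 2 * m := by
      have h6 : ∀ z, R z * ∑ s, (ψ (z ⬝ᵥ G s)).re ≤
          (if z ∈ S then R z else 0) * m + R z * (eta ^ 2 / 2 * m) := by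
        intro z
        by_cases hz : z ∈ S
        · rw [if_pos hz]
          have : ∑ s, (ψ (z ⬝ᵥ G s)).re ≤ m := by
            have : ∑ s, (ψ (z ⬝ᵥ G s)).re ≤ ∑ _s : Fin m, (1 : ℝ) :=
              Finset.sum_le_sum fun s _ => re_psi_le ψ _
            simpa using this
          have h7 := mul_le_mul_of_nonneg_left this (hR0 z)
          have h8 : 0 ≤ R z * (eta ^ 2 / 2 * m) :=
            mul_nonneg (hR0 z) (by positivity)
          linarith only [h8, h7]
        · rw [if_neg hz]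
          have : ∑ s, (ψ (z ⬝ᵥ G s)).re ≤ eta ^ 2 / 2 * m := by
            have := hz
            simp only [hSdef, Set.mem_ofPred_eq, BiasedAt, not_le] at this
            exact this.le
          have h7 := mul_le_mul_of_nonneg_left this (hR0 z)
          linarith only [h7]
      refine (Finset.sum_le_sum fun z _ => h6 z).trans (le_of_eq ?_)
      rw [Finset.sum_add_distrib, ← Finset.sum_mul, ← Finset.sum_mul, hR1, one_mul,
        Finset.sum_filter]
    have h9 := hlow.trans hup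
    have h10 : eta ^ 2 / 2 * m ≤
        (∑ z ∈ ({z : κ → K | z ∈ S} : Finset (κ → K)), R z) * m := by linarith only [h9]
    exact le_of_mul_le_mul_right h10 hmR
  by_contra hno
  push Not at hno
  have hKpos : (0 : ℝ) < (Fintype.card K : ℝ) ^ n := by
    have : (0 : ℝ) < (Fintype.card K : ℝ) := by exact_mod_cast Fintype.card_pos
    positivity
  set a : ℝ := eta ^ 2 / 2 / (Fintype.card K : ℝ) ^ n with ha
  have ha0 : 0 < a := by positivity
  have hRlt : ∀ z, R z < a := by
    intro z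
    have h11 : R z ≤ ∑ y, P (y + z) * P y := le_rfl
    obtain ⟨y0, hy0⟩ : ∃ y0, ∀ y, P y ≤ P y0 := by
      obtain ⟨y0, -, h⟩ := Finset.exists_max_image (Finset.univ : Finset (κ → K)) P
        ⟨0, Finset.mem_univ _⟩
      exact ⟨y0, fun y => h y (Finset.mem_univ _)⟩
    have h12 : R z ≤ P y0 := by
      calc R z = ∑ y, P (y + z) * P y := rfl
        _ ≤ ∑ y, P y0 * P y := Finset.sum_le_sum fun y _ =>
            mul_le_mul_of_nonneg_right (hy0 _) (hP y)
        _ = P y0 := by rw [← Finset.mul_sum, hP1, mul_one]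
    exact h12.trans_lt (hno y0)
  have hsum : ∑ z ∈ ({z : κ → K | z ∈ S} : Finset (κ → K)), R z < eta ^ 2 / 2 := by
    rcases Finset.eq_empty_or_nonempty ({z : κ → K | z ∈ S} : Finset (κ → K)) with he | hne
    · rw [he, Finset.sum_empty]
      positivity
    · calc ∑ z ∈ ({z : κ → K | z ∈ S} : Finset (κ → K)), R z
          < ∑ _z ∈ ({z : κ → K | z ∈ S} : Finset (κ → K)), a :=
            Finset.sum_lt_sum_of_nonempty hne fun z _ => hRlt z
        _ = (#{z : κ → K | z ∈ S} : ℝ) * a := by rw [Finset.sum_const, nsmul_eq_mul]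
        _ ≤ (Fintype.card K : ℝ) ^ n * a := mul_le_mul_of_nonneg_right hScard ha0.le
        _ = eta ^ 2 / 2 := by rw [ha]; field_simp
  exact absurd hmass (not_le.2 hsum)

end Atom

section Lines

variable {K : Type*} [Field K] [Fintype K] [DecidableEq K]
variable {ι : Type*} [Fintype ι] [DecidableEq ι]

/-- A list of `m` pairs of types `b = (q s 0, q s 1)`, `b' = (q s 2, q s 3)` in which the `2m`
lines `q s 0`, `q s 2` are distinct and none of them is some `q t 1` or `q t 3`.
(Satisfied by line-disjoint quadruples, and by pairs `b, b'` sharing the line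
`q s 1 = q s 3`.) -/
def FreshQ {m : ℕ} (q : Fin m → Fin 4 → ι) : Prop :=
  (∀ s t, q s 0 = q t 0 → s = t) ∧ (∀ s t, q s 2 = q t 2 → s = t) ∧
  (∀ s t, q s 0 ≠ q t 2) ∧ (∀ s t, q s 1 ≠ q t 0 ∧ q s 1 ≠ q t 2) ∧
  (∀ s t, q s 3 ≠ q t 0 ∧ q s 3 ≠ q t 2)

/-- The tests `(p_i + p_j, p_i' + p_j')` of a list of pairs of types. -/
def tests {k m : ℕ} (q : Fin m → Fin 4 → ι) :
    (ι → Fin k → K) →+ (Fin m → (Fin k ⊕ Fin k) → K) where
  toFun p s := Sum.elim (p (q s 0) + p (q s 1)) (p (q s 2) + p (q s 3))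
  map_zero' := by
    funext s x
    cases x <;> simp
  map_add' p p' := by
    funext s x
    cases x <;> simp <;> ring

theorem tests_surjective {k m : ℕ} {q : Fin m → Fin 4 → ι} (hq : FreshQ q) :
    Function.Surjective (tests (K := K) (k := k) q) := by
  classical
  obtain ⟨h0, h2, h02, h1, h3⟩ := hq
  intro T
  refine ⟨fun i => if h : ∃ s, q s 0 = i then fun x => T h.choose (Sum.inl x)
    else if h' : ∃ s, q s 2 = i then fun x => T h'.choose (Sum.inr x) else 0, ?_⟩
  funext s x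
  have e0 : ∀ h : (∃ t, q t 0 = q s 0), h.choose = s := fun h => h0 _ _ h.choose_spec
  have e2 : ∀ h : (∃ t, q t 2 = q s 2), h.choose = s := fun h => h2 _ _ h.choose_spec
  have n20 : ¬ ∃ t, q t 0 = q s 2 := by
    rintro ⟨t, ht⟩
    exact h02 _ _ ht
  have n10 : ¬ ∃ t, q t 0 = q s 1 := by
    rintro ⟨t, ht⟩
    exact (h1 _ _).1 ht.symm
  have n12 : ¬ ∃ t, q t 2 = q s 1 := by
    rintro ⟨t, ht⟩
    exact (h1 _ _).2 ht.symm
  have n30 : ¬ ∃ t, q t 0 = q s 3 := by
    rintro ⟨t, ht⟩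
    exact (h3 _ _).1 ht.symm
  have n32 : ¬ ∃ t, q t 2 = q s 3 := by
    rintro ⟨t, ht⟩
    exact (h3 _ _).2 ht.symm
  have p0 : ∃ t, q t 0 = q s 0 := ⟨s, rfl⟩
  have p2 : ∃ t, q t 2 = q s 2 := ⟨s, rfl⟩
  cases x with
  | inl x =>
    simp only [tests, AddMonoidHom.coe_mk, ZeroHom.coe_mk, Sum.elim_inl, Pi.add_apply]
    rw [dif_pos p0, dif_neg n10, dif_neg n12, e0 p0]
    simp
  | inr x =>
    simp only [tests, AddMonoidHom.coe_mk, ZeroHom.coe_mk, Sum.elim_inr, Pi.add_apply]
    rw [dif_neg n20, dif_pos p2, dif_neg n30, dif_neg n32, e2 p2]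
    simp

open Classical in
/-- (2') Union bound for lines: the number of line systems `p : ι → K^k` for which some fresh list
of `m` pairs of types has `n` independent `eta`-biased vectors. -/
theorem card_lines_le {ψ : AddChar K ℂ} (hψ : ψ ≠ 0) (k n m : ℕ) {eta : ℝ} (heta : 0 ≤ eta) :
    (#{p : ι → Fin k → K | ∃ q : Fin m → Fin 4 → ι, FreshQ q ∧
        ∃ z : Fin n → (Fin k ⊕ Fin k) → K, LinearIndependent K z ∧
        ∀ l, BiasedAt ψ eta (tests q p) (z l)} : ℝ) ≤
      (Fintype.card (ι → Fin k → K) : ℝ) * ((Fintype.card ι : ℝ) ^ (4 * m) *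
        (Fintype.card K : ℝ) ^ (2 * k * n) * Real.exp (-(eta ^ 2 * m * n / 2))) := by
  have key := card_design_le (κ := Fin k ⊕ Fin k) (n := n) (m := m) hψ
    (Λ := {q : Fin m → Fin 4 → ι // FreshQ q}) (fun a => tests (K := K) (k := k) a.1)
    (fun a => tests_surjective a.2) heta
  have hset : ({p : ι → Fin k → K | ∃ q : Fin m → Fin 4 → ι, FreshQ q ∧
        ∃ z : Fin n → (Fin k ⊕ Fin k) → K, LinearIndependent K z ∧
        ∀ l, BiasedAt ψ eta (tests q p) (z l)} : Finset (ι → Fin k → K)) =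
      ({p : ι → Fin k → K | ∃ a : {q : Fin m → Fin 4 → ι // FreshQ q},
        ∃ z : Fin n → (Fin k ⊕ Fin k) → K, LinearIndependent K z ∧
        ∀ l, BiasedAt ψ eta (tests a.1 p) (z l)} : Finset (ι → Fin k → K)) := by
    ext p
    simp only [Finset.mem_filter, Finset.mem_univ, true_and, Subtype.exists, exists_prop]
  rw [hset]
  refine key.trans ?_
  have hΛ : (Fintype.card {q : Fin m → Fin 4 → ι // FreshQ q} : ℝ) ≤
      (Fintype.card ι : ℝ) ^ (4 * m) := by
    have : Fintype.card {q : Fin m → Fin 4 → ι // FreshQ q} ≤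
        Fintype.card (Fin m → Fin 4 → ι) := Fintype.card_subtype_le _
    have h2 : Fintype.card (Fin m → Fin 4 → ι) = Fintype.card ι ^ (4 * m) := by
      simp [Fintype.card_fun, ← pow_mul]
    rw [h2] at this
    exact_mod_cast this
  have hU : (Fintype.card ((Fin k ⊕ Fin k) → K) : ℝ) ^ n =
      (Fintype.card K : ℝ) ^ (2 * k * n) := by
    have : Fintype.card ((Fin k ⊕ Fin k) → K) = Fintype.card K ^ (2 * k) := by
      simp [Fintype.card_fun, two_mul]
    rw [this]
    push_cast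
    rw [← pow_mul]
  rw [hU]
  have hpos : (0 : ℝ) ≤ (Fintype.card (ι → Fin k → K) : ℝ) := by positivity
  have hexp := (Real.exp_pos (-(eta ^ 2 * m * n / 2))).le
  calc (Fintype.card (ι → Fin k → K) : ℝ) *
        (Fintype.card {q : Fin m → Fin 4 → ι // FreshQ q} : ℝ) *
        (Fintype.card K : ℝ) ^ (2 * k * n) * Real.exp (-(eta ^ 2 * m * n / 2))
      ≤ (Fintype.card (ι → Fin k → K) : ℝ) * ((Fintype.card ι : ℝ) ^ (4 * m)) *
        (Fintype.card K : ℝ) ^ (2 * k * n) * Real.exp (-(eta ^ 2 * m * n / 2)) := by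
        gcongr
    _ = _ := by ring

end Lines

end Vale.Agent.P060.HW
end

section

/-! Union bound tools: resampling of blocks of coordinates, product bound, fibres. -/

namespace Vale.Agent.P060.HW

open Finset

section UB

open scoped Classical

variable {L V : Type*} [Fintype L] [Fintype V] [DecidableEq L]

/-- Swapping a block of coordinates. -/
noncomputable def swapBlock (S : Finset L) : (L → V) × (L → V) ≃ (L → V) × (L → V) where
  toFun q := (S.piecewise q.2 q.1, S.piecewise q.1 q.2)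
  invFun q := (S.piecewise q.2 q.1, S.piecewise q.1 q.2)
  left_inv q := by
    ext u
    · by_cases h : u ∈ S <;> simp [Finset.piecewise, h]
    · by_cases h : u ∈ S <;> simp [Finset.piecewise, h]
  right_inv q := by
    ext u
    · by_cases h : u ∈ S <;> simp [Finset.piecewise, h]
    · by_cases h : u ∈ S <;> simp [Finset.piecewise, h]

theorem sum_piecewise (S : Finset L) (f : (L → V) → ℝ) :
    ∑ x : L → V, ∑ y : L → V, f (S.piecewise y x) = Fintype.card (L → V) * ∑ x, f x := by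
  rw [← Fintype.sum_prod_type' (f := fun (x y : L → V) => f (S.piecewise y x))]
  rw [Fintype.sum_equiv (swapBlock S) (fun q : (L → V) × (L → V) => f (S.piecewise q.2 q.1))
    (fun q => f q.1) fun q => rfl]
  rw [Fintype.sum_prod_type]
  simp only [Finset.sum_const, Finset.card_univ, nsmul_eq_mul]
  rw [← Finset.mul_sum]

/-- Product bound for events depending on disjoint blocks and a common base. -/
theorem card_all_le {ι : Type*} (S : ι → Finset L) (L0 : Finset L) (X : ι → (L → V) → Prop)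
    {κ : ℝ} (hκ : 0 ≤ κ) (T : Finset ι)
    (hdisj : ∀ i ∈ T, ∀ j ∈ T, i ≠ j → Disjoint (S i) (S j))
    (hL0 : ∀ i ∈ T, Disjoint (S i) L0)
    (hX : ∀ i ∈ T, ∀ x y : L → V, (∀ u ∈ S i ∪ L0, x u = y u) → (X i x ↔ X i y))
    (hc : ∀ i ∈ T, ∀ x : L → V, ((univ.filter fun y : L → V => X i ((S i).piecewise y x)).card : ℝ) ≤
      κ * Fintype.card (L → V)) :
    ((univ.filter fun x : L → V => ∀ i ∈ T, X i x).card : ℝ) ≤ κ ^ T.card * Fintype.card (L → V) := by
  induction T using Finset.induction_on with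
  | empty => simp
  | insert a T ha ih =>
    rw [Finset.card_insert_of_notMem ha, pow_succ]
    rcases isEmpty_or_nonempty (L → V) with hE | hE
    · have h0 : (univ.filter fun x : L → V => ∀ i ∈ insert a T, X i x).card = 0 := by
        rw [Finset.card_eq_zero, Finset.eq_empty_iff_forall_notMem]
        intro x _
        exact hE.elim x
      rw [h0]
      have : (0 : ℝ) ≤ Fintype.card (L → V) := Nat.cast_nonneg _
      rw [Nat.cast_zero]
      exact mul_nonneg (mul_nonneg (pow_nonneg hκ _) hκ) this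
    have hpos : (0 : ℝ) < Fintype.card (L → V) := Nat.cast_pos.mpr Fintype.card_pos
    have ih' := ih (fun i hi j hj => hdisj i (mem_insert_of_mem hi) j (mem_insert_of_mem hj))
      (fun i hi => hL0 i (mem_insert_of_mem hi)) (fun i hi => hX i (mem_insert_of_mem hi))
      (fun i hi => hc i (mem_insert_of_mem hi))
    have h1 : ((univ.filter fun x : L → V => ∀ i ∈ insert a T, X i x).card : ℝ) =
        ∑ x : L → V, (if (∀ i ∈ T, X i x) ∧ X a x then (1 : ℝ) else 0) := by
      rw [Finset.card_filter, Nat.cast_sum]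
      refine Finset.sum_congr rfl fun x _ => ?_
      by_cases h2 : (∀ i ∈ T, X i x) ∧ X a x
      · rw [if_pos h2, if_pos]
        · simp
        · intro i hi
          rcases Finset.mem_insert.mp hi with rfl | hi
          · exact h2.2
          · exact h2.1 i hi
      · rw [if_neg h2, if_neg]
        · simp
        · exact fun h => h2 ⟨fun i hi => h i (mem_insert_of_mem hi), h a (mem_insert_self _ _)⟩
    have h2 := sum_piecewise (V := V) (S a)
      (fun x => if (∀ i ∈ T, X i x) ∧ X a x then (1 : ℝ) else 0)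
    have h3 : ∀ x : L → V,
        (∑ y : L → V, (if (∀ i ∈ T, X i ((S a).piecewise y x)) ∧ X a ((S a).piecewise y x)
          then (1 : ℝ) else 0)) ≤
        (if ∀ i ∈ T, X i x then (1 : ℝ) else 0) * (κ * Fintype.card (L → V)) := by
      intro x
      have hiff : ∀ y : L → V, (∀ i ∈ T, X i ((S a).piecewise y x)) ↔ ∀ i ∈ T, X i x := by
        intro y
        refine forall₂_congr fun i hi => hX i (mem_insert_of_mem hi) _ _ fun u hu => ?_
        have hu' : u ∉ S a := by
          rcases Finset.mem_union.1 hu with hu | hu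
          · exact Finset.disjoint_left.1 (hdisj i (mem_insert_of_mem hi) a (mem_insert_self _ _)
              (fun h => ha (h ▸ hi))) hu
          · exact Finset.disjoint_right.1 (hL0 a (mem_insert_self _ _)) hu
        rw [Finset.piecewise_eq_of_notMem _ _ _ hu']
      by_cases hx : ∀ i ∈ T, X i x
      · rw [if_pos hx, one_mul]
        refine le_trans (le_of_eq ?_) (hc a (mem_insert_self _ _) x)
        rw [Finset.card_filter, Nat.cast_sum]
        refine Finset.sum_congr rfl fun y _ => ?_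
        by_cases hy : X a ((S a).piecewise y x)
        · rw [if_pos ⟨(hiff y).2 hx, hy⟩, if_pos hy, Nat.cast_one]
        · rw [if_neg (fun h => hy h.2), if_neg hy, Nat.cast_zero]
      · rw [if_neg hx, zero_mul]
        refine le_of_eq (Finset.sum_eq_zero fun y _ => ?_)
        rw [if_neg]
        exact fun h => hx ((hiff y).1 h.1)
    have h4 : Fintype.card (L → V) *
        ((univ.filter fun x : L → V => ∀ i ∈ insert a T, X i x).card : ℝ) ≤
        (κ * Fintype.card (L → V)) * (κ ^ T.card * Fintype.card (L → V)) := by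
      rw [h1, ← h2]
      refine le_trans (Finset.sum_le_sum fun x _ => h3 x) ?_
      rw [← Finset.sum_mul, mul_comm]
      refine mul_le_mul_of_nonneg_left ?_ (mul_nonneg hκ hpos.le)
      refine le_trans (le_of_eq ?_) ih'
      rw [Finset.card_filter, Nat.cast_sum]
      refine Finset.sum_congr rfl fun x _ => ?_
      split_ifs <;> simp
    have h5 : (κ * Fintype.card (L → V)) * (κ ^ T.card * Fintype.card (L → V)) =
        Fintype.card (L → V) * (κ ^ T.card * κ * Fintype.card (L → V)) := by ring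
    rw [h5] at h4
    exact le_of_mul_le_mul_left h4 hpos

/-- Number of points whose image lies in a finite set, when translations act. -/
theorem card_fibre_le {A B C : Type*} [Fintype A] [Fintype C] (G : A → B) (τ : C → A → A)
    (hinj : ∀ y y' c c', G y = G y' → τ c y = τ c' y' → y = y' ∧ c = c') (Ex : Finset B)
    (Pr : A → Prop) (hPr : ∀ y, Pr y → G y ∈ Ex) :
    (univ.filter fun y : A => Pr y).card * Fintype.card C ≤ Ex.card * Fintype.card A := by
  refine le_trans (Nat.mul_le_mul_right _ (Finset.card_le_card (t := univ.filter fun y : A =>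
    G y ∈ Ex) fun y hy => ?_)) ?_
  · exact mem_filter.2 ⟨mem_univ _, hPr y (mem_filter.1 hy).2⟩
  have h1 : ∀ e : B, (univ.filter fun y : A => G y = e).card * Fintype.card C ≤ Fintype.card A := by
    intro e
    rw [← Finset.card_univ (α := C), ← Finset.card_product, ← Finset.card_univ (α := A)]
    refine Finset.card_le_card_of_injOn (fun q => τ q.2 q.1) (fun q _ => Finset.mem_coe.2 (mem_univ _)) ?_
    intro q hq q' hq' h
    have hq1 : G q.1 = e := by simpa using (Finset.mem_product.1 (Finset.mem_coe.1 hq)).1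
    have hq1' : G q'.1 = e := by simpa using (Finset.mem_product.1 (Finset.mem_coe.1 hq')).1
    obtain ⟨h2, h3⟩ := hinj q.1 q'.1 q.2 q'.2 (hq1.trans hq1'.symm) h
    exact Prod.ext h2 h3
  have h2 : (univ.filter fun y : A => G y ∈ Ex).card =
      ∑ e ∈ Ex, (univ.filter fun y : A => G y = e).card := by
    rw [Finset.card_eq_sum_card_fiberwise (f := G) (t := Ex)
      (fun y hy => by simpa using hy)]
    refine Finset.sum_congr rfl fun e he => ?_
    congr 1
    ext y
    simp only [mem_filter, mem_univ, true_and]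
    exact ⟨fun h => h.2, fun h => ⟨h ▸ he, h⟩⟩
  rw [h2, Finset.sum_mul]
  refine le_trans (Finset.sum_le_sum fun e _ => h1 e) ?_
  rw [Finset.sum_const, smul_eq_mul]

end UB

end Vale.Agent.P060.HW
end

section

set_option linter.all false

/-!
# Biased functionals when some coordinates of the tests are fixed

Helper file for `P060` (disproof of Hadwiger's conjecture for independence number two).
The tests of the design have a FIXED part (the coordinates in `E`, more generally an arbitrary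
fixed shift) and are uniform only on the coordinates satisfying `R`.
-/

open Finset

namespace Vale.Agent.P060.HW

section Shift

variable {K : Type*} [Field K] [Fintype K] [DecidableEq K]
variable {κ : Type*} [Fintype κ] [DecidableEq κ] (R : κ → Prop) [DecidablePred R]

/-- Extension by zero of a vector defined on the coordinates satisfying `R`. -/
def extR (u : {i // R i} → K) : κ → K := fun i => if h : R i then u ⟨i, h⟩ else 0

/-- Restriction of a vector to the coordinates satisfying `R`. -/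
def resR (z : κ → K) : {i // R i} → K := fun i => z i.1

theorem dot_extR (z : κ → K) (u : {i // R i} → K) :
    z ⬝ᵥ extR R u = resR R z ⬝ᵥ u := by
  simp only [dotProduct, extR, resR]
  have h1 : ∀ i, z i * (if h : R i then u ⟨i, h⟩ else 0) =
      if h : R i then z i * u ⟨i, h⟩ else 0 := by
    intro i
    split_ifs <;> simp
  rw [Finset.sum_congr rfl fun i _ => h1 i]
  rw [Finset.sum_dite]
  simp only [Finset.sum_const_zero, add_zero]
  refine Finset.sum_bij (fun x _ => ⟨x.1, (Finset.mem_filter.1 x.2).2⟩) ?_ ?_ ?_ ?_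
  · intro a _
    exact Finset.mem_univ _
  · intro a _ b _ h
    exact Subtype.ext (by simpa using congrArg Subtype.val h)
  · intro b _
    exact ⟨⟨b.1, Finset.mem_filter.2 ⟨Finset.mem_univ _, b.2⟩⟩, Finset.mem_attach _ _, rfl⟩
  · intro a _
    rfl

open Classical in
/-- (1E) For a fixed shift `c` of the tests, `n` vectors which are independent on the random
coordinates are simultaneously biased only for few test families. -/
theorem card_biasedE_le {ψ : AddChar K ℂ} (hψ : ψ ≠ 0) {n m : ℕ} {z : Fin n → κ → K}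
    (hz : LinearIndependent K fun l => resR R (z l)) {eta : ℝ} (heta : 0 ≤ eta)
    (c : Fin m → κ → K) :
    (#{G : Fin m → {i // R i} → K | ∀ l, BiasedAt ψ eta (fun s => c s + extR R (G s)) (z l)} : ℝ) ≤
      (Fintype.card (Fin m → {i // R i} → K) : ℝ) * Real.exp (-(eta ^ 2 * m * n / 2)) := by
  have hsur := dot_surjective hz
  choose u0 hu0 using fun s : Fin m => hsur (fun l => z l ⬝ᵥ c s)
  have hu : ∀ s l, resR R (z l) ⬝ᵥ u0 s = z l ⬝ᵥ c s := fun s l => by
    have := congrFun (hu0 s) l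
    simpa using this
  have hiff : ∀ G : Fin m → {i // R i} → K,
      (∀ l, BiasedAt ψ eta (fun s => c s + extR R (G s)) (z l)) ↔
        (∀ l, BiasedAt ψ eta (G + u0) (resR R (z l))) := by
    intro G
    refine forall_congr' fun l => ?_
    simp only [BiasedAt]
    have : ∀ s, z l ⬝ᵥ (c s + extR R (G s)) = resR R (z l) ⬝ᵥ (G + u0) s := by
      intro s
      rw [dotProduct_add, dot_extR, Pi.add_apply, dotProduct_add, hu, add_comm]
    simp only [this]
  have hcard : #{G : Fin m → {i // R i} → K |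
        ∀ l, BiasedAt ψ eta (fun s => c s + extR R (G s)) (z l)} =
      #{G : Fin m → {i // R i} → K | ∀ l, BiasedAt ψ eta G (resR R (z l))} := by
    refine Finset.card_bij (fun G _ => G + u0) ?_ ?_ ?_
    · intro G hG
      exact Finset.mem_filter.2 ⟨Finset.mem_univ _, (hiff G).1 (Finset.mem_filter.1 hG).2⟩
    · intro a _ b _ h
      exact add_right_cancel h
    · intro b hb
      refine ⟨b - u0, Finset.mem_filter.2 ⟨Finset.mem_univ _, ?_⟩, sub_add_cancel _ _⟩
      rw [hiff, sub_add_cancel]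
      exact (Finset.mem_filter.1 hb).2
  rw [hcard]
  exact card_biased_le hψ hz heta

open Classical in
/-- (2E) Union bound over a finite family of surjective additive maps from the design space to the
random parts of the tests (each with its own fixed shift `c a`) and over all tuples `z` which are
independent on the random coordinates. -/
theorem card_designE_le {ψ : AddChar K ℂ} (hψ : ψ ≠ 0) {n m : ℕ}
    {P : Type*} [AddCommGroup P] [Fintype P]
    {Λ : Type*} [Fintype Λ] (L : Λ → P →+ (Fin m → {i // R i} → K))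
    (hL : ∀ a, Function.Surjective (L a)) (c : Λ → Fin m → κ → K) {eta : ℝ} (heta : 0 ≤ eta) :
    (#{p : P | ∃ a, ∃ z : Fin n → κ → K, LinearIndependent K (fun l => resR R (z l)) ∧
        ∀ l, BiasedAt ψ eta (fun s => c a s + extR R (L a p s)) (z l)} : ℝ) ≤
      (Fintype.card P : ℝ) * Fintype.card Λ * (Fintype.card (κ → K) : ℝ) ^ n *
        Real.exp (-(eta ^ 2 * m * n / 2)) := by
  have h1 : (#{p : P | ∃ a, ∃ z : Fin n → κ → K, LinearIndependent K (fun l => resR R (z l)) ∧
        ∀ l, BiasedAt ψ eta (fun s => c a s + extR R (L a p s)) (z l)} : ℝ) ≤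
      ∑ x : Λ × (Fin n → κ → K), (#{p : P | LinearIndependent K (fun l => resR R (x.2 l)) ∧
        ∀ l, BiasedAt ψ eta (fun s => c x.1 s + extR R (L x.1 p s)) (x.2 l)} : ℝ) := by
    have : ({p : P | ∃ a, ∃ z : Fin n → κ → K, LinearIndependent K (fun l => resR R (z l)) ∧
        ∀ l, BiasedAt ψ eta (fun s => c a s + extR R (L a p s)) (z l)} : Finset P) ⊆
        (Finset.univ : Finset (Λ × (Fin n → κ → K))).biUnion fun x =>
          {p : P | LinearIndependent K (fun l => resR R (x.2 l)) ∧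
            ∀ l, BiasedAt ψ eta (fun s => c x.1 s + extR R (L x.1 p s)) (x.2 l)} := by
      intro p hp
      obtain ⟨a, z, hz, hb⟩ := (Finset.mem_filter.1 hp).2
      exact Finset.mem_biUnion.2 ⟨(a, z), Finset.mem_univ _,
        Finset.mem_filter.2 ⟨Finset.mem_univ _, hz, hb⟩⟩
    exact_mod_cast (Finset.card_le_card this).trans Finset.card_biUnion_le
  refine h1.trans ?_
  have h2 : ∀ x : Λ × (Fin n → κ → K), (#{p : P | LinearIndependent K (fun l => resR R (x.2 l)) ∧
        ∀ l, BiasedAt ψ eta (fun s => c x.1 s + extR R (L x.1 p s)) (x.2 l)} : ℝ) ≤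
      (Fintype.card P : ℝ) * Real.exp (-(eta ^ 2 * m * n / 2)) := by
    rintro ⟨a, z⟩
    by_cases hz : LinearIndependent K (fun l => resR R (z l))
    · have key := card_mul_sum_comp (L a) (hL a)
        (fun G => if ∀ l, BiasedAt ψ eta (fun s => c a s + extR R (G s)) (z l)
          then (1 : ℝ) else 0)
      have e1 : ∑ u : P, (if ∀ l, BiasedAt ψ eta (fun s => c a s + extR R (L a u s)) (z l)
          then (1 : ℝ) else 0) =
          (#{p : P | ∀ l, BiasedAt ψ eta (fun s => c a s + extR R (L a p s)) (z l)} : ℝ) := by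
        rw [Finset.sum_boole]
      have e2 : ∑ G : Fin m → {i // R i} → K,
          (if ∀ l, BiasedAt ψ eta (fun s => c a s + extR R (G s)) (z l) then (1 : ℝ) else 0) =
          (#{G : Fin m → {i // R i} → K |
            ∀ l, BiasedAt ψ eta (fun s => c a s + extR R (G s)) (z l)} : ℝ) := by
        rw [Finset.sum_boole]
      simp only [e1, e2] at key
      have hW : (0 : ℝ) < (Fintype.card (Fin m → {i // R i} → K) : ℝ) := by
        exact_mod_cast Fintype.card_pos
      have hb := card_biasedE_le R hψ (m := m) hz heta (c a)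
      have h3 : (Fintype.card (Fin m → {i // R i} → K) : ℝ) *
          (#{p : P | ∀ l, BiasedAt ψ eta (fun s => c a s + extR R (L a p s)) (z l)} : ℝ) ≤
          (Fintype.card (Fin m → {i // R i} → K) : ℝ) *
            ((Fintype.card P : ℝ) * Real.exp (-(eta ^ 2 * m * n / 2))) := by
        rw [key]
        calc _ ≤ (Fintype.card P : ℝ) * ((Fintype.card (Fin m → {i // R i} → K) : ℝ) *
              Real.exp (-(eta ^ 2 * m * n / 2))) :=
              mul_le_mul_of_nonneg_left hb (by positivity)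
          _ = _ := by ring
      have h4 := le_of_mul_le_mul_left h3 hW
      simpa [hz] using h4
    · simp only [hz, false_and]
      simp only [Finset.filter_false, Finset.card_empty, Nat.cast_zero]
      positivity
  refine (Finset.sum_le_sum fun x _ => h2 x).trans (le_of_eq ?_)
  simp only [Finset.sum_const, Finset.card_univ, Fintype.card_prod, nsmul_eq_mul]
  simp only [Fintype.card_fun, Fintype.card_fin]
  push_cast
  ring

/-- Among `n + e` independent vectors there are `n` whose restrictions to the random coordinates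
are independent, `e` being the number of the fixed coordinates. -/
theorem exists_indep_resR {n e : ℕ} (he : Fintype.card {i // ¬ R i} ≤ e)
    {z : Fin (n + e) → κ → K} (hz : LinearIndependent K z) :
    ∃ g : Fin n → Fin (n + e), LinearIndependent K fun l => resR R (z (g l)) := by
  classical
  -- the restriction map
  let φ : (κ → K) →ₗ[K] ({i // R i} → K) := LinearMap.funLeft K K (fun i : {i // R i} => i.1)
  have hφ : ∀ v, φ v = resR R v := fun v => rfl
  let ρ : (κ → K) →ₗ[K] ({i // ¬ R i} → K) := LinearMap.funLeft K K (fun i : {i // ¬ R i} => i.1)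
  set S : Submodule K (κ → K) := Submodule.span K (Set.range z) with hS
  have hSdim : Module.finrank K S = n + e := by
    have := finrank_span_eq_card hz
    simpa using this
  -- the kernel of `φ` on `S` injects in the fixed coordinates
  let φS : S →ₗ[K] ({i // R i} → K) := φ.comp S.subtype
  have hker : Module.finrank K (LinearMap.ker φS) ≤ e := by
    have hinj : Function.Injective ((ρ.comp S.subtype).comp (LinearMap.ker φS).subtype) := by
      refine (injective_iff_map_eq_zero _).2 ?_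
      rintro ⟨⟨v, hv⟩, hv2⟩ h
      have h1 : φ v = 0 := LinearMap.mem_ker.1 hv2
      have h2 : ρ v = 0 := h
      have : v = 0 := by
        funext i
        by_cases hi : R i
        · exact congrFun h1 ⟨i, hi⟩
        · exact congrFun h2 ⟨i, hi⟩
      exact Subtype.ext (Subtype.ext this)
    have := LinearMap.finrank_le_finrank_of_injective hinj
    simpa using this.trans (by simpa using he)
  have hrange : n ≤ Module.finrank K (LinearMap.range φS) := by
    have := LinearMap.finrank_range_add_finrank_ker φS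
    omega
  have hrange' : LinearMap.range φS = Submodule.span K (Set.range fun l => resR R (z l)) := by
    have : LinearMap.range φS = S.map φ := by
      rw [LinearMap.range_comp, Submodule.range_subtype]
    rw [this, hS, Submodule.map_span, ← Set.range_comp]
    rfl
  obtain ⟨κ', a, ha, hspan, hli⟩ := exists_linearIndependent' K (fun l => resR R (z l))
  have hfin : Finite κ' := Finite.of_injective a ha
  let _ : Fintype κ' := Fintype.ofFinite κ'
  have hcard : n ≤ Fintype.card κ' := by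
    have h1 := finrank_span_eq_card hli
    rw [hspan, ← hrange'] at h1
    omega
  obtain ⟨f⟩ : Nonempty (Fin n ↪ κ') := by
    rw [Function.Embedding.nonempty_iff_card_le]
    simpa using hcard
  exact ⟨fun l => a (f l), hli.comp f f.injective⟩

/-- (3E) ATOM LEMMA with fixed coordinates: if no `n` biased vectors are independent on the random
coordinates, a random vector for which all tests are biased has an atom. -/
theorem exists_atomE {ψ : AddChar K ℂ} {n m e : ℕ} (he : Fintype.card {i // ¬ R i} ≤ e)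
    (hm : 0 < m) {G : Fin m → κ → K} {eta : ℝ}
    (hgood : ¬ ∃ z : Fin n → κ → K, LinearIndependent K (fun l => resR R (z l)) ∧
      ∀ l, BiasedAt ψ (eta ^ 2 / 2) G (z l))
    {P : (κ → K) → ℝ} (hP : ∀ y, 0 ≤ P y) (hP1 : ∑ y, P y = 1) (heta : 0 < eta)
    (hbias : ∀ s, eta ≤ ‖∑ y, (P y : ℂ) * ψ (y ⬝ᵥ G s)‖) :
    ∃ y, eta ^ 2 / 2 / (Fintype.card K : ℝ) ^ (n + e) ≤ P y := by
  refine exists_atom hm (n := n + e) ?_ hP hP1 heta hbias
  rintro ⟨z, hz, hb⟩
  obtain ⟨g, hg⟩ := exists_indep_resR R he hz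
  exact hgood ⟨fun l => z (g l), hg, fun l => hb (g l)⟩

end Shift

section Types

variable {K : Type*} [Field K] [Fintype K] [DecidableEq K]
variable {κ : Type*} [Fintype κ] [DecidableEq κ] (R : κ → Prop) [DecidablePred R]
variable {ι : Type*} [Fintype ι] [DecidableEq ι] {T : Type*} [Fintype T]

/-- The vector of a type: the sum of its lines; the line `v` has the fixed part `e v` and the
random part `p v` on the coordinates satisfying `R`. -/
def gvec (lines : T → Finset ι) (e : ι → κ → K) (p : ι → {i // R i} → K) (b : T) : κ → K :=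
  ∑ v ∈ lines b, (e v + extR R (p v))

/-- Two lists of types such that every type of either list has a private line. -/
def FreshT (lines : T → Finset ι) {m : ℕ} (b b' : Fin m → T) : Prop :=
  ∃ f f' : Fin m → ι, (∀ s, f s ∈ lines (b s)) ∧ (∀ s, f' s ∈ lines (b' s)) ∧
    (∀ s t, f t ∈ lines (b s) → t = s) ∧ (∀ s t, f t ∉ lines (b' s)) ∧
    (∀ s t, f' t ∈ lines (b' s) → t = s) ∧ (∀ s t, f' t ∉ lines (b s))

/-- The test vector of a pair of types. -/
def testT (lines : T → Finset ι) (e : ι → κ → K) (p : ι → {i // R i} → K) {m : ℕ}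
    (b b' : Fin m → T) (s : Fin m) : κ ⊕ κ → K :=
  Sum.elim (gvec R lines e p (b s)) (gvec R lines e p (b' s))

/-- The random part of the tests. -/
def testL (lines : T → Finset ι) {m : ℕ} (b b' : Fin m → T) :
    (ι → {i // R i} → K) →+ (Fin m → {x : κ ⊕ κ // Sum.elim R R x} → K) where
  toFun p s x := match x with
    | ⟨Sum.inl i, h⟩ => ∑ v ∈ lines (b s), p v ⟨i, h⟩
    | ⟨Sum.inr i, h⟩ => ∑ v ∈ lines (b' s), p v ⟨i, h⟩
  map_zero' := by
    funext s x
    rcases x with ⟨i | i, h⟩ <;> simp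
  map_add' p q := by
    funext s x
    rcases x with ⟨i | i, h⟩ <;> simp [Finset.sum_add_distrib]

instance instDecElim : DecidablePred (Sum.elim R R) := fun x => by
  cases x <;> (simp only [Sum.elim_inl, Sum.elim_inr]; infer_instance)

theorem testT_eq (lines : T → Finset ι) (e : ι → κ → K) (p : ι → {i // R i} → K) {m : ℕ}
    (b b' : Fin m → T) (s : Fin m) :
    testT R lines e p b b' s =
      Sum.elim (∑ v ∈ lines (b s), e v) (∑ v ∈ lines (b' s), e v) +
        extR (Sum.elim R R) (testL R lines b b' p s) := by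
  funext x
  cases x with
  | inl i =>
    by_cases h : R i <;>
      simp [testT, gvec, testL, extR, Finset.sum_apply, Finset.sum_add_distrib, h]
  | inr i =>
    by_cases h : R i <;>
      simp [testT, gvec, testL, extR, Finset.sum_apply, Finset.sum_add_distrib, h]

theorem testL_surjective {lines : T → Finset ι} {m : ℕ} {b b' : Fin m → T}
    (hf : FreshT lines b b') :
    Function.Surjective (testL (K := K) R lines b b') := by
  classical
  obtain ⟨f, f', h1, h2, h3, h4, h5, h6⟩ := hf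
  intro G
  refine ⟨fun v i => if h : ∃ s, f s = v then G h.choose ⟨Sum.inl i.1, i.2⟩
    else if h' : ∃ s, f' s = v then G h'.choose ⟨Sum.inr i.1, i.2⟩ else 0, ?_⟩
  funext s x
  have e1 : ∀ h : (∃ t, f t = f s), h.choose = s := fun h =>
    h3 _ _ (h.choose_spec.symm ▸ h1 s)
  have e2 : ∀ h : (∃ t, f' t = f' s), h.choose = s := fun h =>
    h5 _ _ (h.choose_spec.symm ▸ h2 s)
  rcases x with ⟨i | i, hi⟩
  · simp only [testL, AddMonoidHom.coe_mk, ZeroHom.coe_mk]
    rw [Finset.sum_eq_single (f s)]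
    · have p0 : ∃ t, f t = f s := ⟨s, rfl⟩
      rw [dif_pos p0, e1 p0]
    · intro v hv hne
      have n1 : ¬ ∃ t, f t = v := by
        rintro ⟨t, rfl⟩
        exact hne (by rw [h3 _ _ hv])
      have n2 : ¬ ∃ t, f' t = v := by
        rintro ⟨t, rfl⟩
        exact h6 _ _ hv
      rw [dif_neg n1, dif_neg n2]
    · intro h
      exact absurd (h1 s) h
  · simp only [testL, AddMonoidHom.coe_mk, ZeroHom.coe_mk]
    rw [Finset.sum_eq_single (f' s)]
    · have p0 : ∃ t, f' t = f' s := ⟨s, rfl⟩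
      have n1 : ¬ ∃ t, f t = f' s := by
        rintro ⟨t, ht⟩
        exact h4 s t (ht ▸ h2 s)
      rw [dif_neg n1, dif_pos p0, e2 p0]
    · intro v hv hne
      have n1 : ¬ ∃ t, f t = v := by
        rintro ⟨t, rfl⟩
        exact h4 _ _ hv
      have n2 : ¬ ∃ t, f' t = v := by
        rintro ⟨t, rfl⟩
        exact hne (by rw [h5 _ _ hv])
      rw [dif_neg n1, dif_neg n2]
    · intro h
      exact absurd (h2 s) h

open Classical in
/-- (2T) Union bound for the design: the number of systems of lines for which some fresh list of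
`m` pairs of types has `n` biased vectors which are independent on the random coordinates. -/
theorem card_types_le {ψ : AddChar K ℂ} (hψ : ψ ≠ 0) (lines : T → Finset ι) (e : ι → κ → K)
    (n m : ℕ) {eta : ℝ} (heta : 0 ≤ eta) :
    (#{p : ι → {i // R i} → K | ∃ b b' : Fin m → T, FreshT lines b b' ∧
        ∃ z : Fin n → κ ⊕ κ → K, LinearIndependent K (fun l => resR (Sum.elim R R) (z l)) ∧
        ∀ l, BiasedAt ψ eta (testT R lines e p b b') (z l)} : ℝ) ≤
      (Fintype.card (ι → {i // R i} → K) : ℝ) * ((Fintype.card T : ℝ) ^ (2 * m) *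
        (Fintype.card K : ℝ) ^ (2 * Fintype.card κ * n) * Real.exp (-(eta ^ 2 * m * n / 2))) := by
  have key := card_designE_le (κ := κ ⊕ κ) (Sum.elim R R) (n := n) (m := m) hψ
    (Λ := {q : (Fin m → T) × (Fin m → T) // FreshT lines q.1 q.2})
    (fun a => testL (K := K) R lines a.1.1 a.1.2)
    (fun a => testL_surjective R a.2)
    (fun a s => Sum.elim (∑ v ∈ lines (a.1.1 s), e v) (∑ v ∈ lines (a.1.2 s), e v)) heta
  have hset : ({p : ι → {i // R i} → K | ∃ b b' : Fin m → T, FreshT lines b b' ∧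
        ∃ z : Fin n → κ ⊕ κ → K, LinearIndependent K (fun l => resR (Sum.elim R R) (z l)) ∧
        ∀ l, BiasedAt ψ eta (testT R lines e p b b') (z l)} : Finset (ι → {i // R i} → K)) =
      ({p : ι → {i // R i} → K | ∃ a : {q : (Fin m → T) × (Fin m → T) // FreshT lines q.1 q.2},
        ∃ z : Fin n → κ ⊕ κ → K, LinearIndependent K (fun l => resR (Sum.elim R R) (z l)) ∧
        ∀ l, BiasedAt ψ eta (fun s => Sum.elim (∑ v ∈ lines (a.1.1 s), e v)
          (∑ v ∈ lines (a.1.2 s), e v) + extR (Sum.elim R R) (testL R lines a.1.1 a.1.2 p s))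
          (z l)} : Finset (ι → {i // R i} → K)) := by
    ext p
    simp only [Finset.mem_filter, Finset.mem_univ, true_and]
    constructor
    · rintro ⟨b, b', hf, z, hz, hb⟩
      refine ⟨⟨(b, b'), hf⟩, z, hz, fun l => ?_⟩
      have := hb l
      rw [show testT R lines e p b b' = _ from funext fun s => testT_eq R lines e p b b' s] at this
      exact this
    · rintro ⟨⟨⟨b, b'⟩, hf⟩, z, hz, hb⟩
      refine ⟨b, b', hf, z, hz, fun l => ?_⟩
      rw [show testT R lines e p b b' = _ from funext fun s => testT_eq R lines e p b b' s]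
      exact hb l
  rw [hset]
  refine key.trans ?_
  have hΛ : (Fintype.card {q : (Fin m → T) × (Fin m → T) // FreshT lines q.1 q.2} : ℝ) ≤
      (Fintype.card T : ℝ) ^ (2 * m) := by
    have h1 : Fintype.card {q : (Fin m → T) × (Fin m → T) // FreshT lines q.1 q.2} ≤
        Fintype.card ((Fin m → T) × (Fin m → T)) := Fintype.card_subtype_le _
    have h2 : Fintype.card ((Fin m → T) × (Fin m → T)) = Fintype.card T ^ (2 * m) := by
      simp [Fintype.card_fun, two_mul, pow_add]
    rw [h2] at h1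
    exact_mod_cast h1
  have hU : (Fintype.card ((κ ⊕ κ) → K) : ℝ) ^ n =
      (Fintype.card K : ℝ) ^ (2 * Fintype.card κ * n) := by
    have : Fintype.card ((κ ⊕ κ) → K) = Fintype.card K ^ (2 * Fintype.card κ) := by
      simp [Fintype.card_fun, two_mul]
    rw [this]
    push_cast
    rw [← pow_mul]
  rw [hU]
  calc (Fintype.card (ι → {i // R i} → K) : ℝ) *
        (Fintype.card {q : (Fin m → T) × (Fin m → T) // FreshT lines q.1 q.2} : ℝ) *
        (Fintype.card K : ℝ) ^ (2 * Fintype.card κ * n) * Real.exp (-(eta ^ 2 * m * n / 2))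
      ≤ (Fintype.card (ι → {i // R i} → K) : ℝ) * ((Fintype.card T : ℝ) ^ (2 * m)) *
        (Fintype.card K : ℝ) ^ (2 * Fintype.card κ * n) * Real.exp (-(eta ^ 2 * m * n / 2)) := by
        gcongr
    _ = _ := by ring

end Types

end Vale.Agent.P060.HW
end

section

/-!
# Design H3: existence of GP5 (no many independent biased vectors)
-/

open scoped Classical

noncomputable section

set_option linter.all false

namespace Vale.Agent.P060.HW

namespace ExBm

open Module

variable {N d : ℕ} {E P Om : Type} [Fintype E] [Fintype P] [Fintype Om] [NeZero N]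

/-- The random coordinates. -/
def Rnd : Co E P Om → Prop := fun i => ∀ t : E, i ≠ Sum.inl (Sum.inl t)

/-- The fixed parts of the line vectors. -/
def fixE (fr : Frame N d E Om) (v : Lin N) : Co E P Om → F
  | Sum.inl (Sum.inl t) => if v.1 = 1 then fr.γ v.2 t else 0
  | Sum.inl (Sum.inr _) => 0
  | Sum.inr _ => 0

lemma ext_eq {fr : Frame N d E Om} {p : Lin N → Co E P Om → F} (h : Ext fr p) (v : Lin N) :
    p v = fixE fr v + extR Rnd (resR Rnd (p v)) := by
  funext i
  rcases i with (t | i) | w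
  · have h1 : ¬ (Rnd (Sum.inl (Sum.inl t) : Co E P Om)) := fun h' => h' t rfl
    rw [Pi.add_apply, extR, dif_neg h1, add_zero]
    exact h v.1 v.2 t
  · have h1 : (Rnd (Sum.inl (Sum.inr i) : Co E P Om)) := by
      intro t ht
      simp at ht
    rw [Pi.add_apply, extR, dif_pos h1]
    simp [fixE, resR]
  · have h1 : (Rnd (Sum.inr w : Co E P Om)) := by
      intro t ht
      simp at ht
    rw [Pi.add_apply, extR, dif_pos h1]
    simp [fixE, resR]

/-- Designs are the same thing as systems of random parts. -/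
def dzEquiv (fr : Frame N d E Om) : Dz fr P ≃ (Lin N → {i : Co E P Om // Rnd i} → F) where
  toFun p := fun v => resR Rnd (p.1 v)
  invFun q := ⟨fun v => fixE fr v + extR Rnd (q v), by
    intro s i t
    have h1 : ¬ (Rnd (Sum.inl (Sum.inl t) : Co E P Om)) := fun h' => h' t rfl
    show (fixE fr (s, i) + extR Rnd (q (s, i)) : Co E P Om → F) _ = _
    rw [Pi.add_apply, extR, dif_neg h1, add_zero]
    rfl⟩
  left_inv p := by
    apply Subtype.ext
    funext v
    exact (ext_eq p.2 v).symm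
  right_inv q := by
    funext v i
    have h1 := i.2
    show (fixE fr v + extR Rnd (q v) : Co E P Om → F) i.1 = q v i
    rw [Pi.add_apply, extR, dif_pos h1]
    rcases i with ⟨(t | i) | w, hi⟩
    · exact absurd rfl (hi t)
    · simp [fixE]
    · simp [fixE]

lemma gvec_eq {fr : Frame N d E Om} {p : Lin N → Co E P Om → F} (h : Ext fr p) (b : Ty N d) :
    gvec Rnd lins (fixE fr) (fun v => resR Rnd (p v)) b = gv p b := by
  unfold gvec gv lins
  rw [Finset.sum_image]
  · exact Finset.sum_congr rfl fun s _ => (ext_eq h _).symm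
  · intro s _ s' _ hs
    exact congrArg Prod.fst hs

lemma mem_lins {b : Ty N d} {v : Lin N} : v ∈ lins b ↔ v.2 = ln b v.1 := by
  unfold lins
  constructor
  · intro h
    obtain ⟨s, -, rfl⟩ := Finset.mem_image.1 h
    rfl
  · intro h
    refine Finset.mem_image.2 ⟨v.1, Finset.mem_univ _, ?_⟩
    exact Prod.ext rfl h.symm

lemma fresh_of_fam (fr : Frame N d E Om) {m : ℕ} (fam : Fin m → Ty N d × Ty N d)
    (h1 : ∀ s, (fam s).1 ≠ (fam s).2)
    (h2 : ∀ s s', s ≠ s' → Disjoint (lins2 (fam s)) (lins2 (fam s'))) :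
    FreshT (lins : Ty N d → Finset (Lin N)) (fun s => (fam s).1) (fun s => (fam s).2) := by
  have h3 : ∀ s, ∃ σ : Fin 3, ln (fam s).1 σ ≠ ln (fam s).2 σ := by
    intro s
    by_contra hno
    push Not at hno
    exact h1 s (fr.share_two _ _ 0 1 (by decide) (hno 0) (hno 1))
  choose σ hσ using h3
  have hl1 : ∀ s, lin (fam s).1 (σ s) ∈ lins (fam s).1 := fun s => mem_lins.2 rfl
  have hl2 : ∀ s, lin (fam s).2 (σ s) ∈ lins (fam s).2 := fun s => mem_lins.2 rfl
  have hd : ∀ s t v, v ∈ lins2 (fam t) → v ∈ lins2 (fam s) → t = s := by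
    intro s t v hv hv'
    by_contra hne
    exact (Finset.disjoint_left.1 (h2 t s hne)) hv hv'
  refine ⟨fun s => lin (fam s).1 (σ s), fun s => lin (fam s).2 (σ s), hl1, hl2, ?_, ?_, ?_, ?_⟩
  · intro s t h
    exact hd s t _ (Finset.mem_union_left _ (hl1 t)) (Finset.mem_union_left _ h)
  · intro s t h
    have := hd s t _ (Finset.mem_union_left _ (hl1 t)) (Finset.mem_union_right _ h)
    subst this
    exact hσ t (mem_lins.1 h)
  · intro s t h
    exact hd s t _ (Finset.mem_union_right _ (hl2 t)) (Finset.mem_union_right _ h)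
  · intro s t h
    have := hd s t _ (Finset.mem_union_right _ (hl2 t)) (Finset.mem_union_left _ h)
    subst this
    exact hσ t (mem_lins.1 h).symm

lemma card_fam_le {m : ℕ} (fam : Fin m → Ty N d × Ty N d)
    (h2 : ∀ s s', s ≠ s' → Disjoint (lins2 (fam s)) (lins2 (fam s'))) : m ≤ N := by
  have hinj : Function.Injective (fun s => ln (fam s).1 0) := by
    intro s s' h
    by_contra hne
    refine (Finset.disjoint_left.1 (h2 s s' hne)) (a := ((0 : Fin 3), ln (fam s).1 0)) ?_ ?_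
    · exact Finset.mem_union_left _ (mem_lins.2 rfl)
    · exact Finset.mem_union_left _ (mem_lins.2 h)
  have := Fintype.card_le_of_injective _ hinj
  simpa [ZMod.card] using this

/-- Two vectors as one vector on the doubled coordinates. -/
def dbl : (Fin 2 → Co E P Om → F) →ₗ[F] (Co E P Om ⊕ Co E P Om → F) where
  toFun y := Sum.elim (y 0) (y 1)
  map_add' y y' := by
    funext i
    cases i <;> rfl
  map_smul' c y := by
    funext i
    cases i <;> rfl

lemma dbl_inj : Function.Injective (dbl : (Fin 2 → Co E P Om → F) →ₗ[F] _) := by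
  intro y y' h
  funext i j
  fin_cases i
  · exact congrFun h (Sum.inl j)
  · exact congrFun h (Sum.inr j)

lemma card_fixed : Fintype.card {i : Co E P Om ⊕ Co E P Om // ¬ Sum.elim Rnd Rnd i} ≤
    2 * Fintype.card E := by
  have : Fintype.card (E ⊕ E) = 2 * Fintype.card E := by
    rw [Fintype.card_sum]; ring
  rw [← this]
  refine Fintype.card_le_of_surjective (fun x : E ⊕ E => match x with
    | Sum.inl t => ⟨Sum.inl (Sum.inl (Sum.inl t)), fun h => h t rfl⟩
    | Sum.inr t => ⟨Sum.inr (Sum.inl (Sum.inl t)), fun h => h t rfl⟩) ?_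
  rintro ⟨i | i, hi⟩
  · have : ∃ t : E, i = Sum.inl (Sum.inl t) := by
      by_contra hno
      push Not at hno
      exact hi hno
    obtain ⟨t, rfl⟩ := this
    exact ⟨Sum.inl t, rfl⟩
  · have : ∃ t : E, i = Sum.inl (Sum.inl t) := by
      by_contra hno
      push Not at hno
      exact hi hno
    obtain ⟨t, rfl⟩ := this
    exact ⟨Sum.inr t, rfl⟩

/-- The systems of random parts which are bad for `m`. -/
def BadM (fr : Frame N d E Om) (P : Type) [Fintype P] (ψ : AddChar F ℂ) (n m : ℕ) (η : ℝ) :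
    Set (Lin N → {i : Co E P Om // Rnd i} → F) :=
  {q | ∃ b b' : Fin m → Ty N d, FreshT lins b b' ∧
    ∃ z : Fin n → Co E P Om ⊕ Co E P Om → F,
      LinearIndependent F (fun l => resR (Sum.elim Rnd Rnd) (z l)) ∧
      ∀ l, BiasedAt ψ η (testT Rnd lins (fixE fr) q b b') (z l)}

lemma mem_badM {fr : Frame N d E Om} {p : Lin N → Co E P Om → F} (h : Ext fr p)
    {ψ : AddChar F ℂ} {m n : ℕ} {η : ℝ} (hB : ¬ EvB ψ p d m (n + 2 * Fintype.card E) η) :
    m ≤ N ∧ (fun v => resR Rnd (p v)) ∈ BadM fr P ψ n m η := by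
  unfold EvB at hB
  push Not at hB
  obtain ⟨fam, h1, h2, y, hy, hb⟩ := hB
  refine ⟨card_fam_le fam h2, fun s => (fam s).1, fun s => (fam s).2, fresh_of_fam fr fam h1 h2, ?_⟩
  have hz : LinearIndependent F (fun l => dbl (y l)) :=
    hy.map' dbl (LinearMap.ker_eq_bot.2 dbl_inj)
  obtain ⟨g, hg⟩ := exists_indep_resR (Sum.elim Rnd Rnd) card_fixed hz
  refine ⟨fun l => dbl (y (g l)), hg, fun l => ?_⟩
  unfold BiasedAt
  refine (hb (g l)).trans (le_of_eq ?_)
  refine Finset.sum_congr rfl fun s _ => ?_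
  congr 2
  unfold testT
  rw [gvec_eq h, gvec_eq h]
  show _ = Sum.elim (y (g l) 0) (y (g l) 1) ⬝ᵥ _
  rw [sumElim_dotProduct_sumElim, Fin.sum_univ_two]
  rfl

lemma card_badM_le (fr : Frame N d E Om) {ψ : AddChar F ℂ} (hψ : ψ ≠ 0) (n m : ℕ) {η : ℝ}
    (hη : 0 ≤ η) :
    (Nat.card (BadM fr P ψ n m η) : ℝ) ≤
      (Fintype.card (Lin N → {i : Co E P Om // Rnd i} → F) : ℝ) *
        (((N * d : ℕ) : ℝ) ^ (2 * m) *
        (2521 : ℝ) ^ (2 * Fintype.card (Co E P Om) * n) * Real.exp (-(η ^ 2 * m * n / 2))) := by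
  have key := card_types_le (K := F) (κ := Co E P Om) Rnd (ι := Lin N) (T := Ty N d) hψ
    (lins : Ty N d → Finset (Lin N)) (fixE fr) n m hη
  have h1 : Fintype.card (Ty N d) = N * d := by
    simp [Ty, ZMod.card]
  have h2 : Fintype.card F = 2521 := ZMod.card 2521
  rw [h1, h2] at key
  refine le_trans (le_of_eq ?_) key
  refine congrArg (Nat.cast (R := ℝ)) ?_
  rw [← Fintype.card_subtype, ← Nat.card_eq_fintype_card]
  rfl

/-- The numeric estimate. -/
lemma numeric {k N d D₀ n m κ : ℕ} {c η : ℝ} (hc : 0 < c) (hη : 0 < η)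
    (hD1 : 48 * Real.log 2521 / (c * η ^ 2) ≤ D₀) (hD2 : 1 / c ≤ D₀) (hD3 : 1 ≤ D₀)
    (hN : D₀ * k ≤ N) (hN' : N ≤ 2 * D₀ * k) (hk1 : 2 * D₀ * d ≤ k) (hk2 : 300 * D₀ ≤ k)
    (hk3 : 1 ≤ k) (hκ : κ ≤ 3 * k) (hn : 16 * Real.log k / η ^ 2 ≤ n) (hm : c * N ≤ m) :
    ((N * d : ℕ) : ℝ) ^ (2 * m) * (2521 : ℝ) ^ (2 * κ * n) * Real.exp (-(η ^ 2 * m * n / 2)) ≤
      1 / (100 * (N + 1)) := by
  have hη2 : 0 < η ^ 2 := by positivity
  set L := Real.log 2521 with hL
  have hL0 : 0 < L := Real.log_pos (by norm_num)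
  have hkr : (1 : ℝ) ≤ k := by exact_mod_cast hk3
  have hk0 : (0 : ℝ) < k := by linarith only [hkr]
  set lk := Real.log k with hlk
  have hlk0 : 0 ≤ lk := Real.log_nonneg hkr
  have hek : Real.exp lk = k := Real.exp_log hk0
  have heL : Real.exp L = 2521 := Real.exp_log (by norm_num)
  -- first factor
  have e1 : ((N * d : ℕ) : ℝ) ^ (2 * m) ≤ Real.exp (4 * m * lk) := by
    have h1 : N * d ≤ k * k := by
      calc N * d ≤ 2 * D₀ * k * d := Nat.mul_le_mul_right _ hN'
        _ = (2 * D₀ * d) * k := by ring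
        _ ≤ k * k := Nat.mul_le_mul_right _ hk1
    have h2 : ((N * d : ℕ) : ℝ) ≤ (k : ℝ) ^ 2 := by
      have : ((N * d : ℕ) : ℝ) ≤ ((k * k : ℕ) : ℝ) := by exact_mod_cast h1
      refine this.trans (le_of_eq ?_)
      push_cast; ring
    have h3 : ((k : ℝ) ^ 2) ^ (2 * m) = Real.exp (4 * m * lk) := by
      rw [← hek, ← Real.exp_nat_mul, ← Real.exp_nat_mul]
      congr 1
      push_cast; ring
    rw [← h3]
    exact pow_le_pow_left₀ (by (clear * -; positivity)) h2 _
  have e2 : (2521 : ℝ) ^ (2 * κ * n) ≤ Real.exp (6 * k * n * L) := by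
    have h1 : 2 * κ * n ≤ 6 * k * n := by
      have : 2 * κ ≤ 6 * k := by omega
      exact Nat.mul_le_mul_right _ this
    have h3 : (2521 : ℝ) ^ (6 * k * n) = Real.exp (6 * k * n * L) := by
      rw [← heL, ← Real.exp_nat_mul]
      congr 1
      push_cast; ring
    rw [← h3]
    exact pow_le_pow_right₀ (by norm_num) h1
  have hnn : 0 ≤ (n : ℝ) := by positivity
  have hmm : 0 ≤ (m : ℝ) := by positivity
  have hNr : (D₀ : ℝ) * k ≤ N := by exact_mod_cast hN
  have hm2 : c * (D₀ * k) ≤ m := (mul_le_mul_of_nonneg_left hNr hc.le).trans hm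
  have hm3 : (k : ℝ) ≤ m := by
    have h1 : 1 ≤ c * D₀ := by
      rw [div_le_iff₀ hc] at hD2
      linarith only [hD2]
    nlinarith
  have hm4 : 48 * L * k ≤ η ^ 2 * m := by
    have h1 : 48 * L ≤ η ^ 2 * (c * D₀) := by
      rw [div_le_iff₀ (by positivity)] at hD1
      linarith only [hD1]
    calc 48 * L * k ≤ η ^ 2 * (c * D₀) * k := mul_le_mul_of_nonneg_right h1 hk0.le
      _ = η ^ 2 * (c * (D₀ * k)) := by ring
      _ ≤ η ^ 2 * m := mul_le_mul_of_nonneg_left hm2 hη2.le
  have hn2 : 16 * lk ≤ η ^ 2 * n := by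
    rw [div_le_iff₀ hη2] at hn
    linarith only [hn]
  have hA : 4 * m * lk ≤ η ^ 2 * m * n / 4 := by
    have := mul_le_mul_of_nonneg_left hn2 hmm
    linarith only [this]
  have hB : 6 * k * n * L ≤ η ^ 2 * m * n / 8 := by
    have := mul_le_mul_of_nonneg_right hm4 hnn
    linarith only [this]
  have hC : 2 * lk ≤ η ^ 2 * m * n / 8 := by
    have h1 := mul_le_mul_of_nonneg_left hn2 hmm
    have h2 : lk * 1 ≤ lk * m := mul_le_mul_of_nonneg_left (hkr.trans hm3) hlk0
    linarith only [h2, h1]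
  have e3 : Real.exp (4 * m * lk) * Real.exp (6 * k * n * L) * Real.exp (-(η ^ 2 * m * n / 2)) ≤
      Real.exp (-(2 * lk)) := by
    rw [← Real.exp_add, ← Real.exp_add]
    exact Real.exp_le_exp.2 (by linarith only [hC, hB, hA])
  have e4 : Real.exp (-(2 * lk)) ≤ 1 / (100 * (N + 1)) := by
    have h1 : Real.exp (2 * lk) = (k : ℝ) ^ 2 := by
      rw [← hek, ← Real.exp_nat_mul]
      norm_num
    rw [Real.exp_neg, h1, ← one_div]
    refine one_div_le_one_div_of_le (by (clear * -; positivity)) ?_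
    have h2 : 100 * (N + 1) ≤ k ^ 2 := by
      have h3 : k ≤ D₀ * k := Nat.le_mul_of_pos_left _ hD3
      calc 100 * (N + 1) ≤ 100 * (2 * D₀ * k + D₀ * k) := by
            have := hk3.trans h3
            omega
        _ = (300 * D₀) * k := by ring
        _ ≤ k * k := Nat.mul_le_mul_right _ hk2
        _ = k ^ 2 := by ring
    exact_mod_cast h2
  refine le_trans ?_ (e3.trans e4)
  gcongr

end ExBm

open ExBm in
/-- EXISTENCE of GP5. -/
theorem exB : ExB := by
  intro ψ hψ c η hc hη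
  refine ⟨⌈48 * Real.log 2521 / (c * η ^ 2)⌉₊ + ⌈1 / c⌉₊ + 1, fun D₀ hD₀ d E _ => ?_⟩
  refine ⟨16 / η ^ 2 + 1, 1, one_pos,
    ⌈Real.exp (2 * Fintype.card E)⌉₊ + Fintype.card E + 2 * D₀ * d + 300 * D₀ + 1, ?_⟩
  intro N P Om _ _ _ fr hk hS
  have hη2 : 0 < η ^ 2 := by positivity
  set k := Fintype.card P with hkdef
  have hk3 : 1 ≤ k := by omega
  have hkr : (1 : ℝ) ≤ k := by exact_mod_cast hk3
  have hlog : 2 * (Fintype.card E : ℝ) ≤ Real.log k := by
    rw [Real.le_log_iff_exp_le (by linarith only [hkr])]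
    refine (Nat.le_ceil _).trans ?_
    exact_mod_cast (by omega : ⌈Real.exp (2 * Fintype.card E)⌉₊ ≤ k)
  set n₀ := ⌈(16 / η ^ 2 + 1) * Real.log k⌉₊ with hn₀
  have hn₀1 : (16 / η ^ 2 + 1) * Real.log k ≤ n₀ := Nat.le_ceil _
  have hlog0 : 0 ≤ Real.log k := Real.log_nonneg hkr
  have hq0 : 0 ≤ 16 / η ^ 2 * Real.log k := by positivity
  have hn₀2 : 2 * Fintype.card E ≤ n₀ := by
    have : (2 * (Fintype.card E : ℝ)) ≤ n₀ := by
      rw [add_mul] at hn₀1
      linarith only [hq0, hn₀1, hlog]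
    exact_mod_cast this
  obtain ⟨n, hn⟩ : ∃ n, n₀ = n + 2 * Fintype.card E := ⟨n₀ - 2 * Fintype.card E, by omega⟩
  have hnr : 16 * Real.log k / η ^ 2 ≤ n := by
    have h1 : (n₀ : ℝ) = n + 2 * Fintype.card E := by
      rw [hn]; push_cast; ring
    rw [h1, add_mul] at hn₀1
    have h2 : 16 / η ^ 2 * Real.log k = 16 * Real.log k / η ^ 2 := by ring
    linarith only [h2, hn₀1, hlog]
  have hκ : Fintype.card (Co E P Om) ≤ 3 * k := by
    have h1 : Fintype.card Om ≤ k := by
      have := hS.hOm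
      rw [one_mul] at this
      exact_mod_cast this
    have h2 : Fintype.card E ≤ k := by omega
    simp only [Fintype.card_sum]
    omega
  have hD3 : 1 ≤ D₀ := by omega
  have hD1 : 48 * Real.log 2521 / (c * η ^ 2) ≤ D₀ :=
    (Nat.le_ceil _).trans (by exact_mod_cast (by omega :
      ⌈48 * Real.log 2521 / (c * η ^ 2)⌉₊ ≤ D₀))
  have hD2 : 1 / c ≤ D₀ :=
    (Nat.le_ceil _).trans (by exact_mod_cast (by omega : ⌈1 / c⌉₊ ≤ D₀))
  -- the covering
  set S : Finset ℕ := (Finset.range (N + 1)).filter (fun m => c * N ≤ m) with hSdef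
  set BM : ℕ → Finset (Lin N → {i : Co E P Om // Rnd i} → F) :=
    fun m => Finset.univ.filter (· ∈ BadM fr P ψ n m η) with hBM
  set A : Set (Dz fr P) := {p : Dz fr P | ¬ ∀ m : ℕ, c * N ≤ m → EvB ψ p.1 d m n₀ η} with hA
  have h1 : Nat.card A ≤ ∑ m ∈ S, (BM m).card := by
    have h2 : Nat.card A = (Finset.univ.filter (· ∈ A)).card := by
      rw [Nat.card_eq_fintype_card, Fintype.card_subtype]
    rw [h2, ← Finset.card_image_of_injective _ (dzEquiv fr).injective]
    refine (Finset.card_le_card ?_).trans Finset.card_biUnion_le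
    intro q hq
    obtain ⟨p, hp, rfl⟩ := Finset.mem_image.1 hq
    have hp' := (Finset.mem_filter.1 hp).2
    rw [hA, Set.mem_setOf_eq] at hp'
    push Not at hp'
    obtain ⟨m, hm, hB⟩ := hp'
    rw [hn] at hB
    obtain ⟨h3, h4⟩ := mem_badM p.2 hB
    refine Finset.mem_biUnion.2 ⟨m, ?_, ?_⟩
    · exact Finset.mem_filter.2 ⟨Finset.mem_range.2 (by omega), hm⟩
    · exact Finset.mem_filter.2 ⟨Finset.mem_univ _, h4⟩
  have h2 : Nat.card (Dz fr P) = Fintype.card (Lin N → {i : Co E P Om // Rnd i} → F) := by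
    rw [Nat.card_congr (dzEquiv fr), Nat.card_eq_fintype_card]
  have h3 : ∀ m ∈ S, ((BM m).card : ℝ) ≤
      (Fintype.card (Lin N → {i : Co E P Om // Rnd i} → F) : ℝ) * (1 / (100 * (N + 1))) := by
    intro m hm
    have hm' := (Finset.mem_filter.1 hm).2
    have h4 := card_badM_le (P := P) fr hψ n m hη.le
    have h5 : (Nat.card (BadM fr P ψ n m η) : ℝ) = ((BM m).card : ℝ) := by
      rw [Nat.card_eq_fintype_card, Fintype.card_subtype]
    rw [h5] at h4
    refine h4.trans (mul_le_mul_of_nonneg_left ?_ (by positivity))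
    exact numeric hc hη hD1 hD2 hD3 hS.hN hS.hN' (by omega) (by omega) hk3 hκ hnr hm'
  have h4 : (∑ m ∈ S, ((BM m).card : ℝ)) ≤
      (Fintype.card (Lin N → {i : Co E P Om // Rnd i} → F) : ℝ) / 100 := by
    refine (Finset.sum_le_sum h3).trans ?_
    rw [Finset.sum_const, nsmul_eq_mul]
    have h5 : (S.card : ℝ) ≤ N + 1 := by
      have := Finset.card_filter_le (Finset.range (N + 1)) (fun m : ℕ => c * N ≤ m)
      rw [Finset.card_range] at this
      exact_mod_cast this
    refine (mul_le_mul_of_nonneg_right h5 (by (clear * -; positivity))).trans (le_of_eq ?_)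
    have : (N : ℝ) + 1 ≠ 0 := by positivity
    field_simp
  unfold Rare
  rw [h2]
  have h5 : (Nat.card A : ℝ) ≤ ∑ m ∈ S, ((BM m).card : ℝ) := by exact_mod_cast h1
  have h6 : (100 : ℝ) * Nat.card A ≤
      (Fintype.card (Lin N → {i : Co E P Om // Rnd i} → F) : ℝ) := by linarith only [h5, h4]
  exact_mod_cast h6

end Vale.Agent.P060.HW
end
end
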