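import Mathlib
import Vale.Agent.P060.Bd3.B1

set_option linter.all false

section

/-!
# Existence of GP1: small sets of lines are independent on the coordinates in `P`
-/

open scoped Classical

noncomputable section

set_option linter.unusedSectionVars false

namespace Vale.Agent.P060.HW

namespace Ex1P

open Module

variable {N d : ℕ} {E P Om : Type} [Fintype E] [Fintype P] [Fintype Om] [NeZero N]

/-- Adding a vector on `P` to one line vector. -/
def shift (fr : Frame N d E Om) (u0 : Lin N) (v : P → F) (p : Dz fr P) : Dz fr P :=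
  ⟨fun u co => p.1 u co +
      (if u = u0 then Sum.elim (Sum.elim (fun _ => 0) v) (fun _ => 0) co else 0), by
    intro s i t
    have h := p.2 s i t
    simp only [Sum.elim_inl, ite_self, add_zero]
    exact h⟩

lemma shift_P (fr : Frame N d E Om) (u0 : Lin N) (v : P → F) (p : Dz fr P) (u : Lin N) (j : P) :
    (shift fr u0 v p).1 u (Sum.inl (Sum.inr j))
      = p.1 u (Sum.inl (Sum.inr j)) + if u = u0 then v j else 0 := by
  simp only [shift, Sum.elim_inl, Sum.elim_inr]

lemma shift_injective (fr : Frame N d E Om) (u0 : Lin N) (v : P → F) {p q : Dz fr P}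
    (h : shift fr u0 v p = shift fr u0 v q) : p = q := by
  apply Subtype.ext
  funext u co
  have := congrFun (congrFun (congrArg Subtype.val h) u) co
  simp only [shift] at this
  exact add_right_cancel this

/-- The value of a combination of the line vectors on `P`. -/
def comb (p : Lin N → Co E P Om → F) (c : Lin N → F) (j : P) : F :=
  ∑ u, c u * p u (Sum.inl (Sum.inr j))

lemma comb_shift (fr : Frame N d E Om) (u0 : Lin N) (v : P → F) (p : Dz fr P) (c : Lin N → F)
    (j : P) : comb (shift fr u0 v p).1 c j = comb p.1 c j + c u0 * v j := by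
  unfold comb
  simp only [shift_P, mul_add, Finset.sum_add_distrib, mul_ite, mul_zero, Finset.sum_ite_eq',
    Finset.mem_univ, if_true]

lemma card_fiber (fr : Frame N d E Om) (c : Lin N → F) (hc : c ≠ 0) :
    2521 ^ Fintype.card P * Nat.card {p : Dz fr P // ∀ j, comb p.1 c j = 0}
      ≤ Nat.card (Dz fr P) := by
  obtain ⟨u0, hu0⟩ := Function.ne_iff.1 hc
  have hu0' : c u0 ≠ 0 := hu0
  have h1 : Nat.card (P → F) = 2521 ^ Fintype.card P := by
    rw [Nat.card_eq_fintype_card, Fintype.card_fun, ZMod.card]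
  rw [← h1, ← Nat.card_prod]
  refine Nat.card_le_card_of_injective
    (fun x : (P → F) × {p : Dz fr P // ∀ j, comb p.1 c j = 0} => shift fr u0 x.1 x.2.1) ?_
  rintro ⟨v, p, hp⟩ ⟨v', p', hp'⟩ h
  have hv : v = v' := by
    funext j
    have e1 := comb_shift fr u0 v p c j
    have e2 := comb_shift fr u0 v' p' c j
    have h' : shift fr u0 v p = shift fr u0 v' p' := h
    rw [h', e2, hp, hp', zero_add, zero_add] at e1
    exact (mul_left_cancel₀ hu0' e1).symm
  subst hv
  have := shift_injective fr u0 v h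
  have h2 : p = p' := this
  subst h2
  rfl

/-- The size of the support. -/
def sz (c : Lin N → F) : ℕ := (Finset.univ.filter fun u => c u ≠ 0).card

lemma sum_one_field (x : ℝ) : ∑ a : F, (if a = 0 then (1 : ℝ) else x) = 1 + 2520 * x := by
  have h0 : (Finset.univ.erase (0 : F)).card = 2520 := by
    rw [Finset.card_erase_of_mem (Finset.mem_univ _), Finset.card_univ, ZMod.card]
  have h1 := Finset.add_sum_erase Finset.univ (fun a : F => if a = 0 then (1 : ℝ) else x)
    (Finset.mem_univ (0 : F))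
  rw [← h1, Finset.sum_congr rfl (g := fun _ => x) fun a ha => if_neg (Finset.ne_of_mem_erase ha),
    Finset.sum_const, h0, nsmul_eq_mul]
  simp only [if_true]
  norm_num

/-- The number of vectors of small support, by the exponential moment. -/
lemma card_small (m : ℕ) (x : ℝ) (hx0 : 0 < x) (hx1 : x ≤ 1) :
    ((Finset.univ.filter fun c : Lin N → F => sz c ≤ m).card : ℝ) * x ^ m
      ≤ (1 + 2520 * x) ^ (3 * N) := by
  have h1 : ∏ _u : Lin N, ∑ a : F, (if a = 0 then (1 : ℝ) else x) = (1 + 2520 * x) ^ (3 * N) := by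
    rw [Finset.prod_const, Finset.card_univ, Fintype.card_prod, Fintype.card_fin, ZMod.card,
      sum_one_field]
  rw [← h1, Finset.prod_univ_sum, Fintype.piFinset_univ]
  have h2 : ((Finset.univ.filter fun c : Lin N → F => sz c ≤ m).card : ℝ) * x ^ m
      = ∑ _c ∈ Finset.univ.filter (fun c : Lin N → F => sz c ≤ m), x ^ m := by
    rw [Finset.sum_const, nsmul_eq_mul]
  rw [h2]
  refine (Finset.sum_le_sum fun c hc => ?_).trans
    (Finset.sum_le_sum_of_subset_of_nonneg (Finset.filter_subset _ _) fun c _ _ =>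
      Finset.prod_nonneg fun u _ => ?_)
  · have hc' : sz c ≤ m := (Finset.mem_filter.1 hc).2
    have h3 : ∏ u : Lin N, (if c u = 0 then (1 : ℝ) else x) = x ^ sz c := by
      rw [Finset.prod_ite, Finset.prod_const_one, one_mul, Finset.prod_const]
      rfl
    rw [h3]
    exact pow_le_pow_of_le_one hx0.le hx1 hc'
  · split_ifs
    · exact zero_le_one
    · exact hx0.le

lemma seven_le : (7 : ℝ) ≤ Real.log 2521 := by
  rw [Real.le_log_iff_exp_le (by norm_num)]
  have h1 : Real.exp 7 = Real.exp 1 ^ 7 := by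
    rw [← Real.exp_nat_mul]; norm_num
  rw [h1]
  have h2 : Real.exp 1 ≤ 2.72 := Real.exp_one_lt_d9.le.trans (by norm_num)
  calc Real.exp 1 ^ 7 ≤ (2.72 : ℝ) ^ 7 := pow_le_pow_left₀ (Real.exp_pos 1).le h2 7
    _ ≤ 2521 := by norm_num

lemma hundred_le : (100 : ℝ) ≤ Real.exp 5 := by
  have h1 : Real.exp 5 = Real.exp 1 ^ 5 := by
    rw [← Real.exp_nat_mul]; norm_num
  rw [h1]
  have h2 : (2.7 : ℝ) ≤ Real.exp 1 := (by norm_num : (2.7 : ℝ) ≤ 2.7182818283).trans
    Real.exp_one_gt_d9.le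
  calc (100 : ℝ) ≤ (2.7 : ℝ) ^ 5 := by norm_num
    _ ≤ Real.exp 1 ^ 5 := pow_le_pow_left₀ (by norm_num) h2 5

lemma num (D₀ k N : ℕ) (hk : 2 ≤ k) (hN : N ≤ 2 * D₀ * k) (S : ℝ)
    (hS : ∀ x : ℝ, 0 < x → x ≤ 1 →
      S * x ^ (20 * k / (D₀ + 20) ^ 2) ≤ (1 + 2520 * x) ^ (3 * N)) :
    100 * S ≤ 2521 ^ k := by
  set m : ℕ := 20 * k / (D₀ + 20) ^ 2 with hm
  set n : ℝ := (D₀ : ℝ) + 20 with hn
  have hn20 : (20 : ℝ) ≤ n := by
    have : (0 : ℝ) ≤ D₀ := Nat.cast_nonneg _
    linarith only [this]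
  have hn0 : 0 < n := by linarith only [hn20]
  have hk' : (2 : ℝ) ≤ k := by exact_mod_cast hk
  have hmn : (m : ℝ) * n ^ 2 ≤ 20 * k := by
    have h1 : m * (D₀ + 20) ^ 2 ≤ 20 * k := Nat.div_mul_le_self _ _
    have h2 : ((m * (D₀ + 20) ^ 2 : ℕ) : ℝ) ≤ ((20 * k : ℕ) : ℝ) := by exact_mod_cast h1
    push_cast at h2
    exact h2
  have hm0 : (0 : ℝ) ≤ m := Nat.cast_nonneg _
  have h400 : (400 : ℝ) ≤ n ^ 2 := by (by_contra nlg; linarith only [mul_nonneg (sq_nonneg (n : ℝ)) (sub_nonneg.2 hn20), mul_pos (sub_pos.2 (not_le.1 nlg)) (sub_pos.2 hn0), mul_nonneg (sub_nonneg.2 hn20) (le_of_lt (sub_pos.2 hn0))])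
  have hm1 : (m : ℝ) ≤ k / 20 := by
    have := mul_le_mul_of_nonneg_left h400 hm0
    linarith only [this, hmn]
  have hm2 : (m : ℝ) * (3 * n) ≤ 3 * k := by (by_contra nlg; linarith [mul_nonneg (sub_nonneg.2 h400) (sub_nonneg.2 hm1), mul_nonneg (le_of_lt (sub_pos.2 hn0)) (sub_nonneg.2 hmn), mul_nonneg (sub_nonneg.2 hn20) (sub_nonneg.2 hm1), mul_nonneg (le_of_lt (sub_pos.2 (not_le.1 nlg))) (sub_nonneg.2 h400), mul_pos (sub_pos.2 (not_le.1 nlg)) (sub_pos.2 hn0)])
  have hNr : (N : ℝ) ≤ 2 * D₀ * k := by exact_mod_cast hN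
  -- the choice of x
  set y : ℝ := 2520 * n ^ 3 with hy
  have hn3 : (1 : ℝ) ≤ n ^ 3 := one_le_pow₀ (by linarith only [hNr])
  have hy1 : (1 : ℝ) ≤ y := by rw [hy]; linarith only [hn3]
  have hy0 : 0 < y := by linarith only [hn3]
  have h := hS y⁻¹ (inv_pos.2 hy0) (inv_le_one_of_one_le₀ hy1)
  rw [inv_pow] at h
  have hym : 0 < y ^ m := pow_pos hy0 m
  rw [← div_eq_mul_inv, div_le_iff₀ hym] at h
  -- first factor
  have hf1 : (1 + 2520 * y⁻¹) ^ (3 * N) ≤ Real.exp (3 / 200 * k) := by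
    have e1 : 2520 * y⁻¹ = (n ^ 3)⁻¹ := by
      rw [hy, mul_inv, ← mul_assoc, mul_inv_cancel₀ (by norm_num), one_mul]
    have e2 : 1 + (n ^ 3)⁻¹ ≤ Real.exp ((n ^ 3)⁻¹) := by
      have := Real.add_one_le_exp ((n ^ 3)⁻¹)
      linarith only [this]
    rw [e1]
    refine (pow_le_pow_left₀ (by positivity) e2 _).trans ?_
    rw [← Real.exp_nat_mul]
    apply Real.exp_le_exp.2
    rw [← div_eq_mul_inv, div_le_iff₀ (by positivity)]
    push_cast
    have hD : (D₀ : ℝ) ≤ n := by linarith only []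
    have hk0 : (0 : ℝ) ≤ k := by linarith only [hk']
    calc (3 * N : ℝ) ≤ 3 * (2 * D₀ * k) := by linarith only [hNr]
      _ ≤ 6 * n * k := by linarith only [hk']
      _ ≤ 3 / 200 * k * n ^ 3 := by
        have : 6 * n * k ≤ 3 / 200 * (k * n) * n ^ 2 := by
          have hkn : 0 ≤ k * n := by positivity
          nlinarith
        calc 6 * n * k ≤ 3 / 200 * (k * n) * n ^ 2 := this
          _ = 3 / 200 * k * n ^ 3 := by ring
  -- second factor
  have hL : (7 : ℝ) ≤ Real.log 2521 := seven_le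
  have hf2 : y ^ m ≤ Real.exp (k / 20 * Real.log 2521 + 3 * k) := by
    have e1 : y ^ m = Real.exp (m * Real.log y) := by
      rw [Real.exp_nat_mul, Real.exp_log hy0]
    have e2 : Real.log y ≤ Real.log 2521 + 3 * n := by
      rw [hy, Real.log_mul (by norm_num) (by positivity), Real.log_pow]
      have g1 : Real.log 2520 ≤ Real.log 2521 := Real.log_le_log (by norm_num) (by norm_num)
      have g2 : Real.log n ≤ n := by
        have := Real.log_le_sub_one_of_pos hn0
        linarith only [this]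
      push_cast
      linarith only [g2, g1]
    rw [e1]
    apply Real.exp_le_exp.2
    calc (m : ℝ) * Real.log y ≤ m * (Real.log 2521 + 3 * n) := mul_le_mul_of_nonneg_left e2 hm0
      _ = m * Real.log 2521 + m * (3 * n) := by ring
      _ ≤ k / 20 * Real.log 2521 + 3 * k := by
        have := mul_le_mul_of_nonneg_right hm1 (by linarith only [hL] : (0 : ℝ) ≤ Real.log 2521)
        linarith only [this, hm2]
  have hf3 : S ≤ Real.exp (3 / 200 * k) * Real.exp (k / 20 * Real.log 2521 + 3 * k) :=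
    h.trans (mul_le_mul hf1 hf2 hym.le (Real.exp_pos _).le)
  have e3 : (2521 : ℝ) ^ k = Real.exp (k * Real.log 2521) := by
    rw [Real.exp_nat_mul, Real.exp_log (by norm_num)]
  calc 100 * S ≤ Real.exp 5 * (Real.exp (3 / 200 * k) * Real.exp (k / 20 * Real.log 2521 + 3 * k)) :=
        (mul_le_mul_of_nonneg_left hf3 (by norm_num)).trans
          (mul_le_mul_of_nonneg_right hundred_le (by positivity))
    _ = Real.exp (5 + (3 / 200 * k + (k / 20 * Real.log 2521 + 3 * k))) := by
        rw [← Real.exp_add, ← Real.exp_add]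
    _ ≤ 2521 ^ k := by
        rw [e3]
        apply Real.exp_le_exp.2
        nlinarith

end Ex1P

open Ex1P in
/-- **Existence of GP1.** -/
theorem ex1 : Ex1 := by
  intro D₀ d E _
  refine ⟨1, one_pos, 2, ?_⟩
  intro N P Om _ _ _ fr hk hs
  set m : ℕ := 20 * Fintype.card P / (D₀ + 20) ^ 2 with hm
  set C : Finset (Lin N → F) := Finset.univ.filter fun c => c ≠ 0 ∧ sz c ≤ m with hC
  have hCle : (C.card : ℝ) ≤ ((Finset.univ.filter fun c : Lin N → F => sz c ≤ m).card : ℝ) := by
    refine Nat.cast_le.2 (Finset.card_le_card fun c hc => ?_)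
    exact Finset.mem_filter.2 ⟨Finset.mem_univ _, (Finset.mem_filter.1 hc).2.2⟩
  have hcount : 100 * (C.card : ℝ) ≤ 2521 ^ Fintype.card P := by
    refine (mul_le_mul_of_nonneg_left hCle (by norm_num)).trans ?_
    exact num D₀ (Fintype.card P) N hk hs.hN' _ fun x hx0 hx1 => card_small m x hx0 hx1
  have hcount' : 100 * C.card ≤ 2521 ^ Fintype.card P := by exact_mod_cast hcount
  -- the witness
  have hwit : ∀ p : {p : Dz fr P | ¬ ∀ κ : ℕ, κ ≤ m → Ev1 p.1 κ},
      ∃ c ∈ C, ∀ j, comb p.1.1 c j = 0 := by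
    rintro ⟨p, hp⟩
    have hp0 : ¬ ∀ κ : ℕ, κ ≤ m → Ev1 p.1 κ := hp
    simp only [not_forall] at hp0
    obtain ⟨κ, hκ, hp⟩ := hp0
    unfold Ev1 at hp
    simp only [not_forall] at hp
    obtain ⟨S, hS, hp⟩ := hp
    rw [Fintype.not_linearIndependent_iff] at hp
    obtain ⟨g, hg, u0, hu0⟩ := hp
    refine ⟨fun u => if h : u ∈ S then g ⟨u, h⟩ else 0, ?_, ?_⟩
    · rw [hC, Finset.mem_filter]
      refine ⟨Finset.mem_univ _, ?_, ?_⟩
      · intro h
        apply hu0
        have := congrFun h u0.1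
        simpa using this
      · refine le_trans (Finset.card_le_card fun u hu => ?_) (hS.trans hκ)
        by_contra hn
        have := (Finset.mem_filter.1 hu).2
        exact this (dif_neg hn)
    · intro j
      unfold comb
      have h1 := congrFun hg j
      rw [Finset.sum_apply] at h1
      simp only [Pi.smul_apply, smul_eq_mul, Pi.zero_apply] at h1
      rw [← Finset.sum_subset (Finset.subset_univ S)]
      · rw [← Finset.sum_coe_sort S]
        refine (Finset.sum_congr rfl fun u _ => ?_).trans h1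
        show (if h : u.1 ∈ S then g ⟨u.1, h⟩ else 0) * _ = _
        rw [dif_pos u.2]
      · intro u _ hu
        show (if h : u ∈ S then g ⟨u, h⟩ else 0) * _ = _
        rw [dif_neg hu, zero_mul]
  choose c hcC hc using hwit
  have hcard : Nat.card {p : Dz fr P | ¬ ∀ κ : ℕ, κ ≤ m → Ev1 p.1 κ}
      ≤ ∑ c : C, Nat.card {p : Dz fr P // ∀ j, comb p.1 c.1 j = 0} := by
    rw [← Nat.card_sigma]
    refine Nat.card_le_card_of_injective
      (fun p => (⟨⟨c p, hcC p⟩, ⟨p.1, hc p⟩⟩ :
        Σ c : C, {p : Dz fr P // ∀ j, comb p.1 c.1 j = 0})) ?_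
    intro p q h
    have h2 : ∀ x y : (Σ c : C, {p : Dz fr P // ∀ j, comb p.1 c.1 j = 0}), x = y →
      x.2.1 = y.2.1 := by
      rintro x _ rfl; rfl
    exact Subtype.ext (h2 _ _ h)
  have hsum : (∑ c : C, Nat.card {p : Dz fr P // ∀ j, comb p.1 c.1 j = 0}) * 2521 ^ Fintype.card P
      ≤ C.card * Nat.card (Dz fr P) := by
    rw [Finset.sum_mul]
    calc _ ≤ ∑ _c : C, Nat.card (Dz fr P) := by
          refine Finset.sum_le_sum fun c _ => ?_
          rw [mul_comm]
          exact card_fiber fr c.1 (Finset.mem_filter.1 c.2).2.1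
      _ = C.card * Nat.card (Dz fr P) := by
          rw [Finset.sum_const, Finset.card_univ, Fintype.card_coe, smul_eq_mul]
  show 100 * Nat.card {p : Dz fr P | ¬ ∀ κ : ℕ, κ ≤ m → Ev1 p.1 κ} ≤ Nat.card (Dz fr P)
  have hpos : 0 < 2521 ^ Fintype.card P := by positivity
  refine Nat.le_of_mul_le_mul_right ?_ hpos
  calc 100 * Nat.card {p : Dz fr P | ¬ ∀ κ : ℕ, κ ≤ m → Ev1 p.1 κ} * 2521 ^ Fintype.card P
      ≤ 100 * ((∑ c : C, Nat.card {p : Dz fr P // ∀ j, comb p.1 c.1 j = 0})
          * 2521 ^ Fintype.card P) := by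
        rw [mul_assoc]
        exact Nat.mul_le_mul_left _ (Nat.mul_le_mul_right _ hcard)
    _ ≤ 100 * (C.card * Nat.card (Dz fr P)) := Nat.mul_le_mul_left _ hsum
    _ = (100 * C.card) * Nat.card (Dz fr P) := by ring
    _ ≤ 2521 ^ Fintype.card P * Nat.card (Dz fr P) := Nat.mul_le_mul_right _ hcount'
    _ = Nat.card (Dz fr P) * 2521 ^ Fintype.card P := mul_comm _ _

end Vale.Agent.P060.HW
end
end

section

/-!
# The combination of the blocks TV and LS
-/

open scoped Classical

noncomputable section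

namespace Vale.Agent.P060.HW

open Module

lemma Sizes.mono {N d : ℕ} {E P Om : Type} [Fintype E] [Fintype P] [Fintype Om] [NeZero N]
    {fr : Frame N d E Om} {D₀ : ℕ} {θ θ' C C' : ℝ} (h : Sizes fr P D₀ θ C) (hθ : θ ≤ θ')
    (hC : C' ≤ C) : Sizes fr P D₀ θ' C' where
  hN := h.hN
  hN' := h.hN'
  hd := h.hd
  hOm := h.hOm.trans (mul_le_mul_of_nonneg_right hθ (Nat.cast_nonneg _))
  hA := fun w => (h.hA w).trans (mul_le_mul_of_nonneg_right hθ (Nat.cast_nonneg _))
  hq := (mul_le_mul_of_nonneg_right hC (Real.log_natCast_nonneg _)).trans h.hq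
  hγ := h.hγ

lemma exists_char : ∃ ψ : AddChar F ℂ, ψ ≠ 0 := by
  refine ⟨ZMod.stdAddChar, fun h => ?_⟩
  have h1 := ZMod.isPrimitive_stdAddChar 2521
  have h2 := h1 (a := 1) one_ne_zero
  rw [h] at h2
  apply h2
  ext x
  simp

theorem tvls_of (hTV : TV) (hLS : LS) (hLD : LDFam) : TVLS := by
  intro E _ C ε hε
  obtain ⟨ψ, hψ⟩ := exists_char
  obtain ⟨η, hη, D₂, hTV⟩ := hTV ψ hψ E C (ε / 2) (by linarith)
  obtain ⟨D₁, hLS⟩ := hLS ψ hψ E C η (ε / 2 / 1000) hη (by positivity)
  refine ⟨max D₁ D₂, fun D₀ hD₀ => ?_⟩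
  obtain ⟨d₁, hTV⟩ := hTV D₀ ((le_max_right _ _).trans hD₀)
  refine ⟨max d₁ 1, fun d hd => ?_⟩
  obtain ⟨C₁, θ₁, hθ₁, k₁, hTV⟩ := hTV d ((le_max_left _ _).trans hd)
  obtain ⟨C₂, θ₂, hθ₂, k₂, hLS⟩ := hLS D₀ ((le_max_left _ _).trans hD₀) d
  refine ⟨max C₁ C₂, min θ₁ θ₂, lt_min hθ₁ hθ₂, max k₁ k₂, ?_⟩
  intro N P Om _ _ _ fr hk hS
  obtain ⟨G₁, hG₁, hTV⟩ := hTV N P Om fr ((le_max_left _ _).trans hk)
    (hS.mono (min_le_left _ _) (le_max_left _ _))
  obtain ⟨G₂, hG₂, hLS⟩ := hLS N P Om fr ((le_max_right _ _).trans hk)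
    (hS.mono (min_le_right _ _) (le_max_right _ _))
  refine ⟨G₁ ∩ G₂, ?_, ?_⟩
  · have h1 : Nat.card ((G₁ ∩ G₂)ᶜ : Set (Dz fr P)) ≤ Nat.card (G₁ᶜ : Set (Dz fr P))
        + Nat.card (G₂ᶜ : Set (Dz fr P)) := by
      rw [Set.compl_inter, Nat.card_coe_set_eq, Nat.card_coe_set_eq, Nat.card_coe_set_eq]
      exact Set.ncard_union_le _ _

    omega
  · intro p hp a a' ι ι' haa w hw ρ hρ
    have h1 := hTV p hp.1 a a' ι ι' haa w hw ρ hρ
    have h2 : ∑ β, (if BadC ψ (dsg fr p.1 p.2) a a' w η β then ρ β else 0) ≤ ε / 2 := by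
      by_contra h
      push Not at h
      rw [← Finset.sum_filter] at h
      obtain ⟨𝓕, h𝓕, hLD', hne, hcard⟩ := hLD N d
        (lt_of_lt_of_le Nat.one_pos ((le_max_right _ _).trans hd)) hS.hd ρ hρ _ _ h
      have h3 := hLS p hp.2 a a' ι ι' haa w hw 𝓕 hLD' hne
        (fun β hβ => (Finset.mem_filter.1 (h𝓕 hβ)).2)
      have h4 : ε / 2 * N / 1000 = ε / 2 / 1000 * N := by ring
      linarith only [hcard, h3]
    calc ∑ β, (if ε < tdist (dsg fr p.1 p.2) a a' w β then ρ β else 0)
        ≤ ∑ β, ((if ε / 2 < tdist (dsg fr p.1 p.2) a a' w β ∧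
            ¬ BadC ψ (dsg fr p.1 p.2) a a' w η β then ρ β else 0)
          + (if BadC ψ (dsg fr p.1 p.2) a a' w η β then ρ β else 0)) := by
          refine Finset.sum_le_sum fun β _ => ?_
          have h0 := hρ.nonneg β
          by_cases hb : BadC ψ (dsg fr p.1 p.2) a a' w η β
          · simp only [hb, not_true_eq_false, and_false, if_false, if_true, zero_add]
            split_ifs <;> linarith
          · by_cases ht : ε < tdist (dsg fr p.1 p.2) a a' w β
            · have ht' : ε / 2 < tdist (dsg fr p.1 p.2) a a' w β := by linarith only [ht, hε]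
              simp [ht, ht', hb]
            · simp only [ht, hb, if_false, add_zero, not_false_eq_true, and_true]
              split_ifs <;> linarith
      _ ≤ ε / 2 + ε / 2 := by
          rw [Finset.sum_add_distrib]
          exact add_le_add h1 h2
      _ = ε := by ring

end Vale.Agent.P060.HW
end
end

section

/-!
# Interface of the structural part: pair laws, the observed matrix, the surviving subspace
-/

open scoped Classical

noncomputable section

set_option linter.unusedSectionVars false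

namespace Vale.Agent.P060.HW

open Module

/-- Four slots: `(i, j)` is the test of the form `i` by the type `j`. -/
abbrev Sl (K : Type*) := Fin 2 → Fin 2 → K → F

namespace Design

variable {K T : Type*} [Fintype K] (δ : Design K T)

/-- The observed matrix: the forms `B 0, B 1` tested by the types `b 0, b 1`. -/
def Mt (B : Fin 2 → Matrix K K F) (b : Fin 2 → T) : Sl K := fun i j => (B i).mulVec (δ.g (b j))

/-- The subspace which survives the trivial relations and the allowed cut functionals. -/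
def ZP (a b : Fin 2 → T) : Submodule F (Sl K) where
  carrier := {m | (∀ i j, ∀ w, w ∈ δ.U (a i) ∨ w ∈ δ.U (b j) → m i j w = 0) ∧
    (∀ i i' j, dotProduct (δ.g (a i')) (m i j) = 0) ∧
    ∀ i, dotProduct (δ.g (b 0)) (m i 1) = dotProduct (δ.g (b 1)) (m i 0)}
  zero_mem' := by
    refine ⟨fun i j w _ => rfl, fun i i' j => ?_, fun i => ?_⟩
    · rw [Pi.zero_apply, Pi.zero_apply, dotProduct_zero]
    · rw [Pi.zero_apply, Pi.zero_apply, Pi.zero_apply, dotProduct_zero, dotProduct_zero]
  add_mem' := by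
    rintro m m' ⟨h1, h2, h3⟩ ⟨h1', h2', h3'⟩
    refine ⟨fun i j w hw => ?_, fun i i' j => ?_, fun i => ?_⟩
    · rw [Pi.add_apply, Pi.add_apply, Pi.add_apply, h1 i j w hw, h1' i j w hw, add_zero]
    · rw [Pi.add_apply, Pi.add_apply, dotProduct_add, h2, h2', add_zero]
    · rw [Pi.add_apply, Pi.add_apply, Pi.add_apply, dotProduct_add, dotProduct_add, h3, h3']
  smul_mem' := by
    rintro c m ⟨h1, h2, h3⟩
    refine ⟨fun i j w hw => ?_, fun i i' j => ?_, fun i => ?_⟩
    · rw [Pi.smul_apply, Pi.smul_apply, Pi.smul_apply, h1 i j w hw, smul_zero]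
    · rw [Pi.smul_apply, Pi.smul_apply, dotProduct_smul, h2, smul_zero]
    · rw [Pi.smul_apply, Pi.smul_apply, Pi.smul_apply, dotProduct_smul, dotProduct_smul, h3]

/-- A law of a pair of forms of labels `(a i, ι i)`, with joint density at most `Λ` and marginal
densities at most `M`. -/
structure PL (a : Fin 2 → T) (ι : Fin 2 → Bool) {Ω : Type*} [Fintype Ω] (P : FinProb Ω)
    (B : Fin 2 → Ω → Matrix K K F) (Λ M : ℝ) : Prop where
  mem : ∀ ω, 0 < P.w ω → ∀ i, B i ω - (if ι i then δ.B0 (a i) else 0) ∈ δ.Dir (a i)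
  joint : ∀ Q : Fin 2 → Matrix K K F, P.p (fun ω i => B i ω) Q
    ≤ Λ / ((Nat.card (δ.Dir (a 0)) : ℝ) * Nat.card (δ.Dir (a 1)))
  marg : ∀ i (Q : Matrix K K F), P.p (B i) Q ≤ M / (Nat.card (δ.Dir (a i)) : ℝ)

/-- The law of the observed matrix. -/
def lawM {Ω : Type*} [Fintype Ω] (P : FinProb Ω) (B : Fin 2 → Ω → Matrix K K F) (b : Fin 2 → T) :
    Sl K → ℝ := P.p (fun ω => δ.Mt (fun i => B i ω) b)

/-- The law of the observed matrix is `ε`-close to its average over the surviving subspace. -/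
def Close (a : Fin 2 → T) {Ω : Type*} [Fintype Ω] (P : FinProb Ω) (B : Fin 2 → Ω → Matrix K K F)
    (b : Fin 2 → T) (ε : ℝ) : Prop :=
  ∑ m, |δ.lawM P B b m - avg (δ.ZP a b) (δ.lawM P B b) m| ≤ ε

/-- The law of the observed matrix has a large coefficient which is not allowed. -/
def Large (a : Fin 2 → T) {Ω : Type*} [Fintype Ω] (P : FinProb Ω) (B : Fin 2 → Ω → Matrix K K F)
    (b : Fin 2 → T) (ψ : AddChar F ℂ) (η : ℝ) : Prop :=
  ∃ ξ : Dual F (Sl K), (¬ ∀ z ∈ δ.ZP a b, ξ z = 0) ∧ η ≤ ‖fc ψ (δ.lawM P B b) ξ‖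

end Design

end Vale.Agent.P060.HW
end
end

section

/-!
# Bridge: trivial and cut functionals kill the surviving subspace

For a pair of types `b ≠ b'` whose lines are disjoint from those of `a` and `a'`, in a design with
independent small sets of lines, every `z` with `TrivPsi` vanishes on `ZP`.  Hence a large
coefficient which is not allowed (`Large`) is a bad coefficient (`BadC`).
-/

open scoped Classical

noncomputable section

set_option linter.unusedSectionVars false

namespace Vale.Agent.P060.HW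

open Module

section

variable {N d : ℕ} {E P Om : Type} [Fintype E] [Fintype P] [Fintype Om] [NeZero N]

lemma br_mem_lins {c : Ty N d} {u : Lin N} : u ∈ lins c ↔ ln c u.1 = u.2 := by
  rw [an_mem_lins]
  constructor
  · rintro ⟨s, rfl⟩; rfl
  · intro h
    exact ⟨u.1, by rw [lin, h]⟩

/-- Two different types share at most one line: two lines of `b` outside `b'`. -/
lemma br_two_lines (fr : Frame N d E Om) {b b' : Ty N d} (h : b ≠ b') :
    ∃ s s' : Fin 3, s ≠ s' ∧ lin b s ∉ lins b' ∧ lin b s' ∉ lins b' := by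
  have key : ∀ s s' : Fin 3, s ≠ s' → lin b s ∉ lins b' ∨ lin b s' ∉ lins b' := by
    intro s s' hs
    by_contra hc
    push Not at hc
    rw [br_mem_lins, br_mem_lins] at hc
    exact h (fr.share_two b b' s s' hs hc.1.symm hc.2.symm)
  rcases key 0 1 (by decide) with h0 | h1
  · rcases key 1 2 (by decide) with h1 | h2
    · exact ⟨0, 1, by decide, h0, h1⟩
    · exact ⟨0, 2, by decide, h0, h2⟩
  · rcases key 0 2 (by decide) with h0 | h2
    · exact ⟨0, 1, by decide, h0, h1⟩
    · exact ⟨1, 2, by decide, h1, h2⟩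

lemma br_two_ne : (2 : F) ≠ 0 := by decide

/-- The half of the core lemma for the vector `z0` of `b`. -/
lemma br_half (fr : Frame N d E Om) (p : Lin N → Co E P Om → F)
    (a b b' : Ty N d) (S : Finset (Lin N)) (hSa : lins a ⊆ S) (hSb : lins b ⊆ S) (hSb' : lins b' ⊆ S)
    (hS : S ⊆ lins a ∪ lins b ∪ lins b')
    (hab : Disjoint (lins b) (lins a)) (hab' : Disjoint (lins b') (lins a))
    (hK : ∀ e : Lin N → F, (∀ j : P, ∑ v ∈ S, e v * p v (Sum.inl (Sum.inr j)) = 0) → ∀ v ∈ S, e v = 0)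
    (z0 z1 : Co E P Om → F) (y : Co E P Om → F) (c : Lin N → Lin N → F) (x : Om → Ty N d → F)
    (hc : ∀ u v, c u v = - c v u)
    (hx : ∀ w b, x w b ≠ 0 → w ∈ fr.U b)
    (h1 : ∀ u ∈ S, ∀ j : E ⊕ P, (if u ∈ lins b then z0 (Sum.inl j) else 0) +
      (if u ∈ lins b' then z1 (Sum.inl j) else 0) =
      (if u ∈ lins a then y (Sum.inl j) else 0) + ∑ v ∈ S, c u v * p v (Sum.inl j))
    (h2 : ∀ u ∈ S, ∀ w ∉ fr.U a, (if u ∈ lins b then z0 (Sum.inr w) else 0) +
      (if u ∈ lins b' then z1 (Sum.inr w) else 0) =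
      (if u ∈ lins a then y (Sum.inr w) else 0) + ∑ v ∈ S, c u v * p v (Sum.inr w)
        + ∑ b, x w b * (if u ∈ lins b then 1 else 0))
    {s s' t : Fin 3} (hs : s ≠ s') (hbs : lin b s ∉ lins b') (hbs' : lin b s' ∉ lins b')
    (hbt : lin b' t ∉ lins b) :
    ∃ α : F, (∀ j : E ⊕ P, z0 (Sum.inl j) = α * gv p a (Sum.inl j)
        + c (lin b s) (lin b' t) * gv p b' (Sum.inl j)) ∧
      (∀ w ∉ fr.U a, w ∉ fr.U b → z0 (Sum.inr w) = α * gv p a (Sum.inr w)
        + c (lin b s) (lin b' t) * gv p b' (Sum.inr w)) := by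
  have mb : ∀ s, lin b s ∈ lins b := fun s => an_mem_lins.2 ⟨s, rfl⟩
  have mb' : ∀ s, lin b' s ∈ lins b' := fun s => an_mem_lins.2 ⟨s, rfl⟩
  have ma : ∀ s, lin a s ∈ lins a := fun s => an_mem_lins.2 ⟨s, rfl⟩
  have hd : ∀ u, u ∈ lins b → u ∉ lins a := fun u hu hu' => Finset.disjoint_left.1 hab hu hu'
  have hd' : ∀ u, u ∈ lins b' → u ∉ lins a := fun u hu hu' => Finset.disjoint_left.1 hab' hu hu'
  -- comparison of two rows of coefficients
  have hcmp : ∀ e : Lin N → F, (∀ j : P, ∑ v ∈ S, e v * p v (Sum.inl (Sum.inr j)) = 0) →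
      ∀ v ∈ S, e v = 0 := hK
  have r1 : ∀ v ∈ S, c (lin b s) v = c (lin b s') v := by
    intro v hv
    have e1 := hK (fun v => c (lin b s) v - c (lin b s') v) (by
      intro j
      have k1 := h1 _ (hSb (mb s)) (Sum.inr j)
      have k2 := h1 _ (hSb (mb s')) (Sum.inr j)
      rw [if_pos (mb s), if_neg hbs, if_neg (hd _ (mb s))] at k1
      rw [if_pos (mb s'), if_neg hbs', if_neg (hd _ (mb s'))] at k2
      simp only [sub_mul, Finset.sum_sub_distrib]
      linear_combination k2 - k1) v hv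
    exact sub_eq_zero.1 e1
  -- lines of b outside b'
  have r2 : ∀ u ∈ lins b, u ∉ lins b' → ∀ v ∈ S, c u v = c (lin b s) v := by
    intro u hu hu' v hv
    have e1 := hK (fun v => c u v - c (lin b s) v) (by
      intro j
      have k1 := h1 _ (hSb (mb s)) (Sum.inr j)
      have k2 := h1 _ (hSb hu) (Sum.inr j)
      rw [if_pos (mb s), if_neg hbs, if_neg (hd _ (mb s))] at k1
      rw [if_pos hu, if_neg hu', if_neg (hd _ hu)] at k2
      simp only [sub_mul, Finset.sum_sub_distrib]
      linear_combination k1 - k2) v hv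
    exact sub_eq_zero.1 e1
  have r2' : ∀ u ∈ lins b', u ∉ lins b → ∀ v ∈ S, c u v = c (lin b' t) v := by
    intro u hu hu' v hv
    have e1 := hK (fun v => c u v - c (lin b' t) v) (by
      intro j
      have k1 := h1 _ (hSb' (mb' t)) (Sum.inr j)
      have k2 := h1 _ (hSb' hu) (Sum.inr j)
      rw [if_pos (mb' t), if_neg hbt, if_neg (hd' _ (mb' t))] at k1
      rw [if_pos hu, if_neg hu', if_neg (hd' _ hu)] at k2
      simp only [sub_mul, Finset.sum_sub_distrib]
      linear_combination k1 - k2) v hv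
    exact sub_eq_zero.1 e1
  have r3 : ∀ u ∈ lins b, u ∈ lins b' → ∀ v ∈ S, c u v = c (lin b s) v + c (lin b' t) v := by
    intro u hu hu' v hv
    have e1 := hK (fun v => c u v - c (lin b s) v - c (lin b' t) v) (by
      intro j
      have k0 := h1 _ (hSb (mb s)) (Sum.inr j)
      have k1 := h1 _ (hSb' (mb' t)) (Sum.inr j)
      have k2 := h1 _ (hSb hu) (Sum.inr j)
      rw [if_pos (mb s), if_neg hbs, if_neg (hd _ (mb s))] at k0
      rw [if_pos (mb' t), if_neg hbt, if_neg (hd' _ (mb' t))] at k1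
      rw [if_pos hu, if_pos hu', if_neg (hd _ hu)] at k2
      simp only [sub_mul, Finset.sum_sub_distrib]
      linear_combination k0 + k1 - k2) v hv
    linear_combination e1
  have r4 : ∀ u ∈ lins a, ∀ v ∈ S, c u v = c (lin a 0) v := by
    intro u hu v hv
    have hub : u ∉ lins b := fun h' => hd _ h' hu
    have hub' : u ∉ lins b' := fun h' => hd' _ h' hu
    have h0b : lin a 0 ∉ lins b := fun h' => hd _ h' (ma 0)
    have h0b' : lin a 0 ∉ lins b' := fun h' => hd' _ h' (ma 0)
    have e1 := hK (fun v => c u v - c (lin a 0) v) (by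
      intro j
      have k1 := h1 _ (hSa (ma 0)) (Sum.inr j)
      have k2 := h1 _ (hSa hu) (Sum.inr j)
      rw [if_pos (ma 0), if_neg h0b, if_neg h0b'] at k1
      rw [if_pos hu, if_neg hub, if_neg hub'] at k2
      simp only [sub_mul, Finset.sum_sub_distrib]
      linear_combination k1 - k2) v hv
    exact sub_eq_zero.1 e1
  have r5 : c (lin b s) (lin b s) = 0 := by
    have e1 := hc (lin b s) (lin b s)
    have e2 : (2 : F) * c (lin b s) (lin b s) = 0 := by linear_combination e1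
    exact (mul_eq_zero.1 e2).resolve_left br_two_ne
  -- the coefficients of the row
  have r6 : ∀ v ∈ S, c (lin b s) v = (if v ∈ lins a then c (lin b s) (lin a 0) else 0)
      + (if v ∈ lins b' then c (lin b s) (lin b' t) else 0) := by
    intro v hv
    by_cases hva : v ∈ lins a
    · have hvb' : v ∉ lins b' := fun h' => hd' _ h' hva
      rw [if_pos hva, if_neg hvb', add_zero, hc, r4 v hva _ (hSb (mb s)), hc (lin b s) (lin a 0)]
    · rw [if_neg hva, zero_add]
      by_cases hvb' : v ∈ lins b'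
      · rw [if_pos hvb']
        by_cases hvb : v ∈ lins b
        · rw [hc, r3 v hvb hvb' _ (hSb (mb s)), r5, hc (lin b s) (lin b' t)]
          ring
        · rw [hc, r2' v hvb' hvb _ (hSb (mb s)), hc (lin b s) (lin b' t)]
      · rw [if_neg hvb']
        have hvb : v ∈ lins b := by
          have := hS hv
          rw [Finset.mem_union, Finset.mem_union] at this
          rcases this with (h' | h') | h'
          · exact absurd h' hva
          · exact h'
          · exact absurd h' hvb'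
        rw [hc, r2 v hvb hvb' _ (hSb (mb s)), r5, neg_zero]
  have r7 : ∀ i : Co E P Om, ∑ v ∈ S, c (lin b s) v * p v i =
      c (lin b s) (lin a 0) * gv p a i + c (lin b s) (lin b' t) * gv p b' i := by
    intro i
    rw [an_gv_sum p a S (fun s => hSa (ma s)), an_gv_sum p b' S (fun s => hSb' (mb' s)),
      Finset.mul_sum, Finset.mul_sum, ← Finset.sum_add_distrib]
    refine Finset.sum_congr rfl fun v hv => ?_
    rw [r6 v hv]
    split_ifs <;> ring
  refine ⟨c (lin b s) (lin a 0), ?_, ?_⟩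
  · intro j
    have k1 := h1 _ (hSb (mb s)) j
    rw [if_pos (mb s), if_neg hbs, if_neg (hd _ (mb s)), r7] at k1
    linear_combination k1
  · intro w hwa hwb
    have k1 := h2 _ (hSb (mb s)) w hwa
    have k2 := h2 _ (hSb (mb s')) w hwa
    rw [if_pos (mb s), if_neg hbs, if_neg (hd _ (mb s)), r7] at k1
    rw [if_pos (mb s'), if_neg hbs', if_neg (hd _ (mb s')),
      Finset.sum_congr rfl (fun v hv => by rw [← r1 v hv] :
        ∀ v ∈ S, c (lin b s') v * p v (Sum.inr w) = c (lin b s) v * p v (Sum.inr w)), r7] at k2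
    have k3 : ∑ b'', x w b'' * (if lin b s ∈ lins b'' then 1 else 0) =
        ∑ b'', x w b'' * (if lin b s' ∈ lins b'' then 1 else 0) := by
      linear_combination k2 - k1
    have k4 : ∑ b'', x w b'' * (if lin b s ∈ lins b'' then (1 : F) else 0) = 0 := by
      by_contra hne
      obtain ⟨b1, -, hb1⟩ := Finset.exists_ne_zero_of_sum_ne_zero hne
      rw [k3] at hne
      obtain ⟨b2, -, hb2⟩ := Finset.exists_ne_zero_of_sum_ne_zero hne
      have q1 : x w b1 ≠ 0 := left_ne_zero_of_mul hb1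
      have q2 : x w b2 ≠ 0 := left_ne_zero_of_mul hb2
      have l1 : lin b s ∈ lins b1 := by
        by_contra h'
        rw [if_neg h', mul_zero] at hb1
        exact hb1 rfl
      have l2 : lin b s' ∈ lins b2 := by
        by_contra h'
        rw [if_neg h', mul_zero] at hb2
        exact hb2 rfl
      rw [br_mem_lins] at l1 l2
      by_cases hbb : b1 = b2
      · subst hbb
        have : b1 = b := fr.share_two b1 b s s' hs l1 l2
        subst this
        exact hwb (hx w _ q1)
      · exact Finset.disjoint_left.1 (fr.star_disj b b1 b2 s s' hbb l1.symm l2.symm)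
          (hx w _ q1) (hx w _ q2)
    rw [k4] at k1
    linear_combination k1

/-- The core lemma: the vectors `z0, z1` of a trivial tensor `z0 ⊗ g_b + z1 ⊗ g_b'`. -/
lemma br_core (fr : Frame N d E Om) (p : Lin N → Co E P Om → F) (h : Ext fr p)
    (a b b' : Ty N d) (hbb : b ≠ b') (hab : Disjoint (lins b) (lins a))
    (hab' : Disjoint (lins b') (lins a))
    (hi : LinearIndependent F (fun u : (lins a ∪ lins b ∪ lins b' : Finset (Lin N)) =>
      fun j : P => p u (Sum.inl (Sum.inr j))))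
    (hi2 : ∀ w ∉ fr.U a, LinearIndependent F
      (fun u : ((lins a ∪ lins b ∪ lins b') ∪ rowLines fr w : Finset (Lin N)) =>
        fun j : P => p u (Sum.inl (Sum.inr j))))
    (z0 z1 : Co E P Om → F)
    (hz : sm z0 (gv p b) + sm z1 (gv p b') ∈ (dsg fr p h).Nn a) :
    ∃ α α' κ : F, (∀ j : E ⊕ P, z0 (Sum.inl j) = α * gv p a (Sum.inl j) + κ * gv p b' (Sum.inl j)) ∧
      (∀ w ∉ fr.U a, w ∉ fr.U b → z0 (Sum.inr w) = α * gv p a (Sum.inr w)
        + κ * gv p b' (Sum.inr w)) ∧
      (∀ j : E ⊕ P, z1 (Sum.inl j) = α' * gv p a (Sum.inl j) - κ * gv p b (Sum.inl j)) ∧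
      (∀ w ∉ fr.U a, w ∉ fr.U b' → z1 (Sum.inr w) = α' * gv p a (Sum.inr w)
        - κ * gv p b (Sum.inr w)) := by
  obtain ⟨S, hSd⟩ : ∃ S, S = lins a ∪ lins b ∪ lins b' := ⟨_, rfl⟩
  rw [← hSd] at hi
  have hi2' : ∀ w ∉ fr.U a, LinearIndependent F
      (fun u : (S ∪ rowLines fr w : Finset (Lin N)) => fun j : P => p u (Sum.inl (Sum.inr j))) := by
    subst hSd; exact hi2
  have hSa : lins a ⊆ S := by
    rw [hSd]; exact fun u hu => Finset.mem_union_left _ (Finset.mem_union_left _ hu)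
  have hSb : lins b ⊆ S := by
    rw [hSd]; exact fun u hu => Finset.mem_union_left _ (Finset.mem_union_right _ hu)
  have hSb' : lins b' ⊆ S := by
    rw [hSd]; exact fun u hu => Finset.mem_union_right _ hu
  have mb : ∀ s, lin b s ∈ lins b := fun s => an_mem_lins.2 ⟨s, rfl⟩
  have mb' : ∀ s, lin b' s ∈ lins b' := fun s => an_mem_lins.2 ⟨s, rfl⟩
  have ma : ∀ s, lin a s ∈ lins a := fun s => an_mem_lins.2 ⟨s, rfl⟩
  -- the sum over the lines
  have hsum : ∑ u ∈ S, sm ((if u ∈ lins b then z0 else 0) + (if u ∈ lins b' then z1 else 0)) (p u)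
      = sm z0 (gv p b) + sm z1 (gv p b') := by
    ext i j
    rw [an_sum_sm, Matrix.add_apply, an_sm_apply, an_sm_apply,
      an_gv_sum p b S (fun s => hSb (mb s)), an_gv_sum p b S (fun s => hSb (mb s)),
      an_gv_sum p b' S (fun s => hSb' (mb' s)), an_gv_sum p b' S (fun s => hSb' (mb' s)),
      Finset.mul_sum, Finset.mul_sum, Finset.sum_mul, Finset.sum_mul, ← Finset.sum_add_distrib,
      ← Finset.sum_add_distrib, ← Finset.sum_add_distrib]
    refine Finset.sum_congr rfl fun u _ => ?_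
    rw [Pi.add_apply, Pi.add_apply]
    by_cases hb1 : u ∈ lins b <;> by_cases hb2 : u ∈ lins b' <;> (simp [hb1, hb2]; try ring)
  rw [← hsum] at hz
  obtain ⟨y, c, x, hc, -, hx, h1, h2⟩ := an N d E P Om fr p h a S (fun s => hSa (ma s)) hi hi2' _ hz
  have hK : ∀ e : Lin N → F, (∀ j : P, ∑ v ∈ S, e v * p v (Sum.inl (Sum.inr j)) = 0) →
      ∀ v ∈ S, e v = 0 := by
    intro e he v hv
    obtain ⟨L, hL⟩ := an_exists_dual S (fun u => fun j : P => p u (Sum.inl (Sum.inr j))) hi
    have e1 : ∑ v ∈ S, e v • (fun j : P => p v (Sum.inl (Sum.inr j))) = 0 := by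
      funext j
      rw [Finset.sum_apply]
      exact he j
    have e2 := congrArg (L v) e1
    rw [map_sum, map_zero, Finset.sum_eq_single v] at e2
    · rw [map_smul, hL v hv v hv, if_pos rfl, smul_eq_mul, mul_one] at e2
      exact e2
    · intro u hu huv
      rw [map_smul, hL v hv u hu, if_neg (Ne.symm huv), smul_zero]
    · intro h'; exact absurd hv h'
  have h1' : ∀ u ∈ S, ∀ j : E ⊕ P, (if u ∈ lins b then z0 (Sum.inl j) else 0) +
      (if u ∈ lins b' then z1 (Sum.inl j) else 0) =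
      (if u ∈ lins a then y (Sum.inl j) else 0) + ∑ v ∈ S, c u v * p v (Sum.inl j) := by
    intro u hu j
    rw [← h1 u hu j, Pi.add_apply]
    congr 1 <;> split_ifs <;> rfl
  have h2' : ∀ u ∈ S, ∀ w ∉ fr.U a, (if u ∈ lins b then z0 (Sum.inr w) else 0) +
      (if u ∈ lins b' then z1 (Sum.inr w) else 0) =
      (if u ∈ lins a then y (Sum.inr w) else 0) + ∑ v ∈ S, c u v * p v (Sum.inr w)
        + ∑ b, x w b * (if u ∈ lins b then 1 else 0) := by
    intro u hu w hw
    rw [← h2 u hu w hw, Pi.add_apply]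
    congr 1 <;> split_ifs <;> rfl
  obtain ⟨s, s', hs, hbs, hbs'⟩ := br_two_lines fr hbb
  obtain ⟨t, t', ht, hbt, hbt'⟩ := br_two_lines fr hbb.symm
  obtain ⟨α, k1, k2⟩ := br_half fr p a b b' S hSa hSb hSb' (by rw [hSd]) hab hab' hK z0 z1 y c x hc
    (fun w b hb => (hx w b hb).1) h1' h2' hs hbs hbs' hbt
  obtain ⟨α', k3, k4⟩ := br_half fr p a b' b S hSa hSb' hSb
    (by rw [hSd, Finset.union_assoc, Finset.union_comm (lins b) (lins b'), Finset.union_assoc])
    hab' hab hK z1 z0 y c x hc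
    (fun w b hb => (hx w b hb).1) (fun u hu j => by rw [add_comm]; exact h1' u hu j)
    (fun u hu w hw => by
      rw [add_comm (if u ∈ lins b' then z1 (Sum.inr w) else 0)]; exact h2' u hu w hw)
    ht hbt hbt' hbs
  refine ⟨α, α', c (lin b s) (lin b' t), k1, k2, ?_, ?_⟩
  · intro j
    rw [k3 j, hc (lin b' t) (lin b s)]
    ring
  · intro w hwa hwb
    rw [k4 w hwa hwb, hc (lin b' t) (lin b s)]
    ring

end

section

variable {N d : ℕ} {E P Om : Type} [Fintype E] [Fintype P] [Fintype Om] [NeZero N]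

lemma br_card_lins (c : Ty N d) : (lins c).card ≤ 3 := by
  unfold lins
  exact Finset.card_image_le.trans (by rw [Finset.card_univ, Fintype.card_fin])

/-- Independence of the lines of three types and of a row. -/
lemma br_indep (fr : Frame N d E Om) (p : Lin N → Co E P Om → F) (κ : ℕ) (hE : Ev1 p κ)
    (a b b' : Ty N d) :
    (9 ≤ κ → LinearIndependent F (fun u : (lins a ∪ lins b ∪ lins b' : Finset (Lin N)) =>
      fun j : P => p u (Sum.inl (Sum.inr j)))) ∧
    (∀ w, (rowLines fr w).card + 9 ≤ κ → LinearIndependent F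
      (fun u : ((lins a ∪ lins b ∪ lins b') ∪ rowLines fr w : Finset (Lin N)) =>
        fun j : P => p u (Sum.inl (Sum.inr j)))) := by
  have h1 : (lins a ∪ lins b ∪ lins b').card ≤ 9 := by
    have e1 := Finset.card_union_le (lins a ∪ lins b) (lins b')
    have e2 := Finset.card_union_le (lins a) (lins b)
    have := br_card_lins a
    have := br_card_lins b
    have := br_card_lins b'
    omega
  refine ⟨fun h9 => hE _ (h1.trans h9), fun w hw => hE _ ?_⟩
  have e1 := Finset.card_union_le (lins a ∪ lins b ∪ lins b') (rowLines fr w)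
  omega

/-- One slot: a trivial functional kills the surviving subspace. -/
lemma br_slot (fr : Frame N d E Om) (p : Lin N → Co E P Om → F) (h : Ext fr p) (κ : ℕ)
    (hE : Ev1 p κ) (h9 : 9 ≤ κ) (hκ : ∀ w, (rowLines fr w).card + 9 ≤ κ)
    (a a' b b' : Ty N d) (hbb : b ≠ b') (hab : Disjoint (lins b) (lins a))
    (hab' : Disjoint (lins b') (lins a)) (z0 z1 m0 m1 : Co E P Om → F) (c c' : F)
    (hz : smm ![z0, z1] ![gv p b, gv p b'] - c • sm (gv p a') (gv p b)
      - c' • sm (gv p a') (gv p b') ∈ (dsg fr p h).Nn a)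
    (hm0 : ∀ w, w ∈ fr.U a ∨ w ∈ fr.U b → m0 (Sum.inr w) = 0)
    (hm1 : ∀ w, w ∈ fr.U a ∨ w ∈ fr.U b' → m1 (Sum.inr w) = 0)
    (ha0 : gv p a ⬝ᵥ m0 = 0) (ha1 : gv p a ⬝ᵥ m1 = 0)
    (ha0' : gv p a' ⬝ᵥ m0 = 0) (ha1' : gv p a' ⬝ᵥ m1 = 0)
    (hb : gv p b ⬝ᵥ m1 = gv p b' ⬝ᵥ m0) : z0 ⬝ᵥ m0 + z1 ⬝ᵥ m1 = 0 := by
  have hz' : sm (z0 - c • gv p a') (gv p b) + sm (z1 - c' • gv p a') (gv p b') ∈
      (dsg fr p h).Nn a := by
    have e1 : sm (z0 - c • gv p a') (gv p b) + sm (z1 - c' • gv p a') (gv p b') =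
        smm ![z0, z1] ![gv p b, gv p b'] - c • sm (gv p a') (gv p b)
          - c' • sm (gv p a') (gv p b') := by
      unfold smm
      rw [Fin.sum_univ_two]
      ext i j
      simp only [Matrix.add_apply, Matrix.sub_apply, Matrix.smul_apply, an_sm_apply, Pi.sub_apply,
        Pi.smul_apply, smul_eq_mul, Matrix.cons_val_zero, Matrix.cons_val_one]
      ring
    rw [e1]
    exact hz
  obtain ⟨α, α', κ', k1, k2, k3, k4⟩ := br_core fr p h a b b' hbb hab hab'
    ((br_indep fr p κ hE a b b').1 h9) (fun w _ => (br_indep fr p κ hE a b b').2 w (hκ w))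
    _ _ hz'
  have q0 : (z0 - c • gv p a') ⬝ᵥ m0 = α * (gv p a ⬝ᵥ m0) + κ' * (gv p b' ⬝ᵥ m0) := by
    unfold dotProduct
    rw [Finset.mul_sum, Finset.mul_sum, ← Finset.sum_add_distrib]
    refine Finset.sum_congr rfl fun i _ => ?_
    rcases i with j | w
    · rw [k1 j]; ring
    · by_cases hw : w ∈ fr.U a ∨ w ∈ fr.U b
      · rw [hm0 w hw]; ring
      · rw [not_or] at hw
        rw [k2 w hw.1 hw.2]; ring
  have q1 : (z1 - c' • gv p a') ⬝ᵥ m1 = α' * (gv p a ⬝ᵥ m1) - κ' * (gv p b ⬝ᵥ m1) := by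
    unfold dotProduct
    rw [Finset.mul_sum, Finset.mul_sum, ← Finset.sum_sub_distrib]
    refine Finset.sum_congr rfl fun i _ => ?_
    rcases i with j | w
    · rw [k3 j]; ring
    · by_cases hw : w ∈ fr.U a ∨ w ∈ fr.U b'
      · rw [hm1 w hw]; ring
      · rw [not_or] at hw
        rw [k4 w hw.1 hw.2]; ring
  rw [sub_dotProduct, smul_dotProduct, ha0', smul_zero, sub_zero, ha0] at q0
  rw [sub_dotProduct, smul_dotProduct, ha1', smul_zero, sub_zero, ha1] at q1
  rw [q0, q1, hb]
  ring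

lemma br_dsg_g (fr : Frame N d E Om) (p : Lin N → Co E P Om → F) (h : Ext fr p) :
    (dsg fr p h).g = gv p := rfl

lemma br_dsg_U (fr : Frame N d E Om) (p : Lin N → Co E P Om → F) (h : Ext fr p) (c : Ty N d)
    {w : Om} (hw : w ∈ fr.U c) : (Sum.inr w : Co E P Om) ∈ (dsg fr p h).U c :=
  Finset.mem_image_of_mem _ hw

/-- BRIDGE: a trivial or cut functional kills the surviving subspace. -/
theorem trivPsi_kills (fr : Frame N d E Om) (p : Lin N → Co E P Om → F) (h : Ext fr p) (κ : ℕ)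
    (hE : Ev1 p κ) (h9 : 9 ≤ κ) (hκ : ∀ w, (rowLines fr w).card + 9 ≤ κ)
    (a b : Fin 2 → Ty N d) (hbb : b 0 ≠ b 1)
    (hd : ∀ i, Disjoint (lins2 (b 0, b 1)) (lins (a i)))
    (z : Fin 4 → Co E P Om → F) (hz : TrivPsi (dsg fr p h) (a 0) (a 1) (b 0) (b 1) z)
    (m : Sl (Co E P Om)) (hm : m ∈ (dsg fr p h).ZP a b) :
    z 0 ⬝ᵥ m 0 0 + z 1 ⬝ᵥ m 0 1 + z 2 ⬝ᵥ m 1 0 + z 3 ⬝ᵥ m 1 1 = 0 := by
  obtain ⟨m1, m2, m3⟩ := hm
  rw [br_dsg_g] at m2 m3
  have hd0 : ∀ i, Disjoint (lins (b 0)) (lins (a i)) := fun i =>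
    (Finset.disjoint_union_left.1 (hd i)).1
  have hd1 : ∀ i, Disjoint (lins (b 1)) (lins (a i)) := fun i =>
    (Finset.disjoint_union_left.1 (hd i)).2
  have hrow : ∀ i j w, w ∈ fr.U (a i) ∨ w ∈ fr.U (b j) → m i j (Sum.inr w) = 0 := by
    intro i j w hw
    refine m1 i j (Sum.inr w) ?_
    rcases hw with hw | hw
    · exact Or.inl (br_dsg_U fr p h _ hw)
    · exact Or.inr (br_dsg_U fr p h _ hw)
  obtain ⟨⟨c, c', hc⟩, ⟨e, e', he⟩⟩ := hz
  rw [br_dsg_g] at hc he
  have s0 := br_slot fr p h κ hE h9 hκ (a 0) (a 1) (b 0) (b 1) hbb (hd0 0) (hd1 0) (z 0) (z 1)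
    (m 0 0) (m 0 1) c c' hc (hrow 0 0) (hrow 0 1) (m2 0 0 0) (m2 0 0 1) (m2 0 1 0) (m2 0 1 1) (m3 0)
  have s1 := br_slot fr p h κ hE h9 hκ (a 1) (a 0) (b 0) (b 1) hbb (hd0 1) (hd1 1) (z 2) (z 3)
    (m 1 0) (m 1 1) e e' he (hrow 1 0) (hrow 1 1) (m2 1 1 0) (m2 1 1 1) (m2 1 0 0) (m2 1 0 1) (m3 1)
  rw [s0, zero_add, s1]

end

/-! ### Large coefficients are bad coefficients -/

/-- The weights of a law of a pair of forms. -/
def wOf {K : Type*} {Ω : Type*} [Fintype Ω] (P : FinProb Ω) (B : Fin 2 → Ω → Matrix K K F) :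
    Matrix K K F → Matrix K K F → ℝ := fun Q Q' => P.p (fun ω i => B i ω) ![Q, Q']

/-- The unit slots. -/
def brE {K : Type*} (i j : Fin 2) (k : K) : Sl K :=
  fun i' j' k' => if i' = i ∧ j' = j ∧ k' = k then 1 else 0

/-- The vectors of a functional on the slots. -/
def brZ {K : Type*} [Fintype K] (ξ : Dual F (Sl K)) : Fin 4 → K → F :=
  ![fun k => ξ (brE 0 0 k), fun k => ξ (brE 0 1 k), fun k => ξ (brE 1 0 k), fun k => ξ (brE 1 1 k)]

lemma brZ_eq {K : Type*} [Fintype K] (ξ : Dual F (Sl K)) (m : Sl K) :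
    ξ m = brZ ξ 0 ⬝ᵥ m 0 0 + brZ ξ 1 ⬝ᵥ m 0 1 + brZ ξ 2 ⬝ᵥ m 1 0 + brZ ξ 3 ⬝ᵥ m 1 1 := by
  have e1 : m = ∑ k, (m 0 0 k • brE 0 0 k + m 0 1 k • brE 0 1 k + m 1 0 k • brE 1 0 k
      + m 1 1 k • brE 1 1 k) := by
    funext i j l
    simp only [Finset.sum_apply, Pi.add_apply, Pi.smul_apply, smul_eq_mul, brE]
    rw [Finset.sum_eq_single l]
    · fin_cases i <;> fin_cases j <;> simp
    · intro k _ hk
      simp [Ne.symm hk]
    · intro h'; exact absurd (Finset.mem_univ _) h'
  conv_lhs => rw [e1]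
  rw [map_sum]
  unfold dotProduct
  rw [← Finset.sum_add_distrib, ← Finset.sum_add_distrib, ← Finset.sum_add_distrib]
  refine Finset.sum_congr rfl fun k _ => ?_
  rw [map_add, map_add, map_add, map_smul, map_smul, map_smul, map_smul]
  simp only [smul_eq_mul, brZ, Matrix.cons_val]
  ring

section

variable {K T : Type*} [Fintype K] (δ : Design K T) {Ω : Type*} [Fintype Ω] (P : FinProb Ω)
  (B : Fin 2 → Ω → Matrix K K F)

/-- Sums against a law are sums over the sample space. -/
lemma br_sum_p {α : Type*} [Fintype α] (f : Ω → α) (g : α → ℂ) :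
    ∑ x, (P.p f x : ℂ) * g x = ∑ ω, (P.w ω : ℂ) * g (f ω) := by
  have e1 : ∀ x, (P.p f x : ℂ) * g x = ∑ ω, if f ω = x then (P.w ω : ℂ) * g x else 0 := by
    intro x
    rw [FinProb.p, Complex.ofReal_sum, Finset.sum_mul]
    refine Finset.sum_congr rfl fun ω _ => ?_
    split_ifs
    · rfl
    · rw [Complex.ofReal_zero, zero_mul]
  rw [Finset.sum_congr rfl fun x _ => e1 x, Finset.sum_comm]
  refine Finset.sum_congr rfl fun ω _ => ?_
  rw [Finset.sum_ite_eq Finset.univ (f ω), if_pos (Finset.mem_univ _)]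

lemma fc_lawM (ψ : AddChar F ℂ) (b : Fin 2 → T) (ξ : Dual F (Sl K)) :
    fc ψ (δ.lawM P B b) ξ = ∑ ω, (P.w ω : ℂ) * ψ (ξ (δ.Mt (fun i => B i ω) b)) := by
  unfold fc Design.lawM
  exact br_sum_p P (fun ω => δ.Mt (fun i => B i ω) b) (fun y => ψ (ξ y))

lemma coefT_wOf (ψ : AddChar F ℂ) (g g' : K → F) (z : Fin 4 → K → F) :
    coefT ψ (wOf P B) g g' z =
      ∑ ω, (P.w ω : ℂ) * ψ (∑ i, z i ⬝ᵥ tv g g' (B 0 ω) (B 1 ω) i) := by
  have e1 := br_sum_p P (fun ω => (fun i => B i ω : Fin 2 → Matrix K K F))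
    (fun Q => ψ (∑ i, z i ⬝ᵥ tv g g' (Q 0) (Q 1) i))
  rw [← e1]
  unfold coefT wOf
  rw [← Fintype.sum_prod_type', ← (finTwoArrowEquiv (Matrix K K F)).symm.sum_comp]
  rfl

/-- LARGE ==> BADC. -/
theorem badC_of_large {N d : ℕ} {E P' Om : Type} [Fintype E] [Fintype P'] [Fintype Om] [NeZero N]
    (fr : Frame N d E Om) (p : Lin N → Co E P' Om → F) (h : Ext fr p) (κ : ℕ)
    (hE : Ev1 p κ) (h9 : 9 ≤ κ) (hκ : ∀ w, (rowLines fr w).card + 9 ≤ κ)
    (a b : Fin 2 → Ty N d) (hbb : b 0 ≠ b 1)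
    (hd : ∀ i, Disjoint (lins2 (b 0, b 1)) (lins (a i)))
    (B : Fin 2 → Ω → Matrix (Co E P' Om) (Co E P' Om) F) (ψ : AddChar F ℂ) (η : ℝ)
    (hL : (dsg fr p h).Large a P B b ψ η) :
    BadC ψ (dsg fr p h) (a 0) (a 1) (wOf P B) η (b 0, b 1) := by
  obtain ⟨ξ, hξ, hη⟩ := hL
  refine ⟨brZ ξ, ?_, fun hT => hξ fun m hm => ?_⟩
  · rw [coefT_wOf]
    rw [fc_lawM] at hη
    refine hη.trans (le_of_eq ?_)
    congr 1
    refine Finset.sum_congr rfl fun ω _ => ?_
    rw [brZ_eq, Fin.sum_univ_four]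
    rfl
  · rw [brZ_eq]
    exact trivPsi_kills fr p h κ hE h9 hκ a b hbb hd (brZ ξ) hT m hm

end

end Vale.Agent.P060.HW
end
end

section

/-!
# RANKLEM: independent biased functionals cost entropy
-/

open scoped Classical

noncomputable section

namespace Vale.Agent.P060.HW.RankL

open Module

/-- Convexity of the exponential. -/
lemma exp_le_cosh_add (l g : ℝ) (h1 : -1 ≤ g) (h2 : g ≤ 1) :
    Real.exp (l * g) ≤ Real.cosh l + g * Real.sinh l := by
  have h := convexOn_exp.2 (Set.mem_univ l) (Set.mem_univ (-l))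
    (show (0 : ℝ) ≤ (1 + g) / 2 by linarith) (show (0 : ℝ) ≤ (1 - g) / 2 by linarith) (by ring)
  simp only [smul_eq_mul] at h
  rw [show (1 + g) / 2 * l + (1 - g) / 2 * -l = l * g by ring] at h
  refine h.trans (le_of_eq ?_)
  rw [Real.cosh_eq, Real.sinh_eq]
  ring

/-- A biased symbol has an entropy deficit. -/
theorem symbol_deficit {Ω : Type*} [Fintype Ω] (Pr : FinProb Ω) (Y : Ω → F) (ψ : AddChar F ℂ)
    (hψ : ψ ≠ 0) (η : ℝ) (hη : 0 ≤ η) (h : η ≤ ‖∑ ω, (Pr.w ω : ℂ) * ψ (Y ω)‖) :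
    η ^ 2 / 2 ≤ Real.log (Nat.card F) - Pr.H Y := by
  have hcard : (Nat.card F : ℝ) = (Fintype.card F : ℝ) := by rw [Nat.card_eq_fintype_card]
  set c : ℂ := ∑ ω, (Pr.w ω : ℂ) * ψ (Y ω) with hc
  rcases hη.eq_or_lt with h0 | hpos
  · rw [← h0]
    have := Pr.H_le_log_card Y Finset.univ fun ω => Finset.mem_univ _
    rw [Finset.card_univ, ← hcard] at this
    linarith only [this]
  have hcpos : 0 < ‖c‖ := hpos.trans_le h
  have hc0 : (‖c‖ : ℂ) ≠ 0 := by exact_mod_cast hcpos.ne'
  set u : ℂ := (starRingEnd ℂ) c / ‖c‖ with hu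
  have hunorm : ‖u‖ = 1 := by
    rw [hu, norm_div, RCLike.norm_conj, Complex.norm_real, Real.norm_eq_abs, abs_norm,
      div_self hcpos.ne']
  set g : F → ℝ := fun y => (u * ψ y).re with hg
  have hnorm : ∀ y, ‖u * ψ y‖ = 1 := by
    intro y
    rw [norm_mul, hunorm, AddChar.norm_apply, one_mul]
  have hg1 : ∀ y, -1 ≤ g y := by
    intro y
    have := Complex.abs_re_le_norm (u * ψ y)
    rw [hnorm] at this
    exact (abs_le.1 this).1
  have hg2 : ∀ y, g y ≤ 1 := by
    intro y
    have := Complex.abs_re_le_norm (u * ψ y)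
    rw [hnorm] at this
    exact (abs_le.1 this).2
  have hgsum : ∑ y, g y = 0 := by
    have h1 : ∑ y, g y = (u * ∑ y, ψ y).re := by
      rw [Finset.mul_sum, Complex.re_sum]
    rw [h1, AddChar.sum_eq_zero_iff_ne_zero.2 hψ, mul_zero, Complex.zero_re]
  have hgE : ∑ ω, Pr.w ω * g (Y ω) = ‖c‖ := by
    have h1 : ∑ ω, Pr.w ω * g (Y ω) = (u * c).re := by
      rw [hc, Finset.mul_sum, Complex.re_sum]
      refine Finset.sum_congr rfl fun ω _ => ?_
      rw [show u * ((Pr.w ω : ℂ) * ψ (Y ω)) = (Pr.w ω : ℂ) * (u * ψ (Y ω)) by ring,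
        Complex.re_ofReal_mul]
    rw [h1, hu, div_mul_eq_mul_div, Complex.conj_mul', ← Complex.ofReal_pow, ← Complex.ofReal_div,
      Complex.ofReal_re]
    field_simp
  set Z : ℝ := ∑ y, Real.exp (η * g y) with hZ
  have hZpos : 0 < Z := Finset.sum_pos (fun y _ => Real.exp_pos _) Finset.univ_nonempty
  have hZle : Z ≤ Fintype.card F * Real.exp (η ^ 2 / 2) := by
    calc Z ≤ ∑ y : F, (Real.cosh η + g y * Real.sinh η) :=
          Finset.sum_le_sum fun y _ => exp_le_cosh_add η (g y) (hg1 y) (hg2 y)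
      _ = Fintype.card F * Real.cosh η := by
          rw [Finset.sum_add_distrib, ← Finset.sum_mul, hgsum, zero_mul, add_zero,
            Finset.sum_const, Finset.card_univ, nsmul_eq_mul]
      _ ≤ Fintype.card F * Real.exp (η ^ 2 / 2) :=
          mul_le_mul_of_nonneg_left (Real.cosh_le_exp_half_sq η) (Nat.cast_nonneg _)
  have hcardpos : (0 : ℝ) < Fintype.card F := Nat.cast_pos.2 Fintype.card_pos
  have hlogZ : Real.log Z ≤ Real.log (Fintype.card F) + η ^ 2 / 2 := by
    have := Real.log_le_log hZpos hZle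
    rwa [Real.log_mul hcardpos.ne' (Real.exp_pos _).ne', Real.log_exp] at this
  have hH := Pr.H_le_gibbs Y (fun y => Real.exp (η * g y) / Z)
    (fun ω _ => div_pos (Real.exp_pos _) hZpos)
    (by
      calc ∑ a ∈ Finset.univ.image Y, Real.exp (η * g a) / Z ≤
          ∑ a : F, Real.exp (η * g a) / Z :=
            Finset.sum_le_sum_of_subset_of_nonneg (Finset.subset_univ _)
              fun a _ _ => div_nonneg (Real.exp_pos _).le hZpos.le
        _ = 1 := by rw [← Finset.sum_div, ← hZ, div_self hZpos.ne'])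
    (fun a => div_nonneg (Real.exp_pos _).le hZpos.le)
  have h2 : ∑ ω, Pr.w ω * (-Real.log (Real.exp (η * g (Y ω)) / Z)) =
      Real.log Z - η * ‖c‖ := by
    have h3 : ∀ ω, Pr.w ω * (-Real.log (Real.exp (η * g (Y ω)) / Z)) =
        Pr.w ω * Real.log Z - η * (Pr.w ω * g (Y ω)) := by
      intro ω
      rw [Real.log_div (Real.exp_pos _).ne' hZpos.ne', Real.log_exp]
      ring
    rw [Finset.sum_congr rfl fun ω _ => h3 ω, Finset.sum_sub_distrib, ← Finset.sum_mul,
      Pr.sum_one, one_mul, ← Finset.mul_sum, hgE]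
  rw [h2] at hH
  rw [hcard]
  (by_contra nlg; linarith only [mul_nonneg (sq_nonneg (η : ℝ)) (sub_nonneg.2 h), mul_pos (sub_pos.2 (not_le.1 nlg)) (sub_pos.2 hpos), mul_nonneg (le_of_lt (sub_pos.2 hpos)) (sub_nonneg.2 hlogZ), mul_nonneg (le_of_lt (sub_pos.2 hpos)) (sub_nonneg.2 hH)])

/-- The deficit of a line. -/
theorem D_span_singleton {Ω : Type} [Fintype Ω] {W : Type} [AddCommGroup W] [Module F W]
    [FiniteDimensional F W] (Pr : FinProb Ω) (X : Ω → Dual F W) {Q : W} (hQ : Q ≠ 0) :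
    Lat.D Pr X (Submodule.span F {Q}) = Real.log (Nat.card F) - Pr.H (fun ω => X ω Q) := by
  have h1 : Lat.ent Pr X (Submodule.span F {Q}) = Pr.H (fun ω => X ω Q) := by
    unfold Lat.ent
    refine Pr.H_congr_det fun ω ω' => ?_
    rw [Lat.ev_eq_iff]
    constructor
    · intro h g hg
      obtain ⟨r, rfl⟩ := Submodule.mem_span_singleton.1 hg
      rw [map_smul, map_smul, h]
    · intro h
      exact h Q (Submodule.mem_span_singleton_self Q)
  rw [Lat.D, h1, finrank_span_singleton hQ, Nat.cast_one, one_mul]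

end RankL

open Module in
theorem rankLem : RankLem := by
  intro Ω _ W _ _ _ Pr X ψ hψ η hη Nn R
  induction R with
  | zero =>
    intro Q _ _
    rw [Nat.cast_zero, zero_mul]
    have : Nn ≤ Nn ⊔ Submodule.span F (Set.range Q) := le_sup_left
    linarith [Lat.D_mono Pr X this]
  | succ R ih =>
    intro Q hQ hb
    rw [linearIndependent_finSucc'] at hQ
    obtain ⟨h1, h2⟩ := hQ
    have h3 := ih (Q ∘ Fin.castSucc) h1 fun i => hb _
    set G := Nn ⊔ Submodule.span F (Set.range (Q ∘ Fin.castSucc)) with hG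
    have h4 : G ⊓ Submodule.span F {Q (Fin.last R)} = ⊥ := by
      rw [eq_bot_iff]
      rintro x ⟨hx1, hx2⟩
      obtain ⟨r, rfl⟩ := Submodule.mem_span_singleton.1 hx2
      by_cases hr : r = 0
      · rw [hr, zero_smul]; exact Submodule.zero_mem _
      · exfalso
        have hx3 : Q (Fin.last R) ∈ G := by
          have := G.smul_mem r⁻¹ hx1
          rwa [smul_smul, inv_mul_cancel₀ hr, one_smul] at this
        apply h2
        obtain ⟨a, ha, b, hb', hab⟩ := Submodule.mem_sup.1 hx3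
        have h5 : Nn.mkQ (Q (Fin.last R)) = Nn.mkQ b := by
          have h5' : Nn.mkQ a = 0 := by
            rw [Submodule.mkQ_apply, Submodule.Quotient.mk_eq_zero]
            exact ha
          rw [← hab, map_add, h5', zero_add]
        rw [h5]
        have h6 := Submodule.mem_map_of_mem (f := Nn.mkQ) hb'
        rw [Submodule.map_span, ← Set.range_comp] at h6
        exact h6
    have hQl : Q (Fin.last R) ≠ 0 := by
      intro h0
      apply h2
      rw [h0, map_zero]
      exact Submodule.zero_mem _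
    have h5 := Lat.D_supermodular Pr X G (Submodule.span F {Q (Fin.last R)})
    rw [h4, Lat.D_bot, add_zero, RankL.D_span_singleton Pr X hQl] at h5
    have h6 := RankL.symbol_deficit Pr (fun ω => X ω (Q (Fin.last R))) ψ hψ η hη (hb _)
    have h7 : G ⊔ Submodule.span F {Q (Fin.last R)} = Nn ⊔ Submodule.span F (Set.range Q) := by
      rw [hG, sup_assoc, ← Submodule.span_union]
      congr 2
      ext x
      constructor
      · rintro (⟨i, rfl⟩ | hx)
        · exact ⟨_, rfl⟩
        · exact ⟨Fin.last R, hx.symm⟩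
      · rintro ⟨i, rfl⟩
        refine Fin.lastCases ?_ (fun i => ?_) i
        · exact Or.inr rfl
        · exact Or.inl ⟨i, rfl⟩
    rw [h7] at h5
    push_cast
    linarith

end Vale.Agent.P060.HW
end
end

section

/-!
# Atoms of `B h₁ + B' h₃` : only the cut directions survive
-/

open scoped Classical

noncomputable section

set_option linter.unusedSectionVars false

namespace Vale.Agent.P060.HW

open Module Finset

theorem two_ne_zero_F : (2 : F) ≠ 0 := by decide

section Gen

variable {K : Type*} [Fintype K]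

lemma sm_entry (u v : K → F) (i j : K) : sm u v i j = u i * v j + v i * u j := by
  simp [sm, Matrix.vecMulVec_apply]

lemma sm_symm' (u v : K → F) : (sm u v).IsSymm := by
  ext i j
  rw [Matrix.transpose_apply, sm_entry, sm_entry]
  ring

lemma sm_comm' (u v : K → F) : sm u v = sm v u := by
  ext i j
  rw [sm_entry, sm_entry]
  ring

lemma sm_sub_right (u v w : K → F) : sm u (v - w) = sm u v - sm u w := by
  ext i j
  simp only [sm_entry, Matrix.sub_apply, Pi.sub_apply]
  ring

lemma sm_smul_right (c : F) (u v : K → F) : sm u (c • v) = c • sm u v := by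
  ext i j
  simp only [sm_entry, Matrix.smul_apply, Pi.smul_apply, smul_eq_mul]
  ring

lemma sm_add_left (u v w : K → F) : sm (u + v) w = sm u w + sm v w := by
  ext i j
  simp only [sm_entry, Matrix.add_apply, Pi.add_apply]
  ring

lemma sm_add_right (u v w : K → F) : sm u (v + w) = sm u v + sm u w := by
  ext i j
  simp only [sm_entry, Matrix.add_apply, Pi.add_apply]
  ring

lemma sm_smul_left (c : F) (u v : K → F) : sm (c • u) v = c • sm u v := by
  ext i j
  simp only [sm_entry, Matrix.smul_apply, Pi.smul_apply, smul_eq_mul]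
  ring

lemma pr_sm (u v : K → F) {B : Matrix K K F} (hB : B.IsSymm) :
    pr (sm u v) B = 2 * dotProduct u (B.mulVec v) := by
  have h1 : pr (sm u v) B = dotProduct u (B.mulVec v) + dotProduct v (B.mulVec u) := by
    unfold pr
    simp only [sm_entry, dotProduct, Matrix.mulVec, Finset.mul_sum]
    rw [← Finset.sum_add_distrib]
    refine Finset.sum_congr rfl fun i _ => ?_
    rw [← Finset.sum_add_distrib]
    exact Finset.sum_congr rfl fun j _ => by ring
  rw [h1, Design.symm_dot hB v u]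
  ring

/-- Fibres of a surjective linear map between finite spaces. -/
lemma card_fibre {M M' : Type*} [AddCommGroup M] [Module F M] [Fintype M] [AddCommGroup M']
    [Module F M'] [Fintype M'] (f : M →ₗ[F] M') (hf : Function.Surjective f) (y : M') :
    Fintype.card M' * (Finset.univ.filter fun x => f x = y).card = Fintype.card M := by
  have h1 : ∀ z, (Finset.univ.filter fun x => f x = z).card =
      (Finset.univ.filter fun x => f x = y).card := fun z =>
    AddMonoidHom.card_fiber_eq_of_mem_range f.toAddMonoidHom (hf z) (hf y)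
  have h2 : Fintype.card M = ∑ z : M', (Finset.univ.filter fun x => f x = z).card := by
    rw [← Finset.card_univ]
    exact Finset.card_eq_sum_card_fiberwise fun x _ => Finset.mem_univ _
  rw [h2, Finset.sum_congr rfl fun z _ => h1 z, Finset.sum_const, smul_eq_mul, Finset.card_univ]

end Gen

variable {N d : ℕ} {E P Om : Type} [Fintype E] [Fintype P] [Fintype Om] [NeZero N]
variable {fr : Frame N d E Om} {p : Lin N → Co E P Om → F}

/-- The coordinate vector of a row in `Om`. -/
def eo (w : Om) : Co E P Om → F := Sum.elim (fun _ => 0) (fun w' => if w' = w then 1 else 0)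

omit [Fintype E] [Fintype P] [Fintype Om] in
lemma single_eo (inst : DecidableEq (Co E P Om)) (w : Om) :
    @Pi.single (Co E P Om) (fun _ => F) _ inst (Sum.inr w) (1 : F) = eo w := by
  funext i
  rcases i with i | i
  · simp [eo]
  · by_cases hi : i = w
    · subst hi; simp [eo]
    · simp [eo, hi]

/-- The normal form of a trivial tensor. -/
lemma nn_form (h : Ext fr p) (a' : Ty N d) {Q : Matrix (Co E P Om) (Co E P Om) F}
    (hQ : Q ∈ (dsg fr p h).Nn a') :
    ∃ (R : Om → Co E P Om → F) (x : Om → Ty N d → F) (v : Co E P Om → F),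
      (∀ w c, x w c ≠ 0 → w ∈ fr.U c) ∧
      (∀ w ∉ fr.U a', R w = ∑ c, x w c • gv p c) ∧
      Q = ∑ w, sm (eo w) (R w) + sm v (gv p a') := by
  unfold Design.Nn at hQ
  induction hQ using Submodule.span_induction with
  | mem Q hQ =>
    rcases hQ with (⟨c, w0, hw0, rfl⟩ | ⟨w0, hw0, v, rfl⟩) | ⟨v, rfl⟩
    · obtain ⟨w, hw, rfl⟩ := Finset.mem_image.1 hw0
      refine ⟨fun w' => if w' = w then gv p c else 0,
        fun w' c' => if w' = w ∧ c' = c then 1 else 0, 0, ?_, ?_, ?_⟩
      · intro w' c' hx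
        by_cases h1 : w' = w ∧ c' = c
        · rw [h1.1, h1.2]; exact hw
        · simp [h1] at hx
      · intro w' _
        by_cases h1 : w' = w
        · simp [h1]
        · simp [h1]
      · rw [Finset.sum_eq_single w]
        · rw [single_eo]
          ext i j
          simp only [if_true, Matrix.add_apply, sm_entry, Pi.zero_apply, zero_mul, mul_zero,
            add_zero]
          rfl
        · intro w' _ hw'
          ext i j
          simp [sm_entry, hw']
        · intro h'; exact absurd (Finset.mem_univ _) h'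
    · obtain ⟨w, hw, rfl⟩ := Finset.mem_image.1 hw0
      refine ⟨fun w' => if w' = w then v else 0, 0, 0, ?_, ?_, ?_⟩
      · intro w' c' hx; simp at hx
      · intro w' hw'
        have : w' ≠ w := fun h1 => hw' (h1 ▸ hw)
        simp [this]
      · rw [Finset.sum_eq_single w]
        · rw [single_eo]
          ext i j
          simp only [if_true, Matrix.add_apply, sm_entry, Pi.zero_apply, zero_mul, mul_zero,
            add_zero]
        · intro w' _ hw'
          ext i j
          simp [sm_entry, hw']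
        · intro h'; exact absurd (Finset.mem_univ _) h'
    · refine ⟨0, 0, v, ?_, ?_, ?_⟩
      · intro w' c' hx; simp at hx
      · intro w' _; simp
      · ext i j
        simp only [Matrix.add_apply, Matrix.sum_apply, sm_entry, Pi.zero_apply, zero_mul, mul_zero,
          add_zero, Finset.sum_const_zero, zero_add]
        rfl
  | zero =>
    refine ⟨0, 0, 0, ?_, ?_, ?_⟩
    · intro w' c' hx; simp at hx
    · intro w' _; simp
    · ext i j
      simp [Matrix.sum_apply, sm_entry]
  | add Q Q' _ _ hQ hQ' =>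
    obtain ⟨R, x, v, h1, h2, h3⟩ := hQ
    obtain ⟨R', x', v', h1', h2', h3'⟩ := hQ'
    refine ⟨R + R', x + x', v + v', ?_, ?_, ?_⟩
    · intro w c hx
      by_contra hw
      have e1 : x w c = 0 := by_contra fun h4 => hw (h1 w c h4)
      have e2 : x' w c = 0 := by_contra fun h4 => hw (h1' w c h4)
      exact hx (by simp [e1, e2])
    · intro w hw
      rw [Pi.add_apply, h2 w hw, h2' w hw, ← Finset.sum_add_distrib]
      exact Finset.sum_congr rfl fun c _ => by simp [add_smul]
    · rw [h3, h3', sm_add_left]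
      simp only [Pi.add_apply, sm_add_right, Finset.sum_add_distrib]
      abel
  | smul t Q _ hQ =>
    obtain ⟨R, x, v, h1, h2, h3⟩ := hQ
    refine ⟨t • R, t • x, t • v, ?_, ?_, ?_⟩
    · intro w c hx
      refine h1 w c fun h4 => hx ?_
      simp [h4]
    · intro w hw
      rw [Pi.smul_apply, h2 w hw, Finset.smul_sum]
      exact Finset.sum_congr rfl fun c _ => by simp [mul_smul]
    · rw [h3, sm_smul_left, smul_add, Finset.smul_sum]
      simp only [Pi.smul_apply, sm_smul_right]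

lemma sum_eo (f : Om → F) (i : Co E P Om) :
    ∑ w, (eo w : Co E P Om → F) i * f w = Sum.elim (fun _ => (0 : F)) f i := by
  rcases i with i | i
  · simp [eo]
  · simp [eo]

/-- Entries of the normal form. -/
lemma form_entry (R : Om → Co E P Om → F) (v g : Co E P Om → F) (i j : Co E P Om) :
    (∑ w, sm (eo w) (R w) + sm v g : Matrix _ _ F) i j =
      (Sum.elim (fun _ => (0 : F)) (fun w => R w j) i) +
      (Sum.elim (fun _ => (0 : F)) (fun w => R w i) j) + (v i * g j + g i * v j) := by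
  rw [Matrix.add_apply, Matrix.sum_apply, sm_entry]
  simp only [sm_entry, Finset.sum_add_distrib]
  rw [sum_eo (fun w => R w j) i]
  have : ∑ w, R w i * (eo w : Co E P Om → F) j = Sum.elim (fun _ => (0 : F)) (fun w => R w i) j := by
    rw [← sum_eo (fun w => R w i) j]
    exact Finset.sum_congr rfl fun w _ => mul_comm _ _
  rw [this]


omit [Fintype E] [Fintype P] [Fintype Om] in
lemma ac_mem_lins {c : Ty N d} {s : Fin 3} {i : ZMod N} : ((s, i) : Lin N) ∈ lins c ↔ i = ln c s := by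
  unfold lins lin
  rw [Finset.mem_image]
  constructor
  · rintro ⟨s', -, h⟩
    have h1 : s' = s := congrArg Prod.fst h
    have h2 := congrArg Prod.snd h
    subst h1
    exact h2.symm
  · rintro rfl
    exact ⟨s, Finset.mem_univ _, rfl⟩

omit [Fintype E] [Fintype P] [Fintype Om] in
lemma lin_mem_lins {c c' : Ty N d} {s : Fin 3} : lin c s ∈ lins c' ↔ ln c s = ln c' s := ac_mem_lins

omit [Fintype E] [Fintype P] [Fintype Om] in
lemma gv_eq_sum (c : Ty N d) : gv p c = ∑ u ∈ lins c, p u := by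
  unfold gv lins
  rw [Finset.sum_image]
  intro s _ s' _ h
  exact congrArg Prod.fst h

lemma ac_exists_good {B1 B2 : Fin 3 → Prop} (h1 : ∀ s s', s ≠ s' → B1 s → B1 s' → False)
    (h2 : ∀ s s', s ≠ s' → B2 s → B2 s' → False) : ∃ s, ¬ B1 s ∧ ¬ B2 s := by
  by_contra hc
  push Not at hc
  have a1 := h1 0 1 (by decide)
  have a2 := h1 0 2 (by decide)
  have a3 := h1 1 2 (by decide)
  have b1 := h2 0 1 (by decide)
  have b2 := h2 0 2 (by decide)
  have b3 := h2 1 2 (by decide)
  have c1 := hc 0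
  have c2 := hc 1
  have c3 := hc 2
  tauto

lemma two_rows (a' : Ty N d) {w w' : Om} (hw : w ∉ fr.U a') (hw' : w' ∉ fr.U a')
    (hP : LinearIndependent F
      (fun u : (lins a' ∪ rowLines fr w ∪ rowLines fr w' : Finset (Lin N)) =>
        fun j : P => p u (Sum.inl (Sum.inr j))))
    (X : Ty N d → F) (hX : ∀ c, X c ≠ 0 → w ∈ fr.U c ∨ w' ∈ fr.U c) (z : F)
    (h0 : ∀ j : P, ∑ c, X c * gv p c (Sum.inl (Sum.inr j)) +
      z * gv p a' (Sum.inl (Sum.inr j)) = 0) :
    z = 0 ∧ ∀ c, X c = 0 := by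
  set T : Finset (Lin N) := lins a' ∪ rowLines fr w ∪ rowLines fr w' with hT
  set κ : Lin N → F := fun u => ∑ c, X c * (if u ∈ lins c then 1 else 0) +
    z * (if u ∈ lins a' then 1 else 0) with hκ
  have hsub : ∀ c, X c ≠ 0 → lins c ⊆ T := by
    intro c hc u hu
    rcases hX c hc with h1 | h1
    · refine Finset.mem_union_left _ (Finset.mem_union_right _ ?_)
      exact Finset.mem_biUnion.2 ⟨c, Finset.mem_filter.2 ⟨Finset.mem_univ _, h1⟩, hu⟩
    · refine Finset.mem_union_right _ ?_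
      exact Finset.mem_biUnion.2 ⟨c, Finset.mem_filter.2 ⟨Finset.mem_univ _, h1⟩, hu⟩
  have hsub' : lins a' ⊆ T := fun u hu => Finset.mem_union_left _ (Finset.mem_union_left _ hu)
  have hgv : ∀ c : Ty N d, lins c ⊆ T → ∀ j : P, ∑ u ∈ T, (if u ∈ lins c then (1 : F) else 0) *
      p u (Sum.inl (Sum.inr j)) = gv p c (Sum.inl (Sum.inr j)) := by
    intro c hc j
    rw [gv_eq_sum, Finset.sum_apply]
    simp only [ite_mul, one_mul, zero_mul]
    rw [← Finset.sum_filter]
    refine Finset.sum_congr ?_ fun _ _ => rfl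
    ext u
    rw [Finset.mem_filter]
    exact ⟨fun h1 => h1.2, fun h1 => ⟨hc h1, h1⟩⟩
  have hsum : ∀ j : P, ∑ u ∈ T, κ u * p u (Sum.inl (Sum.inr j)) = 0 := by
    intro j
    rw [← h0 j]
    simp only [hκ, add_mul, Finset.sum_mul, Finset.sum_add_distrib]
    congr 1
    · rw [Finset.sum_comm]
      refine Finset.sum_congr rfl fun c _ => ?_
      by_cases hc : X c = 0
      · simp [hc]
      · rw [← hgv c (hsub c hc) j, Finset.mul_sum]
        exact Finset.sum_congr rfl fun u _ => by ring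
    · rw [← hgv a' hsub' j, Finset.mul_sum]
      exact Finset.sum_congr rfl fun u _ => by ring
  have hzero : ∀ u ∈ T, κ u = 0 := by
    intro u hu
    have h1 := Fintype.linearIndependent_iff.1 hP (fun u => κ u) (by
      funext j
      rw [Finset.sum_apply]
      simp only [Pi.smul_apply, smul_eq_mul, Pi.zero_apply]
      rw [← hsum j]
      exact Finset.sum_coe_sort T fun u => κ u * p u (Sum.inl (Sum.inr j)))
    exact h1 ⟨u, hu⟩
  -- the value of `κ` on a private line
  have hval : ∀ c s, X c ≠ 0 → (∀ c', X c' ≠ 0 → ln c s = ln c' s → c' = c) →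
      ¬ ln c s = ln a' s → False := by
    intro c s hc h1 h2
    have h3 := hzero (lin c s) (hsub c hc (lin_mem_lins.2 rfl))
    simp only [hκ] at h3
    rw [if_neg (fun h4 => h2 (lin_mem_lins.1 h4)), mul_zero, add_zero,
      Finset.sum_eq_single c, if_pos (lin_mem_lins.2 rfl), mul_one] at h3
    · exact hc h3
    · intro c' _ hc'
      by_cases h4 : lin c s ∈ lins c'
      · by_cases h5 : X c' = 0
        · rw [h5, zero_mul]
        · exact absurd (h1 c' h5 (lin_mem_lins.1 h4)) hc'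
      · rw [if_neg h4, mul_zero]
    · intro h4; exact absurd (Finset.mem_univ _) h4
  have hone : ∀ (v v' : Om), v ∉ fr.U a' → (∀ c, X c ≠ 0 → v ∈ fr.U c ∨ v' ∈ fr.U c) →
      ∀ c, X c ≠ 0 → v ∈ fr.U c → v' ∈ fr.U c := by
    intro v v' hv hX' c hc hvc
    by_contra hvc'
    obtain ⟨s, hs1, hs2⟩ := ac_exists_good (B1 := fun s => ln a' s = ln c s)
      (B2 := fun s => ∃ c', v' ∈ fr.U c' ∧ ln c s = ln c' s)
      (fun s s' hss e1 e2 => fr.private_lines a' c c v s s' hv hvc hvc hss e1 e2)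
      (fun s s' hss => by
        rintro ⟨c', h1, h2⟩ ⟨c'', h3, h4⟩
        exact fr.private_lines c c' c'' v' s s' hvc' h1 h3 hss h2 h4)
    refine hval c s hc (fun c' hc' h1 => ?_) (fun h1 => hs1 h1.symm)
    rcases hX' c' hc' with h2 | h2
    · by_contra hne
      exact fr.line_disj c' c v h2 hvc hne s h1.symm
    · exact absurd ⟨c', h2, h1⟩ hs2
  have hX1 : ∀ c, X c ≠ 0 → w ∈ fr.U c := by
    intro c hc
    rcases hX c hc with h1 | h1
    · exact h1
    · exact hone w' w hw' (fun c hc => (hX c hc).symm) c hc h1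
  have hX0 : ∀ c, X c = 0 := by
    intro c
    by_contra hc
    obtain ⟨s, hs1, -⟩ := ac_exists_good (B1 := fun s => ln a' s = ln c s) (B2 := fun _ => False)
      (fun s s' hss e1 e2 => fr.private_lines a' c c w s s' hw (hX1 c hc) (hX1 c hc) hss e1 e2)
      (fun s s' hss e1 e2 => e1)
    refine hval c s hc (fun c' hc' h1 => ?_) (fun h1 => hs1 h1.symm)
    by_contra hne
    exact fr.line_disj c' c w (hX1 c' hc') (hX1 c hc) hne s h1.symm
  refine ⟨?_, hX0⟩
  have h3 := hzero (lin a' 0) (hsub' (lin_mem_lins.2 rfl))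
  simp only [hκ] at h3
  rw [if_pos (lin_mem_lins.2 rfl), mul_one] at h3
  simpa [hX0] using h3

end Vale.Agent.P060.HW
end
end

section

/-!
# Zero rows: only the cut directions survive

If a combination `B h1 + B' h3` of the two forms of a pair of vertices of types `a ≠ a'` has a large
atom, then `h3` is a combination of `g_a`, `g_a'` and of unit vectors in the zero rows of `a'`
(where `B'` vanishes).
-/

open scoped Classical

noncomputable section

set_option linter.unusedSectionVars false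

namespace Vale.Agent.P060.HW

open Module

variable {N d : ℕ} {E P Om : Type} [Fintype E] [Fintype P] [Fintype Om] [NeZero N]

/-- The visible part `E ⊕ P` of a vector. -/
def vis (v : Co E P Om → F) : E ⊕ P → F := fun j => v (Sum.inl j)

/-- The `Om` part of a vector. -/
def hid (v : Co E P Om → F) : Om → F := fun w => v (Sum.inr w)

/-- The symmetric matrix `(u xᵀ + x uᵀ) - (u·g) x xᵀ`, which sends `g` to `u` when `x·g = 1`. -/
def symS {κ : Type*} [Fintype κ] (u x g : κ → F) : Matrix κ κ F :=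
  Matrix.vecMulVec u x + Matrix.vecMulVec x u - (u ⬝ᵥ g) • Matrix.vecMulVec x x

theorem symS_symm {κ : Type*} [Fintype κ] (u x g : κ → F) : (symS u x g).IsSymm := by
  ext i j
  simp only [symS, Matrix.transpose_apply, Matrix.sub_apply, Matrix.add_apply, Matrix.smul_apply,
    Matrix.vecMulVec_apply, smul_eq_mul]
  ring

theorem symS_mulVec {κ : Type*} [Fintype κ] (u x g v : κ → F) :
    (symS u x g).mulVec v = (x ⬝ᵥ v) • u + (u ⬝ᵥ v) • x - ((u ⬝ᵥ g) * (x ⬝ᵥ v)) • x := by
  unfold symS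
  rw [Matrix.sub_mulVec, Matrix.add_mulVec, Matrix.smul_mulVec, Matrix.vecMulVec_mulVec,
    Matrix.vecMulVec_mulVec, Matrix.vecMulVec_mulVec]
  funext i
  simp only [Pi.sub_apply, Pi.add_apply, Pi.smul_apply, smul_eq_mul, MulOpposite.smul_eq_mul_unop,
    MulOpposite.unop_op]
  ring

theorem symS_self {κ : Type*} [Fintype κ] {u x g : κ → F} (h : x ⬝ᵥ g = 1) :
    (symS u x g).mulVec g = u := by
  rw [symS_mulVec, h, one_smul, mul_one, add_sub_cancel_right]

theorem symS_row {κ : Type*} [Fintype κ] {u x g : κ → F} {i : κ} (hu : u i = 0) (hx : x i = 0)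
    (j : κ) : symS u x g i j = 0 := by
  simp [symS, Matrix.vecMulVec_apply, hu, hx]

/-- A form of type `a'` with prescribed `Om` rows. -/
theorem exists_form (fr : Frame N d E Om) (p : Lin N → Co E P Om → F) (h : Ext fr p) (a' : Ty N d)
    (Q : Matrix Om Om F) (hQ : Q.IsSymm) (V : Om → E ⊕ P → F)
    (h0 : ∀ w ∈ fr.U a', V w = 0 ∧ ∀ w', Q w w' = 0)
    (h1 : ∀ w c, w ∈ fr.U c → Q.mulVec (hid (gv p c)) w + V w ⬝ᵥ vis (gv p c) = 0)
    (h2 : ∀ w, Q.mulVec (hid (gv p a')) w + V w ⬝ᵥ vis (gv p a') = 0) :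
    ∃ B ∈ (dsg fr p h).Dir a', ∀ (u : Co E P Om → F) (w : Om),
      (B.mulVec u) (Sum.inr w) = Q.mulVec (hid u) w + V w ⬝ᵥ vis u := by
  -- a vector with `x · g_{a'} = 1`
  set ga : E ⊕ P → F := vis (gv p a') with hga
  have hne : ga (Sum.inl fr.e0) ≠ 0 := by
    have := ne_zero_of_mem_Y ((dsg fr p h).hg a' _ (dsg fr p h).he0)
    exact this
  set x : E ⊕ P → F := Pi.single (Sum.inl fr.e0) (ga (Sum.inl fr.e0))⁻¹ with hx
  have hxg : x ⬝ᵥ ga = 1 := by
    rw [hx, single_dotProduct, inv_mul_cancel₀ hne]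
  -- the correction on the visible block
  set VM : Matrix Om (E ⊕ P) F := V with hVM
  set uu : E ⊕ P → F := - (VM.transpose.mulVec (hid (gv p a'))) with huu
  refine ⟨Matrix.fromBlocks (symS uu x ga) VM.transpose VM Q, ⟨⟨?_, ?_⟩, ?_, ?_⟩, ?_⟩
  · exact Matrix.IsSymm.fromBlocks (symS_symm _ _ _) (by simp) hQ
  · intro c w0 hw0
    obtain ⟨w, hw, rfl⟩ := Finset.mem_image.1 hw0
    rw [Matrix.fromBlocks_mulVec]
    simp only [Sum.elim_inr, Pi.add_apply]
    have := h1 w c hw
    rw [add_comm] at this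
    exact this
  · intro w0 hw0 v
    obtain ⟨w, hw, rfl⟩ := Finset.mem_image.1 hw0
    obtain ⟨hV, hQ0⟩ := h0 w hw
    cases v with
    | inl j =>
      rw [Matrix.fromBlocks_apply₂₁]
      exact congrFun hV j
    | inr j =>
      rw [Matrix.fromBlocks_apply₂₂]
      exact hQ0 j
  · rw [Matrix.fromBlocks_mulVec]
    funext i
    cases i with
    | inl j =>
      simp only [Sum.elim_inl, Pi.add_apply, Pi.zero_apply]
      have e1 : (symS uu x ga).mulVec ((dsg fr p h).g a' ∘ Sum.inl) = uu := symS_self hxg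
      rw [e1, huu]
      simp only [Pi.neg_apply]
      exact neg_add_cancel _
    | inr w =>
      simp only [Sum.elim_inr, Pi.add_apply, Pi.zero_apply]
      have := h2 w
      rw [add_comm] at this
      exact this
  · intro u w
    rw [Matrix.fromBlocks_mulVec]
    simp only [Sum.elim_inr, Pi.add_apply]
    rw [add_comm]
    rfl

/-! ### Solving for vectors with prescribed products -/

/-- Linearly independent vectors admit a vector with prescribed products. -/
theorem exists_dot_eq {κ σ : Type*} [Fintype κ] {v : σ → κ → F}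
    (hv : LinearIndependent F v) (c : σ → F) : ∃ x : κ → F, ∀ s, x ⬝ᵥ v s = c s := by
  obtain ⟨φ, hφ⟩ := LinearMap.exists_extend ((Module.Basis.span hv).constr F c)
  refine ⟨fun i => φ (fun j => if i = j then 1 else 0), fun s => ?_⟩
  have h1 : (((Module.Basis.span hv) s : Submodule.span F (Set.range v)) : κ → F) = v s :=
    congrArg Subtype.val (Module.Basis.span_apply hv s)
  have h2 := LinearMap.congr_fun hφ ((Module.Basis.span hv) s)
  rw [Module.Basis.constr_basis] at h2
  have h3 : φ (v s) = c s := by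
    rw [← h1]
    exact h2
  rw [← h3, LinearMap.pi_apply_eq_sum_univ φ (v s)]
  simp only [dotProduct, smul_eq_mul]
  exact Finset.sum_congr rfl fun i _ => mul_comm _ _

/-- CASE 1: the visible part of `u` is not in the span of the vectors met by the row `w0`. -/
theorem exists_dir_vis (fr : Frame N d E Om) (p : Lin N → Co E P Om → F) (h : Ext fr p)
    (a' : Ty N d) {w0 : Om} (hw0 : w0 ∉ fr.U a') {u : Co E P Om → F}
    (hu : vis u ∉ Submodule.span F
      ((fun c : Ty N d => vis (gv p c)) '' {c | w0 ∈ fr.U c ∨ c = a'})) :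
    ∃ B ∈ (dsg fr p h).Dir a', ∀ w : Om,
      (B.mulVec u) (Sum.inr w) = if w = w0 then 1 else 0 := by
  obtain ⟨v, hv, hv1⟩ := exists_sep hu
  have hv' : ∀ c, (w0 ∈ fr.U c ∨ c = a') → v ⬝ᵥ vis (gv p c) = 0 := fun c hc => by
    rw [dotProduct_comm]
    exact hv _ (Submodule.subset_span ⟨c, hc, rfl⟩)
  have k0 : ∀ w ∈ fr.U a', (fun w => if w = w0 then v else 0 : Om → E ⊕ P → F) w = 0 ∧
      ∀ w', (0 : Matrix Om Om F) w w' = 0 := by
    intro w hw
    have hne : w ≠ w0 := fun h' => hw0 (h' ▸ hw)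
    exact ⟨if_neg hne, fun w' => rfl⟩
  have k1 : ∀ w c, w ∈ fr.U c → (0 : Matrix Om Om F).mulVec (hid (gv p c)) w +
      (fun w => if w = w0 then v else 0 : Om → E ⊕ P → F) w ⬝ᵥ vis (gv p c) = 0 := by
    intro w c hwc
    rw [Matrix.zero_mulVec, Pi.zero_apply, zero_add]
    by_cases hw : w = w0
    · simp only [if_pos hw]
      exact hv' c (Or.inl (hw ▸ hwc))
    · simp only [if_neg hw, zero_dotProduct]
  have k2 : ∀ w, (0 : Matrix Om Om F).mulVec (hid (gv p a')) w +
      (fun w => if w = w0 then v else 0 : Om → E ⊕ P → F) w ⬝ᵥ vis (gv p a') = 0 := by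
    intro w
    rw [Matrix.zero_mulVec, Pi.zero_apply, zero_add]
    by_cases hw : w = w0
    · simp only [if_pos hw]
      exact hv' a' (Or.inr rfl)
    · simp only [if_neg hw, zero_dotProduct]
  obtain ⟨B, hB, hBu⟩ := exists_form fr p h a' 0 Matrix.isSymm_zero
    (fun w => if w = w0 then v else 0) k0 k1 k2
  refine ⟨B, hB, fun w => ?_⟩
  rw [hBu, Matrix.zero_mulVec, Pi.zero_apply, zero_add]
  by_cases hw : w = w0
  · rw [if_pos hw, if_pos hw, dotProduct_comm, hv1]
  · rw [if_neg hw, if_neg hw, zero_dotProduct]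

/-- CASE 2: the visible part of `u` vanishes and `u` has a nonzero coordinate `w1 ∉ U a'`. -/
theorem exists_dir_hid (fr : Frame N d E Om) (p : Lin N → Co E P Om → F) (h : Ext fr p)
    (a' : Ty N d)
    (hGP : ∀ w ∉ fr.U a', LinearIndependent F
      (fun c : {c : Ty N d // w ∈ fr.U c ∨ c = a'} => vis (gv p c.1)))
    {w0 : Om} (hw0 : w0 ∉ fr.U a') {u : Co E P Om → F} (hu : vis u = 0)
    {w1 : Om} (hw1 : w1 ∉ fr.U a') (hu1 : u (Sum.inr w1) ≠ 0) :
    ∃ B ∈ (dsg fr p h).Dir a', ∀ w : Om,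
      (B.mulVec u) (Sum.inr w) = if w = w0 then 1 else 0 := by
  set Q : Matrix Om Om F := symS (Pi.single w0 1) (Pi.single w1 (u (Sum.inr w1))⁻¹) (hid u)
    with hQ
  have hx : (Pi.single w1 (u (Sum.inr w1))⁻¹ : Om → F) ⬝ᵥ hid u = 1 := by
    rw [single_dotProduct]
    exact inv_mul_cancel₀ hu1
  have hsol : ∀ w, ∃ x : E ⊕ P → F, (w ∈ fr.U a' → x = 0) ∧ (w ∉ fr.U a' →
      ∀ c, (w ∈ fr.U c ∨ c = a') → Q.mulVec (hid (gv p c)) w + x ⬝ᵥ vis (gv p c) = 0) := by
    intro w
    by_cases hw : w ∈ fr.U a'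
    · exact ⟨0, fun _ => rfl, fun h' => absurd hw h'⟩
    · obtain ⟨x, hx⟩ := exists_dot_eq (hGP w hw) (fun c => - Q.mulVec (hid (gv p c.1)) w)
      refine ⟨x, fun h' => absurd h' hw, fun _ c hc => ?_⟩
      have := hx ⟨c, hc⟩
      rw [this]
      exact add_neg_cancel _
  choose V hV using hsol
  have hrow : ∀ w ∈ fr.U a', ∀ w', Q w w' = 0 := fun w hw w' => by
    refine symS_row ?_ ?_ w'
    · exact Pi.single_eq_of_ne (fun h' : w = w0 => hw0 (h' ▸ hw)) _
    · exact Pi.single_eq_of_ne (fun h' : w = w1 => hw1 (h' ▸ hw)) _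
  have hrow' : ∀ w ∈ fr.U a', ∀ v, Q.mulVec v w = 0 := fun w hw v => by
    unfold Matrix.mulVec dotProduct
    refine Finset.sum_eq_zero fun j _ => ?_
    show Q w j * v j = 0
    rw [hrow w hw j, zero_mul]
  have k1 : ∀ w c, w ∈ fr.U c → Q.mulVec (hid (gv p c)) w + V w ⬝ᵥ vis (gv p c) = 0 := by
    intro w c hwc
    by_cases hw : w ∈ fr.U a'
    · rw [(hV w).1 hw, zero_dotProduct, add_zero, hrow' w hw]
    · exact (hV w).2 hw c (Or.inl hwc)
  have k2 : ∀ w, Q.mulVec (hid (gv p a')) w + V w ⬝ᵥ vis (gv p a') = 0 := by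
    intro w
    by_cases hw : w ∈ fr.U a'
    · rw [(hV w).1 hw, zero_dotProduct, add_zero, hrow' w hw]
    · exact (hV w).2 hw a' (Or.inr rfl)
  obtain ⟨B, hB, hBu⟩ := exists_form fr p h a' Q (symS_symm _ _ _) V
    (fun w hw => ⟨(hV w).1 hw, hrow w hw⟩) k1 k2
  refine ⟨B, hB, fun w => ?_⟩
  rw [hBu, hu, dotProduct_zero, add_zero, hQ, symS_self hx, Pi.single_apply]

/-- The surviving vectors for a form of type `a'` paired with type `a`. -/
def Surv (fr : Frame N d E Om) (p : Lin N → Co E P Om → F) (a a' : Ty N d)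
    (u : Co E P Om → F) : Prop :=
  ∃ c c' : F, ∃ η : Co E P Om → F, vis η = 0 ∧ (∀ w ∉ fr.U a', η (Sum.inr w) = 0) ∧
    u = c • gv p a + c' • gv p a' + η

/-- The vectors of the types met by two rows and of `a'` are independent. -/
theorem indepOn_of_lines (fr : Frame N d E Om) (p : Lin N → Co E P Om → F) (a' : Ty N d)
    {w w' : Om} (hw : w ∉ fr.U a') (hw' : w' ∉ fr.U a')
    (hP : LinearIndependent F
      (fun u : (lins a' ∪ rowLines fr w ∪ rowLines fr w' : Finset (Lin N)) =>
        fun j : P => p u (Sum.inl (Sum.inr j)))) :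
    LinearIndepOn F (fun c : Ty N d => vis (gv p c))
      {c | (w ∈ fr.U c ∨ w' ∈ fr.U c) ∨ c = a'} := by
  rw [linearIndepOn_iff]
  intro l hl h0
  have hl' : ∀ c, l c ≠ 0 → (w ∈ fr.U c ∨ w' ∈ fr.U c) ∨ c = a' := fun c hc =>
    (Finsupp.mem_supported _ _).1 hl (Finsupp.mem_support_iff.2 hc)
  have h0' : ∀ j : E ⊕ P, ∑ c, l c * gv p c (Sum.inl j) = 0 := by
    intro j
    have h1 := congrFun h0 j
    rw [Finsupp.linearCombination_apply, Finsupp.sum] at h1
    rw [Finset.sum_subset (Finset.subset_univ l.support) (fun c _ hc => by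
      rw [Finsupp.notMem_support_iff.1 hc, zero_smul]), Finset.sum_apply] at h1
    exact h1
  have key := two_rows (fr := fr) (p := p) a' hw hw' hP (fun c => if c = a' then 0 else l c)
    (fun c hc => by
      by_cases h1 : c = a'
      · simp [h1] at hc
      · rw [if_neg h1] at hc
        exact (hl' c hc).resolve_right h1) (l a') (fun j => by
      have h2 := h0' (Sum.inr j)
      rw [← Finset.add_sum_erase (a := a') (s := Finset.univ)
        (f := fun c => l c * gv p c (Sum.inl (Sum.inr j))) (Finset.mem_univ a')] at h2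
      rw [← Finset.add_sum_erase (a := a') (s := Finset.univ)
        (f := fun c => (if c = a' then 0 else l c) * gv p c (Sum.inl (Sum.inr j)))
        (Finset.mem_univ a')]
      rw [if_pos rfl, zero_mul, zero_add, add_comm, ← h2]
      congr 1
      refine Finset.sum_congr rfl fun c hc => ?_
      rw [if_neg (Finset.ne_of_mem_erase hc)])
  ext c
  by_cases h1 : c = a'
  · rw [h1, key.1]
    rfl
  · have := key.2 c
    rw [if_neg h1] at this
    rw [this]
    rfl

/-- If for many rows `w` of `a` the visible part of `u` is in the span of the vectors met by the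
row, it is in the span of the vectors of `a` and `a'`. -/
theorem vis_mem_of_many (fr : Frame N d E Om) (p : Lin N → Co E P Om → F) {a a' : Ty N d}
    (haa : a ≠ a') {u : Co E P Om → F} {G : Finset Om} (hG : G ⊆ fr.U a)
    (hcard : fr.q < 4 * G.card)
    (hGP : ∀ w ∈ G, ∀ w' ∈ G, LinearIndepOn F (fun c : Ty N d => vis (gv p c))
      {c | (w ∈ fr.U c ∨ w' ∈ fr.U c) ∨ c = a'})
    (hu : ∀ w ∈ G, vis u ∈ Submodule.span F
      ((fun c : Ty N d => vis (gv p c)) '' {c | w ∈ fr.U c ∨ c = a'})) :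
    ∃ c c' : F, vis u = c • vis (gv p a) + c' • vis (gv p a') := by
  set v : Ty N d → E ⊕ P → F := fun c => vis (gv p c) with hv
  have hspan : ∀ w ∈ G, ∃ l ∈ Finsupp.supported F F {c : Ty N d | w ∈ fr.U c ∨ c = a'},
      Finsupp.linearCombination F v l = vis u := by
    intro w hw
    rw [← Finsupp.mem_span_image_iff_linearCombination]
    exact hu w hw
  have hGne : G.Nonempty := by
    rw [← Finset.card_pos]
    omega
  obtain ⟨w0, hw0⟩ := hGne
  obtain ⟨l, hl, hlu⟩ := hspan w0 hw0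
  have hlsupp : ∀ w ∈ G, ∀ c : Ty N d, l c ≠ 0 → w ∈ fr.U c ∨ c = a' := by
    intro w hw c hc
    obtain ⟨l', hl', hlu'⟩ := hspan w hw
    have h0 := linearIndepOn_iff.1 (hGP w0 hw0 w hw) (l - l') (by
      refine Submodule.sub_mem _ (Finsupp.supported_mono ?_ hl) (Finsupp.supported_mono ?_ hl')
      · rintro c (h' | h')
        · exact Or.inl (Or.inl h')
        · exact Or.inr h'
      · rintro c (h' | h')
        · exact Or.inl (Or.inr h')
        · exact Or.inr h') (by rw [map_sub, hlu, hlu', sub_self])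
    have : l = l' := sub_eq_zero.1 h0
    subst this
    exact (Finsupp.mem_supported _ _).1 hl' (Finsupp.mem_support_iff.2 hc)
  have hlsupp2 : ∀ c : Ty N d, l c ≠ 0 → c = a ∨ c = a' := by
    intro c hc
    by_contra hcon
    rw [not_or] at hcon
    have h1 : G ⊆ fr.U a ∩ fr.U c := fun w hw =>
      Finset.mem_inter.2 ⟨hG hw, (hlsupp w hw c hc).resolve_right hcon.2⟩
    have h2 := Finset.card_le_card h1
    have h3 := fr.card_inter a c (fun h' => hcon.1 h'.symm)
    omega
  refine ⟨l a, l a', ?_⟩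
  rw [← hlu, Finsupp.linearCombination_apply, Finsupp.sum]
  rw [Finset.sum_subset (Finset.subset_univ l.support) (fun c _ hc => by
    rw [Finsupp.notMem_support_iff.1 hc, zero_smul])]
  rw [← Finset.sum_subset (Finset.subset_univ ({a, a'} : Finset (Ty N d))),
    Finset.sum_pair haa]
  intro c _ hc
  by_cases hlc : l c = 0
  · rw [hlc, zero_smul]
  · exfalso
    apply hc
    rw [Finset.mem_insert, Finset.mem_singleton]
    exact hlsupp2 c hlc

/-- Independence on `P` of the lines of `a'` and of the lines of any two rows outside `U a'`. -/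
def RowInd (fr : Frame N d E Om) (p : Lin N → Co E P Om → F) (a' : Ty N d) : Prop :=
  ∀ w ∉ fr.U a', ∀ w' ∉ fr.U a', LinearIndependent F
      (fun u : (lins a' ∪ rowLines fr w ∪ rowLines fr w' : Finset (Lin N)) =>
        fun j : P => p u (Sum.inl (Sum.inr j)))

theorem RowInd.one {fr : Frame N d E Om} {p : Lin N → Co E P Om → F} {a' : Ty N d}
    (hRI : RowInd fr p a') : ∀ w ∉ fr.U a', LinearIndependent F
      (fun c : {c : Ty N d // w ∈ fr.U c ∨ c = a'} => vis (gv p c.1)) := by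
  intro w hw
  have h1 := indepOn_of_lines fr p a' hw hw (hRI w hw w hw)
  have h2 : LinearIndepOn F (fun c : Ty N d => vis (gv p c)) {c | w ∈ fr.U c ∨ c = a'} := by
    refine h1.mono ?_
    rintro c (h' | h')
    · exact Or.inl (Or.inl h')
    · exact Or.inr h'
  exact h2

/-- If `u` does not survive, many rows of `a` see independent symbols of `B u`, `B` of type `a'`. -/
theorem exists_rows (fr : Frame N d E Om) (p : Lin N → Co E P Om → F) (h : Ext fr p)
    {a a' : Ty N d} (haa : a ≠ a') (hRI : RowInd fr p a')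
    {u : Co E P Om → F} (hu : ¬ Surv fr p a a' u) :
    ∃ R ⊆ fr.U a \ fr.U a', fr.q ≤ 2 * R.card ∧ ∀ w0 ∈ R, ∃ B ∈ (dsg fr p h).Dir a',
      ∀ w ∈ R, (B.mulVec u) (Sum.inr w) = if w = w0 then 1 else 0 := by
  have hD : fr.q ≤ (fr.U a \ fr.U a').card + (fr.U a ∩ fr.U a').card := by
    have := Finset.card_sdiff_add_card_inter (fr.U a) (fr.U a')
    rw [fr.card_U] at this
    omega
  have hI := fr.card_inter a a' haa
  set G : Finset Om := (fr.U a \ fr.U a').filter fun w => vis u ∈ Submodule.span F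
      ((fun c : Ty N d => vis (gv p c)) '' {c | w ∈ fr.U c ∨ c = a'}) with hG
  by_cases hcard : fr.q < 4 * G.card
  · obtain ⟨c, c', hc⟩ := vis_mem_of_many fr p haa (G := G)
      (fun w hw => (Finset.mem_sdiff.1 (Finset.mem_filter.1 hw).1).1) hcard
      (fun w hw w' hw' => indepOn_of_lines fr p a'
        (Finset.mem_sdiff.1 (Finset.mem_filter.1 hw).1).2
        (Finset.mem_sdiff.1 (Finset.mem_filter.1 hw').1).2
        (hRI w (Finset.mem_sdiff.1 (Finset.mem_filter.1 hw).1).2
          w' (Finset.mem_sdiff.1 (Finset.mem_filter.1 hw').1).2))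
      (fun w hw => (Finset.mem_filter.1 hw).2)
    set η : Co E P Om → F := u - (c • gv p a + c' • gv p a') with hη
    have hvis : vis η = 0 := by
      funext j
      have := congrFun hc j
      simp only [vis, Pi.add_apply, Pi.smul_apply] at this
      simp only [vis, hη, Pi.sub_apply, Pi.add_apply, Pi.smul_apply, this, sub_self, Pi.zero_apply]
    obtain ⟨w1, hw1, hu1⟩ : ∃ w1, w1 ∉ fr.U a' ∧ η (Sum.inr w1) ≠ 0 := by
      by_contra hcon
      push Not at hcon
      exact hu ⟨c, c', η, hvis, hcon, by rw [hη]; abel⟩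
    refine ⟨fr.U a \ fr.U a', subset_rfl, by omega, fun w0 hw0 => ?_⟩
    obtain ⟨B, hB, hBu⟩ := exists_dir_hid fr p h a' hRI.one (Finset.mem_sdiff.1 hw0).2 hvis hw1 hu1
    refine ⟨B, hB, fun w hw => ?_⟩
    rw [← hBu w]
    have h1 : (B.mulVec (gv p a)) (Sum.inr w) = 0 :=
      hB.1.2 a (Sum.inr w) (Finset.mem_image_of_mem _ (Finset.mem_sdiff.1 hw).1)
    have h2 : B.mulVec (gv p a') = 0 := hB.2.2
    rw [hη, Matrix.mulVec_sub, Matrix.mulVec_add, Matrix.mulVec_smul, Matrix.mulVec_smul, h2]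
    simp [h1]
  · refine ⟨(fr.U a \ fr.U a') \ G, Finset.sdiff_subset, ?_, fun w0 hw0 => ?_⟩
    · have h1 : G ⊆ fr.U a \ fr.U a' := Finset.filter_subset _ _
      have h2 := Finset.card_sdiff_add_card_eq_card h1
      omega
    · have h1 := Finset.mem_sdiff.1 hw0
      have h2 : vis u ∉ Submodule.span F
          ((fun c : Ty N d => vis (gv p c)) '' {c | w0 ∈ fr.U c ∨ c = a'}) := fun h' =>
        h1.2 (Finset.mem_filter.2 ⟨h1.1, h'⟩)
      obtain ⟨B, hB, hBu⟩ := exists_dir_vis fr p h a' (Finset.mem_sdiff.1 h1.1).2 h2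
      exact ⟨B, hB, fun w _ => hBu w⟩

/-! ### Counting -/

/-- Fibres of a surjective homomorphism of finite groups. -/
theorem card_fibre_mul {U W : Type*} [AddCommGroup U] [Finite U] [AddCommGroup W] [Finite W]
    (f : U →+ W) (hf : Function.Surjective f) (w : W) :
    Nat.card {u : U // f u = w} * Nat.card W = Nat.card U := by
  obtain ⟨u0, hu0⟩ := hf w
  have h1 : Nat.card {u : U // f u = w} = Nat.card f.ker := by
    refine Nat.card_congr ⟨fun u => ⟨u.1 - u0, ?_⟩, fun u => ⟨u.1 + u0, ?_⟩, ?_, ?_⟩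
    · rw [AddMonoidHom.mem_ker, map_sub, u.2, hu0, sub_self]
    · rw [map_add, AddMonoidHom.mem_ker.1 u.2, zero_add, hu0]
    · intro u
      exact Subtype.ext (sub_add_cancel _ _)
    · intro u
      exact Subtype.ext (add_sub_cancel_right _ _)
  have h2 : Nat.card (U ⧸ f.ker) = Nat.card W :=
    Nat.card_congr (QuotientAddGroup.quotientKerEquivOfSurjective f hf).toEquiv
  rw [h1, AddSubgroup.card_eq_card_quotient_mul_card_addSubgroup f.ker, h2, mul_comm]

/-- The evaluation of the rows in `R` of `B u`, `B` of type `a'`. -/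
def evRows (fr : Frame N d E Om) (p : Lin N → Co E P Om → F) (h : Ext fr p) (a' : Ty N d)
    (R : Finset Om) (u : Co E P Om → F) : (dsg fr p h).Dir a' →ₗ[F] (R → F) where
  toFun B := fun w => (B.1.mulVec u) (Sum.inr w.1)
  map_add' A B := by
    funext w
    simp [Matrix.add_mulVec]
  map_smul' c A := by
    funext w
    simp [Matrix.smul_mulVec]

theorem evRows_surjective (fr : Frame N d E Om) (p : Lin N → Co E P Om → F) (h : Ext fr p)
    (a' : Ty N d) {R : Finset Om} {u : Co E P Om → F}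
    (hR : ∀ w0 ∈ R, ∃ B ∈ (dsg fr p h).Dir a',
      ∀ w ∈ R, (B.mulVec u) (Sum.inr w) = if w = w0 then 1 else 0) :
    Function.Surjective (evRows fr p h a' R u) := by
  choose B hB hBu using fun w0 : R => hR w0.1 w0.2
  intro t
  refine ⟨∑ w0 : R, t w0 • (⟨B w0, hB w0⟩ : (dsg fr p h).Dir a'), ?_⟩
  funext w
  rw [map_sum, Finset.sum_apply, Finset.sum_eq_single w]
  · rw [map_smul, Pi.smul_apply, smul_eq_mul]
    have : evRows fr p h a' R u ⟨B w, hB w⟩ w = 1 := by
      show ((B w).mulVec u) (Sum.inr w.1) = 1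
      rw [hBu w w.1 w.2, if_pos rfl]
    rw [this, mul_one]
  · intro w0 _ hne
    rw [map_smul, Pi.smul_apply, smul_eq_mul]
    have : evRows fr p h a' R u ⟨B w0, hB w0⟩ w = 0 := by
      show ((B w0).mulVec u) (Sum.inr w.1) = 0
      rw [hBu w0 w.1 w.2, if_neg fun h' => hne (Subtype.ext h'.symm)]
    rw [this, mul_zero]
  · intro h'
    exact absurd (Finset.mem_univ _) h'

/-- The number of forms of type `a'` with prescribed symbols in independent rows. -/
theorem card_rows (fr : Frame N d E Om) (p : Lin N → Co E P Om → F) (h : Ext fr p)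
    (a' : Ty N d) {R : Finset Om} {u : Co E P Om → F}
    (hR : ∀ w0 ∈ R, ∃ B ∈ (dsg fr p h).Dir a',
      ∀ w ∈ R, (B.mulVec u) (Sum.inr w) = if w = w0 then 1 else 0) (y : Om → F) :
    Nat.card {B : (dsg fr p h).Dir a' // ∀ w ∈ R, (B.1.mulVec u) (Sum.inr w) = y w} *
      2521 ^ R.card = Nat.card ((dsg fr p h).Dir a') := by
  have key := card_fibre_mul (evRows fr p h a' R u).toAddMonoidHom
    (evRows_surjective fr p h a' hR) (fun w => y w.1)
  have h1 : Nat.card (R → F) = 2521 ^ R.card := by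
    rw [Nat.card_fun, Nat.card_eq_fintype_card (α := R), Fintype.card_coe, Nat.card_zmod]
  rw [h1] at key
  rw [← key]
  congr 1
  refine Nat.card_congr (Equiv.subtypeEquivRight fun B => ?_)
  constructor
  · intro hB
    funext w
    exact hB w.1 w.2
  · intro hB w hw
    exact congrFun hB ⟨w, hw⟩

/-- ATOM ⇒ CUT.  If `B h1 + B' h3` has a large atom, then `h3` is a surviving vector. -/
theorem surv_of_atom (fr : Frame N d E Om) (p : Lin N → Co E P Om → F) (h : Ext fr p)
    {a a' : Ty N d} (haa : a ≠ a') (hRI : RowInd fr p a')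
    {Ω : Type*} [Fintype Ω] (Pr : FinProb Ω)
    (Bm Bm' : Ω → Matrix (Co E P Om) (Co E P Om) F) (C0 : Matrix (Co E P Om) (Co E P Om) F)
    (hB : ∀ ω, Pr.w ω ≠ 0 → ∀ w ∈ fr.U a, ∀ v, Bm ω (Sum.inr w) v = 0)
    (hB' : ∀ ω, Pr.w ω ≠ 0 → Bm' ω - C0 ∈ (dsg fr p h).Dir a')
    {M κ : ℝ} (hM : ∀ B, Pr.p Bm' B * Nat.card ((dsg fr p h).Dir a') ≤ M)
    (h1 h3 y : Co E P Om → F)
    (hκ : κ ≤ Pr.p (fun ω => (Bm ω).mulVec h1 + (Bm' ω).mulVec h3) y)
    (hlarge : M < κ * 2521 ^ (fr.q / 2)) : Surv fr p a a' h3 := by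
  by_contra hcon
  obtain ⟨R, hRsub, hRq, hR⟩ := exists_rows fr p h haa hRI hcon
  set D := (dsg fr p h).Dir a' with hD
  set S : Finset (Matrix (Co E P Om) (Co E P Om) F) :=
    Finset.univ.filter fun B => B - C0 ∈ D ∧ ∀ w ∈ R, (B.mulVec h3) (Sum.inr w) = y (Sum.inr w)
    with hS
  -- the number of elements of `S`
  have hScard : S.card * 2521 ^ R.card = Nat.card D := by
    rw [← card_rows fr p h a' hR (fun w => y (Sum.inr w) - (C0.mulVec h3) (Sum.inr w))]
    congr 1
    rw [← Fintype.card_coe S, ← Nat.card_eq_fintype_card]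
    refine Nat.card_congr ⟨fun B => ⟨⟨B.1 - C0, (Finset.mem_filter.1 B.2).2.1⟩, ?_⟩,
      fun B => ⟨B.1.1 + C0, ?_⟩, ?_, ?_⟩
    · intro w hw
      have := (Finset.mem_filter.1 B.2).2.2 w hw
      rw [Matrix.sub_mulVec, Pi.sub_apply, this]
    · refine Finset.mem_filter.2 ⟨Finset.mem_univ _, ?_, fun w hw => ?_⟩
      · rw [add_sub_cancel_right]
        exact B.1.2
      · have := B.2 w hw
        rw [Matrix.add_mulVec, Pi.add_apply, this]
        exact sub_add_cancel _ _
    · intro B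
      exact Subtype.ext (sub_add_cancel _ _)
    · intro B
      exact Subtype.ext (Subtype.ext (add_sub_cancel_right _ _))
  -- the probability of the atom is at most the probability of `S`
  have hstep : κ ≤ ∑ B ∈ S, Pr.p Bm' B := by
    refine hκ.trans ?_
    have e1 : ∑ B ∈ S, Pr.p Bm' B = ∑ ω, if Bm' ω ∈ S then Pr.w ω else 0 := by
      simp only [FinProb.p]
      rw [Finset.sum_comm]
      refine Finset.sum_congr rfl fun ω _ => ?_
      by_cases hω : Bm' ω ∈ S
      · rw [if_pos hω, Finset.sum_eq_single (Bm' ω)]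
        · rw [if_pos rfl]
        · intro B _ hne
          rw [if_neg fun h' => hne h'.symm]
        · intro h'
          exact absurd hω h'
      · rw [if_neg hω]
        refine Finset.sum_eq_zero fun B hBS => ?_
        have hne : Bm' ω ≠ B := fun h' => hω (by rw [h']; exact hBS)
        rw [if_neg hne]
    rw [e1]
    simp only [FinProb.p]
    refine Finset.sum_le_sum fun ω _ => ?_
    by_cases hω : Pr.w ω = 0
    · split_ifs <;> simp [hω]
    · by_cases hy : (Bm ω).mulVec h1 + (Bm' ω).mulVec h3 = y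
      · rw [if_pos hy, if_pos]
        refine Finset.mem_filter.2 ⟨Finset.mem_univ _, hB' ω hω, fun w hw => ?_⟩
        have hrow : ((Bm ω).mulVec h1) (Sum.inr w) = 0 := by
          unfold Matrix.mulVec dotProduct
          refine Finset.sum_eq_zero fun j _ => ?_
          show Bm ω (Sum.inr w) j * h1 j = 0
          rw [hB ω hω w (Finset.mem_sdiff.1 (hRsub hw)).1, zero_mul]
        rw [← hy, Pi.add_apply, hrow, zero_add]
      · rw [if_neg hy]
        split_ifs
        · exact Pr.nonneg ω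
        · exact le_rfl
  -- conclusion
  have hDpos : (0 : ℝ) < Nat.card D := by
    exact_mod_cast Nat.card_pos
  have h5 : (∑ B ∈ S, Pr.p Bm' B) * Nat.card D ≤ S.card * M := by
    rw [Finset.sum_mul, ← nsmul_eq_mul, ← Finset.sum_const]
    exact Finset.sum_le_sum fun B _ => hM B
  have hM0 : 0 ≤ M := by
    have := hM 0
    exact le_trans (mul_nonneg (Pr.p_nonneg _ _) (Nat.cast_nonneg _)) this
  have hκM : κ * 2521 ^ R.card ≤ M := by
    by_cases hκ0 : κ ≤ 0
    · exact le_trans (mul_nonpos_of_nonpos_of_nonneg hκ0 (by positivity)) hM0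
    · push Not at hκ0
      have h6 : κ * Nat.card D ≤ S.card * M :=
        (mul_le_mul_of_nonneg_right hstep hDpos.le).trans h5
      have h7 : (S.card : ℝ) * 2521 ^ R.card = Nat.card D := by exact_mod_cast hScard
      have hS0 : (0 : ℝ) < S.card := by
        by_contra h8
        have h9 : (S.card : ℝ) = 0 := le_antisymm (not_lt.1 h8) (Nat.cast_nonneg _)
        rw [h9, zero_mul] at h7
        linarith only [h7, hDpos]
      rw [← h7] at h6
      have h10 : (S.card : ℝ) * (κ * 2521 ^ R.card) ≤ S.card * M := by linarith only [h6]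
      exact le_of_mul_le_mul_left h10 hS0
  have hκ0 : 0 ≤ κ := by
    by_contra hneg
    push Not at hneg
    have : κ * 2521 ^ (fr.q / 2) ≤ 0 := mul_nonpos_of_nonpos_of_nonneg hneg.le (by positivity)
    linarith
  have hpow : (2521 : ℝ) ^ (fr.q / 2) ≤ 2521 ^ R.card :=
    pow_le_pow_right₀ (by norm_num) (by omega)
  have := mul_le_mul_of_nonneg_left hpow hκ0
  linarith only [this, hκM, hlarge]

end Vale.Agent.P060.HW
end
end

section

/-!
# OUT-A: structure of the test values of one form at several line-disjoint types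
-/

open scoped Classical

noncomputable section

set_option linter.unusedSectionVars false

namespace Vale.Agent.P060.HW.NOA

open Module

section

variable {K : Type*}

lemma smz_symm (u v : K → F) : (sm u v).IsSymm := by
  show (sm u v).transpose = sm u v
  ext i j
  simp only [sm, Matrix.transpose_apply, Matrix.add_apply, Matrix.vecMulVec_apply]
  ring

lemma smz_sum {ι : Type*} (S : Finset ι) (z : K → F) (p : ι → K → F) :
    ∑ u ∈ S, sm z (p u) = sm z (∑ u ∈ S, p u) := by
  ext i j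
  rw [Matrix.sum_apply]
  simp only [an_sm_apply, Finset.sum_apply, Finset.mul_sum, Finset.sum_mul, Finset.sum_add_distrib]

lemma smz_zero (v : K → F) : sm (0 : K → F) v = 0 := by
  ext i j
  simp [an_sm_apply]

end

variable {N d : ℕ} {E P Om : Type} [Fintype E] [Fintype P] [Fintype Om] [NeZero N]

/-- Independence of the vectors of a set of lines on `P`. -/
def Ind (p : Lin N → Co E P Om → F) (S : Finset (Lin N)) : Prop :=
  LinearIndependent F (fun u : S => fun j : P => p u (Sum.inl (Sum.inr j)))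

lemma Ind.zero {p : Lin N → Co E P Om → F} {S : Finset (Lin N)} (hS : Ind p S) (f : Lin N → F)
    (hf : ∀ j : P, ∑ u ∈ S, f u * p u (Sum.inl (Sum.inr j)) = 0) : ∀ u ∈ S, f u = 0 := by
  intro u hu
  have h1 := Fintype.linearIndependent_iff.1 hS (fun u : S => f u) (by
    funext j
    rw [Finset.sum_apply]
    have h2 := hf j
    rw [← Finset.sum_coe_sort S] at h2
    exact h2)
  exact h1 ⟨u, hu⟩

lemma lin_inj (c : Ty N d) : Function.Injective (lin c) := fun _ _ h => an_lin_inj h

lemma lin_mem (c : Ty N d) (s : Fin 3) : lin c s ∈ lins c :=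
  Finset.mem_image_of_mem _ (Finset.mem_univ _)

lemma card_lins (c : Ty N d) : (lins c).card ≤ 3 :=
  Finset.card_image_le.trans (by simp)

lemma sum_lins {M : Type*} [AddCommMonoid M] (c : Ty N d) (f : Lin N → M) :
    ∑ u ∈ lins c, f u = ∑ s, f (lin c s) := by
  unfold lins
  rw [Finset.sum_image fun _ _ _ _ h => lin_inj c h]

lemma gv_eq (p : Lin N → Co E P Om → F) (c : Ty N d) : gv p c = ∑ u ∈ lins c, p u := by
  rw [sum_lins]; rfl

/-- three pairwise line-disjoint types -/
structure D3 (a b c : Ty N d) : Prop where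
  ab : Disjoint (lins a) (lins b)
  ac : Disjoint (lins a) (lins c)
  bc : Disjoint (lins b) (lins c)

lemma sum_three {M : Type*} [AddCommMonoid M] {a b c : Ty N d} (hd : D3 a b c)
    (f : Lin N → M) : ∑ u ∈ lins a ∪ lins b ∪ lins c, f u
      = ∑ u ∈ lins a, f u + ∑ u ∈ lins b, f u + ∑ u ∈ lins c, f u := by
  rw [Finset.sum_union (Finset.disjoint_union_left.2 ⟨hd.ac, hd.bc⟩), Finset.sum_union hd.ab]

lemma card_three (a b c : Ty N d) : (lins a ∪ lins b ∪ lins c).card ≤ 9 := by
  have h1 := Finset.card_union_le (lins a ∪ lins b) (lins c)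
  have h2 := Finset.card_union_le (lins a) (lins b)
  have := card_lins a
  have := card_lins b
  have := card_lins c
  omega

/-- the vectors of three line-disjoint types are independent on `P` -/
lemma gv_ind {p : Lin N → Co E P Om → F} {a b c : Ty N d} (hd : D3 a b c)
    (hS : Ind p (lins a ∪ lins b ∪ lins c)) {α β γ : F}
    (h : ∀ j : P, α * gv p a (Sum.inl (Sum.inr j)) + β * gv p b (Sum.inl (Sum.inr j))
      + γ * gv p c (Sum.inl (Sum.inr j)) = 0) : α = 0 ∧ β = 0 ∧ γ = 0 := by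
  let f : Lin N → F := fun u => if u ∈ lins a then α else if u ∈ lins b then β else γ
  have hfa : ∀ u ∈ lins a, f u = α := fun u hu => if_pos hu
  have hfb : ∀ u ∈ lins b, f u = β := fun u hu => by
    show (if u ∈ lins a then α else if u ∈ lins b then β else γ) = β
    rw [if_neg (Finset.disjoint_right.1 hd.ab hu), if_pos hu]
  have hfc : ∀ u ∈ lins c, f u = γ := fun u hu => by
    show (if u ∈ lins a then α else if u ∈ lins b then β else γ) = γ
    rw [if_neg (Finset.disjoint_right.1 hd.ac hu), if_neg (Finset.disjoint_right.1 hd.bc hu)]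
  have h0 := hS.zero f (by
    intro j
    rw [sum_three hd, ← h j, gv_eq, gv_eq, gv_eq, Finset.sum_apply, Finset.sum_apply,
      Finset.sum_apply, Finset.mul_sum, Finset.mul_sum, Finset.mul_sum]
    congr 1
    · congr 1
      · exact Finset.sum_congr rfl fun u hu => by rw [hfa u hu]
      · exact Finset.sum_congr rfl fun u hu => by rw [hfb u hu]
    · exact Finset.sum_congr rfl fun u hu => by rw [hfc u hu])
  refine ⟨?_, ?_, ?_⟩
  · rw [← hfa _ (lin_mem a 0)]
    exact h0 _ (Finset.mem_union_left _ (Finset.mem_union_left _ (lin_mem a 0)))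
  · rw [← hfb _ (lin_mem b 0)]
    exact h0 _ (Finset.mem_union_left _ (Finset.mem_union_right _ (lin_mem b 0)))
  · rw [← hfc _ (lin_mem c 0)]
    exact h0 _ (Finset.mem_union_right _ (lin_mem c 0))

lemma F_two_ne : (2 : F) ≠ 0 := by decide

/-- The structure of trivial tensors on three line-disjoint types. -/
lemma struct (fr : Frame N d E Om) (p : Lin N → Co E P Om → F) (h : Ext fr p) {a b b' : Ty N d}
    (hd : D3 a b b') (hS : Ind p (lins a ∪ lins b ∪ lins b'))
    (hw : ∀ w, Ind p (lins a ∪ lins b ∪ lins b' ∪ rowLines fr w))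
    (z z' : Co E P Om → F) (hz : sm z (gv p b) + sm z' (gv p b') ∈ (dsg fr p h).Nn a) :
    ∃ c c' c'' : F,
      (∀ j : E ⊕ P, z (Sum.inl j) = c * gv p a (Sum.inl j) + c' * gv p b' (Sum.inl j)) ∧
      (∀ w, w ∉ fr.U a → w ∉ fr.U b →
        z (Sum.inr w) = c * gv p a (Sum.inr w) + c' * gv p b' (Sum.inr w)) ∧
      (∀ j : E ⊕ P, z' (Sum.inl j) = c'' * gv p a (Sum.inl j) - c' * gv p b (Sum.inl j)) := by
  set S := lins a ∪ lins b ∪ lins b' with hSdef
  have haS : ∀ u ∈ lins a, u ∈ S := fun u hu =>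
    Finset.mem_union_left _ (Finset.mem_union_left _ hu)
  have hbS : ∀ u ∈ lins b, u ∈ S := fun u hu =>
    Finset.mem_union_left _ (Finset.mem_union_right _ hu)
  have hbS' : ∀ u ∈ lins b', u ∈ S := fun u hu => Finset.mem_union_right _ hu
  let zz : Lin N → Co E P Om → F := fun u => if u ∈ lins b then z else if u ∈ lins b' then z' else 0
  have hza : ∀ u ∈ lins a, zz u = 0 := fun u hu => by
    show (if u ∈ lins b then z else if u ∈ lins b' then z' else 0) = 0
    rw [if_neg (Finset.disjoint_left.1 hd.ab hu), if_neg (Finset.disjoint_left.1 hd.ac hu)]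
  have hzb : ∀ u ∈ lins b, zz u = z := fun u hu => if_pos hu
  have hzb' : ∀ u ∈ lins b', zz u = z' := fun u hu => by
    show (if u ∈ lins b then z else if u ∈ lins b' then z' else 0) = z'
    rw [if_neg (Finset.disjoint_right.1 hd.bc hu), if_pos hu]
  have hsum : ∑ u ∈ S, sm (zz u) (p u) ∈ (dsg fr p h).Nn a := by
    have h1 : ∑ u ∈ S, sm (zz u) (p u) = sm z (gv p b) + sm z' (gv p b') := by
      rw [hSdef, sum_three hd, Finset.sum_congr rfl fun u hu => by rw [hza u hu, smz_zero],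
        Finset.sum_const_zero, zero_add,
        Finset.sum_congr rfl fun u (hu : u ∈ lins b) => by rw [hzb u hu],
        Finset.sum_congr rfl fun u (hu : u ∈ lins b') => by rw [hzb' u hu],
        smz_sum, smz_sum, ← gv_eq, ← gv_eq]
    rw [h1]; exact hz
  obtain ⟨y, c, x, hc1, hc2, hx, hE, hR⟩ := an N d E P Om fr p h a S
    (fun s => haS _ (lin_mem a s)) hS (fun w _ => hw w) zz hsum
  -- blocks
  have hblk : ∀ t : Ty N d, (∀ u ∈ lins t, u ∈ S) →
      (∀ u ∈ lins t, ∀ u' ∈ lins t, zz u = zz u') → (∀ u ∈ lins t, ∀ u' ∈ lins t,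
        (u ∈ lins a ↔ u' ∈ lins a)) → ∀ u ∈ lins t, ∀ u' ∈ lins t, ∀ v ∈ S, c u v = c u' v := by
    intro t htS hzt hta u hu u' hu' v hv
    have h1 := hS.zero (fun v => c u v - c u' v) (by
      intro j
      have h2 := hE u (htS u hu) (Sum.inr j)
      have h3 := hE u' (htS u' hu') (Sum.inr j)
      have h4 : (if u ∈ lins a then y (Sum.inl (Sum.inr j)) else 0)
          = if u' ∈ lins a then y (Sum.inl (Sum.inr j)) else 0 := by
        simp only [hta u hu u' hu']
      rw [hzt u hu u' hu', h3, h4] at h2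
      have h5 := add_left_cancel h2
      simp only [sub_mul, Finset.sum_sub_distrib]
      rw [h5, sub_self]) v hv
    exact sub_eq_zero.1 h1
  have hA := hblk a haS (fun u hu u' hu' => by rw [hza u hu, hza u' hu'])
    (fun u hu u' hu' => by simp only [hu, hu'])
  have hB := hblk b hbS (fun u hu u' hu' => by rw [hzb u hu, hzb u' hu'])
    (fun u hu u' hu' => by
      simp only [Finset.disjoint_right.1 hd.ab hu, Finset.disjoint_right.1 hd.ab hu'])
  have hB' := hblk b' hbS' (fun u hu u' hu' => by rw [hzb' u hu, hzb' u' hu'])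
    (fun u hu u' hu' => by
      simp only [Finset.disjoint_right.1 hd.ac hu, Finset.disjoint_right.1 hd.ac hu'])
  have hdiag : ∀ v, c v v = 0 := by
    intro v
    have h1 := hc1 v v
    have h2 : 2 * c v v = 0 := by
      rw [two_mul]
      nth_rewrite 1 [h1]
      ring
    exact (mul_eq_zero.1 h2).resolve_left F_two_ne
  -- columns
  have hcol : ∀ (t : Ty N d), (∀ u ∈ lins t, u ∈ S) →
      (∀ u ∈ lins t, ∀ u' ∈ lins t, ∀ v ∈ S, c u v = c u' v) →
      ∀ v ∈ S, ∀ i, ∑ u ∈ lins t, c v u * p u i = c v (lin t 0) * gv p t i := by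
    intro t htS ht v hv i
    rw [gv_eq, Finset.sum_apply, Finset.mul_sum]
    refine Finset.sum_congr rfl fun u hu => ?_
    rw [hc1 v u, ht u hu (lin t 0) (lin_mem t 0) v hv, ← hc1 v (lin t 0)]
  have hsumS : ∀ v ∈ S, ∀ i, ∑ u ∈ S, c v u * p u i = c v (lin a 0) * gv p a i
      + c v (lin b 0) * gv p b i + c v (lin b' 0) * gv p b' i := by
    intro v hv i
    rw [hSdef, sum_three hd, hcol a haS hA v hv i, hcol b hbS hB v hv i, hcol b' hbS' hB' v hv i]
  have hb0 := hbS _ (lin_mem b 0)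
  have hb0' := hbS' _ (lin_mem b' 0)
  refine ⟨c (lin b 0) (lin a 0), c (lin b 0) (lin b' 0), c (lin b' 0) (lin a 0), ?_, ?_, ?_⟩
  · intro j
    have h1 := hE _ hb0 j
    rw [hzb _ (lin_mem b 0), if_neg (Finset.disjoint_right.1 hd.ab (lin_mem b 0)), zero_add,
      hsumS _ hb0, hdiag, zero_mul, add_zero] at h1
    exact h1
  · intro w hwa hwb
    have hX : ∀ s, z (Sum.inr w) = (c (lin b 0) (lin a 0) * gv p a (Sum.inr w)
        + c (lin b 0) (lin b' 0) * gv p b' (Sum.inr w))
        + ∑ t, x w t * (if lin b s ∈ lins t then 1 else 0) := by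
      intro s
      have h1 := hR _ (hbS _ (lin_mem b s)) w hwa
      rw [hzb _ (lin_mem b s), if_neg (Finset.disjoint_right.1 hd.ab (lin_mem b s)), zero_add,
        hsumS _ (hbS _ (lin_mem b s)), hB _ (lin_mem b s) _ (lin_mem b 0) _ (haS _ (lin_mem a 0)),
        hB _ (lin_mem b s) _ (lin_mem b 0) _ hb0, hB _ (lin_mem b s) _ (lin_mem b 0) _ hb0',
        hdiag, zero_mul, add_zero] at h1
      exact h1
    have hX01 := (hX 0).symm.trans (hX 1)
    have hX01' := add_left_cancel hX01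
    have h0 : ∑ t, x w t * (if lin b 0 ∈ lins t then (1 : F) else 0) = 0 := by
      by_contra hne
      have hne1 : ∑ t, x w t * (if lin b 1 ∈ lins t then (1 : F) else 0) ≠ 0 := by
        rw [← hX01']; exact hne
      obtain ⟨t0, -, ht0⟩ := Finset.exists_ne_zero_of_sum_ne_zero hne
      obtain ⟨t1, -, ht1⟩ := Finset.exists_ne_zero_of_sum_ne_zero hne1
      have hx0 : x w t0 ≠ 0 := left_ne_zero_of_mul ht0
      have hx1 : x w t1 ≠ 0 := left_ne_zero_of_mul ht1
      have hl0 : lin b 0 ∈ lins t0 := by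
        by_contra hh
        rw [if_neg hh, mul_zero] at ht0
        exact ht0 rfl
      have hl1 : lin b 1 ∈ lins t1 := by
        by_contra hh
        rw [if_neg hh, mul_zero] at ht1
        exact ht1 rfl
      have e0 : ln b 0 = ln t0 0 := by
        obtain ⟨s, hs⟩ := an_mem_lins.1 hl0
        have h1 : s = 0 := congrArg Prod.fst hs
        subst h1
        exact (congrArg Prod.snd hs).symm
      have e1 : ln b 1 = ln t1 1 := by
        obtain ⟨s, hs⟩ := an_mem_lins.1 hl1
        have h1 : s = 1 := congrArg Prod.fst hs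
        subst h1
        exact (congrArg Prod.snd hs).symm
      have hU0 := (hx w t0 hx0).1
      have hU1 := (hx w t1 hx1).1
      by_cases htt : t0 = t1
      · subst htt
        have := fr.share_two b t0 0 1 (by decide) e0 e1
        exact hwb (this ▸ hU0)
      · exact Finset.disjoint_left.1 (fr.star_disj b t0 t1 0 1 htt e0 e1) hU0 hU1
    rw [hX 0, h0, add_zero]
  · intro j
    have h1 := hE _ hb0' j
    rw [hzb' _ (lin_mem b' 0), if_neg (Finset.disjoint_right.1 hd.ac (lin_mem b' 0)), zero_add,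
      hsumS _ hb0', hdiag, zero_mul, add_zero, hc1 (lin b' 0) (lin b 0), neg_mul,
      ← sub_eq_add_neg] at h1
    exact h1

end Vale.Agent.P060.HW.NOA
end
end

section

/-!
# OUT-A: the test maps of one type, their ranges and common functionals
-/

open scoped Classical

noncomputable section

set_option linter.unusedSectionVars false

namespace Vale.Agent.P060.HW.NOA

open Module

variable {N d : ℕ} {E P Om : Type} [Fintype E] [Fintype P] [Fintype Om] [NeZero N]

/-- The independence used here. -/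
structure HI (fr : Frame N d E Om) (p : Lin N → Co E P Om → F) : Prop where
  one : ∀ S : Finset (Lin N), S.card ≤ 9 → Ind p S
  row : ∀ S : Finset (Lin N), S.card ≤ 9 → ∀ w, Ind p (S ∪ rowLines fr w)

lemma HI.of_ev {fr : Frame N d E Om} {p : Lin N → Co E P Om → F} {κ : ℕ} (h12 : 12 ≤ κ)
    (hr : ∀ w, 12 + (rowLines fr w).card ≤ κ) (h1 : Ev1 p κ) : HI fr p where
  one := fun S hS => h1 S (by omega)
  row := fun S hS w => h1 _ ((Finset.card_union_le _ _).trans (by
    have := hr w
    omega))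

lemma D3.symm {a b c : Ty N d} (h : D3 a b c) : D3 a c b := ⟨h.ac, h.ab, h.bc.symm⟩

/-- The dot product only sees the coordinates where the second vector can be nonzero. -/
lemma dot_good {a b : Ty N d} {fr : Frame N d E Om} {z z2 v : Co E P Om → F}
    (h1 : ∀ j : E ⊕ P, z (Sum.inl j) = z2 (Sum.inl j))
    (h2 : ∀ w, w ∉ fr.U a → w ∉ fr.U b → z (Sum.inr w) = z2 (Sum.inr w))
    (hv : ∀ w, w ∈ fr.U a ∨ w ∈ fr.U b → v (Sum.inr w) = 0) : z ⬝ᵥ v = z2 ⬝ᵥ v := by
  unfold dotProduct
  refine Finset.sum_congr rfl fun j _ => ?_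
  rcases j with j | w
  · rw [h1]
  · by_cases h3 : w ∈ fr.U a ∨ w ∈ fr.U b
    · rw [hv w h3, mul_zero, mul_zero]
    · rw [h2 w (fun h4 => h3 (Or.inl h4)) (fun h4 => h3 (Or.inr h4))]

variable (fr : Frame N d E Om) (p : Lin N → Co E P Om → F) (h : Ext fr p)

/-- The test map of type `a` at the type `b`. -/
def Lm (a b : Ty N d) : Matrix (Co E P Om) (Co E P Om) F →ₗ[F] (Co E P Om → F) where
  toFun Q := ((dsg fr p h).proj a Q : Matrix (Co E P Om) (Co E P Om) F).mulVec (gv p b)
  map_add' Q Q' := by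
    rw [map_add, Submodule.coe_add, Matrix.add_mulVec]
  map_smul' c Q := by
    rw [map_smul, Submodule.coe_smul, Matrix.smul_mulVec, RingHom.id_apply]

lemma Lm_apply (a b : Ty N d) (Q : Matrix (Co E P Om) (Co E P Om) F) :
    Lm fr p h a b Q = ((dsg fr p h).proj a Q : Matrix (Co E P Om) (Co E P Om) F).mulVec (gv p b) :=
  rfl

/-- The range of the test map. -/
def Wab (a b : Ty N d) : Submodule F (Co E P Om → F) where
  carrier := {v | gv p a ⬝ᵥ v = 0 ∧ ∀ w, w ∈ fr.U a ∨ w ∈ fr.U b → v (Sum.inr w) = 0}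
  zero_mem' := ⟨dotProduct_zero _, fun _ _ => rfl⟩
  add_mem' := by
    rintro u v ⟨h1, h2⟩ ⟨h3, h4⟩
    refine ⟨by rw [dotProduct_add, h1, h3, add_zero], fun w hw => ?_⟩
    rw [Pi.add_apply, h2 w hw, h4 w hw, add_zero]
  smul_mem' := by
    rintro c v ⟨h1, h2⟩
    refine ⟨by rw [dotProduct_smul, h1, smul_zero], fun w hw => ?_⟩
    rw [Pi.smul_apply, h2 w hw, smul_zero]

variable {fr p}

lemma mem_Wab {a b : Ty N d} {v : Co E P Om → F} : v ∈ Wab fr p a b ↔
    gv p a ⬝ᵥ v = 0 ∧ ∀ w, w ∈ fr.U a ∨ w ∈ fr.U b → v (Sum.inr w) = 0 := Iff.rfl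

lemma mem_U_dsg {a : Ty N d} {w : Om} (hw : w ∈ fr.U a) : Sum.inr w ∈ (dsg fr p h).U a :=
  Finset.mem_image_of_mem _ hw

lemma mulVec_mem_Wab {a b : Ty N d} {B : Matrix (Co E P Om) (Co E P Om) F}
    (hB : B ∈ (dsg fr p h).Dir a) : B.mulVec (gv p b) ∈ Wab fr p a b := by
  refine ⟨?_, fun w hw => ?_⟩
  · rw [Design.symm_dot hB.1.1]
    have h1 : B.mulVec (gv p a) = 0 := hB.2.2
    rw [h1, dotProduct_zero]
  · rcases hw with hw | hw
    · unfold Matrix.mulVec dotProduct
      refine Finset.sum_eq_zero fun j _ => ?_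
      show B (Sum.inr w) j * gv p b j = 0
      rw [hB.2.1 _ (mem_U_dsg h hw) j, zero_mul]
    · exact hB.1.2 b _ (mem_U_dsg h hw)

lemma Lm_mem (a b : Ty N d) (Q : Matrix (Co E P Om) (Co E P Om) F) :
    Lm fr p h a b Q ∈ Wab fr p a b := mulVec_mem_Wab h ((dsg fr p h).proj a Q).2

lemma Lm_of_dir {a b : Ty N d} {B : Matrix (Co E P Om) (Co E P Om) F}
    (hB : B ∈ (dsg fr p h).Dir a) : Lm fr p h a b B = B.mulVec (gv p b) := by
  rw [Lm_apply]
  have h1 := (dsg fr p h).proj_apply a ⟨B, hB⟩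
  rw [h1]

/-- A symmetric tensor killing all directions is trivial. -/
lemma mem_Nn {a b b' : Ty N d} {z z' : Co E P Om → F}
    (hz : ∀ Q, z ⬝ᵥ Lm fr p h a b Q + z' ⬝ᵥ Lm fr p h a b' Q = 0) :
    sm z (gv p b) + sm z' (gv p b') ∈ (dsg fr p h).Nn a := by
  refine annConverse _ _ (dsg fr p h) a _ ?_ fun B hB => ?_
  · exact (smz_symm _ _).add (smz_symm _ _)
  · rw [ann_pr_add, ann_pr_sm hB.1.1, ann_pr_sm hB.1.1, ← mul_add]
    have h1 := hz B
    rw [Lm_of_dir h hB, Lm_of_dir h hB] at h1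
    rw [h1, mul_zero]

/-- every functional is a dot product -/
lemma exists_dot {K : Type*} [Fintype K] (f : (K → F) →ₗ[F] F) : ∃ z : K → F, ∀ v, f v = z ⬝ᵥ v := by
  refine ⟨fun j => f (Pi.single j 1), fun v => ?_⟩
  unfold dotProduct
  rw [LinearMap.pi_apply_eq_sum_univ f v]
  refine Finset.sum_congr rfl fun j _ => ?_
  rw [smul_eq_mul, mul_comm]
  congr 2
  funext i
  rw [Pi.single_apply]
  by_cases hij : i = j
  · rw [if_pos hij, if_pos hij.symm]
  · rw [if_neg hij, if_neg (Ne.symm hij)]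

/-- one common form of the structure lemma -/
lemma struct' (hI : HI fr p) {a b b' : Ty N d} (hd : D3 a b b') {z z' : Co E P Om → F}
    (hz : ∀ Q, z ⬝ᵥ Lm fr p h a b Q + z' ⬝ᵥ Lm fr p h a b' Q = 0) :
    ∃ c c' c'' : F,
      (∀ j : E ⊕ P, z (Sum.inl j) = c * gv p a (Sum.inl j) + c' * gv p b' (Sum.inl j)) ∧
      (∀ w, w ∉ fr.U a → w ∉ fr.U b →
        z (Sum.inr w) = c * gv p a (Sum.inr w) + c' * gv p b' (Sum.inr w)) ∧
      (∀ j : E ⊕ P, z' (Sum.inl j) = c'' * gv p a (Sum.inl j) - c' * gv p b (Sum.inl j)) :=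
  struct fr p h hd (hI.one _ (card_three a b b')) (hI.row _ (card_three a b b')) z z' (mem_Nn h hz)

lemma range_Lm (hI : HI fr p) {a b b' : Ty N d} (hd : D3 a b b') :
    LinearMap.range (Lm fr p h a b) = Wab fr p a b := by
  refine le_antisymm ?_ ?_
  · rintro _ ⟨Q, rfl⟩
    exact Lm_mem h a b Q
  · intro v hv
    by_contra hcon
    obtain ⟨f, hf, hle⟩ := Submodule.exists_le_ker_of_notMem hcon
    obtain ⟨z, hz⟩ := exists_dot f
    have h1 : ∀ Q, z ⬝ᵥ Lm fr p h a b Q + (0 : Co E P Om → F) ⬝ᵥ Lm fr p h a b' Q = 0 := by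
      intro Q
      rw [zero_dotProduct, add_zero, ← hz]
      exact hle ⟨Q, rfl⟩
    obtain ⟨c, c', c'', e1, e2, e3⟩ := struct' h hI hd h1
    have h2 : c' = 0 := by
      have h3 := gv_ind hd (hI.one _ (card_three a b b')) (α := c'') (β := -c') (γ := 0) (by
        intro j
        have := e3 (Sum.inr j)
        rw [Pi.zero_apply] at this
        rw [zero_mul, add_zero, neg_mul, ← sub_eq_add_neg]
        exact this.symm)
      exact neg_eq_zero.1 h3.2.1
    have h4 : z ⬝ᵥ v = (c • gv p a) ⬝ᵥ v := by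
      refine dot_good (fr := fr) (a := a) (b := b) ?_ ?_ hv.2
      · intro j
        rw [e1, h2, zero_mul, add_zero]; rfl
      · intro w hwa hwb
        rw [e2 w hwa hwb, h2, zero_mul, add_zero]; rfl
    apply hf
    rw [hz, h4, smul_dotProduct, hv.1, smul_zero]

/-- A functional which comes from three different test maps is zero. -/
lemma triple (hI : HI fr p) {a b₁ b₂ b₃ : Ty N d} (h12 : D3 a b₁ b₂) (h13 : D3 a b₁ b₃)
    (h23 : D3 a b₂ b₃) {z₁ z₂ z₃ : Co E P Om → F}
    (e2 : ∀ Q, z₁ ⬝ᵥ Lm fr p h a b₁ Q = z₂ ⬝ᵥ Lm fr p h a b₂ Q)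
    (e3 : ∀ Q, z₁ ⬝ᵥ Lm fr p h a b₁ Q = z₃ ⬝ᵥ Lm fr p h a b₃ Q) :
    ∀ Q, z₁ ⬝ᵥ Lm fr p h a b₁ Q = 0 := by
  obtain ⟨c, c', -, f1, f2, -⟩ := struct' h hI h12 (z := z₁) (z' := -z₂) (by
    intro Q
    rw [neg_dotProduct, e2, add_neg_cancel])
  obtain ⟨k, k', -, g1, -, -⟩ := struct' h hI h13 (z := z₁) (z' := -z₃) (by
    intro Q
    rw [neg_dotProduct, e3, add_neg_cancel])
  have h3 := gv_ind h23 (hI.one _ (card_three a b₂ b₃)) (α := c - k) (β := c') (γ := -k') (by
    intro j
    have h4 := f1 (Sum.inr j)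
    have h5 := g1 (Sum.inr j)
    rw [h4] at h5
    linear_combination h5)
  intro Q
  have hv := Lm_mem h a b₁ Q
  have h4 : z₁ ⬝ᵥ Lm fr p h a b₁ Q = (c • gv p a) ⬝ᵥ Lm fr p h a b₁ Q := by
    refine dot_good (fr := fr) (a := a) (b := b₁) ?_ ?_ hv.2
    · intro j
      rw [f1, h3.2.1, zero_mul, add_zero]; rfl
    · intro w hwa hwb
      rw [f2 w hwa hwb, h3.2.1, zero_mul, add_zero]; rfl
  rw [h4, smul_dotProduct, hv.1, smul_zero]

end Vale.Agent.P060.HW.NOA
end
end

section

/-!
# OUT-A: counting lemmas (second moments, overlap of two near uniform functions, choice of a pair)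
-/

open scoped Classical

noncomputable section

set_option linter.unusedSectionVars false

namespace Vale.Agent.P060.HW.NOA

open Module

/-- Two functions which are near constant in mean square have a large overlap. -/
theorem l2_overlap {V : Type*} (R : Finset V) (f g : V → ℝ) {α β : ℝ} (hf : ∀ v, 0 ≤ f v)
    (hg : ∀ v, 0 ≤ g v) (hα : 0 < α) (hβ : 0 < β)
    (h1 : 16 * ∑ v ∈ R, (f v - α) ^ 2 ≤ α ^ 2 * R.card)
    (h2 : 16 * ∑ v ∈ R, (g v - β) ^ 2 ≤ β ^ 2 * R.card) :
    α * β * R.card ≤ 8 * ∑ v ∈ R, f v * g v := by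
  have hpt : ∀ v, α * β / 4 - β / α * (f v - α) ^ 2 - α / β * (g v - β) ^ 2 ≤ f v * g v := by
    intro v
    have h3 : 0 ≤ β / α * (f v - α) ^ 2 := by positivity
    have h4 : 0 ≤ α / β * (g v - β) ^ 2 := by positivity
    have h5 := mul_nonneg (hf v) (hg v)
    rcases lt_or_ge (f v) (α / 2) with h6 | h6
    · have h7 : α ^ 2 / 4 ≤ (f v - α) ^ 2 := by linarith only [mul_nonneg (le_of_lt (sub_pos.2 h6)) (sub_nonneg.2 (hf v)), mul_pos (sub_pos.2 h6) (sub_pos.2 h6)]
      have h8 : α * β / 4 ≤ β / α * (f v - α) ^ 2 := by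
        calc α * β / 4 = β / α * (α ^ 2 / 4) := by field_simp
          _ ≤ _ := mul_le_mul_of_nonneg_left h7 (by positivity)
      linarith only [h4, h5, h8]
    · rcases lt_or_ge (g v) (β / 2) with h7 | h7
      · have h8 : β ^ 2 / 4 ≤ (g v - β) ^ 2 := by linarith only [mul_pos (sub_pos.2 h7) (sub_pos.2 h7), mul_nonneg (le_of_lt (sub_pos.2 h7)) (sub_nonneg.2 (hg v))]
        have h9 : α * β / 4 ≤ α / β * (g v - β) ^ 2 := by
          calc α * β / 4 = α / β * (β ^ 2 / 4) := by field_simp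
            _ ≤ _ := mul_le_mul_of_nonneg_left h8 (by positivity)
        linarith only [h9, h5, h3]
      · have h8 : α / 2 * (β / 2) ≤ f v * g v :=
          mul_le_mul h6 h7 (by positivity) (hf v)
        linarith only [h8, h4, h3]
  have hs := Finset.sum_le_sum fun v (_ : v ∈ R) => hpt v
  rw [Finset.sum_sub_distrib, Finset.sum_sub_distrib, Finset.sum_const, nsmul_eq_mul,
    ← Finset.mul_sum, ← Finset.mul_sum] at hs
  have h3 : β / α * ∑ v ∈ R, (f v - α) ^ 2 ≤ α * β * R.card / 16 := by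
    calc β / α * ∑ v ∈ R, (f v - α) ^ 2 ≤ β / α * (α ^ 2 * R.card / 16) :=
          mul_le_mul_of_nonneg_left (by linarith) (by positivity)
      _ = α * β * R.card / 16 := by field_simp
  have h4 : α / β * ∑ v ∈ R, (g v - β) ^ 2 ≤ α * β * R.card / 16 := by
    calc α / β * ∑ v ∈ R, (g v - β) ^ 2 ≤ α / β * (β ^ 2 * R.card / 16) :=
          mul_le_mul_of_nonneg_left (by linarith only [h2]) (by positivity)
      _ = α * β * R.card / 16 := by field_simp
  have h5 : (R.card : ℝ) * (α * β / 4) = α * β * R.card / 4 := by ring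
  rw [h5] at hs
  linarith

section cnt

variable {V W : Type*} [Fintype V] [Fintype W]

/-- number of elements of `A` with value `v` -/
def cnt (L : V → W) (A : Finset V) (v : W) : ℝ := ((A.filter fun Q => L Q = v).card : ℝ)

lemma cnt_nonneg (L : V → W) (A : Finset V) (v : W) : 0 ≤ cnt L A v := Nat.cast_nonneg _

lemma cnt_eq_sum (L : V → W) (A : Finset V) (v : W) :
    cnt L A v = ∑ Q ∈ A, if L Q = v then (1 : ℝ) else 0 := by
  unfold cnt
  rw [Finset.card_filter, Nat.cast_sum]
  exact Finset.sum_congr rfl fun Q _ => by split_ifs <;> simp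

lemma sum_cnt (L : V → W) (A : Finset V) : ∑ v, cnt L A v = A.card := by
  simp_rw [cnt_eq_sum]
  rw [Finset.sum_comm]
  simp

/-- the number of pairs with equal values -/
def prs (L : V → W) (A : Finset V) : ℝ := (((A ×ˢ A).filter fun x => L x.1 = L x.2).card : ℝ)

lemma prs_eq (L : V → W) (A : Finset V) (inst : DecidablePred fun x : V × V => L x.1 = L x.2) :
    (((@Finset.filter _ (fun x : V × V => L x.1 = L x.2) inst (A ×ˢ A)).card : ℕ) : ℝ)
      = prs L A := by
  unfold prs
  rw [Subsingleton.elim inst (fun x => Classical.propDecidable _)]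

lemma sum_cnt_sq (L : V → W) (A : Finset V) : ∑ v, cnt L A v ^ 2 = prs L A := by
  have h1 : prs L A = ∑ x ∈ A, ∑ y ∈ A, if L x = L y then (1 : ℝ) else 0 := by
    unfold prs
    rw [Finset.card_filter, Nat.cast_sum, Finset.sum_product]
    exact Finset.sum_congr rfl fun x _ => Finset.sum_congr rfl fun y _ => by
      split_ifs <;> simp
  rw [h1]
  have h2 : ∀ v, cnt L A v ^ 2 = ∑ x ∈ A, ∑ y ∈ A,
      if L x = v then (if L y = v then (1 : ℝ) else 0) else 0 := by
    intro v
    rw [sq, cnt_eq_sum, Finset.sum_mul]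
    refine Finset.sum_congr rfl fun x _ => ?_
    rw [Finset.mul_sum]
    refine Finset.sum_congr rfl fun y _ => ?_
    split_ifs <;> simp
  simp_rw [h2]
  rw [Finset.sum_comm]
  refine Finset.sum_congr rfl fun x _ => ?_
  rw [Finset.sum_comm]
  refine Finset.sum_congr rfl fun y _ => ?_
  rw [Finset.sum_ite_eq Finset.univ (L x) (fun v => if L y = v then (1 : ℝ) else 0)]
  rw [if_pos (Finset.mem_univ _)]
  simp only [eq_comm]

/-- second moment on a finite set containing the range -/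
lemma l2_dev (L : V → W) (A : Finset V) (Rg : Finset W) (hRg : ∀ Q, L Q ∈ Rg)
    (h0 : 0 < Rg.card) :
    (Rg.card : ℝ) * ∑ v ∈ Rg, (cnt L A v - A.card / Rg.card) ^ 2
      = Rg.card * prs L A - (A.card : ℝ) ^ 2 := by
  have hw : (Rg.card : ℝ) ≠ 0 := by positivity
  have hout : ∀ v, v ∉ Rg → cnt L A v = 0 := by
    intro v hv
    unfold cnt
    rw [Finset.card_eq_zero.2, Nat.cast_zero]
    refine Finset.filter_eq_empty_iff.2 fun Q _ hQ => hv (hQ ▸ hRg Q)
  have h1 : ∑ v ∈ Rg, cnt L A v = A.card := by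
    rw [← sum_cnt L A]
    exact Finset.sum_subset (Finset.subset_univ _) fun v _ hv => hout v hv
  have h2 : ∑ v ∈ Rg, cnt L A v ^ 2 = prs L A := by
    rw [← sum_cnt_sq L A]
    exact Finset.sum_subset (Finset.subset_univ _) fun v _ hv => by rw [hout v hv]; ring
  have h3 : ∑ v ∈ Rg, (cnt L A v - A.card / Rg.card) ^ 2 = ∑ v ∈ Rg, cnt L A v ^ 2
      - 2 * (A.card / Rg.card) * ∑ v ∈ Rg, cnt L A v + Rg.card * (A.card / Rg.card : ℝ) ^ 2 := by
    rw [Finset.mul_sum, ← Finset.sum_sub_distrib, ← nsmul_eq_mul, ← Finset.sum_const,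
      ← Finset.sum_add_distrib]
    exact Finset.sum_congr rfl fun v _ => by ring
  rw [h3, h1, h2]
  field_simp
  ring

lemma sum_shift_le [AddCommGroup W] (f : W → ℝ) (hf : ∀ v, 0 ≤ f v) (R Rg : Finset W) (v₁ : W)
    (hR : ∀ v ∈ R, v - v₁ ∈ Rg) : ∑ v ∈ R, f (v - v₁) ≤ ∑ v ∈ Rg, f v := by
  have h1 : ∑ v ∈ R, f (v - v₁) = ∑ u ∈ R.image (fun v => v - v₁), f u := by
    rw [Finset.sum_image]
    intro x _ y _ hxy
    exact sub_left_injective hxy
  rw [h1]
  refine Finset.sum_le_sum_of_subset_of_nonneg ?_ fun v _ _ => hf v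
  intro u hu
  obtain ⟨v, hv, rfl⟩ := Finset.mem_image.1 hu
  exact hR v hv

end cnt

/-- A directed graph with small out-degrees on many vertices has a pair without edges. -/
theorem exists_pair {T : Type*} [DecidableEq T] (S : Finset T) (bad : T → T → Prop) (m : ℕ)
    (hm : ∀ a ∈ S, ((S.erase a).filter fun b => bad a b).card ≤ m) (hS : 2 * m + 2 ≤ S.card) :
    ∃ a ∈ S, ∃ b ∈ S, a ≠ b ∧ ¬ bad a b ∧ ¬ bad b a := by
  by_contra hcon
  push Not at hcon
  have h1 : S.offDiag ⊆ (S.sigma fun a => (S.erase a).filter fun b => bad a b).image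
      (fun x => (x.1, x.2)) ∪ (S.sigma fun a => (S.erase a).filter fun b => bad a b).image
      (fun x => (x.2, x.1)) := by
    rintro ⟨a, b⟩ hab
    rw [Finset.mem_offDiag] at hab
    obtain ⟨ha, hb, hne⟩ := hab
    rw [Finset.mem_union, Finset.mem_image, Finset.mem_image]
    by_cases hb1 : bad a b
    · left
      exact ⟨⟨a, b⟩, Finset.mem_sigma.2 ⟨ha, Finset.mem_filter.2
        ⟨Finset.mem_erase.2 ⟨fun h => hne h.symm, hb⟩, hb1⟩⟩, rfl⟩
    · right
      exact ⟨⟨b, a⟩, Finset.mem_sigma.2 ⟨hb, Finset.mem_filter.2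
        ⟨Finset.mem_erase.2 ⟨hne, ha⟩, hcon a ha b hb hne hb1⟩⟩, rfl⟩
  have h2 : (S.sigma fun a => (S.erase a).filter fun b => bad a b).card ≤ S.card * m := by
    rw [Finset.card_sigma]
    refine (Finset.sum_le_sum hm).trans ?_
    rw [Finset.sum_const, smul_eq_mul]
  have h3 := (Finset.card_le_card h1).trans (Finset.card_union_le _ _)
  have h4 := h3.trans (Nat.add_le_add (Finset.card_image_le.trans h2)
    (Finset.card_image_le.trans h2))
  rw [Finset.offDiag_card] at h4
  have h5 : 0 < S.card := by omega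
  have h6 : S.card * S.card ≤ S.card * (2 * m + 1) := by
    have h7 : S.card * S.card ≤ S.card * m + S.card * m + S.card := by omega
    calc S.card * S.card ≤ S.card * m + S.card * m + S.card := h7
      _ = S.card * (2 * m + 1) := by ring
  have h8 := Nat.le_of_mul_le_mul_left h6 h5
  omega

end Vale.Agent.P060.HW.NOA
end
end

section

/-!
# OUT-A: Parseval and near uniformity for most types
-/

open scoped Classical
open Finset Module

noncomputable section

set_option linter.unusedSectionVars false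

namespace Vale.Agent.P060.HW

namespace NOAP

lemma exists_psi : ∃ ψ : AddChar F ℂ, ψ ≠ 0 := by
  refine ⟨ZMod.stdAddChar, fun h => ?_⟩
  have h1 := ZMod.isPrimitive_stdAddChar 2521
  have h2 := h1 (a := 1) one_ne_zero
  rw [h] at h2
  apply h2
  ext x
  simp

section Abstract

variable {V W : Type*} [AddCommGroup V] [Module F V] [Fintype V] [AddCommGroup W] [Module F W]
  [Fintype W]

/-- the functionals which kill `U` -/
def dann (U : Submodule F V) [Fintype (Dual F V)] : Finset (Dual F V) :=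
  Finset.univ.filter fun ξ => ξ ∈ U.dualAnnihilator

lemma mem_dann [Fintype (Dual F V)] (U : Submodule F V) (ξ : Dual F V) :
    ξ ∈ dann U ↔ ξ ∈ U.dualAnnihilator := by simp [dann]

/-- Parseval for the functionals which kill `U`. -/
lemma parseval {ψ : AddChar F ℂ} (hψ : ψ ≠ 0) [Fintype (Dual F V)] (U : Submodule F V)
    (f : V → ℝ) :
    ∑ ξ ∈ dann U, ‖fc ψ f ξ‖ ^ 2
      = ((dann U).card : ℝ) * ∑ x, ∑ y, (if x - y ∈ U then f x * f y else 0) := by
  have h1 : ∀ ξ : Dual F V, ((‖fc ψ f ξ‖ ^ 2 : ℝ) : ℂ)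
      = ∑ x, ∑ y, ((f x * f y : ℝ) : ℂ) * ψ (ξ (x - y)) := by
    intro ξ
    have h2 : ((‖fc ψ f ξ‖ ^ 2 : ℝ) : ℂ) = fc ψ f ξ * (starRingEnd ℂ) (fc ψ f ξ) := by
      rw [Complex.mul_conj, Complex.normSq_eq_norm_sq]
    rw [h2]
    unfold fc
    rw [map_sum, Finset.sum_mul_sum]
    refine Finset.sum_congr rfl fun x _ => Finset.sum_congr rfl fun y _ => ?_
    rw [map_mul, Complex.conj_ofReal, ← AddChar.map_neg_eq_conj, map_sub, sub_eq_add_neg,
      AddChar.map_add_eq_mul, Complex.ofReal_mul]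
    ring
  have h3 : ((∑ ξ ∈ dann U, ‖fc ψ f ξ‖ ^ 2 : ℝ) : ℂ)
      = (((dann U).card : ℝ) * ∑ x, ∑ y, (if x - y ∈ U then f x * f y else 0) : ℝ) := by
    rw [Complex.ofReal_sum, Finset.sum_congr rfl fun ξ _ => h1 ξ, Finset.sum_comm]
    rw [Complex.ofReal_mul, Complex.ofReal_sum, Finset.mul_sum]
    refine Finset.sum_congr rfl fun x _ => ?_
    rw [Finset.sum_comm, Complex.ofReal_sum, Finset.mul_sum]
    refine Finset.sum_congr rfl fun y _ => ?_
    rw [← Finset.mul_sum, sum_ann hψ U (x - y) (dann U) (mem_dann U)]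
    split_ifs
    · rw [Complex.ofReal_natCast]; ring
    · simp
  exact_mod_cast h3

/-- the push-forward -/
def push (T : V →ₗ[F] W) (f : V → ℝ) (w : W) : ℝ := ∑ x, if T x = w then f x else 0

lemma sum_push (T : V →ₗ[F] W) (f : V → ℝ) : ∑ w, push T f w = ∑ x, f x := by
  unfold push
  rw [Finset.sum_comm]
  refine Finset.sum_congr rfl fun x _ => ?_
  rw [Finset.sum_ite_eq]
  simp

lemma sum_push_sq (T : V →ₗ[F] W) (f : V → ℝ) :
    ∑ w, push T f w ^ 2 = ∑ x, ∑ y, (if x - y ∈ LinearMap.ker T then f x * f y else 0) := by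
  have h1 : ∀ w, push T f w ^ 2 = ∑ x, ∑ y, if T x = w ∧ T y = w then f x * f y else 0 := by
    intro w
    unfold push
    rw [sq, Finset.sum_mul_sum]
    refine Finset.sum_congr rfl fun x _ => Finset.sum_congr rfl fun y _ => ?_
    by_cases hx : T x = w <;> by_cases hy : T y = w <;> simp [hx, hy]
  rw [Finset.sum_congr rfl fun w _ => h1 w, Finset.sum_comm]
  refine Finset.sum_congr rfl fun x _ => ?_
  rw [Finset.sum_comm]
  refine Finset.sum_congr rfl fun y _ => ?_
  by_cases h : x - y ∈ LinearMap.ker T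
  · have h' : T y = T x := by
      rw [LinearMap.mem_ker, map_sub, sub_eq_zero] at h
      exact h.symm
    rw [if_pos h]
    simp [h']
  · have h' : ¬ T y = T x := by
      rw [LinearMap.mem_ker, map_sub, sub_eq_zero] at h
      exact fun h'' => h h''.symm
    rw [if_neg h]
    refine Finset.sum_eq_zero fun w _ => ?_
    rw [if_neg]
    rintro ⟨rfl, h2⟩
    exact h' h2

lemma card_dann_ker [Fintype (Dual F V)] (T : V →ₗ[F] W) :
    ((dann (LinearMap.ker T)).card : ℝ) = Nat.card (LinearMap.range T) := by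
  have hfin : FiniteDimensional F V := Module.Finite.of_finite
  have h1 := card_ann (LinearMap.ker T) (dann (LinearMap.ker T)) (mem_dann _)
  have h2 : Nat.card (LinearMap.range T) * (carr (LinearMap.ker T)).card = Fintype.card V := by
    rw [card_carr, Module.natCard_eq_pow_finrank (K := F), Module.card_eq_pow_finrank (K := F)
      (V := V), Nat.card_eq_fintype_card, ← pow_add, LinearMap.finrank_range_add_finrank_ker]
  have h3 : 0 < (carr (LinearMap.ker T)).card := by exact_mod_cast carr_card_pos (LinearMap.ker T)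
  have h4 := Nat.eq_of_mul_eq_mul_right h3 (h1.trans h2.symm)
  rw [h4]

/-- **Parseval.**  For a density of mean one bounded by `1 / δ`, the push-forwards under linear maps
whose dual ranges have trivial triple intersections are uniform up to `ε` in chi square, with at
most `2 / (δ ε²)` exceptions. -/
theorem card_far_le {I : Type*} (s : Finset I) (T : I → V →ₗ[F] W) (f : V → ℝ) {δ ε : ℝ}
    (hδ : 0 < δ) (hf0 : ∀ x, 0 ≤ f x) (hf1 : ∑ x, f x = 1)
    (hf : ∀ x, f x * (δ * Fintype.card V) ≤ 1)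
    (h3 : ∀ i ∈ s, ∀ j ∈ s, ∀ k ∈ s, i ≠ j → i ≠ k → j ≠ k → ∀ ξ : Dual F V,
      ξ ∈ (LinearMap.ker (T i)).dualAnnihilator → ξ ∈ (LinearMap.ker (T j)).dualAnnihilator →
      ξ ∈ (LinearMap.ker (T k)).dualAnnihilator → ξ = 0) :
    ((s.filter fun i => ε < (Nat.card (LinearMap.range (T i)) : ℝ) * ∑ w, push (T i) f w ^ 2 - 1).card
      : ℝ) * ε * δ ≤ 2 := by
  have hfd : Finite (Dual F V) := Module.finite_of_finite F
  have : Fintype (Dual F V) := Fintype.ofFinite _
  obtain ⟨ψ, hψ⟩ := exists_psi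
  -- the chi square as a sum over nonzero functionals
  have hchi : ∀ i, (Nat.card (LinearMap.range (T i)) : ℝ) * ∑ w, push (T i) f w ^ 2 - 1
      = ∑ ξ ∈ (dann (LinearMap.ker (T i))).erase 0, ‖fc ψ f ξ‖ ^ 2 := by
    intro i
    have h0 : (0 : Dual F V) ∈ dann (LinearMap.ker (T i)) := by
      rw [mem_dann]; exact Submodule.zero_mem _
    have h1 := Finset.add_sum_erase (dann (LinearMap.ker (T i))) (fun ξ => ‖fc ψ f ξ‖ ^ 2) h0
    have h2 : fc ψ f 0 = 1 := by
      unfold fc
      simp only [LinearMap.zero_apply, AddChar.map_zero_eq_one, mul_one]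
      rw [← Complex.ofReal_sum, hf1, Complex.ofReal_one]
    rw [parseval hψ, ← sum_push_sq, card_dann_ker] at h1
    simp only [h2, norm_one, one_pow] at h1
    linarith
  -- the total
  have htot : ∑ ξ : Dual F V, ‖fc ψ f ξ‖ ^ 2 ≤ 1 / δ := by
    have h1 := parseval hψ (⊥ : Submodule F V) f
    have h2 : dann (⊥ : Submodule F V) = Finset.univ := by
      ext ξ
      simp [mem_dann]
    have h4 := card_ann (⊥ : Submodule F V) (dann ⊥) (mem_dann _)
    have h5 : (carr (⊥ : Submodule F V)).card = 1 := by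
      rw [card_carr, finrank_bot, pow_zero]
    rw [h5, mul_one] at h4
    rw [h4, h2] at h1
    rw [h1]
    have h6 : ∀ x, (∑ y, if x - y ∈ (⊥ : Submodule F V) then f x * f y else 0) = f x * f x := by
      intro x
      rw [Finset.sum_eq_single x]
      · rw [if_pos (by rw [sub_self]; exact Submodule.zero_mem _)]
      · intro y _ hy
        rw [if_neg]
        rw [Submodule.mem_bot, sub_eq_zero]
        exact fun h => hy h.symm
      · intro h; exact absurd (Finset.mem_univ _) h
    rw [Finset.sum_congr rfl fun x _ => h6 x, le_div_iff₀ hδ, Finset.mul_sum, Finset.sum_mul]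
    rw [← hf1]
    refine Finset.sum_le_sum fun x _ => ?_
    linarith only [mul_nonneg (sub_nonneg.2 (hf x)) (sub_nonneg.2 (hf0 x))]
  -- the number of spaces containing a nonzero functional
  set B := s.filter fun i => ε < (Nat.card (LinearMap.range (T i)) : ℝ) * ∑ w, push (T i) f w ^ 2 - 1
    with hB
  have hdeg : ∀ ξ : Dual F V, ξ ≠ 0 →
      ((s.filter fun i => ξ ∈ dann (LinearMap.ker (T i))).card : ℝ) ≤ 2 := by
    intro ξ hξ
    by_contra hcon
    push Not at hcon
    have h2 : 2 < (s.filter fun i => ξ ∈ dann (LinearMap.ker (T i))).card := by exact_mod_cast hcon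
    obtain ⟨i, j, k, hi, hj, hk, hij, hik, hjk⟩ := Finset.two_lt_card_iff.1 h2
    rw [Finset.mem_filter, mem_dann] at hi hj hk
    exact hξ (h3 i hi.1 j hj.1 k hk.1 hij hik hjk ξ hi.2 hj.2 hk.2)
  have h1 : (B.card : ℝ) * ε ≤ ∑ i ∈ s, ∑ ξ ∈ (dann (LinearMap.ker (T i))).erase 0,
      ‖fc ψ f ξ‖ ^ 2 := by
    have h2 : (B.card : ℝ) * ε ≤ ∑ i ∈ B, ∑ ξ ∈ (dann (LinearMap.ker (T i))).erase 0,
        ‖fc ψ f ξ‖ ^ 2 := by
      rw [← nsmul_eq_mul, ← Finset.sum_const]
      refine Finset.sum_le_sum fun i hi => ?_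
      rw [← hchi]
      exact (Finset.mem_filter.1 hi).2.le
    refine h2.trans (Finset.sum_le_sum_of_subset_of_nonneg (Finset.filter_subset _ _)
      fun i _ _ => Finset.sum_nonneg fun ξ _ => by positivity)
  have h2 : ∑ i ∈ s, ∑ ξ ∈ (dann (LinearMap.ker (T i))).erase 0, ‖fc ψ f ξ‖ ^ 2
      ≤ ∑ ξ : Dual F V, 2 * ‖fc ψ f ξ‖ ^ 2 := by
    have e1 : ∀ i, ∑ ξ ∈ (dann (LinearMap.ker (T i))).erase 0, ‖fc ψ f ξ‖ ^ 2
        = ∑ ξ : Dual F V, if ξ ≠ 0 ∧ ξ ∈ dann (LinearMap.ker (T i)) then ‖fc ψ f ξ‖ ^ 2 else 0 := by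
      intro i
      rw [← Finset.sum_filter]
      refine Finset.sum_congr ?_ fun _ _ => rfl
      ext ξ
      simp [Finset.mem_erase]
    rw [Finset.sum_congr rfl fun i _ => e1 i, Finset.sum_comm]
    refine Finset.sum_le_sum fun ξ _ => ?_
    by_cases hξ : ξ = 0
    · have : ∀ i ∈ s, (if ξ ≠ 0 ∧ ξ ∈ dann (LinearMap.ker (T i)) then ‖fc ψ f ξ‖ ^ 2 else 0)
          = (0 : ℝ) := by
        intro i _
        rw [if_neg]
        rintro ⟨h, -⟩
        exact h hξ
      rw [Finset.sum_congr rfl this, Finset.sum_const_zero]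
      positivity
    · rw [← Finset.sum_filter, Finset.sum_const, nsmul_eq_mul]
      refine mul_le_mul_of_nonneg_right ?_ (by positivity)
      refine le_trans ?_ (hdeg ξ hξ)
      have : (s.filter fun i => ξ ≠ 0 ∧ ξ ∈ dann (LinearMap.ker (T i)))
          ⊆ s.filter fun i => ξ ∈ dann (LinearMap.ker (T i)) := by
        intro i hi
        rw [Finset.mem_filter] at hi ⊢
        exact ⟨hi.1, hi.2.2⟩
      exact_mod_cast Finset.card_le_card this
  rw [← Finset.mul_sum] at h2
  have h4 : (B.card : ℝ) * ε ≤ 2 * (1 / δ) := by linarith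
  calc (B.card : ℝ) * ε * δ ≤ 2 * (1 / δ) * δ := mul_le_mul_of_nonneg_right h4 hδ.le
    _ = 2 := by field_simp

end Abstract

section Dev

variable {V W : Type*} [AddCommGroup V] [Module F V] [Fintype V] [AddCommGroup W] [Module F W]

/-- the number of pairs with the same image, by Parseval -/
lemma dev_eq {ψ : AddChar F ℂ} (hψ : ψ ≠ 0) [Fintype (Dual F V)] [Finite W] (L : V →ₗ[F] W)
    (A : Finset V) :
    (Nat.card (LinearMap.range L) : ℝ) * (((A ×ˢ A).filter fun x => L x.1 = L x.2).card : ℝ)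
      - (A.card : ℝ) ^ 2
      = ∑ ξ ∈ (dann (LinearMap.ker L)).erase 0, ‖fc ψ (fun x => if x ∈ A then 1 else 0) ξ‖ ^ 2 := by
  have : Fintype W := Fintype.ofFinite _
  have h0 : (0 : Dual F V) ∈ dann (LinearMap.ker L) := by
    rw [mem_dann]; exact Submodule.zero_mem _
  have h1 := Finset.add_sum_erase (dann (LinearMap.ker L))
    (fun ξ => ‖fc ψ (fun x => if x ∈ A then 1 else 0) ξ‖ ^ 2) h0
  have h2 : fc ψ (fun x => if x ∈ A then 1 else 0) 0 = (A.card : ℂ) := by
    unfold fc
    simp only [LinearMap.zero_apply, AddChar.map_zero_eq_one, mul_one]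
    rw [← Complex.ofReal_sum, Finset.sum_ite_mem, Finset.univ_inter, Finset.sum_const,
      nsmul_eq_mul, mul_one, Complex.ofReal_natCast]
  have h3 : ∑ x, ∑ y, (if x - y ∈ LinearMap.ker L then
      (if x ∈ A then (1 : ℝ) else 0) * (if y ∈ A then 1 else 0) else 0)
      = (((A ×ˢ A).filter fun x => L x.1 = L x.2).card : ℝ) := by
    rw [← Fintype.sum_prod_type' (fun x y : V => if x - y ∈ LinearMap.ker L then
      (if x ∈ A then (1 : ℝ) else 0) * (if y ∈ A then 1 else 0) else 0)]
    have h4 : ∀ x : V × V, (if x.1 - x.2 ∈ LinearMap.ker L then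
        (if x.1 ∈ A then (1 : ℝ) else 0) * (if x.2 ∈ A then 1 else 0) else 0)
        = if x ∈ (A ×ˢ A).filter (fun x => L x.1 = L x.2) then 1 else 0 := by
      intro x
      have h5 : x.1 - x.2 ∈ LinearMap.ker L ↔ L x.1 = L x.2 := by
        rw [LinearMap.mem_ker, map_sub, sub_eq_zero]
      simp only [Finset.mem_filter, Finset.mem_product, h5]
      by_cases a1 : L x.1 = L x.2 <;> by_cases a2 : x.1 ∈ A <;> by_cases a3 : x.2 ∈ A <;>
        simp [a1, a2, a3]
    rw [Finset.sum_congr rfl fun x _ => h4 x, Finset.sum_ite_mem, Finset.univ_inter,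
      Finset.sum_const, nsmul_eq_mul, mul_one]
  rw [parseval hψ, card_dann_ker, h3] at h1
  simp only [h2, Complex.norm_natCast] at h1
  linarith

/-- **Parseval for a set.** -/
theorem dev_sum [Finite W] {I : Type*} (J : Finset I) (L : I → V →ₗ[F] W)
    (hm : ∀ i ∈ J, ∀ j ∈ J, ∀ k ∈ J, i ≠ j → i ≠ k → j ≠ k → ∀ f1 f2 f3 : Dual F W,
      f1.comp (L i) = f2.comp (L j) → f1.comp (L i) = f3.comp (L k) → f1.comp (L i) = 0)
    (A : Finset V) :
    ∑ i ∈ J, ((Nat.card (LinearMap.range (L i)) : ℝ) *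
      (((A ×ˢ A).filter fun x => L i x.1 = L i x.2).card : ℝ) - (A.card : ℝ) ^ 2)
      ≤ 2 * Fintype.card V * A.card := by
  have hfd : Finite (Dual F V) := Module.finite_of_finite F
  have : Fintype (Dual F V) := Fintype.ofFinite _
  obtain ⟨ψ, hψ⟩ := exists_psi
  set f : V → ℝ := fun x => if x ∈ A then 1 else 0 with hf
  rw [Finset.sum_congr rfl fun i _ => dev_eq hψ (L i) A]
  -- the total
  have htot : ∑ ξ : Dual F V, ‖fc ψ f ξ‖ ^ 2 = Fintype.card V * A.card := by
    have h1 := parseval hψ (⊥ : Submodule F V) f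
    have h2 : dann (⊥ : Submodule F V) = Finset.univ := by
      ext ξ
      simp [mem_dann]
    have h4 := card_ann (⊥ : Submodule F V) (dann ⊥) (mem_dann _)
    have h5 : (carr (⊥ : Submodule F V)).card = 1 := by
      rw [card_carr, finrank_bot, pow_zero]
    rw [h5, mul_one] at h4
    rw [h4, h2] at h1
    rw [h1]
    have h6 : ∀ x, (∑ y, if x - y ∈ (⊥ : Submodule F V) then f x * f y else 0) = f x := by
      intro x
      rw [Finset.sum_eq_single x]
      · rw [if_pos (by rw [sub_self]; exact Submodule.zero_mem _), hf]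
        simp only
        split_ifs <;> simp
      · intro y _ hy
        rw [if_neg]
        rw [Submodule.mem_bot, sub_eq_zero]
        exact fun h => hy h.symm
      · intro h; exact absurd (Finset.mem_univ _) h
    rw [Finset.sum_congr rfl fun x _ => h6 x, hf]
    rw [Finset.sum_ite_mem, Finset.univ_inter, Finset.sum_const, nsmul_eq_mul, mul_one]
  have hdeg : ∀ ξ : Dual F V, ξ ≠ 0 →
      ((J.filter fun i => ξ ∈ dann (LinearMap.ker (L i))).card : ℝ) ≤ 2 := by
    intro ξ hξ
    by_contra hcon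
    push Not at hcon
    have h2 : 2 < (J.filter fun i => ξ ∈ dann (LinearMap.ker (L i))).card := by exact_mod_cast hcon
    obtain ⟨i, j, k, hi, hj, hk, hij, hik, hjk⟩ := Finset.two_lt_card_iff.1 h2
    rw [Finset.mem_filter, mem_dann, ← LinearMap.range_dualMap_eq_dualAnnihilator_ker] at hi hj hk
    obtain ⟨hi1, f1, e1⟩ := hi
    obtain ⟨hj1, f2, e2⟩ := hj
    obtain ⟨hk1, f3, e3⟩ := hk
    rw [LinearMap.dualMap_apply'] at e1 e2 e3
    apply hξ
    rw [← e1]
    exact hm i hi1 j hj1 k hk1 hij hik hjk f1 f2 f3 (e1.trans e2.symm) (e1.trans e3.symm)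
  have h2 : ∑ i ∈ J, ∑ ξ ∈ (dann (LinearMap.ker (L i))).erase 0, ‖fc ψ f ξ‖ ^ 2
      ≤ ∑ ξ : Dual F V, 2 * ‖fc ψ f ξ‖ ^ 2 := by
    have e1 : ∀ i, ∑ ξ ∈ (dann (LinearMap.ker (L i))).erase 0, ‖fc ψ f ξ‖ ^ 2
        = ∑ ξ : Dual F V, if ξ ≠ 0 ∧ ξ ∈ dann (LinearMap.ker (L i)) then ‖fc ψ f ξ‖ ^ 2 else 0 := by
      intro i
      rw [← Finset.sum_filter]
      refine Finset.sum_congr ?_ fun _ _ => rfl
      ext ξ
      simp [Finset.mem_erase]
    rw [Finset.sum_congr rfl fun i _ => e1 i, Finset.sum_comm]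
    refine Finset.sum_le_sum fun ξ _ => ?_
    by_cases hξ : ξ = 0
    · have : ∀ i ∈ J, (if ξ ≠ 0 ∧ ξ ∈ dann (LinearMap.ker (L i)) then ‖fc ψ f ξ‖ ^ 2 else 0)
          = (0 : ℝ) := by
        intro i _
        rw [if_neg]
        rintro ⟨h, -⟩
        exact h hξ
      rw [Finset.sum_congr rfl this, Finset.sum_const_zero]
      positivity
    · rw [← Finset.sum_filter, Finset.sum_const, nsmul_eq_mul]
      refine mul_le_mul_of_nonneg_right ?_ (by positivity)
      refine le_trans ?_ (hdeg ξ hξ)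
      have : (J.filter fun i => ξ ≠ 0 ∧ ξ ∈ dann (LinearMap.ker (L i)))
          ⊆ J.filter fun i => ξ ∈ dann (LinearMap.ker (L i)) := by
        intro i hi
        rw [Finset.mem_filter] at hi ⊢
        exact ⟨hi.1, hi.2.2⟩
      exact_mod_cast Finset.card_le_card this
  rw [← Finset.mul_sum, htot] at h2
  linarith

/-- each deviation is nonnegative -/
theorem dev_nonneg [Finite W] (L : V →ₗ[F] W) (A : Finset V) :
    0 ≤ (Nat.card (LinearMap.range L) : ℝ) *
      (((A ×ˢ A).filter fun x => L x.1 = L x.2).card : ℝ) - (A.card : ℝ) ^ 2 := by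
  have hfd : Finite (Dual F V) := Module.finite_of_finite F
  have : Fintype (Dual F V) := Fintype.ofFinite _
  obtain ⟨ψ, hψ⟩ := exists_psi
  rw [dev_eq hψ]
  exact Finset.sum_nonneg fun ξ _ => by positivity

end Dev

end NOAP

end Vale.Agent.P060.HW
end
end
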