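import Mathlib
import Vale.Agent.P060.Bd3.B1
import Vale.Agent.P060.Bd3.B5
import Vale.Agent.P060.Bd3.B2
import Vale.Agent.P060.Bd3.B6
import Vale.Agent.P060.Bd3.B4
import Vale.Agent.P060.Bd3.B3

set_option linter.all false

section

/-!
# Assembly, last layer: choice of the constants and of a good design
-/

open scoped Classical

noncomputable section

set_option linter.unusedSectionVars false

namespace Vale.Agent.P060.HW

namespace ConstN

variable {N d : ℕ} {E P Om : Type} [Fintype E] [Fintype P] [Fintype Om] [NeZero N]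

lemma sizes_mono {fr : Frame N d E Om} {D₀ : ℕ} {θ θ' C C' : ℝ} (hθ : θ ≤ θ') (hC : C' ≤ C)
    (h : Sizes fr P D₀ θ C) : Sizes fr P D₀ θ' C' := by
  have hlog : 0 ≤ Real.log (Fintype.card P : ℝ) := by
    rcases Nat.eq_zero_or_pos (Fintype.card P) with h0 | h0
    · rw [h0]; simp
    · exact Real.log_nonneg (by exact_mod_cast h0)
  refine ⟨h.hN, h.hN', h.hd, h.hOm.trans ?_, fun w => (h.hA w).trans ?_, le_trans ?_ h.hq, h.hγ⟩
  · exact mul_le_mul_of_nonneg_right hθ (Nat.cast_nonneg _)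
  · exact mul_le_mul_of_nonneg_right hθ (Nat.cast_nonneg _)
  · exact mul_le_mul_of_nonneg_right hC hlog

lemma card_rowLines_le (fr : Frame N d E Om) (w : Om) : (rowLines fr w).card
    ≤ 3 * (Finset.univ.filter fun c : Ty N d => w ∈ fr.U c).card := by
  unfold rowLines
  refine Finset.card_biUnion_le.trans ?_
  have h3 : ∀ c : Ty N d, (lins c).card ≤ 3 := by
    intro c
    unfold lins
    refine Finset.card_image_le.trans ?_
    simp
  calc ∑ c ∈ Finset.univ.filter (fun c : Ty N d => w ∈ fr.U c), (lins c).card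
      ≤ ∑ _c ∈ Finset.univ.filter (fun c : Ty N d => w ∈ fr.U c), 3 :=
        Finset.sum_le_sum fun c _ => h3 c
    _ = 3 * (Finset.univ.filter fun c : Ty N d => w ∈ fr.U c).card := by
        rw [Finset.sum_const, smul_eq_mul, mul_comm]

lemma row_bound {fr : Frame N d E Om} {D₀ : ℕ} {θ C : ℝ} (hS : Sizes fr P D₀ θ C)
    (hθ : θ ≤ 1 / ((D₀ : ℝ) + 20) ^ 2) (hk : 7 * (D₀ + 20) ^ 2 ≤ Fintype.card P) (w : Om) :
    12 + (rowLines fr w).card ≤ 5 * Fintype.card P / (D₀ + 20) ^ 2 := by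
  have hDsq : 0 < (D₀ + 20) ^ 2 := by positivity
  rw [Nat.le_div_iff_mul_le hDsq]
  have r1 := card_rowLines_le fr w
  have r2 := hS.hA w
  set A := (Finset.univ.filter fun c : Ty N d => w ∈ fr.U c).card with hA
  have r3 : (A : ℝ) * ((D₀ : ℝ) + 20) ^ 2 ≤ Fintype.card P := by
    have h1 : θ * (Fintype.card P : ℝ) ≤ 1 / ((D₀ : ℝ) + 20) ^ 2 * Fintype.card P :=
      mul_le_mul_of_nonneg_right hθ (Nat.cast_nonneg _)
    have r4 := r2.trans h1
    have r5 : (0 : ℝ) < ((D₀ : ℝ) + 20) ^ 2 := by positivity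
    calc (A : ℝ) * ((D₀ : ℝ) + 20) ^ 2
        ≤ 1 / ((D₀ : ℝ) + 20) ^ 2 * Fintype.card P * ((D₀ : ℝ) + 20) ^ 2 :=
          mul_le_mul_of_nonneg_right r4 r5.le
      _ = Fintype.card P := by field_simp
  have r6 : A * (D₀ + 20) ^ 2 ≤ Fintype.card P := by
    exact_mod_cast r3
  nlinarith

instance dz_nonempty (fr : Frame N d E Om) : Nonempty (Dz fr P) := by
  refine ⟨⟨fun u j => match j with
    | Sum.inl (Sum.inl t) => if u.1 = 1 then fr.γ u.2 t else 0
    | _ => 0, ?_⟩⟩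
  intro s i t
  rfl

lemma exists_avoid {X : Type*} [Finite X] [Nonempty X] {A B C : Set X}
    (hA : 10 * Nat.card A ≤ Nat.card X) (hB : 100 * Nat.card B ≤ Nat.card X)
    (hC : 100 * Nat.card C ≤ Nat.card X) : ∃ x, x ∉ A ∧ x ∉ B ∧ x ∉ C := by
  by_contra hcon
  push Not at hcon
  have h1 : (Set.univ : Set X) ⊆ (A ∪ B) ∪ C := by
    intro x _
    by_cases ha : x ∈ A
    · exact Or.inl (Or.inl ha)
    · by_cases hb : x ∈ B
      · exact Or.inl (Or.inr hb)
      · exact Or.inr (hcon x ha hb)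
  have h2 : Nat.card X ≤ Nat.card A + Nat.card B + Nat.card C := by
    rw [Nat.card_coe_set_eq, Nat.card_coe_set_eq, Nat.card_coe_set_eq, ← Set.ncard_univ]
    refine (Set.ncard_le_ncard h1 (Set.toFinite _)).trans ?_
    refine (Set.ncard_union_le _ _).trans ?_
    exact Nat.add_le_add_right (Set.ncard_union_le _ _) _
  have h3 : 0 < Nat.card X := Nat.card_pos
  omega

/-- TVLS for a fixed design. -/
def TVLSAt (fr : Frame N d E Om) (p : Lin N → Co E P Om → F) (h : Ext fr p) (C ε : ℝ) : Prop :=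
  ∀ (a a' : Ty N d) (ι ι' : Bool), a ≠ a' →
    ∀ w, PLaw (dsg fr p h) a a' ι ι' (2521 ^ (C * Fintype.card P)) ((Fintype.card P : ℝ) ^ C) w →
    ∀ ρ, TCoup 8 ρ → ∑ β, (if ε < tdist (dsg fr p h) a a' w β then ρ β else 0) ≤ ε

/-- OUT-A for a fixed design. -/
def NotOutAAt (fr : Frame N d E Om) (p : Lin N → Co E P Om → F) (h : Ext fr p) (C I : ℝ) : Prop :=
  ¬ OutA (dsg fr p h).Adj C I

/-- The row classes are small and small sets of lines are independent. -/
def RowsAt (fr : Frame N d E Om) (p : Lin N → Co E P Om → F) (κ : ℕ) : Prop :=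
  12 ≤ κ ∧ (∀ w, 12 + (rowLines fr w).card ≤ κ) ∧ Ev1 p κ

/-- **The choice of the constants and of a good design.** -/
theorem exists_good (hF : FrameInst) (h1 : Ex1) (hC : ExC) (hT : TVLS) (hA : NotOutA)
    (c : ℕ) {εJ ε ε₂ : ℝ} (hεJ : 0 < εJ) (hε : 0 < ε) (hε₂ : 0 < ε₂) (C : ℝ)
    (hC1 : 1 ≤ C) (n0 n1 : ℕ) :
    ∃ (E₀ d N m k κ kk : ℕ) (_ : NeZero N) (fr : Frame N d (Fin E₀) (Fin m))
      (p : Lin N → Co (Fin E₀) (Fin k) (Fin m) → F) (h : Ext fr p),
      kk = Fintype.card (Co (Fin E₀) (Fin k) (Fin m)) ∧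
      n1 ≤ N ∧ 0 < d ∧ EvJ fr εJ ∧ EvC p d ε₂ ∧
      TVLSAt fr p h (15 * C + 1) ε ∧ RowsAt fr p κ ∧
      NotOutAAt fr p h C ((2521 : ℝ) ^ (2 * kk))⁻¹ ∧
      n0 ≤ 2521 ^ (5 * kk) ∧
      C / ((2521 ^ (5 * kk) : ℕ) : ℝ) ≤ ((2521 : ℝ) ^ (2 * kk))⁻¹ ∧
      ((N * d : ℕ) : ℝ) * Real.sqrt (C * (Real.log ((2521 ^ (5 * kk) : ℕ) : ℝ)) ^ 2 /
        ((2521 ^ (5 * kk) : ℕ) : ℝ)) ≤ 1 / 2000 ∧
      C * (Real.log ((2521 ^ (5 * kk) : ℕ) : ℝ)) ^ 2 / ((2521 ^ (5 * kk) : ℕ) : ℝ) <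
        ((2521 : ℝ) ^ (4 * kk + c))⁻¹ / 400 * (1 / (400 * (((2 * (N * d) : ℕ) : ℝ)) ^ 2)) ^ 2 ∧
      400 * (((2521 ^ (5 * kk) : ℕ) : ℝ)) ^ C ≤ (2521 : ℝ) ^ ((15 * C + 1) * (k : ℝ)) ∧
      1600 * (((2 * (N * d) : ℕ) : ℝ)) ≤ (k : ℝ) ^ (15 * C + 1) := by
  obtain ⟨E₀, hF⟩ := hF εJ hεJ
  obtain ⟨D₁, hT⟩ := hT (Fin E₀) (15 * C + 1) ε hε
  obtain ⟨D₂, hC⟩ := hC ε₂ hε₂
  obtain ⟨D₃, hA⟩ := hA C
  set D₀ : ℕ := max (max D₁ D₂) (max D₃ 1) with hD₀
  have hD01 : D₀ ≥ D₁ := le_trans (le_max_left _ _) (le_max_left _ _)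
  have hD02 : D₀ ≥ D₂ := le_trans (le_max_right _ _) (le_max_left _ _)
  have hD03 : D₀ ≥ D₃ := le_trans (le_max_left _ _) (le_max_right _ _)
  have hD04 : 1 ≤ D₀ := le_trans (le_max_right _ _) (le_max_right _ _)
  obtain ⟨d₁, hT⟩ := hT D₀ hD01
  set d : ℕ := max d₁ 1 with hd
  have hd1 : d ≥ d₁ := le_max_left _ _
  have hd0 : 0 < d := lt_of_lt_of_le one_pos (le_max_right _ _)
  obtain ⟨C₁, θ₁, hθ₁, k₁, hT⟩ := hT d hd1
  obtain ⟨θ₂, hθ₂, k₂, hC⟩ := hC D₀ hD02 d (Fin E₀) hd0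
  obtain ⟨θ₃, hθ₃, k₃, hA⟩ := hA D₀ hD03 d (Fin E₀) hd0
  obtain ⟨θ₄, hθ₄, k₄, h1⟩ := h1 D₀ d (Fin E₀)
  set θ₅ : ℝ := 1 / ((D₀ : ℝ) + 20) ^ 2 with hθ₅
  have hθ₅0 : 0 < θ₅ := by (clear * -; positivity)
  set θ : ℝ := min (min θ₁ θ₂) (min (min θ₃ θ₄) (min θ₅ 1)) with hθ
  have hθ0 : 0 < θ := lt_min (lt_min hθ₁ hθ₂) (lt_min (lt_min hθ₃ hθ₄) (lt_min hθ₅0 one_pos))
  have t1 : θ ≤ θ₁ := (min_le_left _ _).trans (min_le_left _ _)
  have t2 : θ ≤ θ₂ := (min_le_left _ _).trans (min_le_right _ _)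
  have t3 : θ ≤ θ₃ := (min_le_right _ _).trans ((min_le_left _ _).trans (min_le_left _ _))
  have t4 : θ ≤ θ₄ := (min_le_right _ _).trans ((min_le_left _ _).trans (min_le_right _ _))
  have t5 : θ ≤ θ₅ := (min_le_right _ _).trans ((min_le_right _ _).trans (min_le_left _ _))
  have t6 : θ ≤ 1 := (min_le_right _ _).trans ((min_le_right _ _).trans (min_le_right _ _))
  set C₂ : ℝ := max C₁ 0 with hC₂
  have c1 : C₁ ≤ C₂ := le_max_left _ _
  have c2 : 0 ≤ C₂ := le_max_right _ _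
  obtain ⟨k₅, hF⟩ := hF D₀ d hD04 θ hθ0 C₂
  obtain ⟨k₆, hN⟩ := numerics C hC1 n0 D₀ d c
  set k : ℕ := max (max (max k₁ k₂) (max k₃ k₄)) (max (max k₅ k₆)
    (max (max E₀ n1) (7 * (D₀ + 20) ^ 2))) with hk
  have q1 : k₁ ≤ k := by omega
  have q2 : k₂ ≤ k := by omega
  have q3 : k₃ ≤ k := by omega
  have q4 : k₄ ≤ k := by omega
  have q5 : k₅ ≤ k := by omega
  have q6 : k₆ ≤ k := by omega
  have q7 : E₀ ≤ k := by omega
  have q8 : n1 ≤ k := by omega
  have q9 : 7 * (D₀ + 20) ^ 2 ≤ k := by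
    rw [hk]
    exact (le_max_right _ _).trans ((le_max_right _ _).trans (le_max_right _ _))
  have hDsq : 0 < (D₀ + 20) ^ 2 := by (clear * -; positivity)
  have hk0 : 0 < k := by omega
  obtain ⟨N, m, hNZ, fr, hS, hJ⟩ := hF k q5
  have hcP : Fintype.card (Fin k) = k := Fintype.card_fin k
  have hS1 : Sizes fr (Fin k) D₀ θ₁ C₁ := sizes_mono t1 c1 hS
  have hS2 : Sizes fr (Fin k) D₀ θ₂ 0 := sizes_mono t2 c2 hS
  have hS3 : Sizes fr (Fin k) D₀ θ₃ 0 := sizes_mono t3 c2 hS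
  have hS4 : Sizes fr (Fin k) D₀ θ₄ 0 := sizes_mono t4 c2 hS
  obtain ⟨G, hG, hT⟩ := hT N (Fin k) (Fin m) fr (by rw [hcP]; exact q1) hS1
  have hC' := hC N (Fin k) (Fin m) fr (by rw [hcP]; exact q2) hS2
  have h1' := h1 N (Fin k) (Fin m) fr (by rw [hcP]; exact q4) hS4
  obtain ⟨p, hp1, hp2, hp3⟩ := exists_avoid hG h1' hC'
  have hpG : p ∈ G := by
    by_contra h
    exact hp1 h
  have hpC : EvC p.1 d ε₂ := by
    by_contra h
    exact hp3 h
  have hp1 : ∀ κ : ℕ, κ ≤ 20 * Fintype.card (Fin k) / (D₀ + 20) ^ 2 → Ev1 p.1 κ := by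
    by_contra h
    exact hp2 h
  -- the row lines
  have hrow := row_bound hS t5 (by rw [hcP]; exact q9)
  have hrow' : ∀ w, 12 + (rowLines fr w).card ≤ 20 * Fintype.card (Fin k) / (D₀ + 20) ^ 2 :=
    fun w => (hrow w).trans (Nat.div_le_div_right (by omega))
  have h12 : 12 ≤ 20 * Fintype.card (Fin k) / (D₀ + 20) ^ 2 := by
    rw [hcP, Nat.le_div_iff_mul_le hDsq]
    omega
  have hOut := hA N (Fin k) (Fin m) fr p.1 p.2 (by rw [hcP]; exact q3) hS3 hp1 hrow
  have hNk : D₀ * k ≤ N := by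
    have := hS.hN
    rwa [hcP] at this
  have hNk' : N ≤ 2 * D₀ * k := by
    have := hS.hN'
    rwa [hcP] at this
  have hNk1 : k ≤ N := le_trans (Nat.le_mul_of_pos_left k hD04) hNk
  have hOmk : (m : ℝ) ≤ k := by
    have := hS.hOm
    rw [hcP, Fintype.card_fin] at this
    refine this.trans ?_
    have : θ * (k : ℝ) ≤ 1 * k := mul_le_mul_of_nonneg_right t6 (Nat.cast_nonneg _)
    linarith only [this]
  have hOmk' : m ≤ k := by exact_mod_cast hOmk
  have hK : Fintype.card (Co (Fin E₀) (Fin k) (Fin m)) = E₀ + k + m := by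
    rw [Fintype.card_sum, Fintype.card_sum, Fintype.card_fin, Fintype.card_fin, Fintype.card_fin]
  obtain ⟨kk, hkk⟩ : ∃ kk, kk = Fintype.card (Co (Fin E₀) (Fin k) (Fin m)) := ⟨_, rfl⟩
  have hN' := hN k q6 kk (by rw [hkk, hK]; omega)
    (by rw [hkk, hK]; omega) (N * d) (Nat.mul_le_mul_right d hNk')
    (Nat.mul_pos (lt_of_lt_of_le hk0 hNk1) hd0)
  refine ⟨E₀, d, N, m, k, _, kk, hNZ, fr, p.1, p.2, hkk, q8.trans hNk1, hd0, hJ, hpC,
    hT p hpG, ⟨h12, hrow', hp1 _ le_rfl⟩, ?_, hN'.1, hN'.2⟩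
  rw [← hkk] at hOut
  exact hOut

end ConstN

end Vale.Agent.P060.HW
end
end

section

/-!
# Assembly, last layer: the final theorem from the structural statements
-/

open scoped Classical

noncomputable section

set_option linter.unusedSectionVars false

namespace Vale.Agent.P060.HW

open ConstN

lemma outA_inst {X : Type*} (i₁ i₂ : Fintype X) {Adj : X → X → Prop} {K I : ℝ}
    (h : @OutA X i₁ Adj K I) : @OutA X i₂ Adj K I := by
  rw [Subsingleton.elim i₂ i₁]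
  exact h

/-- From a design to a host. -/
theorem host_of {K T : Type} [Fintype K] [Fintype T] [Nonempty T] (δ : Design K T)
    {C I Λ κ J : ℝ} (hA : ∀ inst : Fintype (Design.Vtx K T), ¬ @OutA _ inst δ.Adj C I)
    (hcut : δ.CutIneq (1 / 10 + 1 / 2000)) (hκ : 0 < κ) (hov : δ.OverlapEst Λ (1 / 2000) κ)
    (hIε : Fintype.card T * Real.sqrt J ≤ 1 / 2000)
    (hI : J < κ / 400 * (1 / (400 * (Fintype.card (Design.Lb T) : ℝ) ^ 2)) ^ 2) :
    ∃ (X : Type) (_ : Fintype X) (_ : Nonempty X)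
      (Adj : X → X → Prop), (∀ x y, Adj x y → Adj y x) ∧
      (∀ x y z, Adj x y → Adj y z → Adj x z → False) ∧ ¬ OutA Adj C I ∧
      ¬ OutC Adj Λ (1 / 2000) J :=
  ⟨Design.Vtx K T, inferInstance, ⟨(Classical.arbitrary _, true, 0)⟩, δ.Adj, δ.adj_symm,
    δ.triangle_free, hA _, δ.not_outC le_rfl hcut hκ hov hIε hI⟩

section

variable {N d : ℕ} {E P Om : Type} [Fintype E] [Fintype P] [Fintype Om] [NeZero N]

/-- A good design gives a good host. -/
theorem host_of_good {C ε₀ : ℝ} {c kk n : ℕ} (fr : Frame N d E Om)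
    (p : Lin N → Co E P Om → F) (h : Ext fr p)
    (hov : ∀ (Λ Λ' M' ε : ℝ), 400 * Λ ≤ Λ' → 3200 * ((N : ℝ) * d) ≤ M' →
      (∀ (a a' : Ty N d) (ι ι' : Bool), a ≠ a' → ∀ w, PLaw (dsg fr p h) a a' ι ι' Λ' M' w →
        ∀ ρ, TCoup 8 ρ → ∑ β, (if ε₀ < tdist (dsg fr p h) a a' w β then ρ β else 0) ≤ ε₀) →
      (dsg fr p h).OverlapEst Λ ε ((2521 : ℝ) ^ (4 * Fintype.card (Co E P Om) + c))⁻¹)
    (hkk : kk = Fintype.card (Co E P Om)) (hd : 0 < d)
    (hC : EvC p d (1 / 2000)) (hT : TVLSAt fr p h (15 * C + 1) ε₀)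
    (hA : NotOutAAt fr p h C ((2521 : ℝ) ^ (2 * kk))⁻¹)
    (g1 : C / (n : ℝ) ≤ ((2521 : ℝ) ^ (2 * kk))⁻¹)
    (g2 : ((N * d : ℕ) : ℝ) * Real.sqrt (C * (Real.log n) ^ 2 / n) ≤ 1 / 2000)
    (g3 : C * (Real.log n) ^ 2 / n <
        ((2521 : ℝ) ^ (4 * kk + c))⁻¹ / 400 * (1 / (400 * (((2 * (N * d) : ℕ) : ℝ)) ^ 2)) ^ 2)
    (g4 : 400 * (n : ℝ) ^ C ≤ (2521 : ℝ) ^ ((15 * C + 1) * (Fintype.card P : ℝ)))
    (g5 : 1600 * (((2 * (N * d) : ℕ) : ℝ)) ≤ (Fintype.card P : ℝ) ^ (15 * C + 1)) :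
    ∃ (X : Type) (_ : Fintype X) (_ : Nonempty X)
      (Adj : X → X → Prop), (∀ x y, Adj x y → Adj y x) ∧
      (∀ x y z, Adj x y → Adj y z → Adj x z → False) ∧ ¬ OutA Adj C (C / n) ∧
      ¬ OutC Adj ((n : ℝ) ^ C) (1 / 2000) (C * (Real.log n) ^ 2 / n) := by
  have hne : Nonempty (Ty N d) := ⟨((0 : ZMod N), (⟨0, hd⟩ : Fin d))⟩
  have hcT : Fintype.card (Ty N d) = N * d := by
    rw [Fintype.card_prod, ZMod.card, Fintype.card_fin]
  have hκ : (0 : ℝ) < ((2521 : ℝ) ^ (4 * Fintype.card (Co E P Om) + c))⁻¹ := by positivity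
  refine host_of (dsg fr p h)
    (fun inst hout => hA (outA_inst inst _ (@outA_mono _ inst _ _ _ _ _ le_rfl g1 hout)))
    (cutIneq_of h hC) hκ ?_ ?_ ?_
  · refine hov _ _ _ _ g4 ?_ hT
    refine le_trans (le_of_eq ?_) g5
    push_cast
    ring
  · rw [hcT]
    exact g2
  · rw [show Fintype.card (Design.Lb (Ty N d)) = 2 * (N * d) by
      rw [Fintype.card_prod, hcT, Fintype.card_bool, mul_comm], ← hkk]
    exact g3

end

/-- **Disproof of Hadwiger's conjecture for graphs with independence number two from the structural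
statements on the design.** -/
theorem disproof_of (hF : FrameInst) (h1 : Ex1) (hC : ExC) (hT : TVLS) (hO : Overlap)
    (hA : NotOutA) : ∃ n : ℕ, ∃ G : SimpleGraph (Fin n), G.indepNum ≤ 2 ∧
      (hadwigerNumber G : ℕ∞) < G.chromaticNumber := by
  refine not_hadwiger_of (ε := 1 / 2000) (by norm_num) fun C' n0 => ?_
  obtain ⟨c, ε₁, hε₁, hov⟩ := overlapEst_of hO
  set C : ℝ := max C' 1 with hCdef
  have hC1 : 1 ≤ C := le_max_right _ _
  have hCC : C' ≤ C := le_max_left _ _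
  set ε₀ : ℝ := min ε₁ (1 / 1000) with hε₀
  have hε₀0 : 0 < ε₀ := lt_min hε₁ (by norm_num)
  obtain ⟨E₀, d, N, m, k, κ, kk, hNZ, fr, p, h, hkk, hN, hd, hJ, hEvC, htv, hrows, hnA, hn0, g1,
    g2, g3, g4, g5⟩ := exists_good hF h1 hC hT hA c (εJ := 1 / 64000) (ε := ε₀) (ε₂ := 1 / 2000)
      (by norm_num) hε₀0 (by norm_num) C hC1 n0 192000
  have hN0 : (0 : ℝ) < N := by exact_mod_cast Nat.pos_of_ne_zero (NeZero.ne N)
  have hnum : 2 * ε₀ + 192 / (N : ℝ) + 64 * (1 / 64000 : ℝ) ≤ 1 / 100 := by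
    have e1 : ε₀ ≤ 1 / 1000 := min_le_right _ _
    have e2 : 192 / (N : ℝ) ≤ 1 / 1000 := by
      rw [div_le_iff₀ hN0]
      have : (192000 : ℝ) ≤ N := by exact_mod_cast hN
      linarith only [this]
    linarith only [hε₀0, e1, e2]
  obtain ⟨X, hX1, hX2, Adj, a1, a2, a3, a4⟩ := host_of_good (n := 2521 ^ (5 * kk)) fr p h
    (fun Λ Λ' M' ε e1 e2 e3 => hov N d (Fin E₀) (Fin k) (Fin m) fr p h κ Λ Λ' M' ε ε₀
      (1 / 64000) hrows.1 hrows.2.1 hrows.2.2 hd hJ hε₀0.le (min_le_left _ _) hnum e1 e2 e3)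
    hkk hd hEvC htv hnA g1 g2 g3 (by rw [Fintype.card_fin]; exact g4)
    (by rw [Fintype.card_fin]; exact g5)
  refine ⟨2521 ^ (5 * kk), hn0, X, hX1, hX2, Adj, a1, a2, ?_, ?_⟩
  · intro hout
    refine a3 (outA_mono hCC ?_ hout)
    exact div_le_div_of_nonneg_right hCC (Nat.cast_nonneg _)
  · intro hout
    refine a4 (outC_mono ?_ le_rfl ?_ hout)
    · apply Real.rpow_le_rpow_of_exponent_le _ hCC
      have : 1 ≤ 2521 ^ (5 * kk) := Nat.one_le_pow _ _ (by norm_num)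
      exact_mod_cast this
    · apply div_le_div_of_nonneg_right _ (Nat.cast_nonneg _)
      exact mul_le_mul_of_nonneg_right hCC (sq_nonneg _)

end Vale.Agent.P060.HW
end
end

section

/-!
# P060/HW: the TV theorem from its three parts
-/

open scoped Classical

noncomputable section

set_option linter.unusedSectionVars false

namespace Vale.Agent.P060.HW

open Module

namespace TVMain

variable {N d : ℕ} {E P Om : Type} [Fintype E] [Fintype P] [Fintype Om] [NeZero N]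

lemma card_rowLines_le (fr : Frame N d E Om) (w : Om) :
    (rowLines fr w).card ≤ 3 * (Finset.univ.filter fun c : Ty N d => w ∈ fr.U c).card := by
  unfold rowLines
  refine Finset.card_biUnion_le.trans ?_
  rw [mul_comm]
  refine Finset.sum_le_card_nsmul _ _ 3 fun c _ => ?_
  unfold lins
  refine Finset.card_image_le.trans ?_
  simp

lemma rowLines_small {fr : Frame N d E Om} {D₀ : ℕ} {θ C : ℝ} (hS : Sizes fr P D₀ θ C)
    (hθ : θ * (6 * ((D₀ : ℝ) + 20) ^ 2) ≤ 1) (hk : 60 * (D₀ + 20) ^ 2 ≤ Fintype.card P) (w : Om) :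
    30 + (rowLines fr w).card ≤ Fintype.card P / (D₀ + 20) ^ 2 := by
  rw [Nat.le_div_iff_mul_le (by positivity)]
  have h1 : ((rowLines fr w).card : ℝ)
      ≤ 3 * ((Finset.univ.filter fun c : Ty N d => w ∈ fr.U c).card : ℝ) := by
    exact_mod_cast card_rowLines_le fr w
  have h2 := hS.hA w
  have h3 : (60 : ℝ) * ((D₀ : ℝ) + 20) ^ 2 ≤ Fintype.card P := by exact_mod_cast hk
  have h4 : (0 : ℝ) ≤ Fintype.card P := Nat.cast_nonneg _
  have h5 : ((30 + (rowLines fr w).card : ℕ) : ℝ) * ((D₀ : ℝ) + 20) ^ 2 ≤ Fintype.card P := by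
    push_cast
    have h6 : ((rowLines fr w).card : ℝ) ≤ 3 * (θ * Fintype.card P) := by linarith only [h2, h1]
    have h7 : ((rowLines fr w).card : ℝ) * ((D₀ : ℝ) + 20) ^ 2
        ≤ 3 * (θ * Fintype.card P) * ((D₀ : ℝ) + 20) ^ 2 :=
      mul_le_mul_of_nonneg_right h6 (by positivity)
    have h8 : 3 * (θ * Fintype.card P) * ((D₀ : ℝ) + 20) ^ 2
        = (θ * (6 * ((D₀ : ℝ) + 20) ^ 2)) * Fintype.card P / 2 := by ring
    have h9 : (θ * (6 * ((D₀ : ℝ) + 20) ^ 2)) * Fintype.card P ≤ 1 * Fintype.card P :=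
      mul_le_mul_of_nonneg_right hθ h4
    linarith only [h9, h7, h3]
  exact_mod_cast h5

end TVMain

/-- The TV theorem from its parts. -/
theorem tv_of (hK2 : TvK2) (hSel : TvSel) (hLoc : TvLoc) (hE1 : Ex1) : TV := by
  intro ψ hψ E _ C ε hε
  obtain ⟨ε₁, hε₁, sel⟩ := hSel ε hε
  obtain ⟨lam, hlam, D₁, k2⟩ := hK2 C ε₁ hε₁
  obtain ⟨d₀, hd₀, η, hη, loc⟩ := hLoc ψ hψ ε lam hε hlam
  refine ⟨η, hη, max D₁ 1, fun D₀ hD₀ => ?_⟩
  obtain ⟨d₁, sel⟩ := sel C lam d₀ hlam hd₀ D₀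
    (lt_of_lt_of_le Nat.one_pos ((le_max_right _ _).trans hD₀))
  refine ⟨d₁, fun d hd => ⟨0, ?_⟩⟩
  obtain ⟨θ₁, hθ₁, k₁, sel⟩ := sel d hd E
  obtain ⟨θ₂, hθ₂, k₂, k2⟩ := k2 D₀ ((le_max_left _ _).trans hD₀) d E
  obtain ⟨θ₃, hθ₃, k₃, e1⟩ := hE1 D₀ d E
  have hpos : (0 : ℝ) < 6 * ((D₀ : ℝ) + 20) ^ 2 := by (clear * -; positivity)
  refine ⟨min (min θ₁ θ₂) (min θ₃ (1 / (6 * ((D₀ : ℝ) + 20) ^ 2))),
    lt_min (lt_min hθ₁ hθ₂) (lt_min hθ₃ (by (clear * -; positivity))),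
    max (max k₁ k₂) (max k₃ (60 * (D₀ + 20) ^ 2)), ?_⟩
  intro N P Om _ _ _ fr hk hS
  have hk1 : k₁ ≤ Fintype.card P := ((le_max_left _ _).trans (le_max_left _ _)).trans hk
  have hk2 : k₂ ≤ Fintype.card P := ((le_max_right _ _).trans (le_max_left _ _)).trans hk
  have hk3 : k₃ ≤ Fintype.card P := ((le_max_left _ _).trans (le_max_right _ _)).trans hk
  have hk4 : 60 * (D₀ + 20) ^ 2 ≤ Fintype.card P :=
    ((le_max_right _ _).trans (le_max_right _ _)).trans hk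
  have hS1 : Sizes fr P D₀ θ₁ 0 := hS.mono ((min_le_left _ _).trans (min_le_left _ _)) le_rfl
  have hS2 : Sizes fr P D₀ θ₂ 0 := hS.mono ((min_le_left _ _).trans (min_le_right _ _)) le_rfl
  have hS3 : Sizes fr P D₀ θ₃ 0 := hS.mono ((min_le_right _ _).trans (min_le_left _ _)) le_rfl
  have hS4 : Sizes fr P D₀ (1 / (6 * ((D₀ : ℝ) + 20) ^ 2)) 0 :=
    hS.mono ((min_le_right _ _).trans (min_le_right _ _)) le_rfl
  obtain ⟨G₂, hG₂, k2⟩ := k2 N P Om fr hk2 hS2
  have hR := e1 N P Om fr hk3 hS3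
  set G₁ : Set (Dz fr P) :=
    {p | ∀ κ : ℕ, κ ≤ 20 * Fintype.card P / (D₀ + 20) ^ 2 → Ev1 p.1 κ} with hG₁
  have hG₁' : G₁ᶜ = {p : Dz fr P | ¬ ∀ κ : ℕ, κ ≤ 20 * Fintype.card P / (D₀ + 20) ^ 2 →
      Ev1 p.1 κ} := rfl
  refine ⟨G₁ ∩ G₂, ?_, ?_⟩
  · have h1 : Nat.card ((G₁ ∩ G₂)ᶜ : Set (Dz fr P)) ≤ Nat.card (G₁ᶜ : Set (Dz fr P))
        + Nat.card (G₂ᶜ : Set (Dz fr P)) := by
      rw [Set.compl_inter, Nat.card_coe_set_eq, Nat.card_coe_set_eq, Nat.card_coe_set_eq]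
      exact Set.ncard_union_le _ _
    have h2 : 100 * Nat.card (G₁ᶜ : Set (Dz fr P)) ≤ Nat.card (Dz fr P) := by
      rw [hG₁']
      exact hR
    omega
  · intro p hp a a' ι ι' haa w hw ρ hρ
    have h1 := sel N P Om fr p.1 p.2 hk1 hS1 hp.1 a a' ι ι' haa _ w hw ρ hρ
      (fun A hA hA' => k2 p hp.2 a a' ι ι' haa _ w hw ρ hρ A hA hA')
    refine le_trans (Finset.sum_le_sum fun β _ => ?_) h1
    have h0 := hρ.nonneg β
    by_cases hb : GoodB hw D₀ lam d₀ β
    · rw [if_neg (not_not.2 hb), if_neg]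
      rintro ⟨ha, ha'⟩
      rcases loc D₀ N d E P Om fr p.1 p.2 hp.1
        ((Nat.le_div_iff_mul_le (by positivity)).2 (by omega))
        (fun u => TVMain.rowLines_small hS4 (by
          rw [one_div, inv_mul_cancel₀ hpos.ne']) hk4 u)
        a a' ι ι' haa _ _ w hw β hb with h | h
      · exact absurd ha (not_lt.2 h)
      · exact ha' h
    · rw [if_pos hb]
      split_ifs
      · exact le_rfl
      · exact h0

end Vale.Agent.P060.HW
end
end

section

/-!
# The block OVERLAP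
-/

open scoped Classical

noncomputable section

set_option linter.unusedSectionVars false

namespace Vale.Agent.P060.HW

open Finset Module

/-- Prescribed products with independent vectors. -/
lemma exists_dot {ι P : Type*} [Fintype ι] [Fintype P] {v : ι → P → F}
    (hv : LinearIndependent F v) (t : ι → F) : ∃ z : P → F, ∀ i, v i ⬝ᵥ z = t i := by
  let Φ : (P → F) →ₗ[F] (ι → F) :=
    { toFun := fun z i => v i ⬝ᵥ z
      map_add' := fun a b => by ext i; simp [dotProduct_add]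
      map_smul' := fun c a => by ext i; simp [dotProduct_smul] }
  have htop : LinearMap.range Φ = ⊤ := by
    by_contra hne
    obtain ⟨f, hf, hle⟩ := Submodule.exists_le_ker_of_lt_top _ (lt_top_iff_ne_top.2 hne)
    apply hf
    have h1 : ∀ x : ι → F, f x = ∑ i, x i * f (Pi.single i 1) := by
      intro x
      conv_lhs => rw [← Finset.univ_sum_single x]
      rw [map_sum]
      refine Finset.sum_congr rfl fun i _ => ?_
      have : (Pi.single i (x i) : ι → F) = x i • Pi.single i (1 : F) := by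
        ext j
        simp [Pi.single_apply]
      rw [this, map_smul, smul_eq_mul]
    have h2 : ∑ i, f (Pi.single i 1) • v i = 0 := by
      funext j
      have h3 : f (Φ (Pi.single j 1)) = 0 := hle ⟨_, rfl⟩
      rw [h1] at h3
      rw [Finset.sum_apply, Pi.zero_apply, ← h3]
      refine Finset.sum_congr rfl fun i _ => ?_
      change f (Pi.single i 1) * v i j = v i ⬝ᵥ Pi.single j 1 * _
      rw [dotProduct_single, mul_one, mul_comm]
    have h4 := Fintype.linearIndependent_iff.1 hv _ h2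
    ext i
    simpa using h4 i
  obtain ⟨z, hz⟩ : t ∈ LinearMap.range Φ := htop ▸ Submodule.mem_top
  exact ⟨z, fun i => congrFun hz i⟩

variable {N d : ℕ} {E P Om : Type} [Fintype E] [Fintype P] [Fintype Om] [NeZero N]

lemma lin_inj (c : Ty N d) : Function.Injective (lin c) := fun s s' h => congrArg Prod.fst h

/-- The independence of the four type vectors in a frame. -/
lemma ind4_dsg (fr : Frame N d E Om) (p : Lin N → Co E P Om → F) (h : Ext fr p) (κ : ℕ)
    (hE : Ev1 p κ) (h12 : 12 ≤ κ) {a a' b b' : Ty N d} (hbb : b ≠ b')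
    (hd : Disjoint (lins2 (a, a')) (lins2 (b, b'))) :
    (dsg fr p h).Ind4 a a' b b' := by
  intro s s'
  obtain ⟨s0, -, -, hs0, -⟩ := br_two_lines fr hbb
  obtain ⟨s1, -, -, hs1, -⟩ := br_two_lines fr hbb.symm
  set S : Finset (Lin N) := lins2 (a, a') ∪ lins2 (b, b') with hS
  have hcard : S.card ≤ κ := by
    have e1 := br_card_lins a
    have e2 := br_card_lins a'
    have e3 := br_card_lins b
    have e4 := br_card_lins b'
    have e5 := Finset.card_union_le (lins a) (lins a')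
    have e6 := Finset.card_union_le (lins b) (lins b')
    have e7 : S.card ≤ (lins a ∪ lins a').card + (lins b ∪ lins b').card :=
      Finset.card_union_le (lins2 (a, a')) (lins2 (b, b'))
    omega
  obtain ⟨z, hz⟩ := exists_dot (hE S hcard) fun u : S =>
    (if (u : Lin N) = lin b s0 then s else 0) + (if (u : Lin N) = lin b' s1 then s' else 0)
  have mlin : ∀ (c : Ty N d) (i : Fin 3), lin c i ∈ lins c := fun c i => an_mem_lins.2 ⟨i, rfl⟩
  set zz : Co E P Om → F := fun j => match j with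
    | Sum.inl (Sum.inl _) => 0
    | Sum.inl (Sum.inr i) => z i
    | Sum.inr _ => 0 with hzz
  have hdot : ∀ v : Co E P Om → F, v ⬝ᵥ zz = (fun j : P => v (Sum.inl (Sum.inr j))) ⬝ᵥ z := by
    intro v
    unfold dotProduct
    rw [Fintype.sum_sum_type, Fintype.sum_sum_type]
    simp [hzz]
  have hline : ∀ u ∈ S, p u ⬝ᵥ zz = (if u = lin b s0 then s else 0) +
      (if u = lin b' s1 then s' else 0) := by
    intro u hu
    rw [hdot]
    exact hz ⟨u, hu⟩
  have hg : ∀ c : Ty N d, lins c ⊆ S → gv p c ⬝ᵥ zz =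
      ∑ i, ((if lin c i = lin b s0 then s else 0) + (if lin c i = lin b' s1 then s' else 0)) := by
    intro c hc
    unfold gv
    rw [sum_dotProduct]
    exact Finset.sum_congr rfl fun i _ => hline _ (hc (mlin c i))
  have ha : lins a ⊆ S := fun u hu => Finset.mem_union_left _ (Finset.mem_union_left _ hu)
  have ha' : lins a' ⊆ S := fun u hu => Finset.mem_union_left _ (Finset.mem_union_right _ hu)
  have hb : lins b ⊆ S := fun u hu => Finset.mem_union_right _ (Finset.mem_union_left _ hu)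
  have hb' : lins b' ⊆ S := fun u hu => Finset.mem_union_right _ (Finset.mem_union_right _ hu)
  have hzero : ∀ c : Ty N d, lins c ⊆ lins2 (a, a') → lins c ⊆ S → gv p c ⬝ᵥ zz = 0 := by
    intro c hc hcS
    rw [hg c hcS]
    refine Finset.sum_eq_zero fun i _ => ?_
    rw [if_neg, if_neg, add_zero]
    · intro e
      exact Finset.disjoint_left.1 hd (hc (mlin c i))
        (e ▸ Finset.mem_union_right _ (mlin b' s1))
    · intro e
      exact Finset.disjoint_left.1 hd (hc (mlin c i))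
        (e ▸ Finset.mem_union_left _ (mlin b s0))
  refine ⟨zz, ?_, hzero a Finset.subset_union_left ha, hzero a' Finset.subset_union_right ha',
    ?_, ?_⟩
  · intro c w hw
    obtain ⟨u, -, rfl⟩ := Finset.mem_image.1 hw
    rfl
  · change gv p b ⬝ᵥ zz = s
    rw [hg b hb, Finset.sum_add_distrib]
    have e1 : ∑ i, (if lin b i = lin b s0 then s else 0) = s := by
      rw [Finset.sum_eq_single s0]
      · rw [if_pos rfl]
      · intro i _ hi
        rw [if_neg fun e => hi (lin_inj b e)]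
      · intro h'
        exact absurd (Finset.mem_univ _) h'
    have e2 : ∑ i, (if lin b i = lin b' s1 then s' else 0) = 0 := by
      refine Finset.sum_eq_zero fun i _ => ?_
      rw [if_neg]
      intro e
      exact hs1 (e ▸ mlin b i)
    rw [e1, e2, add_zero]
  · change gv p b' ⬝ᵥ zz = s'
    rw [hg b' hb', Finset.sum_add_distrib]
    have e1 : ∑ i, (if lin b' i = lin b s0 then s else 0) = 0 := by
      refine Finset.sum_eq_zero fun i _ => ?_
      rw [if_neg]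
      intro e
      exact hs0 (e ▸ mlin b' i)
    have e2 : ∑ i, (if lin b' i = lin b' s1 then s' else 0) = s' := by
      rw [Finset.sum_eq_single s1]
      · rw [if_pos rfl]
      · intro i _ hi
        rw [if_neg fun e => hi (lin_inj b' e)]
      · intro h'
        exact absurd (Finset.mem_univ _) h'
    rw [e1, e2, zero_add]

/-- The explicit subspace is contained in `Zab`. -/
lemma Z4_le_Zab (fr : Frame N d E Om) (p : Lin N → Co E P Om → F) (h : Ext fr p) (κ : ℕ)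
    (hE : Ev1 p κ) (h12 : 12 ≤ κ) (hκ : ∀ w, 12 + (rowLines fr w).card ≤ κ)
    {a a' b b' : Ty N d} (hbb : b ≠ b') (hd : Disjoint (lins2 (a, a')) (lins2 (b, b'))) :
    (dsg fr p h).Z4 a a' b b' ≤ (dsg fr p h).Zab a a' b b' := by
  intro m hm
  rw [Design.mem_Z4, Design.mem_W4] at hm
  obtain ⟨⟨h0, h1, h2, h3⟩, k1, k2, k3, k4⟩ := hm
  intro z hz
  have hkey := trivPsi_kills fr p h κ hE (by omega) (fun w => by have := hκ w; omega)
    ![a, a'] ![b, b'] hbb (fun i => ?_) z hz ![![m 0, m 1], ![m 2, m 3]] ?_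
  · rw [Fin.sum_univ_four]
    exact hkey
  · rw [disjoint_comm] at hd
    refine Finset.disjoint_of_subset_right ?_ hd
    fin_cases i
    · exact Finset.subset_union_left
    · exact Finset.subset_union_right
  · refine ⟨fun i j w hw => ?_, fun i i' j => ?_, fun i => ?_⟩
    · fin_cases i <;> fin_cases j
      · exact h0 w hw
      · exact h1 w hw
      · exact h2 w hw
      · exact h3 w hw
    · fin_cases i' <;> fin_cases i <;> fin_cases j
      · exact k1 0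
      · exact k1 1
      · exact k1 2
      · exact k1 3
      · exact k2 0
      · exact k2 1
      · exact k2 2
      · exact k2 3
    · fin_cases i
      · exact k3.symm
      · exact k4.symm

lemma JO_dsg (fr : Frame N d E Om) (p : Lin N → Co E P Om → F) (h : Ext fr p) {a b : Ty N d}
    (hab : JointOnto fr a b) : (dsg fr p h).JO a b := by
  intro u hu v hv
  obtain ⟨t, h1, h2⟩ := hab u hu v hv
  refine ⟨Sum.inl (Sum.inl t), Finset.mem_image_of_mem _ (Finset.mem_univ _), ?_, ?_⟩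
  · change gv p a _ = u
    rw [gv_E h, h1]
  · change gv p b _ = v
    rw [gv_E h, h2]

lemma JointOnto.symm {fr : Frame N d E Om} {a b : Ty N d} (h : JointOnto fr a b) :
    JointOnto fr b a := by
  intro u hu v hv
  obtain ⟨t, h1, h2⟩ := h v hv u hu
  exact ⟨t, h2, h1⟩

/-- Sums do not depend on the finiteness instance. -/
private lemma ovb_sum_inst {α : Type*} (i₁ i₂ : Fintype α) (f : α → ℝ) :
    @Finset.sum α ℝ _ (@Finset.univ α i₁) f = @Finset.sum α ℝ _ (@Finset.univ α i₂) f := by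
  rw [Subsingleton.elim i₁ i₂]

/-- **The block OVERLAP.** -/
theorem overlap : Overlap := by
  refine ⟨2, 1 / (1280000 * 2521 ^ 14), by positivity, ?_⟩
  intro N d E P Om _ _ _ _ fr p h κ h12 hκ hE a a' b b' haa hbb hd j1 j2 j3 j4 ι₁ ι₁' ι₂ ι₂' Λ M
    w w' hw hw' ht ht' hu hu'
  have key := (dsg fr p h).overlap4 (s := 1 / 400) (s' := 1 / 400)
    (ind4_dsg fr p h κ hE h12 hbb hd)
    (JO_dsg fr p h j4) (JO_dsg fr p h j3) (JO_dsg fr p h j2) (JO_dsg fr p h j1)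
    (Z4_le_Zab fr p h κ hE h12 hκ hbb hd) (Z4_le_Zab fr p h κ hE h12 hκ haa hd.symm)
    hw hw' ht ht' (by norm_num) (hu.trans (le_of_eq (ovb_sum_inst _ _ _)))
    (hu'.trans (le_of_eq (ovb_sum_inst _ _ _)))
  refine le_trans ?_ (key.trans_eq ((ovb_sum_inst _ _ _).trans
    (Finset.sum_congr rfl fun m _ => ovb_sum_inst _ _ _)))
  have e1 : (1 / 400 : ℝ) * (1 / 400) / 4 - 2521 ^ 14 * (1 / (1280000 * 2521 ^ 14)) =
      1 / 1280000 := by norm_num
  rw [e1, pow_add, mul_inv, div_eq_mul_inv, mul_comm]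
  refine mul_le_mul_of_nonneg_right ?_ (by positivity)
  norm_num

end Vale.Agent.P060.HW
end
end

section

/-!
# Assembly: the final theorem from the blocks which are still open
-/

noncomputable section

namespace Vale.Agent.P060.HW

/-- The final theorem from the open blocks. -/
theorem disproof_of_open (hK2 : TvK2) (hSel : TvSel) (hLoc : TvLoc) (hLS : LS) (hA : NotOutA) :
    ∃ n : ℕ, ∃ G : SimpleGraph (Fin n), G.indepNum ≤ 2 ∧
      (hadwigerNumber G : ℕ∞) < G.chromaticNumber :=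
  disproof_of frameInst ex1 exC (tvls_of (tv_of hK2 hSel hLoc ex1) hLS ldFam) overlap hA

end Vale.Agent.P060.HW
end
end

section

/-!
# P060/HW: the theorem `tvK2 : TvK2`
-/

open scoped Classical

noncomputable section

set_option linter.unusedSectionVars false

namespace Vale.Agent.P060.HW

open Module

namespace K2F

section General

variable {K T : Type} [Fintype K] {δ : Design K T} {a a' : T} {ι ι' : Bool} {Λ M : ℝ}
  {w : Matrix K K F → Matrix K K F → ℝ}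

/-- The deficit of a pair law is an entropy deficit on a lattice of subspaces. -/
lemma exists_rep (hw : PLaw δ a a' ι ι' Λ M w) :
    ∃ (Ω : Type) (_ : Fintype Ω) (Pr : FinProb Ω) (X : Ω → Dual F (MM K)),
      ∀ G, hw.Dd G = Lat.D Pr X G :=
  ⟨Fms δ a a' ι ι', inferInstance, hw.prob, Xf, fun _ => rfl⟩

lemma Dd_budget (hw : PLaw δ a a' ι ι' Λ M w) :
    hw.Dd (SS K) - hw.Dd (δ.N2 a a') ≤ Real.log Λ := tv_budget hw

lemma smB_isSymm (u v : K → F) : (smB u v).IsSymm := by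
  rw [smB_apply]
  unfold sm
  ext i j
  simp only [Matrix.transpose_apply, Matrix.add_apply, Matrix.vecMulVec_apply]
  ring

lemma Gl_le_Sy {L : Type*} [DecidableEq L] (p : L → K → F) (S : Finset L) : Gl p S ≤ Sy K := by
  unfold Gl
  refine Finset.sup_le fun u _ => ?_
  rintro _ ⟨z, rfl⟩
  exact smB_isSymm z (p u)

lemma Gp_le_SS {L : Type*} [DecidableEq L] (p : L → K → F) (S : Finset L) : Gp p S ≤ SS K :=
  Submodule.prod_mono (Gl_le_Sy p S) (Gl_le_Sy p S)

end General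

variable {N d : ℕ} {E P Om : Type} [Fintype E] [Fintype P] [Fintype Om] [NeZero N]

lemma Sizes.mono' {fr : Frame N d E Om} {D₀ : ℕ} {θ θ' C : ℝ} (hs : Sizes fr P D₀ θ C)
    (h : θ ≤ θ') : Sizes fr P D₀ θ' C where
  hN := hs.hN
  hN' := hs.hN'
  hd := hs.hd
  hOm := hs.hOm.trans (mul_le_mul_of_nonneg_right h (Nat.cast_nonneg _))
  hA := fun w => (hs.hA w).trans (mul_le_mul_of_nonneg_right h (Nat.cast_nonneg _))
  hq := hs.hq
  hγ := hs.hγ

lemma card_rowLines_le (fr : Frame N d E Om) (w : Om) :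
    (rowLines fr w).card ≤ 3 * (Finset.univ.filter fun c : Ty N d => w ∈ fr.U c).card := by
  unfold rowLines
  refine Finset.card_biUnion_le.trans ?_
  refine (Finset.sum_le_sum fun c _ => card_lins_le c).trans ?_
  rw [Finset.sum_const, smul_eq_mul, mul_comm]

lemma rare_union {X : Type*} [Finite X] {A B : Set X} (hA : Rare A) (hB : Rare B) :
    40 * Nat.card (A ∪ B : Set X) ≤ Nat.card X := by
  unfold Rare at hA hB
  have h1 : Nat.card (A ∪ B : Set X) ≤ Nat.card A + Nat.card B := by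
    rw [Nat.card_coe_set_eq, Nat.card_coe_set_eq, Nat.card_coe_set_eq]
    exact Set.ncard_union_le A B
  omega

lemma num1 {C k M' g : ℝ} (hk : 0 < k) (hg : 0 < g) (h2 : k ≤ 72 * M') :
    2 * (C * k * g) < M' * (144 * (|C| + 1) * g) := by
  have h3 : C ≤ |C| := le_abs_self C
  have h4 : (0 : ℝ) ≤ |C| := abs_nonneg C
  have h5 : k * (2 * (|C| + 1) * g) ≤ 72 * M' * (2 * (|C| + 1) * g) :=
    mul_le_mul_of_nonneg_right h2 (by positivity)
  have h6 : C * k * g ≤ |C| * k * g :=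
    mul_le_mul_of_nonneg_right (mul_le_mul_of_nonneg_right h3 hk.le) hg.le
  have h7 : 0 < k * g := by positivity
  linarith only [h7, h6, h5]

lemma num2 {k M' o x θ : ℝ} (hk : 0 < k) (ho : 0 ≤ o) (e1 : 36 * M' ≤ k) (e2 : o ≤ θ * k)
    (e4 : 72 * (x + 1) ≤ k) (hx : 0 ≤ x) (hθ2 : θ * (72 * (x + 1)) ≤ 1) :
    M' + (o + 1) * x ≤ k / 18 := by
  have e5 : o * x ≤ θ * k * (x + 1) :=
    mul_le_mul e2 (by linarith) hx (ho.trans e2)
  have e6 : θ * k * (x + 1) * 72 ≤ k := by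
    calc θ * k * (x + 1) * 72 = k * (θ * (72 * (x + 1))) := by ring
      _ ≤ k * 1 := mul_le_mul_of_nonneg_left hθ2 hk.le
      _ = k := mul_one _
  linarith only [e1, e4, e5, e6]

lemma num3 {k m D₀ ε n : ℝ} (hk : 0 < k) (h2 : m ≤ k / 18) (hD0 : 0 < D₀) (hD : 6 ≤ D₀ * ε)
    (hn : D₀ * k ≤ n) : m * (96 / n) ≤ ε := by
  have hnpos : 0 < n := lt_of_lt_of_le (by positivity) hn
  rw [mul_div_assoc', div_le_iff₀ hnpos]
  have hε : 0 < ε := by
    by_contra hcon
    push Not at hcon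
    linarith only [hD, mul_nonneg (le_of_lt (sub_pos.2 hD0)) (sub_nonneg.2 hcon)]
  calc m * 96 ≤ k / 18 * 96 := mul_le_mul_of_nonneg_right h2 (by norm_num)
    _ ≤ 6 * k := by linarith only [hk]
    _ ≤ D₀ * ε * k := mul_le_mul_of_nonneg_right hD hk.le
    _ = ε * (D₀ * k) := by ring
    _ ≤ ε * n := mul_le_mul_of_nonneg_left hn hε.le

/-- **K2 for one past.** -/
theorem k2At {fr : Frame N d E Om} {p : Lin N → Co E P Om → F} {h : Ext fr p} {a a' : Ty N d}
    {ι ι' : Bool} {C M₁ ε : ℝ} {w : WL E P Om} {D₀ x0 : ℕ}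
    (hw : PLaw (dsg fr p h) a a' ι ι' (2521 ^ (C * Fintype.card P)) M₁ w)
    (hX : EvX d p x0) (h1 : ∀ κ : ℕ, κ ≤ 20 * Fintype.card P / (D₀ + 20) ^ 2 → Ev1 p κ)
    {θ : ℝ} (hs : Sizes fr P D₀ θ 0) (hθ1 : θ * (D₀ + 20) ^ 2 ≤ 1) (hθ2 : θ * (72 * (x0 + 1)) ≤ 1)
    (hk1 : (D₀ + 20) ^ 2 ≤ Fintype.card P) (hk2 : 72 * (x0 + 1) ≤ Fintype.card P)
    (hD : 6 ≤ D₀ * ε) (hD0 : 0 < D₀)
    {ρ : Ty N d × Ty N d → ℝ} (hρ : TCoup 8 ρ) {A : Finset (Lin N)} (hA : Small P D₀ A) :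
    K2At hw (144 * (|C| + 1) * Real.log 2521) ε ρ A := by
  obtain ⟨Ω, _, Pr, X, hrep⟩ := exists_rep hw
  set k := Fintype.card P with hk
  set A' := A ∪ lins2 (a, a') with hA'
  have hn : 400 ≤ (D₀ + 20) ^ 2 := by nlinarith
  have hk400 : 400 ≤ k := hn.trans hk1
  have hAc : A.card * (D₀ + 20) ^ 2 ≤ k := hA
  have hA400 : A.card * 400 ≤ k := (Nat.mul_le_mul_left _ hn).trans hAc
  have hA'c : A'.card ≤ A.card + 6 :=
    (Finset.card_union_le _ _).trans (Nat.add_le_add_left (card_lins2_le _) _)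
  have hlog : 0 < Real.log 2521 := Real.log_pos (by norm_num)
  have hkpos : (0 : ℝ) < k := by exact_mod_cast (by omega : 0 < k)
  have hrow : ∀ w, (rowLines fr w).card * (D₀ + 20) ^ 2 ≤ 3 * k := by
    intro w
    have h2 : ((rowLines fr w).card : ℝ) ≤ 3 * (θ * k) := by
      have h3 : ((rowLines fr w).card : ℝ)
          ≤ 3 * ((Finset.univ.filter fun c : Ty N d => w ∈ fr.U c).card : ℝ) := by
        exact_mod_cast card_rowLines_le fr w
      have h4 := hs.hA w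
      linarith only [h4, h3]
    have h5 : ((rowLines fr w).card : ℝ) * (D₀ + 20) ^ 2 ≤ 3 * k := by
      calc ((rowLines fr w).card : ℝ) * (D₀ + 20) ^ 2 ≤ 3 * (θ * k) * (D₀ + 20) ^ 2 :=
            mul_le_mul_of_nonneg_right h2 (by positivity)
        _ = 3 * k * (θ * (D₀ + 20) ^ 2) := by ring
        _ ≤ 3 * k * 1 := mul_le_mul_of_nonneg_left hθ1 (by positivity)
        _ = 3 * k := mul_one _
    exact_mod_cast h5
  have hrow400 : ∀ w, (rowLines fr w).card * 400 ≤ 3 * k :=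
    fun w => (Nat.mul_le_mul_left _ hn).trans (hrow w)
  have hLI : ∀ S : Finset (Lin N), S.card * (D₀ + 20) ^ 2 ≤ 20 * k → LI p S := by
    intro S hS
    have h2 : S.card ≤ 20 * k / (D₀ + 20) ^ 2 := (Nat.le_div_iff_mul_le (by positivity)).2 hS
    exact h1 _ le_rfl S h2
  set M' := k / 36 with hM'
  set M := M' + (Fintype.card Om + 1) * x0 with hM
  have hM'c : 36 * M' ≤ k := Nat.mul_div_le k 36
  have hM'l : k ≤ 72 * M' := by omega
  set 𝒦 : ℝ := C * k * Real.log 2521 with h𝒦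
  have hT0 : ∀ S : Finset (Lin N), Gaa fr p h a a' S ≤ SS (Co E P Om) := by
    intro S
    rw [Gaa_eq_GA]
    exact sup_le (Gp_le_SS p S) (N2_le_SS _ _ _)
  have hK : Lat.D Pr X (SS (Co E P Om)) - Lat.D Pr X (Gaa fr p h a a' ∅) ≤ 𝒦 := by
    rw [Gaa_eq_GA, GA_empty, ← hrep, ← hrep]
    refine (Dd_budget hw).trans (le_of_eq ?_)
    rw [Real.log_rpow (by norm_num), h𝒦]
  have hlam : 2 * 𝒦 < M' * (144 * (|C| + 1) * Real.log 2521) := by
    have h2 : (k : ℝ) ≤ 72 * M' := by exact_mod_cast hM'l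
    exact num1 hkpos hlog h2
  have key := K2_frame fr p h a a' (x0 := x0) (M := M) (M' := M') hX A'
    (fun u hu => Finset.mem_union_right _ (Finset.mem_union_left _ hu))
    (fun u hu => Finset.mem_union_right _ (Finset.mem_union_right _ hu))
    (hLI A' (by
      calc A'.card * (D₀ + 20) ^ 2 ≤ (A.card + 6) * (D₀ + 20) ^ 2 := Nat.mul_le_mul_right _ hA'c
        _ = A.card * (D₀ + 20) ^ 2 + 6 * (D₀ + 20) ^ 2 := by ring
        _ ≤ k + 6 * k := Nat.add_le_add hAc (Nat.mul_le_mul_left _ hk1)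
        _ ≤ 20 * k := by omega))
    (fun w => hLI _ (by
      calc (A' ∪ rowLines fr w).card * (D₀ + 20) ^ 2
          ≤ (A.card + 6 + (rowLines fr w).card) * (D₀ + 20) ^ 2 :=
            Nat.mul_le_mul_right _ ((Finset.card_union_le _ _).trans (Nat.add_le_add_right hA'c _))
        _ = A.card * (D₀ + 20) ^ 2 + 6 * (D₀ + 20) ^ 2
            + (rowLines fr w).card * (D₀ + 20) ^ 2 := by ring
        _ ≤ k + 6 * k + 3 * k :=
            Nat.add_le_add (Nat.add_le_add hAc (Nat.mul_le_mul_left _ hk1)) (hrow w)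
        _ ≤ 20 * k := by omega))
    (by omega) (fun w => by have := hrow400 w; omega) le_rfl Pr X (SS (Co E P Om)) hT0 hK hlam hρ
  have hMN : (M : ℝ) * (96 / N) ≤ ε := by
    have hN : (D₀ : ℝ) * k ≤ N := by exact_mod_cast hs.hN
    have hD0' : (0 : ℝ) < D₀ := by exact_mod_cast hD0
    have e3 : (M : ℝ) = M' + (Fintype.card Om + 1) * x0 := by rw [hM]; push_cast; rfl
    have e1 : (36 : ℝ) * M' ≤ k := by exact_mod_cast hM'c
    have e4 : (72 : ℝ) * (x0 + 1) ≤ k := by exact_mod_cast hk2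
    exact num3 hkpos (e3.trans_le (num2 hkpos (Nat.cast_nonneg _) e1 hs.hOm e4 (Nat.cast_nonneg _) hθ2))
      hD0' hD hN
  unfold K2At PLaw.dA
  refine le_trans (le_of_eq ?_) (key.trans hMN)
  refine Finset.sum_congr rfl fun β _ => ?_
  rw [hrep, hrep, Gaa_eq_GA, Gaa_eq_GA]

end K2F

/-- **TvK2.** -/
theorem tvK2 : TvK2 := by
  intro C ε hε
  refine ⟨144 * (|C| + 1) * Real.log 2521, ?_, ⌈6 / ε⌉₊ + 1, ?_⟩
  · have : 0 < Real.log 2521 := Real.log_pos (by norm_num)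
    positivity
  intro D₀ hD₀ d E _
  obtain ⟨x0, hx0⟩ := exX D₀
  obtain ⟨θ1, hθ1, k1, hX⟩ := hx0 d E
  obtain ⟨θ2, hθ2, k2, h1⟩ := ex1 D₀ d E
  refine ⟨min (min θ1 θ2) (min (1 / ((D₀ : ℝ) + 20) ^ 2) (1 / (72 * ((x0 : ℝ) + 1)))), by positivity,
    max (max k1 k2) (max ((D₀ + 20) ^ 2) (72 * (x0 + 1))), ?_⟩
  intro N P Om _ _ _ fr hk hs
  have hsX := hX N P Om fr (le_trans (le_trans (le_max_left _ _) (le_max_left _ _)) hk)
    (K2F.Sizes.mono' hs ((min_le_left _ _).trans (min_le_left _ _)))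
  have hs1 := h1 N P Om fr (le_trans (le_trans (le_max_right _ _) (le_max_left _ _)) hk)
    (K2F.Sizes.mono' hs ((min_le_left _ _).trans (min_le_right _ _)))
  refine ⟨{p : Dz fr P | EvX d p.1 x0 ∧
    ∀ κ : ℕ, κ ≤ 20 * Fintype.card P / (D₀ + 20) ^ 2 → Ev1 p.1 κ}, ?_, ?_⟩
  · refine le_trans (Nat.mul_le_mul_left _ ?_) (K2F.rare_union hsX hs1)
    rw [Nat.card_coe_set_eq, Nat.card_coe_set_eq]
    refine Set.ncard_le_ncard ?_ (Set.toFinite _)
    intro p hp
    rw [Set.mem_compl_iff, Set.mem_ofPred_eq, not_and_or] at hp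
    exact hp
  · intro p hp a a' ι ι' _ M w hw ρ hρ A hA _
    have hn : (0 : ℝ) < ((D₀ : ℝ) + 20) ^ 2 := by (clear * -; positivity)
    refine K2F.k2At hw hp.1 hp.2 hs ?_ ?_
      (le_trans (le_trans (le_max_left _ _) (le_max_right _ _)) hk)
      (le_trans (le_trans (le_max_right _ _) (le_max_right _ _)) hk) ?_ (by omega) hρ hA
    · calc _ ≤ (1 / ((D₀ : ℝ) + 20) ^ 2) * ((D₀ : ℝ) + 20) ^ 2 :=
            mul_le_mul_of_nonneg_right ((min_le_right _ _).trans (min_le_left _ _)) hn.le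
        _ = 1 := by field_simp
    · have hx : (0 : ℝ) < 72 * ((x0 : ℝ) + 1) := by (clear * -; positivity)
      calc _ ≤ (1 / (72 * ((x0 : ℝ) + 1))) * (72 * ((x0 : ℝ) + 1)) :=
            mul_le_mul_of_nonneg_right ((min_le_right _ _).trans (min_le_right _ _)) hx.le
        _ = 1 := by field_simp
    · have h2 : 6 / ε ≤ ⌈6 / ε⌉₊ := Nat.le_ceil _
      have h3 : ((⌈6 / ε⌉₊ + 1 : ℕ) : ℝ) ≤ D₀ := by exact_mod_cast hD₀
      push_cast at h3
      rw [div_le_iff₀ hε] at h2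
      nlinarith

end Vale.Agent.P060.HW
end
end

section

/-!
# P060/HW: TvSel, the selection of the alignment and of the pasts
-/

open scoped Classical

noncomputable section

set_option linter.unusedSectionVars false

namespace Vale.Agent.P060.HW

open Module

namespace TvS

section General

variable {K T : Type} [Fintype K]

lemma supMod_law {δ : Design K T} {a a' : T} {ι ι' : Bool} {Λ M : ℝ}
    {w : Matrix K K F → Matrix K K F → ℝ} (hw : PLaw δ a a' ι ι' Λ M w) :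
    TV2.SupMod hw.Dd where
  mono := fun h => Lat.D_mono hw.prob Xf h
  sm := fun x y => Lat.D_supermodular hw.prob Xf x y

lemma law_budget {δ : Design K T} {a a' : T} {ι ι' : Bool} {Λ M : ℝ}
    {w : Matrix K K F → Matrix K K F → ℝ} (hw : PLaw δ a a' ι ι' Λ M w)
    (G : Submodule F (MM K)) (hG : G ≤ SS K) : hw.Dd G - hw.Dd (δ.N2 a a') ≤ Real.log Λ := by
  unfold PLaw.Dd
  exact tv_budget_le hw G hG

lemma Gl_le_Sy {L : Type*} [DecidableEq L] (p : L → K → F) (S : Finset L) : Gl p S ≤ Sy K := by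
  unfold Gl
  refine Finset.sup_le fun u _ => ?_
  rintro _ ⟨z, rfl⟩
  change (sm z (p u)).IsSymm
  ext i j
  rw [Matrix.transpose_apply]
  simp only [sm, Matrix.add_apply, Matrix.vecMulVec_apply]
  ring

lemma Gp_le_SS {L : Type*} [DecidableEq L] (p : L → K → F) (S : Finset L) : Gp p S ≤ SS K :=
  Submodule.prod_mono (Gl_le_Sy p S) (Gl_le_Sy p S)

end General

variable {N d : ℕ} {E P Om : Type} [Fintype E] [Fintype P] [Fintype Om] [NeZero N]

section Conv

variable {fr : Frame N d E Om} {p : Lin N → Co E P Om → F} {h : Ext fr p} {a a' : Ty N d}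
    {ι ι' : Bool} {Λ M : ℝ} {w : WL E P Om} (hw : PLaw (dsg fr p h) a a' ι ι' Λ M w)

lemma DG_eq (S : Finset (Lin N)) : TVP.DG fr p h a a' hw.Dd S = hw.dA S := by
  unfold TVP.DG PLaw.dA
  rw [Gaa_eq_GA]

lemma DG_budget (S : Finset (Lin N)) :
    TVP.DG fr p h a a' hw.Dd S - TVP.DG fr p h a a' hw.Dd ∅ ≤ Real.log Λ := by
  rw [DG_eq, DG_eq]
  unfold PLaw.dA
  rw [GA_empty]
  refine law_budget hw _ ?_
  unfold GA
  exact sup_le (Gp_le_SS p S) (N2_le_SS _ a a')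

lemma Fx_eq : TVP.Fx a a' = lins2 (a, a') := rfl

lemma goodB_conv {D₀ m : ℕ} (hm : 2 * m * (D₀ + 20) ^ 2 ≤ Fintype.card P) {lam d₀ : ℝ}
    {β : Ty N d × Ty N d} (hne : β.1 ≠ β.2) (hg : TVP.GoodB fr p h a a' hw.Dd m lam d₀ β) :
    GoodB hw D₀ lam d₀ β := by
  obtain ⟨h1, h2, h3, i, j, q, i', j', q', hij, hiq, hjq, hij', hiq', hjq', hsh, S, s1, s2, s3, s4,
    s5⟩ := hg
  rw [Fx_eq] at h1 h2 h3
  rw [DG_eq, DG_eq] at h3
  refine ⟨hne, h1, h2, h3, i, j, q, i', j', q', hij, hiq, hjq, hij', hiq', hjq', hsh, S, ?_, s2, ?_,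
    ?_, ?_⟩
  · intro l
    unfold Small
    exact (Nat.mul_le_mul_right _ (s1 l)).trans hm
  · intro l
    have := s3 l
    rwa [Fx_eq] at this
  · intro l
    have := s4 l
    rwa [Fx_eq, DG_eq, DG_eq] at this
  · intro l
    have := s5 l
    rw [Fx_eq, DG_eq, DG_eq, DG_eq, Gaa_eq_GA, Gaa_eq_GA] at this
    exact this

lemma K2_conv {D₀ m : ℕ} (hm : 2 * m * (D₀ + 20) ^ 2 ≤ Fintype.card P) {lam ε₁ : ℝ}
    {ρ : Ty N d × Ty N d → ℝ}
    (hK : ∀ A : Finset (Lin N), Small P D₀ A → Disjoint A (lins2 (a, a')) → K2At hw lam ε₁ ρ A)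
    (A : Finset (Lin N)) (hA : A.card ≤ 2 * m) (hAF : Disjoint A (TVP.Fx a a')) :
      ∑ β, (if Disjoint (lins2 β) (A ∪ TVP.Fx a a') ∧
        lam < TVP.DG fr p h a a' hw.Dd (A ∪ TVP.Fx a a' ∪ lins2 β) -
          TVP.DG fr p h a a' hw.Dd (A ∪ TVP.Fx a a') then ρ β else 0) ≤ ε₁ := by
  have h1 := hK A ((Nat.mul_le_mul_right _ hA).trans hm) hAF
  unfold K2At at h1
  simp_rw [DG_eq, Fx_eq]
  exact h1

end Conv

lemma card_rowLines (fr : Frame N d E Om) (w : Om) :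
    (rowLines fr w).card ≤ 3 * (Finset.univ.filter fun c : Ty N d => w ∈ fr.U c).card := by
  unfold rowLines
  refine Finset.card_biUnion_le.trans ?_
  calc _ ≤ ∑ _c ∈ Finset.univ.filter (fun c : Ty N d => w ∈ fr.U c), 3 :=
        Finset.sum_le_sum fun c _ => TVP.card_lins c
    _ = _ := by rw [Finset.sum_const, smul_eq_mul, mul_comm]

lemma num1 {Q k : ℕ} (hQ1 : 441 ≤ Q) (hk16 : 16 * Q ≤ k) :
    ∃ m : ℕ, 4 ≤ m ∧ k ≤ 8 * Q * m ∧ 2 * m * Q ≤ k ∧
      (∀ r : ℕ, r * Q ≤ k → 6 * m + 6 + r ≤ 20 * k / Q) ∧ 6 * m + 6 ≤ 20 * k / Q ∧ 144 * m ≤ k := by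
  obtain ⟨m, hm⟩ : ∃ m : ℕ, m = k / (4 * Q) := ⟨_, rfl⟩
  have hQ4 : 0 < 4 * Q := by omega
  have hm4 : 4 ≤ m := by
    rw [hm, Nat.le_div_iff_mul_le hQ4]
    omega
  have hmk : m * (4 * Q) ≤ k := hm ▸ Nat.div_mul_le_self _ _
  have hkm : k < (m + 1) * (4 * Q) := by
    have := Nat.lt_div_mul_add (a := k) hQ4
    rw [hm]
    linarith
  have hkm2 : k ≤ 8 * Q * m := by
    have : (m + 1) * (4 * Q) ≤ 8 * Q * m := by nlinarith
    omega
  have hkap : ∀ r : ℕ, r * Q ≤ k → 6 * m + 6 + r ≤ 20 * k / Q := by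
    intro r hr
    rw [Nat.le_div_iff_mul_le (by omega)]
    nlinarith
  refine ⟨m, hm4, hkm2, by nlinarith, hkap, ?_, by nlinarith⟩
  have := hkap 0 (by omega)
  omega

lemma num2 {Q D₀ N k m : ℕ} (_hQ : 0 < Q) (hm : 0 < m) (hkm : k ≤ 8 * Q * m)
    (hN : N ≤ 2 * D₀ * k) : (3 * N : ℝ) / m ≤ 48 * D₀ * Q := by
  have hmr : (0 : ℝ) < m := by exact_mod_cast hm
  rw [div_le_iff₀ hmr]
  have h1 : 3 * N ≤ 48 * D₀ * Q * m := by
    have : 2 * D₀ * k ≤ 2 * D₀ * (8 * Q * m) := Nat.mul_le_mul_left _ hkm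
    nlinarith
  exact_mod_cast h1

lemma num3 {x R θs d₀ : ℝ} (hx : 0 ≤ x) (hxR : x ≤ R) (hθ : 0 < θs) (e2 : 48 * R ^ 4 * θs = d₀) :
    48 * x ^ 4 * θs ≤ d₀ := by
  have e1 : x ^ 4 ≤ R ^ 4 := pow_le_pow_left₀ hx hxR 4
  calc 48 * x ^ 4 * θs ≤ 48 * R ^ 4 * θs :=
        mul_le_mul_of_nonneg_right (mul_le_mul_of_nonneg_left e1 (by norm_num)) hθ.le
    _ = d₀ := e2

lemma num4 {Q D₀ N k m : ℕ} {C L θs s₀ : ℝ} (hL : 0 ≤ L) (hθ : 0 < θs)
    (hs₀ : s₀ = 450 * D₀ * |C| * L * 64 * Q ^ 2 / θs) (hkm : k ≤ 8 * Q * m)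
    (hN : N ≤ 2 * D₀ * k) : 225 * N * (|C| * k * L) ≤ s₀ * ((m : ℝ) ^ 2 * θs) := by
  have hkmr : (k : ℝ) ≤ 8 * Q * m := by exact_mod_cast hkm
  have hNr : (N : ℝ) ≤ 2 * D₀ * k := by exact_mod_cast hN
  have e1 : s₀ * ((m : ℝ) ^ 2 * θs) = 450 * D₀ * |C| * L * (8 * Q * m) ^ 2 := by
    rw [hs₀]
    field_simp
    ring
  rw [e1]
  have e2 : (k : ℝ) ^ 2 ≤ (8 * Q * m) ^ 2 := pow_le_pow_left₀ (Nat.cast_nonneg _) hkmr 2
  have e3 : 225 * N * (|C| * k * L) ≤ 225 * (2 * D₀ * k) * (|C| * k * L) :=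
    mul_le_mul_of_nonneg_right (mul_le_mul_of_nonneg_left hNr (by norm_num)) (by (clear * - hL; positivity))
  have e4 : 225 * (2 * D₀ * k) * (|C| * k * L) = 450 * D₀ * |C| * L * (k : ℝ) ^ 2 := by ring
  have e5 : 450 * D₀ * |C| * L * (k : ℝ) ^ 2 ≤ 450 * D₀ * |C| * L * (8 * Q * m) ^ 2 :=
    mul_le_mul_of_nonneg_left e2 (by (clear * - hL; positivity))
  linarith only [e5, e3]

lemma num5 {r c k Q : ℕ} (hQ : 0 < Q) (h1 : r ≤ 3 * c) (h2 : (c : ℝ) ≤ 1 / (3 * Q) * k) :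
    r * Q ≤ k := by
  have hQr : (0 : ℝ) < Q := by exact_mod_cast hQ
  have r3 : (r : ℝ) ≤ 3 * (c : ℝ) := by exact_mod_cast h1
  have r4 : (r : ℝ) * Q ≤ k := by
    have r5 : (r : ℝ) ≤ 3 * (1 / (3 * Q) * k) := by
      refine r3.trans ?_
      linarith only [h2]
    have r6 : 3 * (1 / (3 * (Q : ℝ)) * k) * Q = k := by
      field_simp
    calc (r : ℝ) * Q ≤ 3 * (1 / (3 * Q) * k) * Q := mul_le_mul_of_nonneg_right r5 hQr.le
      _ = k := r6
  exact_mod_cast r4

lemma num6 {d N k Q : ℕ} {ε : ℝ} (hε : 0 < ε) (hk : 16 * Q + ⌈1152 * (d : ℝ) / ε⌉₊ + 3 ≤ k)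
    (hN : k ≤ N) : 288 * (d : ℝ) / N ≤ ε / 4 := by
  have hN0 : (0 : ℝ) < N := by exact_mod_cast (by omega : 0 < N)
  rw [div_le_iff₀ hN0]
  have e1 : 1152 * (d : ℝ) / ε ≤ N := by
    refine (Nat.le_ceil _).trans ?_
    exact_mod_cast (by omega : ⌈1152 * (d : ℝ) / ε⌉₊ ≤ N)
  rw [div_le_iff₀ hε] at e1
  linarith only [e1]

lemma log_conv (C : ℝ) (k : ℕ) :
    Real.log ((2521 : ℝ) ^ (C * (k : ℝ))) ≤ |C| * k * Real.log 2521 := by
  rw [Real.log_rpow (by norm_num)]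
  refine mul_le_mul_of_nonneg_right ?_ (Real.log_nonneg (by norm_num))
  exact mul_le_mul_of_nonneg_right (le_abs_self C) (Nat.cast_nonneg _)

section Fin

variable {fr : Frame N d E Om} {p : Lin N → Co E P Om → F} {h : Ext fr p} {a a' : Ty N d}
    {ι ι' : Bool} {Λ M : ℝ} {w : WL E P Om} (hw : PLaw (dsg fr p h) a a' ι ι' Λ M w)

lemma sum_conv {D₀ m : ℕ} (hm : 2 * m * (D₀ + 20) ^ 2 ≤ Fintype.card P) {lam d₀ : ℝ}
    {ρ : Ty N d × Ty N d → ℝ} (hρ : TCoup 8 ρ) :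
    ∑ β, (if ¬ GoodB hw D₀ lam d₀ β then ρ β else 0) ≤
      ∑ β, (if TVP.GoodB fr p h a a' hw.Dd m lam d₀ β then 0 else ρ β) := by
  refine Finset.sum_le_sum fun β _ => ?_
  by_cases hg : TVP.GoodB fr p h a a' hw.Dd m lam d₀ β
  · rw [if_pos hg]
    by_cases hne : β.1 = β.2
    · have h2 := hρ.ne β.1
      rw [show (β.1, β.1) = β from Prod.ext rfl hne] at h2
      rw [h2, ite_self]
    · rw [if_neg (not_not.2 (goodB_conv hw hm hne hg))]
  · rw [if_neg hg]
    split_ifs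
    · exact hρ.nonneg β
    · exact le_rfl

end Fin

/-- **TvSel.** -/
theorem tvSel : TvSel := by
  intro ε hε
  refine ⟨ε / 52, div_pos hε (by norm_num), ?_⟩
  intro C lam d₀ hlam hd₀ D₀ hD₀
  have hQ1 : 441 ≤ (D₀ + 20) ^ 2 := by
    have : 21 ≤ D₀ + 20 := by omega
    nlinarith
  obtain ⟨Q, hQ⟩ : ∃ Q : ℕ, Q = (D₀ + 20) ^ 2 := ⟨_, rfl⟩
  rw [← hQ] at hQ1
  have hQr : (0 : ℝ) < Q := by exact_mod_cast (by omega : 0 < Q)
  have hDr : (0 : ℝ) < D₀ := by exact_mod_cast hD₀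
  obtain ⟨R, hR⟩ : ∃ R : ℝ, R = 48 * D₀ * Q := ⟨_, rfl⟩
  have hRpos : 0 < R := by rw [hR]; positivity
  obtain ⟨θs, hθs⟩ : ∃ θs : ℝ, θs = d₀ / (48 * R ^ 4) := ⟨_, rfl⟩
  have hθpos : 0 < θs := by rw [hθs]; positivity
  have hθR : 48 * R ^ 4 * θs = d₀ := by
    rw [hθs]
    field_simp
  obtain ⟨L, hL⟩ : ∃ L : ℝ, L = Real.log 2521 := ⟨_, rfl⟩
  have hLpos : 0 ≤ L := by rw [hL]; exact Real.log_nonneg (by norm_num)
  obtain ⟨s₀, hs₀⟩ : ∃ s₀ : ℝ, s₀ = 450 * D₀ * |C| * L * 64 * Q ^ 2 / θs := ⟨_, rfl⟩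
  have hs₀nn : 0 ≤ s₀ := by rw [hs₀]; (clear * - hD₀ hLpos hQ1 hθpos; positivity)
  obtain ⟨Dg, d₁, hd₁⟩ := Align.exists_params (s := s₀) (ε := ε / 2) (M₀ := 8) hs₀nn
    (by positivity) (by norm_num)
  refine ⟨max 1 d₁, ?_⟩
  intro d hd E _
  refine ⟨1 / (3 * Q), by positivity, 16 * Q + ⌈1152 * (d : ℝ) / ε⌉₊ + 3, ?_⟩
  intro N P Om _ _ _ fr p h hk hS hEv a a' ι ι' haa M w hw ρ hρ hK
  have hk16 : 16 * Q ≤ Fintype.card P := by omega
  obtain ⟨m, hm4, hkm2, hsmall, hkap, hkap0, h144⟩ := num1 hQ1 hk16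
  have hd1 : 1 ≤ d := (le_max_left _ _).trans hd
  have hd2 : d₁ ≤ d := (le_max_right _ _).trans hd
  have hNk : Fintype.card P ≤ N := (Nat.le_mul_of_pos_left _ hD₀).trans hS.hN
  have hQ0 : 0 < Q := by omega
  have hrow : ∀ w, (rowLines fr w).card * Q ≤ Fintype.card P := fun w =>
    num5 hQ0 (card_rowLines fr w) (hS.hA w)
  have hB : ∀ S, TVP.DG fr p h a a' hw.Dd S - TVP.DG fr p h a a' hw.Dd ∅ ≤
      |C| * (Fintype.card P : ℝ) * L := by
    intro S
    rw [hL]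
    exact (DG_budget hw S).trans (log_conv C _)
  have h48 : 48 * ((3 * N : ℝ) / m) ^ 4 * θs ≤ d₀ :=
    num3 (div_nonneg (mul_nonneg (by norm_num) (Nat.cast_nonneg _)) (Nat.cast_nonneg _))
      (hR ▸ num2 hQ0 (by omega) hkm2 hS.hN') hθpos hθR
  rw [hQ] at hsmall hkap hkap0
  have key := TVP.exists_pasts fr p h a a' hw.Dd (supMod_law hw)
    (κ₀ := 20 * Fintype.card P / (D₀ + 20) ^ 2) (m := m)
    (hEv _ le_rfl) hm4 (fun w => hkap _ (hQ ▸ hrow w)) hkap0 (by omega) hS.hd hd1 hB hθpos hd₀ h48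
    (num4 hLpos hθpos hs₀ hkm2 hS.hN') (Dg := Dg) (ε₁ := ε / 52) (ε₂ := ε / 2) (lam := lam) hρ
    (fun S hSS => hd₁ d hd2 N hS.hd S hSS ρ hρ)
    (fun A hA hAF => K2_conv hw hsmall hK A hA hAF)
  have hlast := num6 hε hk hNk
  have h13 : ε / 2 + 13 * (ε / 52) + ε / 4 = ε := by ring
  exact (sum_conv hw hsmall hρ).trans (key.trans ((add_le_add_right hlast _).trans h13.le))

end TvS

end Vale.Agent.P060.HW
end
end

section

/-!
# P060/HW: the TV theorem
-/

namespace Vale.Agent.P060.HW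

/-- The TV theorem: for most pairs of types without a large nontrivial coefficient the law of the
test values is close to its average along `Zab`. -/
theorem tv_final : TV := tv_of tvK2 TvS.tvSel tvLoc ex1

end Vale.Agent.P060.HW
end

section

/-!
# Constants of the block LS
-/

noncomputable section

namespace Vale.Agent.P060.HW.LS5

lemma n1 {D₀ k A s : ℕ} (h1 : 2 * (D₀ + 20) ^ 2 ≤ k) (h2 : (12 * s + 20) * (D₀ + 20) ^ 2 ≤ k)
    (hA : A * (D₀ + 20) ^ 2 ≤ k) :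
    6 * (2 * s + 1) ≤ 20 * k / (D₀ + 20) ^ 2 ∧
    6 * (k / (D₀ + 20) ^ 2) + 3 * A ≤ 20 * k / (D₀ + 20) ^ 2 ∧
    12 + 6 * A ≤ 20 * k / (D₀ + 20) ^ 2 := by
  have hSnpos : 0 < (D₀ + 20) ^ 2 := by positivity
  generalize (D₀ + 20) ^ 2 = S at *
  have hbn : k / S * S ≤ k := Nat.div_mul_le_self _ _
  refine ⟨?_, ?_, ?_⟩
  · rw [Nat.le_div_iff_mul_le hSnpos]
    nlinarith
  · rw [Nat.le_div_iff_mul_le hSnpos]
    nlinarith
  · rw [Nat.le_div_iff_mul_le hSnpos]
    nlinarith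

lemma n2 {c C' k N : ℝ} {A s t n f1 f2 : ℝ} (hc : 0 < c) (hN : k ≤ N)
    (e1 : f1 ≤ c / 32 * N) (e2 : f2 ≤ C' * k) (e3 : 64 * C' * k ≤ c * N)
    (hA : A * (400 * (t + 1)) ≤ c * k) (hA0 : 0 ≤ A) (ht : 0 ≤ t)
    (e5 : 64 * (24 + 8 * s) ≤ c * k) (hn : c * N ≤ n) :
    4 * (2 * (f1 + (3 + f2 + t * (3 * A))) + 2 * s) ≤ n := by
  have h4 : c * k ≤ c * N := mul_le_mul_of_nonneg_left hN hc.le
  have e4 : (t * A) * 300 ≤ c * N := by linarith only [hA, hA0, mul_nonneg (le_of_lt (sub_pos.2 hc)) (sub_nonneg.2 hN), mul_nonneg (sub_nonneg.2 hA0) (sub_nonneg.2 ht)]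
  linarith only [e1, e2, e3, e5, hn, e4, mul_nonneg (le_of_lt (sub_pos.2 hc)) (sub_nonneg.2 hN), mul_nonneg (sub_nonneg.2 hA0) (sub_nonneg.2 ht)]

lemma n3 {k S M D₀ n N κ₀ b : ℝ} (hM : 0 < M) (hD : 0 < D₀) (hS : 0 < S)
    (hκ : κ₀ = 1 / (24 * M * D₀ * S)) (hN : N ≤ 2 * D₀ * k) (hn : n ≤ 3 * N)
    (hb : k / S - 1 ≤ b) (hk : 2 * S ≤ k) : κ₀ * n * (2 * M) ≤ b := by
  refine le_trans ?_ hb
  have hκ0 : 0 < κ₀ := by rw [hκ]; positivity
  have h2 : κ₀ * n * (2 * M) ≤ κ₀ * (6 * D₀ * k) * (2 * M) := by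
    have : n ≤ 6 * D₀ * k := by linarith only [hn, hN]
    have h3 : κ₀ * n ≤ κ₀ * (6 * D₀ * k) := mul_le_mul_of_nonneg_left this hκ0.le
    exact mul_le_mul_of_nonneg_right h3 (by positivity)
  have h3 : κ₀ * (6 * D₀ * k) * (2 * M) = k / S / 2 := by
    rw [hκ]
    field_simp
    ring
  have h4 : 2 ≤ k / S := by
    rw [le_div_iff₀ hS]; exact hk
  linarith only [h4, h3, h2]

lemma n4 {c C' e k K N M D₀ n T f2 : ℝ} (hM : 0 < M) (hc : 0 < c) (hN0 : 0 < N) (hk : 0 ≤ k)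
    (hN : D₀ * k ≤ N) (hK : K ≤ (e + 2) * k) (h1 : 16 * M * (C' + 3 * (e + 2)) ≤ c * D₀)
    (e2 : f2 ≤ C' * k) (hn : c * N ≤ n) (hnT : n ≤ 2 * M * (T + 2 * (f2 + 3 * K))) :
    c / (4 * M) * N ≤ T ∧ 0 < T := by
  have h2 : 16 * M * (C' + 3 * (e + 2)) * k ≤ c * N := by
    calc 16 * M * (C' + 3 * (e + 2)) * k ≤ c * D₀ * k := mul_le_mul_of_nonneg_right h1 hk
      _ = c * (D₀ * k) := by ring
      _ ≤ c * N := mul_le_mul_of_nonneg_left hN hc.le
  have h3 : 4 * (M * (f2 + 3 * K)) ≤ c * N / 4 := by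
    have h4 : f2 + 3 * K ≤ (C' + 3 * (e + 2)) * k := by linarith
    have h5 : M * (f2 + 3 * K) ≤ M * ((C' + 3 * (e + 2)) * k) :=
      mul_le_mul_of_nonneg_left h4 hM.le
    linarith only [h5, h2]
  have h6 : c * N * (3 / 4) ≤ 2 * (M * T) := by linarith only [h3, hnT, hn]
  have h0 : 0 < c * N := mul_pos hc hN0
  have hT : c / (4 * M) * N ≤ T := by
    have h7 : c / (4 * M) * N = c * N / (4 * M) := by ring
    rw [h7, div_le_iff₀ (by positivity)]
    linarith only [h6, h0]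
  refine ⟨hT, ?_⟩
  have h8 : (0 : ℝ) < c / (4 * M) * N := by positivity
  exact lt_of_lt_of_le h8 hT

lemma n5 {k S : ℕ} (hS : 0 < S) : (k : ℝ) / S - 1 ≤ ((k / S : ℕ) : ℝ) := by
  have h2 := Nat.lt_div_mul_add (a := k) hS
  have h3 : (k : ℝ) < ((k / S : ℕ) : ℝ) * S + S := by exact_mod_cast h2
  have hSr : (0 : ℝ) < S := Nat.cast_pos.2 hS
  rw [sub_le_iff_le_add, div_le_iff₀ hSr]
  linarith only [h3]

/-- The constants: `D₁`, then `κ₀, t`. -/
lemma n6 (c C' : ℝ) (e M : ℕ) :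
    ∃ D₁ : ℕ, 0 < D₁ ∧ ∀ D₀ ≥ D₁, (1 : ℝ) ≤ D₀ ∧ (0 < c → 64 * C' ≤ c * D₀) ∧
      (0 < c → 16 * M * (C' + 3 * (e + 2)) ≤ c * D₀) := by
  obtain ⟨D₁, hD₁⟩ := exists_nat_ge (max 1 (max (64 * C' / c) (16 * M * (C' + 3 * (e + 2)) / c)))
  have hD₁1 : (1 : ℝ) ≤ D₁ := (le_max_left _ _).trans hD₁
  have hD₁2 : 64 * C' / c ≤ D₁ := ((le_max_left _ _).trans (le_max_right _ _)).trans hD₁
  have hD₁3 : 16 * M * (C' + 3 * (e + 2)) / c ≤ D₁ :=
    ((le_max_right _ _).trans (le_max_right _ _)).trans hD₁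
  refine ⟨D₁, by exact_mod_cast (lt_of_lt_of_le one_pos hD₁1), fun D₀ hD₀ => ?_⟩
  have hD₀r : (D₁ : ℝ) ≤ D₀ := by exact_mod_cast hD₀
  refine ⟨hD₁1.trans hD₀r, fun hc => ?_, fun hc => ?_⟩
  · have h1 := hD₁2.trans hD₀r
    rw [div_le_iff₀ hc, mul_comm (D₀ : ℝ)] at h1
    exact h1
  · have h1 := hD₁3.trans hD₀r
    rw [div_le_iff₀ hc, mul_comm (D₀ : ℝ)] at h1
    exact h1

/-- The numeric inequalities of the block LS, except those for the number of rows. -/
theorem numeric (c C' : ℝ) (hc : 0 < c) (hC' : 0 ≤ C') (e s M : ℕ) (hM : 0 < M) :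
    ∃ D₁ : ℕ, 0 < D₁ ∧ ∀ D₀ ≥ D₁, ∃ (κ₀ : ℝ) (t : ℕ), 0 < κ₀ ∧ 1 < κ₀ * (t + 1) ∧
      ∃ θ > (0 : ℝ), ∃ k₀ : ℕ, ∀ k ≥ k₀, ∀ N K A : ℕ, D₀ * k ≤ N → N ≤ 2 * D₀ * k →
        (A : ℝ) ≤ θ * k → (K : ℝ) ≤ e + k + θ * k →
        (6 * (2 * s + 1) ≤ 20 * k / (D₀ + 20) ^ 2 ∧
        6 * (k / (D₀ + 20) ^ 2) + 3 * A ≤ 20 * k / (D₀ + 20) ^ 2 ∧
        12 + 6 * A ≤ 20 * k / (D₀ + 20) ^ 2) ∧ 0 < k ∧
        (∀ n : ℕ, c * N ≤ n → 0 < n ∧
          4 * (2 * (⌊c / 32 * N⌋₊ + (3 + ⌊C' * k⌋₊ + t * (3 * A))) + 2 * s) ≤ n) ∧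
        (∀ n : ℕ, n ≤ 3 * N → κ₀ * n * (2 * M) ≤ (k / (D₀ + 20) ^ 2 : ℕ)) ∧
        ∀ n T : ℕ, c * N ≤ n → (n : ℝ) ≤ 2 * M * (T + 2 * (⌊C' * k⌋₊ + 3 * K)) →
          c / (4 * M) * N ≤ T ∧ 0 < T := by
  have hMr : (0 : ℝ) < M := Nat.cast_pos.2 hM
  obtain ⟨D₁, hD₁, hD⟩ := n6 c C' e M
  refine ⟨D₁, hD₁, fun D₀ hD₀ => ?_⟩
  obtain ⟨hD0, hD64, hD16⟩ := hD D₀ hD₀
  have hD0pos : (0 : ℝ) < D₀ := by linarith only [hD0]
  obtain ⟨S, hS⟩ : ∃ S : ℕ, S = (D₀ + 20) ^ 2 := ⟨_, rfl⟩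
  have hSpos : 0 < S := by rw [hS]; positivity
  have hSr : (0 : ℝ) < S := Nat.cast_pos.2 hSpos
  obtain ⟨κ₀, hκ₀⟩ : ∃ κ₀ : ℝ, κ₀ = 1 / (24 * M * D₀ * S) := ⟨_, rfl⟩
  have hκ₀pos : 0 < κ₀ := by rw [hκ₀]; positivity
  obtain ⟨t, ht⟩ := exists_nat_ge (1 / κ₀)
  have ht1 : 1 < κ₀ * (t + 1) := by
    have h1 : 1 ≤ κ₀ * t := by
      rw [div_le_iff₀ hκ₀pos] at ht
      linarith only [ht]
    linarith only [h1, hκ₀pos]
  refine ⟨κ₀, t, hκ₀pos, ht1, min 1 (min (1 / S) (c / (400 * (t + 1)))), ?_, ?_⟩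
  · exact lt_min one_pos (lt_min (by positivity) (by positivity))
  obtain ⟨k₀, hk₀⟩ := exists_nat_ge (max ((2 * S : ℕ) : ℝ) (max (((12 * s + 20) * S : ℕ) : ℝ)
    (64 * (24 + 8 * s) / c)))
  refine ⟨max 1 k₀, fun k hk N K A hN hN' hA hK => ?_⟩
  have hkr : (k₀ : ℝ) ≤ k := by exact_mod_cast (le_max_right _ _).trans hk
  have hk1 : ((2 * S : ℕ) : ℝ) ≤ k := ((le_max_left _ _).trans hk₀).trans hkr
  have hk2 : (((12 * s + 20) * S : ℕ) : ℝ) ≤ k :=
    (((le_max_left _ _).trans (le_max_right _ _)).trans hk₀).trans hkr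
  have hk3 : 64 * (24 + 8 * s) / c ≤ k :=
    (((le_max_right _ _).trans (le_max_right _ _)).trans hk₀).trans hkr
  have hk1n : 2 * S ≤ k := by exact_mod_cast hk1
  have hk2n : (12 * s + 20) * S ≤ k := by exact_mod_cast hk2
  have hk1' : 1 ≤ k := (le_max_left _ _).trans hk
  have hk1r : (1 : ℝ) ≤ k := by exact_mod_cast hk1'
  have hkpos : (0 : ℝ) < k := by linarith only [hk1r]
  obtain ⟨θ, hθ⟩ : ∃ θ : ℝ, θ = min 1 (min (1 / (S : ℝ)) (c / (400 * (t + 1)))) := ⟨_, rfl⟩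
  rw [← hθ] at hA hK
  have hθ1 : θ ≤ 1 := hθ ▸ min_le_left _ _
  have hθ2 : θ ≤ 1 / S := hθ ▸ (min_le_right _ _).trans (min_le_left _ _)
  have hθ3 : θ ≤ c / (400 * (t + 1)) := hθ ▸ (min_le_right _ _).trans (min_le_right _ _)
  have hNr : (D₀ : ℝ) * k ≤ N := by exact_mod_cast hN
  have hNr' : (N : ℝ) ≤ 2 * D₀ * k := by exact_mod_cast hN'
  have hNk : (k : ℝ) ≤ N := le_trans (le_mul_of_one_le_left hkpos.le hD0) hNr
  have hN0 : (0 : ℝ) < N := by linarith only [hNk, hkpos]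
  have hA2 : (A : ℝ) * S ≤ k := by
    have h1 : (A : ℝ) ≤ 1 / S * k := hA.trans (mul_le_mul_of_nonneg_right hθ2 hkpos.le)
    rw [one_div, ← div_eq_inv_mul, le_div_iff₀ hSr] at h1
    exact h1
  have hAn : A * S ≤ k := by exact_mod_cast hA2
  have hC0 : (0 : ℝ) ≤ C' * k := mul_nonneg hC' hkpos.le
  have e2 : ((⌊C' * k⌋₊ : ℕ) : ℝ) ≤ C' * k := Nat.floor_le hC0
  rw [← hS]
  refine ⟨?_, hk1', ?_, ?_, ?_⟩
  · rw [hS] at hk1n hk2n hAn ⊢
    exact n1 hk1n hk2n hAn
  · intro n hn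
    have hn0 : (0 : ℝ) < n := lt_of_lt_of_le (mul_pos hc hN0) hn
    refine ⟨by exact_mod_cast hn0, ?_⟩
    have e1 : ((⌊c / 32 * N⌋₊ : ℕ) : ℝ) ≤ c / 32 * N := Nat.floor_le (by positivity)
    have e3 : 64 * C' * k ≤ c * N := by
      calc 64 * C' * k ≤ c * D₀ * k := mul_le_mul_of_nonneg_right (hD64 hc) hkpos.le
        _ = c * (D₀ * k) := by ring
        _ ≤ c * N := mul_le_mul_of_nonneg_left hNr hc.le
    have e4 : (A : ℝ) * (400 * (t + 1)) ≤ c * k := by
      have h1 : (A : ℝ) ≤ c / (400 * (t + 1)) * k :=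
        hA.trans (mul_le_mul_of_nonneg_right hθ3 hkpos.le)
      have h3 : c / (400 * ((t : ℝ) + 1)) * k = c * k / (400 * (t + 1)) := by ring
      rw [h3, le_div_iff₀ (by (clear * -; positivity))] at h1
      exact h1
    have e5 : 64 * (24 + 8 * (s : ℝ)) ≤ c * k := by
      rw [div_le_iff₀ hc] at hk3
      linarith only [hk3]
    have h9 := n2 hc hNk e1 e2 e3 e4 (Nat.cast_nonneg _) (Nat.cast_nonneg _) e5 hn
    exact_mod_cast h9
  · intro n hn
    have hnr : (n : ℝ) ≤ 3 * N := by exact_mod_cast hn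
    exact n3 hMr hD0pos hSr hκ₀ hNr' hnr (n5 hSpos) (by exact_mod_cast hk1)
  · intro n T hn hnT
    have hKk : (K : ℝ) ≤ (e + 2) * k := by
      have h1 : θ * k ≤ k := mul_le_of_le_one_left hkpos.le hθ1
      have h2 : (e : ℝ) ≤ e * k := le_mul_of_one_le_right (Nat.cast_nonneg _) hk1r
      linarith only [h2, h1, hK]
    obtain ⟨h1, h2⟩ := n4 hMr hc hN0 hkpos.le hNr hKk (hD16 hc) e2 hn hnT
    exact ⟨h1, by exact_mod_cast h2⟩

/-- The rows: `q ≥ C₁ log k` is large enough. -/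
theorem rows (C C₂ η : ℝ) (hη : 0 < η) : ∃ (C₁ : ℝ) (k₀ : ℕ), ∀ k ≥ k₀, ∀ q : ℕ,
    C₁ * Real.log k ≤ q →
    (k : ℝ) ^ C < η / 2521 ^ ⌈C₂ * Real.log k⌉₊ * 2521 ^ (q / 2) := by
  have hlog : Filter.Tendsto (fun k : ℕ => Real.log k) Filter.atTop Filter.atTop :=
    Real.tendsto_log_atTop.comp tendsto_natCast_atTop_atTop
  have h2521 : 1 < Real.log 2521 := by
    rw [Real.lt_log_iff_exp_lt (by norm_num)]
    have := Real.exp_one_lt_d9
    linarith only [this]
  obtain ⟨k₀, hk₀⟩ := Filter.eventually_atTop.1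
    ((hlog.eventually_ge_atTop ((|Real.log η| + 1) / 1 + 3 * Real.log 2521)).and
      (Filter.eventually_ge_atTop 1))
  refine ⟨2 * (|C₂| + |C| + 1), k₀, fun k hk q hq => ?_⟩
  obtain ⟨h1, h2⟩ := hk₀ k hk
  have hkpos : (0 : ℝ) < k := by exact_mod_cast h2
  set l := Real.log k with hl
  have hl0 : 0 ≤ l := Real.log_nonneg (by exact_mod_cast h2)
  set n0 := ⌈C₂ * l⌉₊ with hn0
  have hn0' : (n0 : ℝ) ≤ |C₂| * l + 1 := by
    have h3 : (n0 : ℝ) < |C₂| * l + 1 := by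
      refine lt_of_le_of_lt ?_ (Nat.ceil_lt_add_one (by (clear * -; positivity) : 0 ≤ |C₂| * l))
      exact_mod_cast Nat.ceil_le_ceil (mul_le_mul_of_nonneg_right (le_abs_self _) hl0)
    exact h3.le
  have hq2 : (q : ℝ) / 2 - 1 ≤ ((q / 2 : ℕ) : ℝ) := by
    have := n5 (k := q) (S := 2) two_pos
    simpa using this
  have hlt : C * l < Real.log η - n0 * Real.log 2521 + (q / 2 : ℕ) * Real.log 2521 := by
    have h3 : (|C₂| + |C| + 1) * l - 1 ≤ ((q / 2 : ℕ) : ℝ) := by linarith only [hq, hq2]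
    have h4 : (|C| + 1) * l - 2 ≤ ((q / 2 : ℕ) : ℝ) - n0 := by linarith only [h3, hn0']
    have h5 : ((|C| + 1) * l - 2) * Real.log 2521 ≤
        (((q / 2 : ℕ) : ℝ) - n0) * Real.log 2521 :=
      mul_le_mul_of_nonneg_right h4 (by linarith only [h2521])
    have h6 : (|C| + 1) * l ≤ (|C| + 1) * l * Real.log 2521 :=
      le_mul_of_one_le_right (by (clear * -; positivity)) h2521.le
    have h7 : C * l ≤ |C| * l := mul_le_mul_of_nonneg_right (le_abs_self _) hl0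
    have h8 := neg_abs_le (Real.log η)
    linarith only [h8, h7, h6, h5, h1, h2521]
  have hR : 0 < η / 2521 ^ n0 * 2521 ^ (q / 2) := by positivity
  rw [← Real.exp_log (Real.rpow_pos_of_pos hkpos C), ← Real.exp_log hR, Real.exp_lt_exp,
    Real.log_rpow hkpos, Real.log_mul (by positivity) (by positivity),
    Real.log_div hη.ne' (by positivity), Real.log_pow, Real.log_pow]
  exact hlt

end Vale.Agent.P060.HW.LS5
end
end

section

/-!
# The last step of LS: a common biased functional is a cut functional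
-/

open scoped Classical

noncomputable section

set_option linter.unusedSectionVars false

namespace Vale.Agent.P060.HW

open Module

variable {N d : ℕ} {E P Om : Type} [Fintype E] [Fintype P] [Fintype Om] [NeZero N]

theorem card_lins_le_three (c : Ty N d) : (lins c).card ≤ 3 := by
  unfold lins
  exact Finset.card_image_le.trans (by simp)

theorem card_rowLines_le_three (fr : Frame N d E Om) (w : Om) {m : ℕ}
    (hm : (Finset.univ.filter fun c : Ty N d => w ∈ fr.U c).card ≤ m) :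
    (rowLines fr w).card ≤ 3 * m := by
  unfold rowLines
  refine Finset.card_biUnion_le.trans ?_
  refine (Finset.sum_le_sum fun c _ => card_lins_le_three c).trans ?_
  rw [Finset.sum_const, smul_eq_mul, mul_comm]
  exact Nat.mul_le_mul_left 3 hm

theorem rowInd_of_Ev1 (fr : Frame N d E Om) (p : Lin N → Co E P Om → F) {κ m : ℕ}
    (h1 : Ev1 p κ) (hm : ∀ w, (Finset.univ.filter fun c : Ty N d => w ∈ fr.U c).card ≤ m)
    (hκ : 3 + 6 * m ≤ κ) (a' : Ty N d) : RowInd fr p a' := by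
  intro w _ w' _
  refine h1 _ ?_
  have e1 := Finset.card_union_le (lins a' ∪ rowLines fr w) (rowLines fr w')
  have e2 := Finset.card_union_le (lins a') (rowLines fr w)
  have e3 := card_lins_le_three a'
  have e4 := card_rowLines_le_three fr w (hm w)
  have e5 := card_rowLines_le_three fr w' (hm w')
  omega

/-- Products with a surviving vector are trivial up to the cut direction. -/
theorem Surv.sm_mem {fr : Frame N d E Om} {p : Lin N → Co E P Om → F} (h : Ext fr p)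
    {a a' : Ty N d} {u : Co E P Om → F} (hu : Surv fr p a a' u) :
    ∃ c : F, ∀ v, sm u v - c • sm (gv p a) v ∈ (dsg fr p h).Nn a' := by
  obtain ⟨c, c', η, hη, hη', rfl⟩ := hu
  refine ⟨c, fun v => ?_⟩
  have hs : η = ∑ w, η (Sum.inr w) • (Pi.single (Sum.inr w) 1 : Co E P Om → F) := by
    funext j
    rw [Finset.sum_apply]
    cases j with
    | inl j =>
      have : η (Sum.inl j) = 0 := congrFun hη j
      rw [this, Finset.sum_eq_zero]
      intro w _
      simp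
    | inr w0 =>
      rw [Finset.sum_eq_single w0]
      · simp
      · intro w _ hw
        simp [Ne.symm hw]
      · intro h'
        exact absurd (Finset.mem_univ _) h'
  have e1 : sm (c • gv p a + c' • gv p a' + η) v - c • sm (gv p a) v =
      c' • sm v (gv p a') + ∑ w, η (Sum.inr w) • sm (Pi.single (Sum.inr w) 1) v := by
    have e2 : sm η v = ∑ w, η (Sum.inr w) • sm (Pi.single (Sum.inr w) 1 : Co E P Om → F) v := by
      conv_lhs => rw [hs]
      ext i j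
      simp only [sm, Matrix.add_apply, Matrix.vecMulVec_apply, Matrix.sum_apply,
        Matrix.smul_apply, smul_eq_mul, Finset.sum_apply, Pi.smul_apply, Finset.sum_mul,
        Finset.mul_sum, ← Finset.sum_add_distrib]
      refine Finset.sum_congr rfl fun w _ => ?_
      ring
    rw [← e2]
    ext i j
    simp only [sm, Matrix.add_apply, Matrix.vecMulVec_apply, Matrix.sub_apply,
        Matrix.smul_apply, smul_eq_mul, Pi.add_apply, Pi.smul_apply]
    ring
  rw [e1]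
  refine Submodule.add_mem _ (Submodule.smul_mem _ _ ?_) (Submodule.sum_mem _ fun w _ => ?_)
  · exact Submodule.subset_span (Or.inr ⟨v, rfl⟩)
  · by_cases hw : w ∈ fr.U a'
    · refine Submodule.smul_mem _ _ (Submodule.subset_span
        (Or.inl (Or.inr ⟨Sum.inr w, Finset.mem_image_of_mem _ hw, v, ?_⟩)))
      congr
      exact Subsingleton.elim _ _
    · rw [hη' w hw, zero_smul]
      exact Submodule.zero_mem _

theorem smm_two {K : Type*} (x y g g' : K → F) :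
    smm ![x, y] ![g, g'] = sm x g + sm y g' := by
  unfold smm
  rw [Fin.sum_univ_two]
  rfl

theorem smm_mem_of_surv {fr : Frame N d E Om} {p : Lin N → Co E P Om → F} (h : Ext fr p)
    {a a' b b' : Ty N d} {u v : Co E P Om → F} (hu : Surv fr p a a' u) (hv : Surv fr p a a' v) :
    ∃ c c' : F, smm ![u, v] ![(dsg fr p h).g b, (dsg fr p h).g b'] -
      c • sm ((dsg fr p h).g a) ((dsg fr p h).g b) -
      c' • sm ((dsg fr p h).g a) ((dsg fr p h).g b') ∈ (dsg fr p h).Nn a' := by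
  obtain ⟨c, hc⟩ := hu.sm_mem h
  obtain ⟨c', hc'⟩ := hv.sm_mem h
  refine ⟨c, c', ?_⟩
  have e : smm ![u, v] ![(dsg fr p h).g b, (dsg fr p h).g b'] -
      c • sm ((dsg fr p h).g a) ((dsg fr p h).g b) -
      c' • sm ((dsg fr p h).g a) ((dsg fr p h).g b') =
      (sm u (gv p b) - c • sm (gv p a) (gv p b)) +
      (sm v (gv p b') - c' • sm (gv p a) (gv p b')) := by
    rw [smm_two]
    show sm u (gv p b) + sm v (gv p b') - c • sm (gv p a) (gv p b) - c' • sm (gv p a) (gv p b') = _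
    abel
  rw [e]
  exact Submodule.add_mem _ (hc _) (hc' _)

theorem trivPsi_of_surv {fr : Frame N d E Om} {p : Lin N → Co E P Om → F} (h : Ext fr p)
    {a a' : Ty N d} {z : Fin 4 → Co E P Om → F} (h0 : Surv fr p a' a (z 0))
    (h1 : Surv fr p a' a (z 1)) (h2 : Surv fr p a a' (z 2)) (h3 : Surv fr p a a' (z 3))
    (b b' : Ty N d) : TrivPsi (dsg fr p h) a a' b b' z :=
  ⟨smm_mem_of_surv h h0 h1, smm_mem_of_surv h h2 h3⟩

/-! ### The atom of the pair of test functionals -/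

theorem form_symm {K T : Type*} [Fintype K] (δ : Design K T) {a : T} {ι : Bool}
    {B : Matrix K K F} (hB : B ∈ δ.Form a ι) : B.IsSymm := by
  have h1 : (B - (if ι then δ.B0 a else 0)).IsSymm := (hB : _ ∈ δ.Dir a).1.1
  have h2 : (if ι then δ.B0 a else 0 : Matrix K K F).IsSymm := by
    split_ifs
    · exact (δ.B0_mem_Com a).1
    · exact Matrix.isSymm_zero
  have h3 := h1.add h2
  rwa [sub_add_cancel] at h3

/-- The coefficient is a coefficient of the pair `(B z₀ + B' z₂, B z₁ + B' z₃)`. -/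
theorem coef_arg {K : Type*} [Fintype K] {B B' : Matrix K K F} (hB : B.IsSymm) (hB' : B'.IsSymm)
    (g g' : K → F) (z : Fin 4 → K → F) :
    ∑ i, z i ⬝ᵥ tv g g' B B' i =
      (B.mulVec (z 0) + B'.mulVec (z 2)) ⬝ᵥ g + (B.mulVec (z 1) + B'.mulVec (z 3)) ⬝ᵥ g' := by
  rw [Fin.sum_univ_four]
  show z 0 ⬝ᵥ B.mulVec g + z 1 ⬝ᵥ B.mulVec g' + z 2 ⬝ᵥ B'.mulVec g + z 3 ⬝ᵥ B'.mulVec g' = _
  have e : ∀ (A : Matrix K K F), A.IsSymm → ∀ u v : K → F, u ⬝ᵥ A.mulVec v = A.mulVec u ⬝ᵥ v := by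
    intro A hA u v
    rw [Matrix.dotProduct_mulVec, ← Matrix.mulVec_transpose, hA]
  rw [e B hB, e B hB, e B' hB', e B' hB', add_dotProduct, add_dotProduct]
  ring

/-- The law of the pair `(B z₀ + B' z₂, B z₁ + B' z₃)` as a function on `Fin 2 × K → F`. -/
def pairLaw {K : Type*} [Fintype K] (w : Matrix K K F → Matrix K K F → ℝ) (z : Fin 4 → K → F)
    (y : Fin 2 × K → F) : ℝ :=
  ∑ B, ∑ B', if (fun x : Fin 2 × K => (![B.mulVec (z 0) + B'.mulVec (z 2),
    B.mulVec (z 1) + B'.mulVec (z 3)] : Fin 2 → K → F) x.1 x.2) = y then w B B' else 0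

/-- Pairs of matrices (a separate type, to fix the instances). -/
structure PairT (K : Type*) where
  /-- first form -/
  fst : Matrix K K F
  /-- second form -/
  snd : Matrix K K F

/-- Pairs as a product. -/
def PairT.equiv (K : Type*) : Matrix K K F × Matrix K K F ≃ PairT K where
  toFun x := ⟨x.1, x.2⟩
  invFun x := (x.fst, x.snd)
  left_inv _ := rfl
  right_inv _ := rfl

instance instFintypePairT {K : Type*} [Fintype K] : Fintype (PairT K) :=
  Fintype.ofEquiv _ (PairT.equiv K)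

theorem sum_pairT {K : Type*} [Fintype K] {R : Type*} [AddCommMonoid R]
    (f : PairT K → R) : ∑ x, f x = ∑ B : Matrix K K F, ∑ B' : Matrix K K F, f ⟨B, B'⟩ := by
  rw [← (PairT.equiv K).sum_comp, Fintype.sum_prod_type]
  rfl

/-- The law of a pair of forms as a probability space. -/
def lawProb {K T : Type*} [Fintype K] {δ : Design K T} {a a' : T} {ι ι' : Bool} {Λ M : ℝ}
    {w : Matrix K K F → Matrix K K F → ℝ} (hw : PLaw δ a a' ι ι' Λ M w) :
    FinProb (PairT K) where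
  w x := w x.fst x.snd
  nonneg x := hw.nonneg _ _
  sum_one := by
    rw [sum_pairT]
    exact hw.sum_one

theorem pairLaw_eq {K T : Type*} [Fintype K] {δ : Design K T} {a a' : T} {ι ι' : Bool} {Λ M : ℝ}
    {w : Matrix K K F → Matrix K K F → ℝ} (hw : PLaw δ a a' ι ι' Λ M w) (z : Fin 4 → K → F)
    (y : Fin 2 × K → F) :
    pairLaw w z y = (lawProb hw).p (fun x => fun t : Fin 2 × K =>
      (![x.fst.mulVec (z 0) + x.snd.mulVec (z 2),
        x.fst.mulVec (z 1) + x.snd.mulVec (z 3)] : Fin 2 → K → F) t.1 t.2) y := by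
  unfold pairLaw FinProb.p
  rw [sum_pairT]
  refine Finset.sum_congr rfl fun B _ => Finset.sum_congr rfl fun B' _ => ?_
  by_cases hy : (fun t : Fin 2 × K => (![B.mulVec (z 0) + B'.mulVec (z 2),
      B.mulVec (z 1) + B'.mulVec (z 3)] : Fin 2 → K → F) t.1 t.2) = y
  · rw [if_pos hy]
    exact (if_pos hy).symm
  · rw [if_neg hy]
    exact (if_neg hy).symm

theorem sum_p_mul {Ω α : Type*} [Fintype Ω] [Fintype α] (Pr : FinProb Ω) (f : Ω → α)
    (φ : α → ℂ) : ∑ y, (Pr.p f y : ℂ) * φ y = ∑ ω, (Pr.w ω : ℂ) * φ (f ω) := by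
  simp only [FinProb.p]
  push_cast
  simp only [Finset.sum_mul]
  rw [Finset.sum_comm]
  refine Finset.sum_congr rfl fun ω _ => ?_
  rw [Finset.sum_eq_single (f ω)]
  · rw [if_pos rfl]
  · intro y _ hy
    rw [if_neg (Ne.symm hy), Complex.ofReal_zero, zero_mul]
  · intro h'
    exact absurd (Finset.mem_univ _) h'

/-- A common large coefficient on a good family of tests forces an atom. -/
theorem exists_pair_atom {K T : Type*} [Fintype K] {δ : Design K T} {a a' : T} {ι ι' : Bool}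
    {Λ M : ℝ} {w : Matrix K K F → Matrix K K F → ℝ} (hw : PLaw δ a a' ι ι' Λ M w)
    {ψ : AddChar F ℂ} {m n₀ : ℕ} (hm : 0 < m) {η : ℝ} (hη : 0 < η) (G : Fin m → Fin 2 → K → F)
    (hgood : ¬ ∃ y : Fin n₀ → (Fin 2 → K → F), LinearIndependent F y ∧
      ∀ l, η ^ 2 / 2 * m ≤ ∑ s, (ψ (∑ i, y l i ⬝ᵥ G s i)).re)
    (z : Fin 4 → K → F) (hz : ∀ s, η ≤ ‖coefT ψ w (G s 0) (G s 1) z‖) :
    ∃ y : Fin 2 × K → F, η ^ 2 / 2 / 2521 ^ n₀ ≤ pairLaw w z y := by
  have hdot : ∀ (y : Fin 2 × K → F) (g : Fin 2 → K → F),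
      y ⬝ᵥ (fun t : Fin 2 × K => g t.1 t.2) = ∑ i, (fun j => y (i, j)) ⬝ᵥ g i := by
    intro y g
    simp only [dotProduct]
    rw [Fintype.sum_prod_type]
  have key := exists_atom (K := F) (κ := Fin 2 × K) (ψ := ψ) (n := n₀) hm
    (G := fun s t => G s t.1 t.2) (eta := η) ?_ (P := fun y => pairLaw w z y) ?_ ?_ hη ?_
  · obtain ⟨y, hy⟩ := key
    have hF : ((Fintype.card F : ℕ) : ℝ) = 2521 := by
      rw [ZMod.card 2521]
      norm_cast
    rw [hF] at hy
    exact ⟨y, hy⟩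
  · rintro ⟨y, hy, hb⟩
    refine hgood ⟨fun l i j => y l (i, j), ?_, fun l => ?_⟩
    · have := hy.map' (LinearEquiv.curry F F (Fin 2) K).toLinearMap
        (LinearEquiv.ker _)
      exact this
    · have := hb l
      simp only [BiasedAt, hdot] at this
      exact this
  · intro y
    rw [pairLaw_eq hw]
    exact FinProb.p_nonneg _ _ _
  · have h1 := sum_p_mul (lawProb hw) (fun x => fun t : Fin 2 × K =>
      (![x.fst.mulVec (z 0) + x.snd.mulVec (z 2),
        x.fst.mulVec (z 1) + x.snd.mulVec (z 3)] : Fin 2 → K → F) t.1 t.2) (fun _ => 1)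
    simp only [mul_one] at h1
    have h2 : ((∑ y, pairLaw w z y : ℝ) : ℂ) = 1 := by
      push_cast
      simp only [pairLaw_eq hw]
      rw [h1]
      have := (lawProb hw).sum_one
      exact_mod_cast this
    exact_mod_cast h2
  · intro s
    refine (hz s).trans (le_of_eq ?_)
    congr 1
    simp only [pairLaw_eq hw]
    rw [sum_p_mul (lawProb hw) _ (fun y => ψ (y ⬝ᵥ fun t : Fin 2 × K => G s t.1 t.2))]
    unfold coefT
    rw [sum_pairT]
    refine Finset.sum_congr rfl fun B _ => Finset.sum_congr rfl fun B' _ => ?_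
    by_cases h0 : w B B' = 0
    · show (w B B' : ℂ) * _ = (w B B' : ℂ) * _
      rw [h0]
      simp
    · show (w B B' : ℂ) * _ = (w B B' : ℂ) * _
      obtain ⟨hB, hB'⟩ := hw.supp B B' h0
      rw [coef_arg (form_symm δ hB) (form_symm δ hB'), hdot, Fin.sum_univ_two]
      rfl

theorem p_le_of_imp {Ω α β : Type*} [Fintype Ω] (Pr : FinProb Ω) {f : Ω → α} {g : Ω → β}
    {x : α} {y : β} (hfg : ∀ ω, f ω = x → g ω = y) : Pr.p f x ≤ Pr.p g y := by
  unfold FinProb.p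
  refine Finset.sum_le_sum fun ω _ => ?_
  by_cases h : f ω = x
  · rw [if_pos h, if_pos (hfg ω h)]
  · rw [if_neg h]
    split_ifs
    · exact Pr.nonneg ω
    · exact le_rfl

theorem form_row (fr : Frame N d E Om) (p : Lin N → Co E P Om → F) (h : Ext fr p) {a : Ty N d}
    {ι : Bool} {B : Matrix (Co E P Om) (Co E P Om) F} (hB : B ∈ (dsg fr p h).Form a ι)
    {w : Om} (hw : w ∈ fr.U a) (v : Co E P Om) : B (Sum.inr w) v = 0 := by
  have hw' : Sum.inr w ∈ (dsg fr p h).U a := Finset.mem_image_of_mem _ hw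
  have h1 : (B - (if ι then (dsg fr p h).B0 a else 0)) (Sum.inr w) v = 0 :=
    (hB : _ ∈ (dsg fr p h).Dir a).2.1 _ hw' v
  have h2 : (if ι then (dsg fr p h).B0 a else 0 : Matrix (Co E P Om) (Co E P Om) F)
      (Sum.inr w) v = 0 := by
    split_ifs
    · exact (dsg fr p h).B0_row a a hw' v
    · rfl
  rw [Matrix.sub_apply, h2, sub_zero] at h1
  exact h1

theorem lawProb_fst {K T : Type*} [Fintype K] {δ : Design K T} {a a' : T} {ι ι' : Bool}
    {Λ M : ℝ} {w : Matrix K K F → Matrix K K F → ℝ} (hw : PLaw δ a a' ι ι' Λ M w)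
    (B : Matrix K K F) : (lawProb hw).p PairT.fst B * Nat.card (δ.Dir a) ≤ M := by
  have : (lawProb hw).p PairT.fst B = ∑ B', w B B' := by
    unfold FinProb.p
    rw [sum_pairT, Finset.sum_eq_single B]
    · refine Finset.sum_congr rfl fun B' _ => ?_
      rw [if_pos rfl]
      rfl
    · intro B1 _ hB1
      refine Finset.sum_eq_zero fun B' _ => ?_
      rw [if_neg hB1]
    · intro h'
      exact absurd (Finset.mem_univ _) h'
  rw [this]
  exact hw.left B

theorem lawProb_snd {K T : Type*} [Fintype K] {δ : Design K T} {a a' : T} {ι ι' : Bool}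
    {Λ M : ℝ} {w : Matrix K K F → Matrix K K F → ℝ} (hw : PLaw δ a a' ι ι' Λ M w)
    (B' : Matrix K K F) : (lawProb hw).p PairT.snd B' * Nat.card (δ.Dir a') ≤ M := by
  have : (lawProb hw).p PairT.snd B' = ∑ B, w B B' := by
    unfold FinProb.p
    rw [sum_pairT]
    refine Finset.sum_congr rfl fun B _ => ?_
    rw [Finset.sum_eq_single B']
    · rw [if_pos rfl]
      rfl
    · intro B1 _ hB1
      rw [if_neg hB1]
    · intro h'
      exact absurd (Finset.mem_univ _) h'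
  rw [this]
  exact hw.right B'

/-- Probability of `f = y` under the law of the pair of forms. -/
def lawP {K T : Type*} [Fintype K] {δ : Design K T} {a a' : T} {ι ι' : Bool}
    {Λ M : ℝ} {w : Matrix K K F → Matrix K K F → ℝ} (hw : PLaw δ a a' ι ι' Λ M w)
    {α : Type*} (f : PairT K → α) (y : α) : ℝ := (lawProb hw).p f y

theorem lawP_le_of_imp {K T : Type*} [Fintype K] {δ : Design K T} {a a' : T} {ι ι' : Bool}
    {Λ M : ℝ} {w : Matrix K K F → Matrix K K F → ℝ} (hw : PLaw δ a a' ι ι' Λ M w)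
    {α β : Type*} {f : PairT K → α} {g : PairT K → β}
    {x : α} {y : β} (hfg : ∀ ω, f ω = x → g ω = y) : lawP hw f x ≤ lawP hw g y :=
  p_le_of_imp (lawProb hw) hfg

theorem pairLaw_eq' {K T : Type*} [Fintype K] {δ : Design K T} {a a' : T} {ι ι' : Bool} {Λ M : ℝ}
    {w : Matrix K K F → Matrix K K F → ℝ} (hw : PLaw δ a a' ι ι' Λ M w) (z : Fin 4 → K → F)
    (y : Fin 2 × K → F) :
    pairLaw w z y = lawP hw (fun x => fun t : Fin 2 × K =>
      (![x.fst.mulVec (z 0) + x.snd.mulVec (z 2),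
        x.fst.mulVec (z 1) + x.snd.mulVec (z 3)] : Fin 2 → K → F) t.1 t.2) y :=
  pairLaw_eq hw z y

theorem surv_right (fr : Frame N d E Om) (p : Lin N → Co E P Om → F) (h : Ext fr p)
    {a a' : Ty N d} (haa : a ≠ a') (hRI : RowInd fr p a') {ι ι' : Bool} {Λ M : ℝ}
    {w : Matrix (Co E P Om) (Co E P Om) F → Matrix (Co E P Om) (Co E P Om) F → ℝ}
    (hw : PLaw (dsg fr p h) a a' ι ι' Λ M w) {κ : ℝ} (h1 h3 y : Co E P Om → F)
    (hκ : κ ≤ lawP hw (fun x => x.fst.mulVec h1 + x.snd.mulVec h3) y)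
    (hlarge : M < κ * 2521 ^ (fr.q / 2)) : Surv fr p a a' h3 := by
  refine surv_of_atom fr p h haa hRI (lawProb hw) PairT.fst PairT.snd
    (if ι' then (dsg fr p h).B0 a' else 0) ?_ ?_ (lawProb_snd hw) h1 h3 y hκ hlarge
  · intro ω hω u hu v
    exact form_row fr p h (hw.supp _ _ hω).1 hu v
  · intro ω hω
    exact (hw.supp _ _ hω).2

theorem surv_left (fr : Frame N d E Om) (p : Lin N → Co E P Om → F) (h : Ext fr p)
    {a a' : Ty N d} (haa : a ≠ a') (hRI : RowInd fr p a) {ι ι' : Bool} {Λ M : ℝ}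
    {w : Matrix (Co E P Om) (Co E P Om) F → Matrix (Co E P Om) (Co E P Om) F → ℝ}
    (hw : PLaw (dsg fr p h) a a' ι ι' Λ M w) {κ : ℝ} (h1 h3 y : Co E P Om → F)
    (hκ : κ ≤ lawP hw (fun x => x.fst.mulVec h1 + x.snd.mulVec h3) y)
    (hlarge : M < κ * 2521 ^ (fr.q / 2)) : Surv fr p a' a h1 := by
  refine surv_of_atom fr p h haa.symm hRI (lawProb hw) PairT.snd
    PairT.fst (if ι then (dsg fr p h).B0 a else 0) ?_ ?_ (lawProb_fst hw) h3 h1 y
    (hκ.trans (lawP_le_of_imp hw fun ω hω => by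
      rw [← hω, add_comm])) hlarge
  · intro ω hω u hu v
    exact form_row fr p h (hw.supp _ _ hω).2 hu v
  · intro ω hω
    exact (hw.supp _ _ hω).1

/-- LS, LAST STEP.  If one common `z` has a large coefficient on all members of a line-disjoint
family of `m` pairs, then `z` is trivial or a cut functional for all pairs. -/
theorem ls_last (fr : Frame N d E Om) (p : Lin N → Co E P Om → F) (h : Ext fr p)
    {a a' : Ty N d} (haa : a ≠ a') (hRI : RowInd fr p a) (hRI' : RowInd fr p a') {ι ι' : Bool}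
    {Λ M : ℝ} {w : Matrix (Co E P Om) (Co E P Om) F → Matrix (Co E P Om) (Co E P Om) F → ℝ}
    (hw : PLaw (dsg fr p h) a a' ι ι' Λ M w) {ψ : AddChar F ℂ} {m n₀ : ℕ} (hm : 0 < m) {η : ℝ}
    (hη : 0 < η) (hEv : EvB ψ p d m n₀ (η ^ 2 / 2)) (fam : Fin m → Ty N d × Ty N d)
    (hne : ∀ s, (fam s).1 ≠ (fam s).2)
    (hdisj : ∀ s s', s ≠ s' → Disjoint (lins2 (fam s)) (lins2 (fam s')))
    (z : Fin 4 → Co E P Om → F)
    (hz : ∀ s, η ≤ ‖coefT ψ w ((dsg fr p h).g (fam s).1) ((dsg fr p h).g (fam s).2) z‖)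
    (hM : M < η ^ 2 / 2 / 2521 ^ n₀ * 2521 ^ (fr.q / 2)) (b b' : Ty N d) :
    TrivPsi (dsg fr p h) a a' b b' z := by
  have hgood : ¬ ∃ y : Fin n₀ → (Fin 2 → Co E P Om → F), LinearIndependent F y ∧
      ∀ l, η ^ 2 / 2 * m ≤ ∑ s, (ψ (∑ i, y l i ⬝ᵥ g2 p (fam s) i)).re := by
    rintro ⟨y, hy, hb⟩
    obtain ⟨l, hl⟩ := hEv fam hne hdisj y hy
    exact absurd (hb l) (not_le.2 hl)
  obtain ⟨y, hy⟩ := exists_pair_atom hw hm hη (fun s => g2 p (fam s)) hgood z hz
  rw [pairLaw_eq' hw] at hy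
  set κ := η ^ 2 / 2 / 2521 ^ n₀ with hκ
  have hy0 : κ ≤ lawP hw (fun x => x.fst.mulVec (z 0) + x.snd.mulVec (z 2))
      (fun j => y (0, j)) := hy.trans (lawP_le_of_imp hw fun ω hω => by
    funext j
    exact congrFun hω (0, j))
  have hy1 : κ ≤ lawP hw (fun x => x.fst.mulVec (z 1) + x.snd.mulVec (z 3))
      (fun j => y (1, j)) := hy.trans (lawP_le_of_imp hw fun ω hω => by
    funext j
    exact congrFun hω (1, j))
  exact trivPsi_of_surv h (surv_left fr p h haa hRI hw _ _ _ hy0 hM)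
    (surv_left fr p h haa hRI hw _ _ _ hy1 hM)
    (surv_right fr p h haa hRI' hw _ _ _ hy0 hM)
    (surv_right fr p h haa hRI' hw _ _ _ hy1 hM) b b'

end Vale.Agent.P060.HW
end
end

section

/-! Existence of event (i), part 2: the exceptional sets and their probability. -/

open scoped Classical

noncomputable section

set_option linter.unusedSectionVars false

namespace Vale.Agent.P060.HW

open Module

section WE

variable {ι : Type*} [Fintype ι] [DecidableEq ι]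

lemma numeric_hj (Cn k κι : ℕ) :
    (Cn + 3) * k + (2 + 3 * 2 * (8 * (Cn + 3)) + κι * (2 - 1)) * (8 * (Cn + 3)) <
      (κι + 6 * (8 * (Cn + 3)) + 4 + k / 8) * (8 * (Cn + 3)) := by
  have hk : k ≤ 8 * (k / 8) + 7 := by omega
  have h1 : (Cn + 3) * k ≤ (Cn + 3) * (8 * (k / 8) + 7) := Nat.mul_le_mul_left _ hk
  generalize k / 8 = q at *
  have h2 : (2 - 1 : ℕ) = 1 := rfl
  rw [h2, mul_one]
  nlinarith [Nat.zero_le Cn, Nat.zero_le q]

lemma numeric_hJ (Cn k κι : ℕ) (h1 : 8 * κι ≤ 10 * k) :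
    (Cn + 3) * k + 2 * κι + 1 + (8 * (Cn + 6)) * (8 * (Cn + 6)) <
      (k / 8 + 8 * (Cn + 6) + 2) * (8 * (Cn + 6)) := by
  have hk : k ≤ 8 * (k / 8) + 7 := by omega
  have h2 : 2 * κι ≤ 3 * k := by omega
  have h3 : (Cn + 6) * k ≤ (Cn + 6) * (8 * (k / 8) + 7) := Nat.mul_le_mul_left _ hk
  generalize k / 8 = q at *
  nlinarith [Nat.zero_le Cn, Nat.zero_le q]

/-- The counting lemma with explicit sizes. -/
theorem exists_WE (Cn k : ℕ) (h1 : 8 * Fintype.card ι ≤ 10 * k)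
    (h2 : 8 * (8 * (8 * (Cn + 3)) + 8 * (Cn + 6) + 7) ≤ k)
    (Lam : Submodule F (Matrix ι ι F)) (hD : finrank F Lam ≤ (Cn + 3) * k) :
    ∃ (W : Submodule F (ι → F)) (Ex : Finset (Fin 2 → ι → F)),
      finrank F W ≤ 4 * (8 * (Cn + 3)) ∧ (Ex.card : ℝ) ≤ (2521 : ℝ) ^ ((3 / 2 : ℝ) * k) ∧
      ∀ g ∉ Ex, IndMod W g ∧ ∀ h : Fin 2 → ι → F, smm h g ∈ Lam →
        ∃ w : Fin 2 → ι → F, (∀ i, w i ∈ W) ∧ smm w g = smm h g := by
  have hcF : Fintype.card F = 2521 := ZMod.card 2521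
  have h2F : (2 : F) ≠ 0 := by decide
  obtain ⟨W, Ex, hW, hEx, hg⟩ := exists_Wq (d := 2) h2F Lam (D := (Cn + 3) * k)
    (j := 8 * (Cn + 3)) (B := 2521 ^ (Fintype.card ι + 6 * (8 * (Cn + 3)) + 4 + k / 8))
    (J := 8 * (Cn + 6)) (B' := 2521 ^ (k / 8 + 8 * (Cn + 6) + 2)) hD
    (by
      rw [hcF, ← pow_mul]
      exact Nat.pow_lt_pow_right (by norm_num) (numeric_hj Cn k _))
    (by
      rw [hcF, ← pow_mul]
      exact Nat.pow_lt_pow_right (by norm_num) (numeric_hJ Cn k _ h1))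
  refine ⟨W, Ex, le_trans hW (by omega), ?_, hg⟩
  set κι := Fintype.card ι with hκ
  set j := 8 * (Cn + 3) with hj
  set J := 8 * (Cn + 6) with hJ
  set X : ℕ := κι + k / 8 + 8 * j + J + 6 with hX
  have hpow : ∀ {a : ℕ}, a ≤ X → 2521 ^ a ≤ 2521 ^ X := fun h =>
    Nat.pow_le_pow_right (by norm_num) h
  have hle : Ex.card ≤ 2521 ^ (X + 1) := by
    refine le_trans hEx ?_
    rw [hcF]
    have e1 : 2521 ^ (κι + 6 * j + 4 + k / 8) ≤ 2521 ^ X := hpow (by omega)
    have e2 : 2521 ^ (2 + 2 * 2 * (j - 1) + κι * (2 - 1)) ≤ 2521 ^ X := hpow (by omega)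
    have e3 : 2521 ^ (2 * 2 * (j - 1) * 2 + 2 * 2) *
        (2521 ^ (κι * (2 - 1)) * (2521 ^ (k / 8 + J + 2) + 2521 ^ J)) ≤ 2 * 2521 ^ X := by
      have e4 : 2521 ^ J ≤ 2521 ^ (k / 8 + J + 2) := Nat.pow_le_pow_right (by norm_num) (by omega)
      calc 2521 ^ (2 * 2 * (j - 1) * 2 + 2 * 2) *
          (2521 ^ (κι * (2 - 1)) * (2521 ^ (k / 8 + J + 2) + 2521 ^ J))
          ≤ 2521 ^ (2 * 2 * (j - 1) * 2 + 2 * 2) *
          (2521 ^ (κι * (2 - 1)) * (2521 ^ (k / 8 + J + 2) + 2521 ^ (k / 8 + J + 2))) :=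
            Nat.mul_le_mul_left _ (Nat.mul_le_mul_left _ (Nat.add_le_add_left e4 _))
        _ = 2 * 2521 ^ (2 * 2 * (j - 1) * 2 + 2 * 2 + κι * (2 - 1) + (k / 8 + J + 2)) := by
            rw [pow_add, pow_add]; ring
        _ ≤ 2 * 2521 ^ X := Nat.mul_le_mul_left _ (hpow (by omega))
    have e5 : (2521 : ℕ) ^ (X + 1) = 2521 ^ X * 2521 := pow_succ _ _
    rw [e5]
    refine le_trans (Nat.add_le_add (Nat.add_le_add e1 e2) e3) ?_
    generalize (2521 : ℕ) ^ X = y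
    omega
  have hle' : (Ex.card : ℝ) ≤ (2521 : ℝ) ^ (X + 1 : ℕ) := by exact_mod_cast hle
  refine le_trans hle' ?_
  rw [← Real.rpow_natCast]
  refine Real.rpow_le_rpow_of_exponent_le (by norm_num) ?_
  have h3 : ((k / 8 : ℕ) : ℝ) ≤ k / 8 := Nat.cast_div_le
  have h4 : (8 : ℝ) * κι ≤ 10 * k := by exact_mod_cast h1
  have h5 : (8 : ℝ) * (8 * j + J + 7) ≤ k := by exact_mod_cast h2
  rw [hX]
  push_cast
  linarith only [h3, h4, h5]

end WE

variable {N d : ℕ} {E P Om : Type} [Fintype E] [Fintype P] [Fintype Om] [NeZero N]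

lemma rz_cases (Z : Finset Om) (x : Co E P Om) :
    (∀ v : Co E P Om → F, rz Z v x = 0) ∨ ∀ v : Co E P Om → F, rz Z v x = v x := by
  rcases x with (t | i) | w
  · exact Or.inl fun v => rfl
  · exact Or.inr fun v => rfl
  · by_cases h : w ∈ Z
    · refine Or.inr fun v => ?_
      show (if w ∈ Z then v (Sum.inr w) else 0) = _
      rw [if_pos h]
    · refine Or.inl fun v => ?_
      show (if w ∈ Z then v (Sum.inr w) else 0) = _
      rw [if_neg h]

lemma rz_rz (Z : Finset Om) (v : Co E P Om → F) : rz Z (rz Z v) = rz Z v := by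
  funext x
  rcases rz_cases Z x with h | h
  · rw [h, h]
  · rw [h]

lemma smm_apply {ι : Type*} (h g : Fin 2 → ι → F) (x y : ι) :
    smm h g x y = ∑ i, (h i x * g i y + g i x * h i y) := by
  rw [smm, Matrix.sum_apply]
  refine Finset.sum_congr rfl fun i _ => ?_
  simp only [sm, Matrix.add_apply, Matrix.vecMulVec_apply]

/-- Outside the exceptional set a pair is not bad. -/
lemma not_bad (Z : Finset Om) (p : Lin N → Co E P Om → F) (β : Ty N d × Ty N d)
    (Lam : Submodule F (Matrix (Co E P Om) (Co E P Om) F)) (W : Submodule F (Co E P Om → F))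
    (hg : IndMod W (fun i => rz Z (g2 p β i)) ∧ ∀ h : Fin 2 → Co E P Om → F,
      smm h (fun i => rz Z (g2 p β i)) ∈ Lam →
        ∃ w : Fin 2 → Co E P Om → F, (∀ i, w i ∈ W) ∧
          smm w (fun i => rz Z (g2 p β i)) = smm h (fun i => rz Z (g2 p β i))) :
    ¬ BadZ p Z Lam (W ⊓ LinearMap.ker (rz Z - LinearMap.id)) β := by
  obtain ⟨hI, hh⟩ := hg
  rintro (hb | ⟨h, hL, hn⟩)
  · exact hb fun c hc => hI c hc.1
  · obtain ⟨w, hw, he⟩ := hh _ hL
    refine hn ⟨w, fun i => Submodule.mem_inf.2 ⟨hw i, ?_⟩, he⟩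
    rw [LinearMap.mem_ker, LinearMap.sub_apply, LinearMap.id_apply, sub_eq_zero]
    funext x
    rcases rz_cases Z x with hx | hx
    · rw [hx]
      have h0 : ∑ i, w i x • (fun i => rz Z (g2 p β i)) i = 0 := by
        funext y
        have h1 : smm w (fun i => rz Z (g2 p β i)) x y =
            smm (fun i => rz Z (h i)) (fun i => rz Z (g2 p β i)) x y := by rw [he]
        rw [smm_apply, smm_apply] at h1
        simp only [hx, zero_mul, add_zero, Finset.sum_const_zero] at h1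
        rw [Finset.sum_apply]
        simpa [smul_eq_mul] using h1
      have h2 := hI (fun i => w i x) (by rw [h0]; exact W.zero_mem)
      exact (congrFun h2 i).symm
    · exact hx (w i)

/-! ### The probability of an exceptional pair -/

lemma rz_gv_apply (fr : Frame N d E Om) (Z : Finset Om) (x : Lin N → (P ⊕ Om) → F) (c : Ty N d)
    (i : P) : rz Z (gv (extp fr x) c) (Sum.inl (Sum.inr i)) = ∑ s, x (lin c s) (Sum.inl i) := by
  show gv (extp fr x) c (Sum.inl (Sum.inr i)) = _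
  unfold gv
  rw [Finset.sum_apply]
  rfl

lemma exi_mem_lins (c : Ty N d) (s : Fin 3) : lin c s ∈ lins c :=
  Finset.mem_image_of_mem _ (Finset.mem_univ s)

/-- The translations. -/
def trl (u0 u1 : Lin N) (c : Fin 2 → P → F) (y : Lin N → (P ⊕ Om) → F) : Lin N → (P ⊕ Om) → F :=
  fun u => y u + (if u = u0 then Sum.elim (c 0) (fun _ => 0) else 0) +
    (if u = u1 then Sum.elim (c 1) (fun _ => 0) else 0)

lemma trl_apply (u0 u1 : Lin N) (c : Fin 2 → P → F) (y : Lin N → (P ⊕ Om) → F) (u : Lin N)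
    (i : P) : trl u0 u1 c y u (Sum.inl i) =
      y u (Sum.inl i) + (if u = u0 then c 0 i else 0) + (if u = u1 then c 1 i else 0) := by
  unfold trl
  rw [Pi.add_apply, Pi.add_apply]
  congr 1
  · congr 1
    split_ifs <;> rfl
  · split_ifs <;> rfl

lemma g2_zero (p : Lin N → Co E P Om → F) (β : Ty N d × Ty N d) : g2 p β 0 = gv p β.1 := rfl

lemma g2_one (p : Lin N → Co E P Om → F) (β : Ty N d × Ty N d) : g2 p β 1 = gv p β.2 := rfl

lemma exi_lin_inj {b b' : Ty N d} {s s' : Fin 3} (h : lin b s = lin b' s') :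
    s = s' ∧ ln b s = ln b' s' := ⟨congrArg Prod.fst h, congrArg Prod.snd h⟩

lemma sum_ite_same (b : Ty N d) (s1 : Fin 3) (t : F) :
    (∑ s, if lin b s = lin b s1 then t else 0) = t := by
  rw [Finset.sum_eq_single s1]
  · rw [if_pos rfl]
  · intro s _ hs
    rw [if_neg]
    intro h'
    exact hs (exi_lin_inj h').1
  · intro h'
    exact absurd (Finset.mem_univ _) h'

lemma sum_ite_ne {b b' : Ty N d} {s1 : Fin 3} (h : ln b s1 ≠ ln b' s1) (t : F) :
    (∑ s, if lin b s = lin b' s1 then t else 0) = 0 := by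
  refine Finset.sum_eq_zero fun s _ => ?_
  rw [if_neg]
  intro h'
  obtain ⟨h1, h2⟩ := exi_lin_inj h'
  subst h1
  exact h h2

lemma rz_gv_trl (fr : Frame N d E Om) (Z : Finset Om) (S : Finset (Lin N)) (b : Ty N d)
    (hb : ∀ s, lin b s ∈ S) (x y : Lin N → (P ⊕ Om) → F) (u0 u1 : Lin N) (c : Fin 2 → P → F)
    (a : P) :
    rz Z (gv (extp fr (S.piecewise (trl u0 u1 c y) x)) b) (Sum.inl (Sum.inr a)) =
      rz Z (gv (extp fr (S.piecewise y x)) b) (Sum.inl (Sum.inr a)) +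
        (∑ s, if lin b s = u0 then c 0 a else 0) + (∑ s, if lin b s = u1 then c 1 a else 0) := by
  rw [rz_gv_apply, rz_gv_apply, ← Finset.sum_add_distrib, ← Finset.sum_add_distrib]
  refine Finset.sum_congr rfl fun s _ => ?_
  rw [Finset.piecewise_eq_of_mem _ _ _ (hb s), Finset.piecewise_eq_of_mem _ _ _ (hb s),
    trl_apply]

lemma key_trl (fr : Frame N d E Om) (Z : Finset Om) (β : Ty N d × Ty N d) {s1 : Fin 3}
    (hs1 : ln β.1 s1 ≠ ln β.2 s1) (x y : Lin N → (P ⊕ Om) → F) (c : Fin 2 → P → F)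
    (i : Fin 2) (a : P) :
    rz Z (g2 (extp fr ((lins2 β).piecewise (trl (lin β.1 s1) (lin β.2 s1) c y) x)) β i)
        (Sum.inl (Sum.inr a)) =
      rz Z (g2 (extp fr ((lins2 β).piecewise y x)) β i) (Sum.inl (Sum.inr a)) + c i a := by
  revert i
  rw [Fin.forall_fin_two]
  constructor
  · rw [g2_zero, g2_zero, rz_gv_trl fr Z (lins2 β) β.1 (fun s => Finset.mem_union_left _ (exi_mem_lins _ _)),
      sum_ite_same, sum_ite_ne hs1, add_zero]
  · rw [g2_one, g2_one, rz_gv_trl fr Z (lins2 β) β.2 (fun s => Finset.mem_union_right _ (exi_mem_lins _ _)),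
      sum_ite_same, sum_ite_ne (Ne.symm hs1), add_zero]

/-- The restricted vectors of a pair lie in an exceptional set. -/
def ExcEv (Z : Finset Om) (p : Lin N → Co E P Om → F) (β : Ty N d × Ty N d)
    (Ex : Finset (Fin 2 → Co E P Om → F)) : Prop :=
  (fun i => rz Z (g2 p β i)) ∈ Ex

theorem card_exc_le (fr : Frame N d E Om) (Z : Finset Om) (β : Ty N d × Ty N d)
    (hβ : β.1 ≠ β.2) (x : Lin N → (P ⊕ Om) → F) (Ex : Finset (Fin 2 → Co E P Om → F)) :
    (Finset.univ.filter fun y : Lin N → (P ⊕ Om) → F =>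
      ExcEv Z (extp fr ((lins2 β).piecewise y x)) β Ex).card *
      Fintype.card (Fin 2 → P → F) ≤ Ex.card * Fintype.card (Lin N → (P ⊕ Om) → F) := by
  obtain ⟨s1, hs1⟩ : ∃ s1, ln β.1 s1 ≠ ln β.2 s1 := by
    by_contra hcon
    push Not at hcon
    exact hβ (fr.share_two β.1 β.2 0 1 (by decide) (hcon 0) (hcon 1))
  refine card_fibre_le (fun y : Lin N → (P ⊕ Om) → F => fun i =>
    rz Z (g2 (extp fr ((lins2 β).piecewise y x)) β i))
    (fun c y => trl (lin β.1 s1) (lin β.2 s1) c y) ?_ Ex _ (fun y hy => hy)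
  intro y y' c c' hG hτ
  have hc : c = c' := by
    funext i a
    have h1 := key_trl fr Z β hs1 x y c i a
    have h2 := key_trl fr Z β hs1 x y' c' i a
    have h3 : rz Z (g2 (extp fr ((lins2 β).piecewise y x)) β i) =
        rz Z (g2 (extp fr ((lins2 β).piecewise y' x)) β i) := congrFun hG i
    have h4 : trl (lin β.1 s1) (lin β.2 s1) c y = trl (lin β.1 s1) (lin β.2 s1) c' y' := hτ
    rw [h4, h2, h3] at h1
    exact (add_left_cancel h1).symm
  subst hc
  refine ⟨?_, rfl⟩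
  funext u
  have h1 : trl (lin β.1 s1) (lin β.2 s1) c y u = trl (lin β.1 s1) (lin β.2 s1) c y' u :=
    congrFun hτ u
  unfold trl at h1
  exact add_right_cancel (add_right_cancel h1)

end Vale.Agent.P060.HW
end
end

section

/-! Existence of event (i), part 3: union bound. -/

open scoped Classical

noncomputable section

set_option linter.unusedSectionVars false

namespace Vale.Agent.P060.HW

open Module

variable {N d : ℕ} {E P Om : Type} [Fintype E] [Fintype P] [Fintype Om] [NeZero N]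

lemma extp_congr (fr : Frame N d E Om) {x y : Lin N → (P ⊕ Om) → F} {u : Lin N} (h : x u = y u) :
    extp fr x u = extp fr y u := by
  funext j
  rcases j with (t | i) | w
  · rfl
  · show x u (Sum.inl i) = y u (Sum.inl i)
    rw [h]
  · show x u (Sum.inr w) = y u (Sum.inr w)
    rw [h]

/-- The probability bound for fixed data. -/
theorem card_data_le (fr : Frame N d E Om) (Z : Finset Om) (a : Ty N d) {R : ℕ}
    (q : Fin R → Option (Dat E P Om N d)) {m : ℕ} (fam : Fin m → Ty N d × Ty N d)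
    (hne : ∀ i, (fam i).1 ≠ (fam i).2)
    (hdisj : ∀ i j, i ≠ j → Disjoint (lins2 (fam i)) (lins2 (fam j)))
    (hL0 : ∀ i, Disjoint (lins2 (fam i)) (linQ fr Z a q))
    (Ef : Submodule F (Matrix (Co E P Om) (Co E P Om) F) → Finset (Fin 2 → Co E P Om → F))
    {κ : ℝ} (hκ : 0 ≤ κ)
    (hEf : ∀ x : Lin N → (P ⊕ Om) → F, ((Ef (LamQ fr (extp fr x) Z a q)).card : ℝ) ≤
      κ * Fintype.card (Fin 2 → P → F)) :
    ((Finset.univ.filter fun x : Lin N → (P ⊕ Om) → F =>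
      ∀ i, ExcEv Z (extp fr x) (fam i) (Ef (LamQ fr (extp fr x) Z a q))).card : ℝ) ≤
      κ ^ m * Fintype.card (Lin N → (P ⊕ Om) → F) := by
  have h := card_all_le (V := (P ⊕ Om) → F) (fun i => lins2 (fam i)) (linQ fr Z a q)
    (fun i x => ExcEv Z (extp fr x) (fam i) (Ef (LamQ fr (extp fr x) Z a q))) hκ Finset.univ
    (fun i _ j _ hij => hdisj i j hij) (fun i _ => hL0 i) ?_ ?_
  · rw [Finset.card_univ, Fintype.card_fin] at h
    refine le_trans (Nat.cast_le.2 (Finset.card_le_card ?_)) h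
    intro x hx
    simp only [Finset.mem_filter, Finset.mem_univ, true_and, forall_const] at hx ⊢
    exact hx
  · intro i _ x y hxy
    have h1 : LamQ fr (extp fr x) Z a q = LamQ fr (extp fr y) Z a q :=
      lamQ_congr fr Z a q fun u hu => extp_congr fr (hxy u (Finset.mem_union_right _ hu))
    have h2 : g2 (extp fr x) (fam i) = g2 (extp fr y) (fam i) :=
      g2_congr fun u hu => extp_congr fr (hxy u (Finset.mem_union_left _ hu))
    unfold ExcEv
    rw [h1, h2]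
  · intro i _ x
    have h1 : ∀ y : Lin N → (P ⊕ Om) → F,
        LamQ fr (extp fr ((lins2 (fam i)).piecewise y x)) Z a q = LamQ fr (extp fr x) Z a q := by
      intro y
      refine lamQ_congr fr Z a q fun u hu => extp_congr fr ?_
      rw [Finset.piecewise_eq_of_notMem]
      exact Finset.disjoint_right.1 (hL0 i) hu
    have h2 := card_exc_le fr Z (fam i) (hne i) x (Ef (LamQ fr (extp fr x) Z a q))
    refine le_trans (b := ((Finset.univ.filter fun y : Lin N → (P ⊕ Om) → F =>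
        ExcEv Z (extp fr ((lins2 (fam i)).piecewise y x)) (fam i)
          (Ef (LamQ fr (extp fr x) Z a q))).card : ℝ)) ?_ ?_
    · refine Nat.cast_le.2 (Finset.card_le_card ?_)
      intro y hy
      rw [Finset.mem_filter] at hy ⊢
      obtain ⟨h6, h7⟩ := hy
      rw [h1 y] at h7
      exact ⟨h6, h7⟩
    have hC : (0 : ℝ) < Fintype.card (Fin 2 → P → F) := Nat.cast_pos.2 Fintype.card_pos
    have h4 : ((Finset.univ.filter fun y : Lin N → (P ⊕ Om) → F =>
        ExcEv Z (extp fr ((lins2 (fam i)).piecewise y x)) (fam i)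
          (Ef (LamQ fr (extp fr x) Z a q))).card : ℝ) * Fintype.card (Fin 2 → P → F) ≤
        ((Ef (LamQ fr (extp fr x) Z a q)).card : ℝ) * Fintype.card (Lin N → (P ⊕ Om) → F) := by
      exact_mod_cast h2
    have h5 := le_trans h4 (mul_le_mul_of_nonneg_right (hEf x)
      (Nat.cast_nonneg (Fintype.card (Lin N → (P ⊕ Om) → F))))
    have h6 : κ * (Fintype.card (Fin 2 → P → F) : ℝ) * Fintype.card (Lin N → (P ⊕ Om) → F) =
        κ * Fintype.card (Lin N → (P ⊕ Om) → F) * Fintype.card (Fin 2 → P → F) := by ring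
    rw [h6] at h5
    exact le_of_mul_le_mul_right h5 hC

/-- The data of the union bound. -/
abbrev Dat4 (E P Om : Type) (N d R m : ℕ) : Type :=
  Finset Om × Ty N d × (Fin R → Option (Dat E P Om N d)) × (Fin m → Ty N d × Ty N d)

instance fintypeDat4 (R m : ℕ) : Fintype (Dat4 E P Om N d R m) :=
  @instFintypeProd _ _ inferInstance (@instFintypeProd _ _ inferInstance
    (@instFintypeProd _ _ inferInstance inferInstance))

/-- The bad event of given data. -/
def BadD (fr : Frame N d E Om)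
    (Ef : Submodule F (Matrix (Co E P Om) (Co E P Om) F) → Finset (Fin 2 → Co E P Om → F))
    (t R m : ℕ) (D : Dat4 E P Om N d R m) (x : Lin N → (P ⊕ Om) → F) : Prop :=
  (D.1.card ≤ t ∧ (∀ i, (D.2.2.2 i).1 ≠ (D.2.2.2 i).2) ∧
    (∀ i j, i ≠ j → Disjoint (lins2 (D.2.2.2 i)) (lins2 (D.2.2.2 j))) ∧
    (∀ i, Disjoint (lins2 (D.2.2.2 i)) (linQ fr D.1 D.2.1 D.2.2.1))) ∧
  ∀ i, ExcEv D.1 (extp fr x) (D.2.2.2 i) (Ef (LamQ fr (extp fr x) D.1 D.2.1 D.2.2.1))

theorem card_badD_le (fr : Frame N d E Om)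
    (Ef : Submodule F (Matrix (Co E P Om) (Co E P Om) F) → Finset (Fin 2 → Co E P Om → F))
    (t R m : ℕ) {κ : ℝ} (hκ : 0 ≤ κ)
    (hEf : ∀ (x : Lin N → (P ⊕ Om) → F) (Z : Finset Om) (a : Ty N d)
      (q : Fin R → Option (Dat E P Om N d)), Z.card ≤ t →
      ((Ef (LamQ fr (extp fr x) Z a q)).card : ℝ) ≤ κ * Fintype.card (Fin 2 → P → F)) :
    ((Finset.univ.filter fun x : Lin N → (P ⊕ Om) → F =>
      ∃ D : Dat4 E P Om N d R m, BadD fr Ef t R m D x).card : ℝ) ≤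
      Fintype.card (Dat4 E P Om N d R m) * (κ ^ m * Fintype.card (Lin N → (P ⊕ Om) → F)) := by
  have h1 : (Finset.univ.filter fun x : Lin N → (P ⊕ Om) → F =>
      ∃ D : Dat4 E P Om N d R m, BadD fr Ef t R m D x) ⊆
      Finset.univ.biUnion fun D : Dat4 E P Om N d R m =>
        Finset.univ.filter fun x : Lin N → (P ⊕ Om) → F => BadD fr Ef t R m D x := by
    intro x hx
    obtain ⟨D, hD⟩ := (Finset.mem_filter.1 hx).2
    exact Finset.mem_biUnion.2 ⟨D, Finset.mem_univ _, Finset.mem_filter.2 ⟨Finset.mem_univ _, hD⟩⟩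
  have h2 : ((Finset.univ.filter fun x : Lin N → (P ⊕ Om) → F =>
      ∃ D : Dat4 E P Om N d R m, BadD fr Ef t R m D x).card : ℝ) ≤
      ∑ D : Dat4 E P Om N d R m, ((Finset.univ.filter fun x : Lin N → (P ⊕ Om) → F =>
        BadD fr Ef t R m D x).card : ℝ) := by
    exact_mod_cast le_trans (Finset.card_le_card h1) Finset.card_biUnion_le
  refine le_trans h2 ?_
  have h3 : ∀ D : Dat4 E P Om N d R m, ((Finset.univ.filter fun x : Lin N → (P ⊕ Om) → F =>
        BadD fr Ef t R m D x).card : ℝ) ≤ κ ^ m * Fintype.card (Lin N → (P ⊕ Om) → F) := by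
    intro D
    by_cases hD : D.1.card ≤ t ∧ (∀ i, (D.2.2.2 i).1 ≠ (D.2.2.2 i).2) ∧
      (∀ i j, i ≠ j → Disjoint (lins2 (D.2.2.2 i)) (lins2 (D.2.2.2 j))) ∧
      (∀ i, Disjoint (lins2 (D.2.2.2 i)) (linQ fr D.1 D.2.1 D.2.2.1))
    · refine le_trans ?_ (card_data_le fr D.1 D.2.1 D.2.2.1 D.2.2.2 hD.2.1 hD.2.2.1 hD.2.2.2 Ef hκ
        fun x => hEf x D.1 D.2.1 D.2.2.1 hD.1)
      refine Nat.cast_le.2 (Finset.card_le_card ?_)
      intro x hx
      rw [Finset.mem_filter] at hx ⊢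
      exact ⟨hx.1, hx.2.2⟩
    · have h0 : (Finset.univ.filter fun x : Lin N → (P ⊕ Om) → F =>
          BadD fr Ef t R m D x) = ∅ := by
        rw [Finset.filter_eq_empty_iff]
        intro x _ hx
        exact hD hx.1
      rw [h0, Finset.card_empty, Nat.cast_zero]
      exact mul_nonneg (pow_nonneg hκ _) (Nat.cast_nonneg _)
  refine le_trans (Finset.sum_le_sum fun D _ => h3 D) ?_
  rw [Finset.sum_const, Finset.card_univ, nsmul_eq_mul]

/-- Outside the bad events the event (i) holds. -/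
theorem evI_of_not_bad (fr : Frame N d E Om) (x : Lin N → (P ⊕ Om) → F)
    (Wf : Submodule F (Matrix (Co E P Om) (Co E P Om) F) → Submodule F (Co E P Om → F))
    (Ef : Submodule F (Matrix (Co E P Om) (Co E P Om) F) → Finset (Fin 2 → Co E P Om → F))
    (t R s m : ℕ)
    (hWE : ∀ (Z : Finset Om) (a : Ty N d) (q : Fin R → Option (Dat E P Om N d)), Z.card ≤ t →
      finrank F (Wf (LamQ fr (extp fr x) Z a q)) ≤ s ∧
      ∀ g ∉ Ef (LamQ fr (extp fr x) Z a q), IndMod (Wf (LamQ fr (extp fr x) Z a q)) g ∧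
        ∀ h : Fin 2 → Co E P Om → F, smm h g ∈ LamQ fr (extp fr x) Z a q →
        ∃ w : Fin 2 → Co E P Om → F, (∀ i, w i ∈ Wf (LamQ fr (extp fr x) Z a q)) ∧
          smm w g = smm h g)
    (hx : ∀ D : Dat4 E P Om N d R (m + 1), ¬ BadD fr Ef t R (m + 1) D x) :
    EvI fr (extp fr x) t R s m := by
  intro Z hZ a J H hJ
  obtain ⟨q, hq1, hq2⟩ := exists_q (P := P) fr Z a J H hJ
  obtain ⟨h1, h2⟩ := hWE Z a q hZ
  rw [hq2 (extp fr x)]
  set Λ := LamQ fr (extp fr x) Z a q with hΛ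
  refine ⟨Wf Λ ⊓ LinearMap.ker (rz Z - LinearMap.id),
    le_trans (Submodule.finrank_mono inf_le_left) h1, ?_, ?_⟩
  · intro v hv
    have h3 := (Submodule.mem_inf.1 hv).2
    rw [LinearMap.mem_ker, LinearMap.sub_apply, LinearMap.id_apply, sub_eq_zero] at h3
    exact h3
  · intro 𝓕 hLD hne hda hdJ hdw hbad
    by_contra hcon
    push Not at hcon
    obtain ⟨𝓕', hsub, hcard⟩ := Finset.exists_subset_card_eq (Nat.succ_le_of_lt hcon)
    let e := 𝓕'.equivFinOfCardEq hcard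
    refine hx (Z, a, q, fun i => (e.symm i).1) ⟨⟨hZ, ?_, ?_, ?_⟩, ?_⟩
    · intro i
      exact hne _ (hsub (e.symm i).2)
    · intro i j hij
      refine hLD _ (hsub (e.symm i).2) _ (hsub (e.symm j).2) fun h => hij ?_
      exact e.symm.injective (Subtype.ext h)
    · intro i
      rw [Finset.disjoint_left]
      intro u hu huL
      have hmem := hsub (e.symm i).2
      unfold linQ at huL
      rcases (Finset.mem_filter.1 huL).2 with h | ⟨l, β, h, hl, h'⟩ | ⟨w, hw, h⟩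
      · exact Finset.disjoint_left.1 (hda _ hmem) hu h
      · exact Finset.disjoint_left.1 (hdJ _ hmem β (hq1 l β h hl)) hu h'
      · exact Finset.disjoint_left.1 (hdw _ hmem w hw) hu h
    · intro i
      by_contra hE
      exact not_bad Z (extp fr x) _ Λ (Wf Λ) (h2 _ hE) (hbad _ (hsub (e.symm i).2))

end Vale.Agent.P060.HW
end
end

section

/-! Existence of event (i): numerical part and the theorem. -/

open scoped Classical

noncomputable section

set_option linter.unusedSectionVars false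

namespace Vale.Agent.P060.HW

open Module

/-- The fourth root of `2521`. -/
def rho : ℝ := (2521 : ℝ) ^ (1 / 4 : ℝ)

lemma rho_nonneg : 0 ≤ rho := Real.rpow_nonneg (by norm_num) _

lemma rho_pow_four : rho ^ 4 = 2521 := by
  unfold rho
  rw [← Real.rpow_natCast, ← Real.rpow_mul (by norm_num)]
  norm_num

lemma seven_lt_rho : 7 < rho := by
  refine lt_of_pow_lt_pow_left₀ 4 rho_nonneg ?_
  rw [rho_pow_four]
  norm_num

lemma rho_pos : 0 < rho := lt_trans (by norm_num) seven_lt_rho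

lemma one_le_rho : 1 ≤ rho := le_trans (by norm_num) seven_lt_rho.le

lemma rpow_three_half (k : ℕ) : (2521 : ℝ) ^ ((3 / 2 : ℝ) * k) = rho ^ (6 * k) := by
  rw [← rho_pow_four, ← Real.rpow_natCast rho 4, ← Real.rpow_mul rho_nonneg,
    ← Real.rpow_natCast rho (6 * k)]
  congr 1
  push_cast
  ring

lemma cast_pow_eq (k : ℕ) : (2521 : ℝ) ^ k = rho ^ (4 * k) := by
  rw [← rho_pow_four, ← pow_mul]

lemma final_numeric (k κι R M O T Cn : ℕ) (hk : 3 ≤ k) (hO : O ≤ k) (hκι : 8 * κι ≤ 10 * k)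
    (hR : R ≤ Cn * k) (hT : (T : ℝ) ^ 2 ≤ rho ^ k) (hM : 12 * Cn * k + 8 ≤ M) :
    100 * ((2 : ℝ) ^ O * (T * ((T * T * (2521 ^ κι) ^ 2 + 1) ^ R * (T * T) ^ M))) *
      ((rho ^ (2 * k))⁻¹) ^ M ≤ 1 := by
  have hρ := one_le_rho
  have hρ0 := rho_pos
  have hmono : ∀ {a b : ℕ}, a ≤ b → rho ^ a ≤ rho ^ b := fun h => pow_le_pow_right₀ hρ h
  have h100 : (100 : ℝ) ≤ rho ^ k := by
    refine le_trans ?_ (hmono hk)
    have := pow_le_pow_left₀ (by norm_num : (0 : ℝ) ≤ 7) seven_lt_rho.le 3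
    refine le_trans ?_ this
    norm_num
  have hO' : (2 : ℝ) ^ O ≤ rho ^ k :=
    le_trans (pow_le_pow_left₀ (by norm_num) (le_trans (by norm_num) seven_lt_rho.le) O) (hmono hO)
  have hT1 : (T : ℝ) ≤ rho ^ k := by
    refine le_trans ?_ hT
    have : T ≤ T ^ 2 := Nat.le_self_pow (by norm_num) T
    exact_mod_cast this
  have hTT : (T : ℝ) * T ≤ rho ^ k := by rw [← sq]; exact hT
  have hc : (T : ℝ) * T * (2521 ^ κι) ^ 2 + 1 ≤ rho ^ (12 * k) := by
    have h1 : ((2521 : ℝ) ^ κι) ^ 2 ≤ rho ^ (10 * k) := by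
      rw [cast_pow_eq, ← pow_mul]
      exact hmono (by omega)
    have h2 : (T : ℝ) * T * (2521 ^ κι) ^ 2 ≤ rho ^ k * rho ^ (10 * k) :=
      mul_le_mul hTT h1 (by positivity) (by positivity)
    rw [← pow_add] at h2
    have h3 : (1 : ℝ) ≤ rho ^ (k + 10 * k) := one_le_pow₀ hρ
    have h4 : rho ^ (12 * k) = rho ^ k * rho ^ (k + 10 * k) := by
      rw [← pow_add]; congr 1; omega
    rw [h4]
    have h5 : (2 : ℝ) ≤ rho ^ k := le_trans (by norm_num) h100
    linarith only [h100, h2, mul_nonneg (sub_nonneg.2 h3) (sub_nonneg.2 h5), h3]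
  have hcR : ((T : ℝ) * T * (2521 ^ κι) ^ 2 + 1) ^ R ≤ rho ^ (12 * k * (Cn * k)) := by
    refine le_trans (pow_le_pow_left₀ (by positivity) hc R) ?_
    rw [← pow_mul]
    exact hmono (Nat.mul_le_mul_left _ hR)
  have hd : ((T : ℝ) * T) ^ M * ((rho ^ (2 * k))⁻¹) ^ M ≤ (rho ^ (k * M))⁻¹ := by
    rw [← mul_pow]
    have h1 : (T : ℝ) * T * (rho ^ (2 * k))⁻¹ ≤ (rho ^ k)⁻¹ := by
      have h2 : (rho ^ (2 * k))⁻¹ = (rho ^ k)⁻¹ * (rho ^ k)⁻¹ := by
        rw [← mul_inv, ← pow_add]; congr 2; omega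
      rw [h2]
      calc (T : ℝ) * T * ((rho ^ k)⁻¹ * (rho ^ k)⁻¹) ≤ rho ^ k * ((rho ^ k)⁻¹ * (rho ^ k)⁻¹) :=
            mul_le_mul_of_nonneg_right hTT (by positivity)
        _ = (rho ^ k)⁻¹ := by
            rw [← mul_assoc, mul_inv_cancel₀ (pow_pos hρ0 _).ne', one_mul]
    refine le_trans (pow_le_pow_left₀ (by (clear * - hρ; positivity)) h1 M) ?_
    rw [← inv_pow, ← pow_mul, inv_pow]
  have hexp : rho ^ (3 * k + 12 * k * (Cn * k)) ≤ rho ^ (k * M) := by
    refine hmono ?_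
    have h1 : k * (12 * Cn * k + 8) ≤ k * M := Nat.mul_le_mul_left _ hM
    nlinarith
  calc 100 * ((2 : ℝ) ^ O * (T * ((T * T * (2521 ^ κι) ^ 2 + 1) ^ R * (T * T) ^ M))) *
      ((rho ^ (2 * k))⁻¹) ^ M
      = (100 * ((2 : ℝ) ^ O * (T * (T * T * (2521 ^ κι) ^ 2 + 1) ^ R))) *
        ((T * T) ^ M * ((rho ^ (2 * k))⁻¹) ^ M) := by ring
    _ ≤ (rho ^ k * (rho ^ k * (rho ^ k * rho ^ (12 * k * (Cn * k))))) * (rho ^ (k * M))⁻¹ := by
        gcongr
    _ = rho ^ (3 * k + 12 * k * (Cn * k)) * (rho ^ (k * M))⁻¹ := by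
        congr 1
        rw [← pow_add, ← pow_add, ← pow_add]
        congr 1
        ring
    _ ≤ rho ^ (k * M) * (rho ^ (k * M))⁻¹ := mul_le_mul_of_nonneg_right hexp (by positivity)
    _ = 1 := mul_inv_cancel₀ (pow_pos hρ0 _).ne'

lemma exists_k1 (A : ℕ) : ∃ k1 : ℕ, ∀ k ≥ k1, ∀ T : ℕ, T ≤ A * k → (T : ℝ) ^ 2 ≤ rho ^ k := by
  have h1 : Filter.Tendsto (fun n : ℕ => (n : ℝ) ^ 2 / rho ^ n) Filter.atTop (nhds 0) :=
    tendsto_pow_const_div_const_pow_of_one_lt 2 (lt_trans (by norm_num) seven_lt_rho)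
  have h2 : ∀ᶠ n : ℕ in Filter.atTop, (n : ℝ) ^ 2 / rho ^ n < 1 / ((A : ℝ) ^ 2 + 1) :=
    h1.eventually (gt_mem_nhds (by positivity))
  obtain ⟨k1, hk1⟩ := Filter.eventually_atTop.1 h2
  refine ⟨k1, fun k hk T hT => ?_⟩
  have h3 := hk1 k hk
  rw [div_lt_div_iff₀ (pow_pos rho_pos k) (by positivity), one_mul] at h3
  have h4 : (T : ℝ) ≤ A * k := by exact_mod_cast hT
  have h5 : (T : ℝ) ^ 2 ≤ (A * k) ^ 2 := pow_le_pow_left₀ (Nat.cast_nonneg _) h4 2
  linarith only [sq_nonneg (k : ℝ), h5, h3]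

theorem exI : ExI := by
  intro C'
  set Cn := ⌈C'⌉₊ with hCn
  refine ⟨4 * (8 * (Cn + 3)), fun ε hε => ⟨⌈(12 * Cn + 8) / ε⌉₊, fun D₀ hD d t E _ => ?_⟩⟩
  obtain ⟨k1, hk1⟩ := exists_k1 (2 * D₀ * d)
  refine ⟨1 / (8 * (t + 1)), by positivity, max (max k1 (8 * Fintype.card E))
    (max (8 * (8 * (8 * (Cn + 3)) + 8 * (Cn + 6) + 7)) 3), ?_⟩
  intro N P Om _ _ _ fr hk hS
  set k := Fintype.card P with hkdef
  have hk1' : k1 ≤ k := le_trans (le_trans (le_max_left _ _) (le_max_left _ _)) hk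
  have hkE : 8 * Fintype.card E ≤ k := le_trans (le_trans (le_max_right _ _) (le_max_left _ _)) hk
  have hk2 : 8 * (8 * (8 * (Cn + 3)) + 8 * (Cn + 6) + 7) ≤ k :=
    le_trans (le_trans (le_max_left _ _) (le_max_right _ _)) hk
  have hk3 : 3 ≤ k := le_trans (le_trans (le_max_right _ _) (le_max_right _ _)) hk
  have hkR : (3 : ℝ) ≤ k := by exact_mod_cast hk3
  have ht0 : (0 : ℝ) < 8 * (t + 1) := by positivity
  have hOm : 8 * Fintype.card Om ≤ k := by
    have h1 := hS.hOm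
    rw [div_mul_eq_mul_div, one_mul, le_div_iff₀ ht0] at h1
    have h2 : (Fintype.card Om : ℝ) * 8 ≤ Fintype.card Om * (8 * (t + 1)) := by
      have h3 : (0 : ℝ) ≤ Fintype.card Om := Nat.cast_nonneg _
      have h4 : (0 : ℝ) ≤ t := Nat.cast_nonneg _
      linarith only [mul_nonneg h3 h4]
    have h5 : (Fintype.card Om : ℝ) * 8 ≤ k := le_trans h2 h1
    have h6 : Fintype.card Om * 8 ≤ k := by exact_mod_cast h5
    omega
  have hκι : 8 * Fintype.card (Co E P Om) ≤ 10 * k := by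
    rw [Fintype.card_sum, Fintype.card_sum]
    omega
  set R := ⌊C' * (k : ℝ)⌋₊ with hR
  set m := ⌊ε * (N : ℝ)⌋₊ with hm
  have hRle : R ≤ Cn * k := by
    have h1 : C' * k ≤ ((Cn * k : ℕ) : ℝ) := by
      push_cast
      exact mul_le_mul_of_nonneg_right (Nat.le_ceil C') (Nat.cast_nonneg _)
    have h2 := Nat.floor_le_floor h1
    rwa [Nat.floor_natCast] at h2
  have hA : ∀ Z : Finset Om, Z.card ≤ t →
      ∑ w ∈ Z, (Finset.univ.filter fun c : Ty N d => w ∈ fr.U c).card ≤ k := by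
    intro Z hZ
    have h1 : ∑ w ∈ Z, ((Finset.univ.filter fun c : Ty N d => w ∈ fr.U c).card : ℝ) ≤
        ∑ _w ∈ Z, (1 / (8 * ((t : ℝ) + 1)) * k) := by
      refine Finset.sum_le_sum fun w _ => ?_
      convert hS.hA w using 3
    rw [Finset.sum_const, nsmul_eq_mul] at h1
    have h2 : (Z.card : ℝ) * (1 / (8 * ((t : ℝ) + 1)) * k) ≤ k := by
      have h3 : (Z.card : ℝ) ≤ t := by exact_mod_cast hZ
      have h4 : (Z.card : ℝ) * (1 / (8 * ((t : ℝ) + 1)) * k) = Z.card * k / (8 * (t + 1)) := by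
        ring
      rw [h4, div_le_iff₀ ht0]
      have h5 : (0 : ℝ) ≤ k := Nat.cast_nonneg _
      linarith only [mul_nonneg h5 (Nat.cast_nonneg (α := ℝ) t), mul_nonneg h5 (sub_nonneg.2 h3), hkR]
    exact_mod_cast le_trans h1 h2
  have hfr : ∀ (p : Lin N → Co E P Om → F) (Z : Finset Om) (a : Ty N d)
      (q : Fin R → Option (Dat E P Om N d)), Z.card ≤ t →
      finrank F (LamQ fr p Z a q) ≤ (Cn + 3) * k := by
    intro p Z a q hZ
    refine le_trans (finrank_lamQ fr p Z a q k (hA Z hZ)) ?_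
    have h1 : (Cn + 3) * k = Cn * k + 3 * k := by ring
    rw [h1]
    omega
  have hch : ∀ Lam : Submodule F (Matrix (Co E P Om) (Co E P Om) F),
      ∃ (W : Submodule F (Co E P Om → F)) (Ex : Finset (Fin 2 → Co E P Om → F)),
      finrank F Lam ≤ (Cn + 3) * k →
      finrank F W ≤ 4 * (8 * (Cn + 3)) ∧ (Ex.card : ℝ) ≤ (2521 : ℝ) ^ ((3 / 2 : ℝ) * k) ∧
      ∀ g ∉ Ex, IndMod W g ∧ ∀ h : Fin 2 → Co E P Om → F, smm h g ∈ Lam →
        ∃ w : Fin 2 → Co E P Om → F, (∀ i, w i ∈ W) ∧ smm w g = smm h g := by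
    intro Lam
    by_cases hL : finrank F Lam ≤ (Cn + 3) * k
    · obtain ⟨W, Ex, h⟩ := exists_WE Cn k hκι hk2 Lam hL
      exact ⟨W, Ex, fun _ => h⟩
    · exact ⟨⊥, ∅, fun h => absurd h hL⟩
  choose Wf Ef hWE using hch
  have hcardC : (Fintype.card (Fin 2 → P → F) : ℝ) = rho ^ (8 * k) := by
    rw [Fintype.card_fun, Fintype.card_fun, ZMod.card, Fintype.card_fin]
    push_cast
    rw [cast_pow_eq, ← pow_mul]
    congr 1
    omega
  have hEf : ∀ (x : Lin N → (P ⊕ Om) → F) (Z : Finset Om) (a : Ty N d)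
      (q : Fin R → Option (Dat E P Om N d)), Z.card ≤ t →
      ((Ef (LamQ fr (extp fr x) Z a q)).card : ℝ) ≤
        (rho ^ (2 * k))⁻¹ * Fintype.card (Fin 2 → P → F) := by
    intro x Z a q hZ
    refine le_trans (hWE _ (hfr _ Z a q hZ)).2.1 ?_
    rw [rpow_three_half, hcardC]
    have h1 : rho ^ (8 * k) = rho ^ (2 * k) * rho ^ (6 * k) := by
      rw [← pow_add]; congr 1; omega
    rw [h1, ← mul_assoc, inv_mul_cancel₀ (pow_pos rho_pos _).ne', one_mul]
  refine rare_of_card fr _ ?_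
  have hbad := card_badD_le fr Ef t R (m + 1) (inv_nonneg.2 (pow_nonneg rho_nonneg (2 * k))) hEf
  have hsub : (Finset.univ.filter fun x : Lin N → (P ⊕ Om) → F =>
      exiDz fr x ∈ {p : Dz fr P | ¬ EvI fr p.1 t R (4 * (8 * (Cn + 3))) m}) ⊆
      Finset.univ.filter fun x : Lin N → (P ⊕ Om) → F =>
        ∃ D : Dat4 E P Om N d R (m + 1), BadD fr Ef t R (m + 1) D x := by
    intro x hx
    rw [Finset.mem_filter] at hx ⊢
    refine ⟨hx.1, ?_⟩
    by_contra hcon
    push Not at hcon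
    refine hx.2 (evI_of_not_bad fr x Wf Ef t R _ m (fun Z a q hZ => ?_) hcon)
    have h1 := hWE _ (hfr (extp fr x) Z a q hZ)
    exact ⟨h1.1, h1.2.2⟩
  have hcardD : (Fintype.card (Dat4 E P Om N d R (m + 1)) : ℝ) =
      (2 : ℝ) ^ Fintype.card Om * (((N * d : ℕ) : ℝ) * ((((N * d : ℕ) : ℝ) * ((N * d : ℕ) : ℝ) *
        (2521 ^ Fintype.card (Co E P Om)) ^ 2 + 1) ^ R *
        (((N * d : ℕ) : ℝ) * ((N * d : ℕ) : ℝ)) ^ (m + 1))) := by
    have h1 : Fintype.card (Dat4 E P Om N d R (m + 1)) =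
        2 ^ Fintype.card Om * ((N * d) * (((N * d) * (N * d) *
        (2521 ^ Fintype.card (Co E P Om)) ^ 2 + 1) ^ R * ((N * d) * (N * d)) ^ (m + 1))) := by
      have e1 : Fintype.card (Ty N d) = N * d := by
        rw [Fintype.card_prod, ZMod.card, Fintype.card_fin]
      have e2 : Fintype.card (Option (Dat E P Om N d)) = (N * d) * (N * d) *
          (2521 ^ Fintype.card (Co E P Om)) ^ 2 + 1 := by
        rw [Fintype.card_option, Fintype.card_prod, Fintype.card_prod, e1, Fintype.card_fun,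
          Fintype.card_fun, ZMod.card, Fintype.card_fin]
      rw [Fintype.card_prod, Fintype.card_prod (Ty N d),
        Fintype.card_prod (Fin R → Option (Dat E P Om N d)), Fintype.card_finset, e1,
        Fintype.card_fun, Fintype.card_fun, e2, Fintype.card_prod (Ty N d) (Ty N d), e1,
        Fintype.card_fin, Fintype.card_fin]
    rw [h1]
    push_cast
    ring
  have hM : 12 * Cn * k + 8 ≤ m + 1 := by
    have h1 : ε * N < m + 1 := Nat.lt_floor_add_one _
    have h2 : (12 * Cn + 8) / ε ≤ D₀ := le_trans (Nat.le_ceil _) (by exact_mod_cast hD)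
    rw [div_le_iff₀ hε] at h2
    have h3 : (D₀ : ℝ) * k ≤ N := by exact_mod_cast hS.hN
    have h4 : (12 * Cn + 8 : ℝ) * k ≤ ε * N := by
      have h5 : (D₀ : ℝ) * ε * k ≤ ε * N := by
        have := mul_le_mul_of_nonneg_left h3 hε.le
        linarith only [this]
      exact le_trans (mul_le_mul_of_nonneg_right h2 (Nat.cast_nonneg _)) h5
    have h6 : (12 * Cn * k + 8 : ℝ) ≤ m + 1 := by linarith only [h4, h1, hkR]
    exact_mod_cast h6
  have hT : (((N * d : ℕ) : ℝ)) ^ 2 ≤ rho ^ k := by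
    refine hk1 k hk1' _ ?_
    calc N * d ≤ (2 * D₀ * k) * d := Nat.mul_le_mul_right _ hS.hN'
      _ = 2 * D₀ * d * k := by ring
  have hnum := final_numeric k (Fintype.card (Co E P Om)) R (m + 1) (Fintype.card Om) (N * d) Cn
    hk3 (by omega) hκι hRle hT hM
  have hΩ : (0 : ℝ) ≤ Fintype.card (Lin N → (P ⊕ Om) → F) := Nat.cast_nonneg _
  have hfin : (100 : ℝ) * ((Finset.univ.filter fun x : Lin N → (P ⊕ Om) → F =>
      ∃ D : Dat4 E P Om N d R (m + 1), BadD fr Ef t R (m + 1) D x).card : ℝ) ≤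
      Fintype.card (Lin N → (P ⊕ Om) → F) := by
    refine le_trans (mul_le_mul_of_nonneg_left hbad (by norm_num)) ?_
    rw [hcardD]
    refine le_trans (le_of_eq ?_) (le_trans (mul_le_mul_of_nonneg_right hnum hΩ)
      (le_of_eq (one_mul _)))
    ring
  have hfin' : 100 * (Finset.univ.filter fun x : Lin N → (P ⊕ Om) → F =>
      ∃ D : Dat4 E P Om N d R (m + 1), BadD fr Ef t R (m + 1) D x).card ≤
      Fintype.card (Lin N → (P ⊕ Om) → F) := by exact_mod_cast hfin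
  refine le_trans (Nat.mul_le_mul_left _ ?_) hfin'
  have hcs := Finset.card_le_card hsub
  convert hcs

end Vale.Agent.P060.HW
end
end

section

/-!
# LS: large coefficients are trivial or cut functionals
-/

open scoped Classical

noncomputable section

set_option linter.unusedSectionVars false

namespace Vale.Agent.P060.HW

namespace LS5

open Module

/-- A maximal independent part of a finite family. -/
theorem exists_basis {ι V : Type*} [AddCommGroup V] [Module F V] (v : ι → V) (S : Finset ι) :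
    ∃ J ⊆ S, LinearIndependent F (fun β : J => v β) ∧
      ∀ β ∈ S, v β ∈ Submodule.span F (v '' (J : Set ι)) := by
  obtain ⟨J, hJ, hmax⟩ := Finset.exists_max_image
    (S.powerset.filter fun J : Finset ι => LinearIndepOn F v (J : Set ι)) Finset.card
    ⟨∅, by
      rw [Finset.mem_filter, Finset.mem_powerset]
      exact ⟨Finset.empty_subset _, by rw [Finset.coe_empty]; exact linearIndepOn_empty F v⟩⟩
  rw [Finset.mem_filter, Finset.mem_powerset] at hJ
  refine ⟨J, hJ.1, hJ.2, fun β hβ => ?_⟩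
  by_cases hβJ : β ∈ J
  · exact Submodule.subset_span ⟨β, hβJ, rfl⟩
  by_contra hcon
  have h1 : LinearIndepOn F v ((insert β J : Finset ι) : Set ι) := by
    rw [Finset.coe_insert, linearIndepOn_insert (by exact_mod_cast hβJ)]
    exact ⟨hJ.2, hcon⟩
  have h2 := hmax (insert β J) (Finset.mem_filter.2
    ⟨Finset.mem_powerset.2 (Finset.insert_subset hβ hJ.1), h1⟩)
  rw [Finset.card_insert_of_notMem hβJ] at h2
  omega

/-- The modulus of a coefficient does not change under trivial tensors. -/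
theorem norm_coefT_eq {K T : Type} [Fintype K] {δ : Design K T} {a a' : T} {ι ι' : Bool}
    {Λ M : ℝ} {w : Matrix K K F → Matrix K K F → ℝ} (hw : PLaw δ a a' ι ι' Λ M w)
    (ψ : AddChar F ℂ) (g g' : K → F) (z z' : Fin 4 → K → F)
    (h1 : smm ![z 0, z 1] ![g, g'] - smm ![z' 0, z' 1] ![g, g'] ∈ δ.Nn a)
    (h2 : smm ![z 2, z 3] ![g, g'] - smm ![z' 2, z' 3] ![g, g'] ∈ δ.Nn a') :
    ‖coefT ψ w g g' z‖ = ‖coefT ψ w g g' z'‖ := by
  have hsub : Budget.tz g g' z - Budget.tz g g' z' ∈ (δ.Nn a).prod (δ.Nn a') := by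
    unfold Budget.tz
    rw [← smul_sub]
    exact Submodule.smul_mem _ _ ⟨h1, h2⟩
  set Q := Budget.tz g g' z - Budget.tz g g' z' with hQ
  have hconst : ∀ ω : Matrix K K F × Matrix K K F, w ω.1 ω.2 ≠ 0 →
      Budget.pair2 K ω Q = pr Q.1 (if ι then δ.B0 a else 0)
        + pr Q.2 (if ι' then δ.B0 a' else 0) := by
    intro ω hω
    obtain ⟨s1, s2⟩ := hw.supp _ _ hω
    have e1 := annDirect K T δ a Q.1 hsub.1 _ s1
    have e2 := annDirect K T δ a' Q.2 hsub.2 _ s2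
    have e3 : pr Q.1 ω.1 = pr Q.1 (ω.1 - (if ι then δ.B0 a else 0))
        + pr Q.1 (if ι then δ.B0 a else 0) := by
      rw [← ann_pr_add_right, sub_add_cancel]
    have e4 : pr Q.2 ω.2 = pr Q.2 (ω.2 - (if ι' then δ.B0 a' else 0))
        + pr Q.2 (if ι' then δ.B0 a' else 0) := by
      rw [← ann_pr_add_right, sub_add_cancel]
    rw [Budget.pair2_apply, e3, e4, e1, e2, zero_add, zero_add]
  set κ := pr Q.1 (if ι then δ.B0 a else 0) + pr Q.2 (if ι' then δ.B0 a' else 0) with hκ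
  rw [Budget.coefT_eq hw, Budget.coefT_eq hw]
  have h3 : ∑ ω, ((Budget.prob hw).w ω : ℂ) * ψ (Budget.pair2 K ω (Budget.tz g g' z)) =
      ψ κ * ∑ ω, ((Budget.prob hw).w ω : ℂ) * ψ (Budget.pair2 K ω (Budget.tz g g' z')) := by
    rw [Finset.mul_sum]
    refine Finset.sum_congr rfl fun ω _ => ?_
    by_cases hω : w ω.1 ω.2 = 0
    · have : (Budget.prob hw).w ω = 0 := hω
      rw [this, Complex.ofReal_zero, zero_mul, zero_mul, mul_zero]
    · have e5 : Budget.pair2 K ω (Budget.tz g g' z) = κ + Budget.pair2 K ω (Budget.tz g g' z') := by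
        rw [← hconst ω hω, hQ, map_sub, sub_add_cancel]
      rw [e5, AddChar.map_add_eq_mul]
      ring
  rw [h3, norm_mul, AddChar.norm_apply, one_mul]

lemma smm_g2 {N d : ℕ} {E P Om : Type} [Fintype E] [Fintype P] [Fintype Om] [NeZero N]
    (fr : Frame N d E Om) (p : Lin N → Co E P Om → F) (h : Ext fr p) (u : Fin 2 → Co E P Om → F)
    (β : Ty N d × Ty N d) :
    smm ![u 0, u 1] ![(dsg fr p h).g β.1, (dsg fr p h).g β.2] = smm u (g2 p β) := by
  have e1 : ![u 0, u 1] = u := by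
    funext i
    fin_cases i <;> rfl
  rw [e1]
  rfl

/-- The deterministic core of LS. -/
theorem core {N d : ℕ} {E P Om : Type} [Fintype E] [Fintype P] [Fintype Om] [NeZero N]
    (fr : Frame N d E Om) (p : Lin N → Co E P Om → F) (h : Ext fr p)
    {ψ : AddChar F ℂ} (hψ : ψ ≠ 0) {κ t R s m A b n₀ : ℕ} (h1 : Ev1 p κ) (hI : EvI fr p t R s m)
    (hκ : 6 * (2 * s + 1) ≤ κ) (hκ2 : 12 + 6 * A ≤ κ)
    (hA : ∀ w, (Finset.univ.filter fun c : Ty N d => w ∈ fr.U c).card ≤ A)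
    {a a' : Ty N d} (haa : a ≠ a') {ι ι' : Bool} {Λ M' η : ℝ} (hη : 0 < η)
    {w : Matrix (Co E P Om) (Co E P Om) F → Matrix (Co E P Om) (Co E P Om) F → ℝ}
    (hw : PLaw (dsg fr p h) a a' ι ι' Λ M' w) (hR : 2 * Real.log Λ / η ^ 2 < R + 1)
    (𝓕 : Finset (Ty N d × Ty N d)) (hLD : LD 𝓕) (hne : ∀ β ∈ 𝓕, β.1 ≠ β.2)
    (hbad : ∀ β ∈ 𝓕, BadC ψ (dsg fr p h) a a' w η β) (h𝓕 : 𝓕.Nonempty)
    (hX : 4 * (2 * (m + (3 + R + t * (3 * A))) + 2 * s) ≤ 𝓕.card)
    {M : ℕ} (hM : M = 2521 ^ (4 * s + 4 * Fintype.card E))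
    {κ₀ : ℝ} (hκ₀ : 0 < κ₀) (hκt : 1 < κ₀ * (t + 1))
    (hb : κ₀ * 𝓕.card * (2 * M) ≤ b) (hbκ : 6 * b + 3 * A ≤ κ)
    (hEv : ∀ T : ℕ, (𝓕.card : ℝ) ≤ 2 * M * (T + 2 * (R + 3 * Fintype.card (Co E P Om))) →
      0 < T ∧ EvB ψ p d T n₀ (η ^ 2 / 2))
    (hM' : M' < η ^ 2 / 2 / 2521 ^ n₀ * 2521 ^ (fr.q / 2)) : False := by
  have hch : ∀ β : Ty N d × Ty N d, ∃ z : Fin 4 → Co E P Om → F, β ∈ 𝓕 →
      η ≤ ‖coefT ψ w ((dsg fr p h).g β.1) ((dsg fr p h).g β.2) z‖ ∧
      ¬ TrivPsi (dsg fr p h) a a' β.1 β.2 z := by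
    intro β
    by_cases hβ : β ∈ 𝓕
    · obtain ⟨z, hz⟩ := hbad β hβ
      exact ⟨z, fun _ => hz⟩
    · exact ⟨0, fun h => absurd h hβ⟩
  choose z hz using hch
  let H : Ty N d × Ty N d → Fin 2 → Co E P Om → F := fun β => ![z β 0, z β 1]
  let H' : Ty N d × Ty N d → Fin 2 → Co E P Om → F := fun β => ![z β 2, z β 3]
  let NN := ((dsg fr p h).Nn a).prod ((dsg fr p h).Nn a')
  let tp : Ty N d × Ty N d → Matrix (Co E P Om) (Co E P Om) F × Matrix (Co E P Om) (Co E P Om) F :=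
    fun β => (smm ![z β 0, z β 1] ![(dsg fr p h).g β.1, (dsg fr p h).g β.2],
      smm ![z β 2, z β 3] ![(dsg fr p h).g β.1, (dsg fr p h).g β.2])
  obtain ⟨J, hJ, hli, hspan⟩ := exists_basis (fun β => NN.mkQ (tp β)) 𝓕
  have hJR : J.card ≤ R := by
    have h2 := Budget.rank_biased_finset rankLem hw ψ hψ hη z J hli
      fun β hβ => (hz β (hJ hβ)).1
    have h3 : (J.card : ℝ) < ((R + 1 : ℕ) : ℝ) := by
      push_cast
      exact lt_of_le_of_lt h2 hR
    exact Nat.lt_succ_iff.1 (by exact_mod_cast h3)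
  -- the spans
  have hsp : ∀ β ∈ 𝓕, ∃ x ∈ Submodule.span F (tp '' (J : Set (Ty N d × Ty N d))),
      tp β - x ∈ NN := by
    intro β hβ
    have h2 := hspan β hβ
    have h3 : (fun β => NN.mkQ (tp β)) '' (J : Set (Ty N d × Ty N d)) =
        NN.mkQ '' (tp '' (J : Set (Ty N d × Ty N d))) := by
      rw [Set.image_image]
    rw [h3, Submodule.span_image] at h2
    obtain ⟨x, hx, hxe⟩ := h2
    refine ⟨x, hx, ?_⟩
    rw [← Submodule.Quotient.mk_eq_zero NN, Submodule.Quotient.mk_sub, sub_eq_zero]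
    exact hxe.symm
  have hf : ∀ x ∈ Submodule.span F (tp '' (J : Set (Ty N d × Ty N d))), x.1 ∈ SpJ p J H ∧
      x.2 ∈ SpJ p J H' := by
    intro x hx
    refine Submodule.span_induction (p := fun x _ => x.1 ∈ SpJ p J H ∧ x.2 ∈ SpJ p J H')
      ?_ ?_ ?_ ?_ hx
    · rintro y ⟨β, hβ, rfl⟩
      refine ⟨Submodule.subset_span ⟨β, hβ, ?_⟩, Submodule.subset_span ⟨β, hβ, ?_⟩⟩
      · exact smm_g2 fr p h (H β) β
      · exact smm_g2 fr p h (H' β) β
    · exact ⟨Submodule.zero_mem _, Submodule.zero_mem _⟩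
    · intro u v _ _ hu hv
      exact ⟨Submodule.add_mem _ hu.1 hv.1, Submodule.add_mem _ hu.2 hv.2⟩
    · intro c u _ hu
      exact ⟨Submodule.smul_mem _ _ hu.1, Submodule.smul_mem _ _ hu.2⟩
  have hs1 : ∀ β ∈ 𝓕, smm (H β) (g2 p β) ∈ SpJ p J H ⊔ (dsg fr p h).Nn a := by
    intro β hβ
    obtain ⟨x, hx, hd⟩ := hsp β hβ
    have h4 : smm (H β) (g2 p β) = x.1 + ((tp β).1 - x.1) := by
      rw [add_sub_cancel]
      exact (smm_g2 fr p h (H β) β).symm
    rw [h4]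
    exact Submodule.add_mem_sup (hf x hx).1 hd.1
  have hs2 : ∀ β ∈ 𝓕, smm (H' β) (g2 p β) ∈ SpJ p J H' ⊔ (dsg fr p h).Nn a' := by
    intro β hβ
    obtain ⟨x, hx, hd⟩ := hsp β hβ
    have h4 : smm (H' β) (g2 p β) = x.2 + ((tp β).2 - x.2) := by
      rw [add_sub_cancel]
      exact (smm_g2 fr p h (H' β) β).symm
    rw [h4]
    exact Submodule.add_mem_sup (hf x hx).2 hd.2
  obtain ⟨T₂, hs, hs', hT₂, hcard, hT⟩ := class_extract fr p h a a' h1 hI hκ hA hLD hne hJ hJR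
    H H' hs1 hs2 h𝓕 hX hM hκ₀ hκt hb hbκ
  obtain ⟨hT0, hEvT⟩ := hEv T₂.card hcard
  -- the common functional
  let zs : Fin 4 → Co E P Om → F := ![hs 0, hs 1, hs' 0, hs' 1]
  have hd1 : ∀ β ∈ T₂, smm ![z β 0, z β 1] ![(dsg fr p h).g β.1, (dsg fr p h).g β.2] -
      smm ![zs 0, zs 1] ![(dsg fr p h).g β.1, (dsg fr p h).g β.2] ∈ (dsg fr p h).Nn a := by
    intro β hβ
    have e1 : smm ![z β 0, z β 1] ![(dsg fr p h).g β.1, (dsg fr p h).g β.2] =
      smm (H β) (g2 p β) := smm_g2 fr p h (H β) β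
    have e2 : smm ![zs 0, zs 1] ![(dsg fr p h).g β.1, (dsg fr p h).g β.2] =
      smm hs (g2 p β) := smm_g2 fr p h hs β
    rw [e1, e2]
    exact (hT β hβ).1
  have hd2 : ∀ β ∈ T₂, smm ![z β 2, z β 3] ![(dsg fr p h).g β.1, (dsg fr p h).g β.2] -
      smm ![zs 2, zs 3] ![(dsg fr p h).g β.1, (dsg fr p h).g β.2] ∈ (dsg fr p h).Nn a' := by
    intro β hβ
    have e1 : smm ![z β 2, z β 3] ![(dsg fr p h).g β.1, (dsg fr p h).g β.2] =
      smm (H' β) (g2 p β) := smm_g2 fr p h (H' β) β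
    have e2 : smm ![zs 2, zs 3] ![(dsg fr p h).g β.1, (dsg fr p h).g β.2] =
      smm hs' (g2 p β) := smm_g2 fr p h hs' β
    rw [e1, e2]
    exact (hT β hβ).2
  let e : Fin T₂.card ≃ T₂ := T₂.equivFin.symm
  have hRI := rowInd_of_Ev1 fr p h1 hA (by omega) a
  have hRI' := rowInd_of_Ev1 fr p h1 hA (by omega) a'
  have hlast : ∀ b b' : Ty N d, TrivPsi (dsg fr p h) a a' b b' zs :=
    ls_last fr p h haa hRI hRI' hw hT0 hη hEvT (fun i => (e i).1)
      (fun i => hne _ (hT₂ (e i).2))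
      (fun i j hij => hLD _ (hT₂ (e i).2) _ (hT₂ (e j).2) fun h2 =>
        hij (e.injective (Subtype.ext h2)))
      zs (fun i => by
        rw [← norm_coefT_eq hw ψ _ _ (z (e i).1) zs (hd1 _ (e i).2) (hd2 _ (e i).2)]
        exact (hz _ (hT₂ (e i).2)).1) hM'
  obtain ⟨β, hβ⟩ := Finset.card_pos.1 hT0
  refine (hz β (hT₂ hβ)).2 ?_
  obtain ⟨⟨c1, c2, hc⟩, ⟨c3, c4, hc'⟩⟩ := hlast β.1 β.2
  refine ⟨⟨c1, c2, ?_⟩, ⟨c3, c4, ?_⟩⟩
  · have := Submodule.add_mem _ (hd1 β hβ) hc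
    convert this using 1
    abel
  · have := Submodule.add_mem _ (hd2 β hβ) hc'
    convert this using 1
    abel

/-- Sizes are monotone. -/
lemma sz_mono {N d : ℕ} {E P Om : Type} [Fintype E] [Fintype P] [Fintype Om] [NeZero N]
    {fr : Frame N d E Om} {D₀ : ℕ} {θ θ' C C' : ℝ} (h : Sizes fr P D₀ θ C) (hθ : θ ≤ θ')
    (hC : C' * Real.log (Fintype.card P) ≤ C * Real.log (Fintype.card P)) :
    Sizes fr P D₀ θ' C' where
  hN := h.hN
  hN' := h.hN'
  hd := h.hd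
  hOm := h.hOm.trans (mul_le_mul_of_nonneg_right hθ (Nat.cast_nonneg _))
  hA := fun w => (h.hA w).trans (mul_le_mul_of_nonneg_right hθ (Nat.cast_nonneg _))
  hq := hC.trans h.hq
  hγ := h.hγ

/-- A line-disjoint family has at most `3 N` members. -/
lemma card_LD {N d : ℕ} [NeZero N] {𝓕 : Finset (Ty N d × Ty N d)} (hLD : LD 𝓕) :
    𝓕.card ≤ 3 * N := by
  have h1 : 𝓕.card ≤ (Finset.univ : Finset (Lin N)).card := by
    refine Finset.card_le_card_of_injOn (fun β => lin β.1 0) (fun _ _ => Finset.mem_coe.2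
      (Finset.mem_univ _)) ?_
    intro β hβ β' hβ' hb
    by_contra hne
    have hmem : ∀ γ : Ty N d × Ty N d, lin γ.1 0 ∈ lins2 γ := fun γ =>
      Finset.mem_union_left _ (Finset.mem_image_of_mem _ (Finset.mem_univ _))
    have h2 := hLD β hβ β' hβ' hne
    refine Finset.disjoint_left.1 h2 (hmem β) ?_
    have h3 : lin β.1 0 = lin β'.1 0 := hb
    rw [h3]
    exact hmem β'
  rw [Finset.card_univ, Fintype.card_prod, Fintype.card_fin, ZMod.card] at h1
  exact h1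

lemma card_compl {X : Type*} [Finite X] (A B C : Set X) (hA : Rare Aᶜ) (hB : Rare Bᶜ)
    (hC : Rare Cᶜ) : 20 * Nat.card ((A ∩ B ∩ C)ᶜ : Set X) ≤ Nat.card X := by
  have h1 : Nat.card ((A ∩ B ∩ C)ᶜ : Set X) ≤ Nat.card (Aᶜ : Set X) + Nat.card (Bᶜ : Set X)
      + Nat.card (Cᶜ : Set X) := by
    rw [Set.compl_inter, Set.compl_inter, Nat.card_coe_set_eq, Nat.card_coe_set_eq,
      Nat.card_coe_set_eq, Nat.card_coe_set_eq]
    exact (Set.ncard_union_le _ _).trans (Nat.add_le_add_right (Set.ncard_union_le _ _) _)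
  unfold Rare at hA hB hC
  omega

end LS5

open LS5 in
/-- LS. -/
theorem ls : LS := by
  intro ψ hψ E _ C η c hη hc
  have hl0 : 0 < Real.log 2521 := Real.log_pos (by norm_num)
  obtain ⟨C', hC'⟩ : ∃ C' : ℝ, C' = 2 * |C| * Real.log 2521 / η ^ 2 := ⟨_, rfl⟩
  have hC'0 : 0 ≤ C' := by rw [hC']; (clear * - hη; positivity)
  obtain ⟨s, hI⟩ := exI C'
  obtain ⟨DI, hI⟩ := hI (c / 32) (by positivity)
  obtain ⟨M, hM⟩ : ∃ M : ℕ, M = 2521 ^ (4 * s + 4 * Fintype.card E) := ⟨_, rfl⟩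
  have hM0 : 0 < M := by rw [hM]; positivity
  have hMr : (0 : ℝ) < M := Nat.cast_pos.2 hM0
  obtain ⟨DN, hDN, hnum⟩ := numeric c C' hc hC'0 (Fintype.card E) s M hM0
  obtain ⟨DB, hB⟩ := exB ψ hψ (c / (4 * M)) (η ^ 2 / 2) (by positivity) (by positivity)
  refine ⟨max DI (max DN DB), fun D₀ hD₀ d => ?_⟩
  obtain ⟨κ₀, t, hκ₀, hκt, θN, hθN, kN, hnum⟩ :=
    hnum D₀ (((le_max_left _ _).trans (le_max_right _ _)).trans hD₀)
  obtain ⟨θI, hθI, kI, hI⟩ := hI D₀ ((le_max_left _ _).trans hD₀) d t E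
  obtain ⟨C₂, θB, hθB, kB, hB⟩ :=
    hB D₀ (((le_max_right _ _).trans (le_max_right _ _)).trans hD₀) d E
  obtain ⟨θ1, hθ1, k1, hE1⟩ := ex1 D₀ d E
  obtain ⟨C₁, kR, hrows⟩ := rows C C₂ (η ^ 2 / 2) (by positivity)
  refine ⟨max 0 C₁, min (min θN θI) (min θB θ1), lt_min (lt_min hθN hθI) (lt_min hθB hθ1),
    max (max kN kI) (max (max kB k1) kR), ?_⟩
  intro N P Om _ _ _ fr hk hS
  have hkN : kN ≤ Fintype.card P := ((le_max_left _ _).trans (le_max_left _ _)).trans hk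
  have hkI : kI ≤ Fintype.card P := ((le_max_right _ _).trans (le_max_left _ _)).trans hk
  have hkB : kB ≤ Fintype.card P :=
    (((le_max_left _ _).trans (le_max_left _ _)).trans (le_max_right _ _)).trans hk
  have hk1 : k1 ≤ Fintype.card P :=
    (((le_max_right _ _).trans (le_max_left _ _)).trans (le_max_right _ _)).trans hk
  have hkR : kR ≤ Fintype.card P := ((le_max_right _ _).trans (le_max_right _ _)).trans hk
  have hlogk : 0 ≤ Real.log (Fintype.card P) := Real.log_natCast_nonneg _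
  have hz0 : (0 : ℝ) * Real.log (Fintype.card P) ≤ max 0 C₁ * Real.log (Fintype.card P) :=
    mul_le_mul_of_nonneg_right (le_max_left _ _) hlogk
  have g1 := hI N P Om fr hkI
    (sz_mono hS ((min_le_left _ _).trans (min_le_right _ _)) hz0)
  have g2 := hE1 N P Om fr hk1
    (sz_mono hS ((min_le_right _ _).trans (min_le_right _ _)) hz0)
  have g3 := hB N P Om fr hkB
    (sz_mono hS ((min_le_right _ _).trans (min_le_left _ _)) hz0)
  refine ⟨{p : Dz fr P | EvI fr p.1 t ⌊C' * Fintype.card P⌋₊ s ⌊c / 32 * N⌋₊} ∩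
    {p : Dz fr P | ∀ κ : ℕ, κ ≤ 20 * Fintype.card P / (D₀ + 20) ^ 2 → Ev1 p.1 κ} ∩
    {p : Dz fr P | ∀ m : ℕ, c / (4 * M) * N ≤ m →
      EvB ψ p.1 d m ⌈C₂ * Real.log (Fintype.card P)⌉₊ (η ^ 2 / 2)}, ?_, ?_⟩
  · exact card_compl _ _ _ g1 g2 g3
  rintro p ⟨⟨pI, p1⟩, pB⟩ a a' ι ι' haa w hw 𝓕 hLD hne hbad
  rw [Set.mem_setOf_eq] at pI p1 pB
  by_contra hcon
  rw [not_lt] at hcon
  have hθle : min (min θN θI) (min θB θ1) ≤ θN := (min_le_left _ _).trans (min_le_left _ _)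
  have hA : ∀ w, (Finset.univ.filter fun c : Ty N d => w ∈ fr.U c).card ≤
      ⌊θN * Fintype.card P⌋₊ := fun w => Nat.le_floor ((hS.hA w).trans
        (mul_le_mul_of_nonneg_right hθle (Nat.cast_nonneg _)))
  have hK : (Fintype.card (Co E P Om) : ℝ) ≤ Fintype.card E + Fintype.card P
      + θN * Fintype.card P := by
    rw [Fintype.card_sum, Fintype.card_sum]
    push_cast
    have := hS.hOm.trans (mul_le_mul_of_nonneg_right hθle (Nat.cast_nonneg _))
    linarith only [this]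
  obtain ⟨⟨n1, n2, n3⟩, n4, n5, n6, n7⟩ := hnum (Fintype.card P) hkN N
    (Fintype.card (Co E P Om)) ⌊θN * Fintype.card P⌋₊ hS.hN hS.hN'
    (Nat.floor_le (by positivity)) hK
  obtain ⟨h𝓕0, hX⟩ := n5 𝓕.card hcon
  have hq : C₁ * Real.log (Fintype.card P) ≤ fr.q :=
    (mul_le_mul_of_nonneg_right (le_max_right _ _) hlogk).trans hS.hq
  refine core fr p.1 p.2 hψ (p1 _ le_rfl) pI n1 n3 hA haa hη hw ?_ 𝓕 hLD hne hbad
    (Finset.card_pos.1 h𝓕0) hX hM hκ₀ hκt (n6 _ (card_LD hLD)) n2 ?_ (hrows _ hkR _ hq)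
  · rw [Real.log_rpow (by norm_num)]
    refine lt_of_le_of_lt ?_ (Nat.lt_floor_add_one (C' * Fintype.card P))
    rw [hC']
    have h1 : C * Fintype.card P * Real.log 2521 ≤ |C| * Fintype.card P * Real.log 2521 :=
      mul_le_mul_of_nonneg_right (mul_le_mul_of_nonneg_right (le_abs_self _)
        (Nat.cast_nonneg _)) hl0.le
    have h2 : 2 * |C| * Real.log 2521 / η ^ 2 * Fintype.card P =
        2 * (|C| * Fintype.card P * Real.log 2521) / η ^ 2 := by ring
    rw [h2]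
    exact div_le_div_of_nonneg_right (by linarith only [h1]) (by positivity)
  · intro T hT
    obtain ⟨h1, h2⟩ := n7 𝓕.card T hcon hT
    exact ⟨h2, pB T h1⟩

end Vale.Agent.P060.HW
end
end

section

/-!
# OUT-A: the overlap of two cosets of ranges
-/

open scoped Classical

noncomputable section

set_option linter.unusedSectionVars false

namespace Vale.Agent.P060.HW.NOA

open Module

namespace NOAImg

variable {N d : ℕ} {E P Om : Type} [Fintype E] [Fintype P] [Fintype Om] [NeZero N]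

/-- Vectors vanishing on the zero rows of `a` and `b`. -/
def WW (fr : Frame N d E Om) (P : Type) (a b : Ty N d) : Submodule F (Co E P Om → F) where
  carrier := {m | ∀ w, w ∈ fr.U a ∨ w ∈ fr.U b → m (Sum.inr w) = 0}
  zero_mem' := fun _ _ => rfl
  add_mem' := fun {m m'} h h' w hw => by
    rw [Pi.add_apply, h w hw, h' w hw, add_zero]
  smul_mem' := fun c m h w hw => by
    rw [Pi.smul_apply, h w hw, smul_zero]

variable {fr : Frame N d E Om} {p : Lin N → Co E P Om → F}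

/-- Dual vectors of `g_a`, `g_b` on `P`. -/
lemma exists_dual (hI : HI fr p) {a b b2 : Ty N d} (hd : D3 a b b2)
    (s t : F) : ∃ α : P → F, (∑ j, α j * gv p a (Sum.inl (Sum.inr j)) = s) ∧
      (∑ j, α j * gv p b (Sum.inl (Sum.inr j)) = t) := by
  set g : Fin 2 → P → F := ![fun j => gv p a (Sum.inl (Sum.inr j)),
    fun j => gv p b (Sum.inl (Sum.inr j))] with hg
  have hM : IndMod ⊥ g := by
    intro c hc
    rw [Submodule.mem_bot, Fin.sum_univ_two] at hc
    have key := gv_ind hd (hI.one _ (card_three a b b2)) (α := c 0) (β := c 1) (γ := 0) (by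
      intro j
      rw [zero_mul, add_zero]
      exact congrFun hc j)
    funext i
    fin_cases i
    · exact key.1
    · exact key.2.1
  obtain ⟨α, -, hα⟩ := exists_vals hM ![s, t]
  refine ⟨α, ?_, ?_⟩
  · have := hα 0
    rw [dotProduct_comm] at this
    exact this
  · have := hα 1
    rw [dotProduct_comm] at this
    exact this

/-- The two products with `g_a`, `g_b`. -/
def Ph (fr : Frame N d E Om) (p : Lin N → Co E P Om → F) (a b : Ty N d) :
    WW fr P a b →ₗ[F] F × F where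
  toFun m := (gv p a ⬝ᵥ (m : Co E P Om → F), gv p b ⬝ᵥ (m : Co E P Om → F))
  map_add' m m' := by
    rw [Submodule.coe_add, dotProduct_add, dotProduct_add, Prod.mk_add_mk]
  map_smul' c m := by
    rw [Submodule.coe_smul, dotProduct_smul, dotProduct_smul, RingHom.id_apply, Prod.smul_mk]

/-- The product with `g_a`. -/
def Pa (fr : Frame N d E Om) (p : Lin N → Co E P Om → F) (a b : Ty N d) :
    WW fr P a b →ₗ[F] F where
  toFun m := gv p a ⬝ᵥ (m : Co E P Om → F)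
  map_add' m m' := by
    rw [Submodule.coe_add, dotProduct_add]
  map_smul' c m := by
    rw [Submodule.coe_smul, dotProduct_smul, RingHom.id_apply]

lemma dot_elim (α : P → F) (v : Co E P Om → F) :
    v ⬝ᵥ (Sum.elim (Sum.elim (fun _ => 0) α) (fun _ => 0) : Co E P Om → F) =
      ∑ j, α j * v (Sum.inl (Sum.inr j)) := by
  unfold dotProduct
  rw [Fintype.sum_sum_type, Fintype.sum_sum_type]
  simp only [Sum.elim_inl, Sum.elim_inr, mul_zero, Finset.sum_const_zero, zero_add, add_zero]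
  exact Finset.sum_congr rfl fun j _ => mul_comm _ _

lemma Ph_surj (hI : HI fr p) {a b b2 : Ty N d} (hd : D3 a b b2) :
    Function.Surjective (Ph fr p a b) := by
  rintro ⟨s, t⟩
  obtain ⟨α, h1, h2⟩ := exists_dual hI hd s t
  refine ⟨⟨Sum.elim (Sum.elim (fun _ => 0) α) (fun _ => 0), fun w _ => rfl⟩, ?_⟩
  show (_, _) = _
  rw [dot_elim, dot_elim, h1, h2]

lemma Pa_surj (hI : HI fr p) {a b b2 : Ty N d} (hd : D3 a b b2) :
    Function.Surjective (Pa fr p a b) := by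
  intro s
  obtain ⟨m, hm⟩ := Ph_surj hI hd (s, 0)
  exact ⟨m, congrArg Prod.fst hm⟩

lemma card_Wab (a b : Ty N d) : Nat.card (Wab fr p a b) =
    (Finset.univ.filter fun m => Pa fr p a b m = 0).card := by
  rw [Nat.card_eq_fintype_card, ← Fintype.card_coe]
  refine Fintype.card_congr ?_
  exact {
    toFun := fun v => ⟨⟨v.1, v.2.2⟩, Finset.mem_filter.2 ⟨Finset.mem_univ _, v.2.1⟩⟩
    invFun := fun m => ⟨m.1.1, (Finset.mem_filter.1 m.2).2, m.1.2⟩
    left_inv := fun _ => rfl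
    right_inv := fun _ => rfl }

end NOAImg

open NOAImg

variable {N d : ℕ} {E P Om : Type} [Fintype E] [Fintype P] [Fintype Om] [NeZero N]
variable {fr : Frame N d E Om} {p : Lin N → Co E P Om → F}

/-- The final arithmetic. -/
lemma NOAImg.arith {q k r w f : ℕ} (hq : q = 2521) (e1 : q * q * f = w) (e2 : q * k = w)
    (hr : r = f) : k = 2521 * r := by
  have h0 : 0 < q := by rw [hq]; exact Nat.succ_pos _
  have h3 : k = q * f := Nat.eq_of_mul_eq_mul_left h0 (by rw [e2, ← e1, mul_assoc])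
  rw [h3, hr, hq]

theorem card_R (hI : HI fr p) {a b b2 : Ty N d} (hd : D3 a b b2) (v1 v2 : Co E P Om → F)
    (h1 : ∀ w, w ∈ fr.U a ∨ w ∈ fr.U b → v1 (Sum.inr w) = 0)
    (h2 : ∀ w, w ∈ fr.U a ∨ w ∈ fr.U b → v2 (Sum.inr w) = 0) :
    Nat.card (Wab fr p a b) = 2521 * (Finset.univ.filter fun v : Co E P Om → F =>
      v - v1 ∈ Wab fr p a b ∧ v - v2 ∈ Wab fr p b a).card := by
  have e1 := card_fibre (Ph fr p a b) (Ph_surj hI hd) (gv p a ⬝ᵥ v1, gv p b ⬝ᵥ v2)
  have e2 := card_fibre (Pa fr p a b) (Pa_surj hI hd) 0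
  have e3 : (Finset.univ.filter fun v : Co E P Om → F =>
      v - v1 ∈ Wab fr p a b ∧ v - v2 ∈ Wab fr p b a).card =
      (Finset.univ.filter fun m => Ph fr p a b m = (gv p a ⬝ᵥ v1, gv p b ⬝ᵥ v2)).card := by
    symm
    refine Finset.card_bij (fun m _ => (m : Co E P Om → F)) ?_ ?_ ?_
    · intro m hm
      have hm := (Finset.mem_filter.1 hm).2
      have hma : gv p a ⬝ᵥ (m : Co E P Om → F) = gv p a ⬝ᵥ v1 := congrArg Prod.fst hm
      have hmb : gv p b ⬝ᵥ (m : Co E P Om → F) = gv p b ⬝ᵥ v2 := congrArg Prod.snd hm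
      refine Finset.mem_filter.2 ⟨Finset.mem_univ _, ⟨?_, fun w hw => ?_⟩, ⟨?_, fun w hw => ?_⟩⟩
      · rw [dotProduct_sub, hma, sub_self]
      · rw [Pi.sub_apply, h1 w hw, m.2 w hw, sub_self]
      · rw [dotProduct_sub, hmb, sub_self]
      · rw [Pi.sub_apply, h2 w hw.symm, m.2 w hw.symm, sub_self]
    · intro m _ m' _ h
      exact Subtype.ext h
    · intro v hv
      obtain ⟨⟨g1, g2⟩, ⟨g3, g4⟩⟩ := (Finset.mem_filter.1 hv).2
      refine ⟨⟨v, fun w hw => ?_⟩, Finset.mem_filter.2 ⟨Finset.mem_univ _, ?_⟩, rfl⟩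
      · have := g2 w hw
        rw [Pi.sub_apply, h1 w hw, sub_zero] at this
        exact this
      · show (_, _) = _
        rw [dotProduct_sub, sub_eq_zero] at g1 g3
        rw [g1, g3]
  rw [card_Wab]
  rw [Fintype.card_prod] at e1
  have hF : Fintype.card F = 2521 := ZMod.card 2521
  generalize Fintype.card F = q at hF e1 e2
  exact NOAImg.arith hF e1 (by convert e2) (by convert e3)

end Vale.Agent.P060.HW.NOA
end
end

section

/-!
# OUT-A: the core statement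
-/

open scoped Classical

noncomputable section

set_option linter.unusedSectionVars false

namespace Vale.Agent.P060.HW.NOA

open Module

variable {N d : ℕ} {E P Om : Type} [Fintype E] [Fintype P] [Fintype Om] [NeZero N]
variable {fr : Frame N d E Om} {p : Lin N → Co E P Om → F} (h : Ext fr p)

/-- The constant part of the form applied to the vector of `b`. -/
def cst (a b : Ty N d) (i : Bool) : Co E P Om → F :=
  (if i then (dsg fr p h).B0 a else 0).mulVec (gv p b)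

lemma cst_row (a b : Ty N d) (i : Bool) (w : Om) : cst h a b i (Sum.inr w) = 0 := by
  unfold cst
  split_ifs
  · have h1 := (dsg fr p h).B0_mulVec a (gv p b) (Sum.inr w)
    rw [h1, if_neg]
    exact Sum.inr_ne_inl
  · rw [Matrix.zero_mulVec]; rfl

/-- The unit vector of the distinguished coordinate. -/
def ev (fr : Frame N d E Om) : Co E P Om → F :=
  @Pi.single (Co E P Om) (fun _ => F) _ (fun a b => Classical.propDecidable (a = b))
    (Sum.inl (Sum.inl fr.e0)) 1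

lemma ev_row (w : Om) : ev (P := P) fr (Sum.inr w) = 0 := by
  unfold ev
  exact an_sgl_ne _ Sum.inr_ne_inl

lemma adj_of {a b : Ty N d} {i i' : Bool} {Q Q' : Matrix (Co E P Om) (Co E P Om) F}
    {v : Co E P Om → F} (h1 : Lm fr p h a b Q = v - cst h a b i)
    (h2 : Lm fr p h b a Q' = v - (ev fr + cst h b a i')) :
    (dsg fr p h).Adj (a, i, Q) (b, i', Q') := by
  refine ⟨(dsg fr p h).e0, (dsg fr p h).he0, 1, one_mem_Y, ?_⟩
  have e1 : ((dsg fr p h).frm (a, i, Q)).mulVec (gv p b) = v := by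
    unfold Design.frm
    rw [Matrix.add_mulVec]
    have h3 : ((dsg fr p h).proj a Q : Matrix (Co E P Om) (Co E P Om) F).mulVec (gv p b)
      = v - cst h a b i := h1
    show (if i then (dsg fr p h).B0 a else 0).mulVec (gv p b)
      + ((dsg fr p h).proj a Q : Matrix (Co E P Om) (Co E P Om) F).mulVec (gv p b) = v
    rw [h3]
    unfold cst
    abel
  have e2 : ((dsg fr p h).frm (b, i', Q')).mulVec (gv p a)
      = v - ev fr := by
    unfold Design.frm
    rw [Matrix.add_mulVec]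
    have h3 : ((dsg fr p h).proj b Q' : Matrix (Co E P Om) (Co E P Om) F).mulVec (gv p a)
      = v - (ev fr + cst h b a i') := h2
    show (if i' then (dsg fr p h).B0 b else 0).mulVec (gv p a)
      + ((dsg fr p h).proj b Q' : Matrix (Co E P Om) (Co E P Om) F).mulVec (gv p a) = _
    rw [h3]
    unfold cst
    abel
  show ((dsg fr p h).frm (a, i, Q)).mulVec (gv p b)
    - ((dsg fr p h).frm (b, i', Q')).mulVec (gv p a) = ev fr
  rw [e1, e2]
  abel

/-- pairs of values in a finite set give adjacent pairs -/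
lemma sum_le_adj (a b : Ty N d) (i i' : Bool)
    (A B : Finset (Matrix (Co E P Om) (Co E P Om) F)) (R : Finset (Co E P Om → F)) :
    ∑ v ∈ R, cnt (Lm fr p h a b) A (v - cst h a b i)
        * cnt (Lm fr p h b a) B (v - (ev fr + cst h b a i'))
      ≤ (((A ×ˢ B).filter fun x =>
            (dsg fr p h).Adj (a, i, x.1) (b, i', x.2)).card : ℝ) := by
  set X := (A ×ˢ B).filter fun x => (dsg fr p h).Adj (a, i, x.1) (b, i', x.2)
  have h1 : X.card = ∑ v, (X.filter fun x => Lm fr p h a b x.1 + cst h a b i = v).card :=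
    Finset.card_eq_sum_card_fiberwise (f := fun x : Matrix (Co E P Om) (Co E P Om) F
      × Matrix (Co E P Om) (Co E P Om) F => Lm fr p h a b x.1 + cst h a b i)
      (t := Finset.univ) (fun x _ => by simp)
  rw [h1, Nat.cast_sum]
  refine le_trans ?_ (Finset.sum_le_sum_of_subset_of_nonneg (Finset.subset_univ R)
    fun v _ _ => Nat.cast_nonneg _)
  refine Finset.sum_le_sum fun v _ => ?_
  unfold cnt
  rw [← Nat.cast_mul, ← Finset.card_product]
  refine Nat.cast_le.2 (Finset.card_le_card ?_)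
  rintro ⟨Q, Q'⟩ hQ
  simp only [Finset.mem_product, Finset.mem_filter] at hQ
  obtain ⟨⟨hQA, hQ1⟩, hQB, hQ2⟩ := hQ
  rw [Finset.mem_filter, Finset.mem_filter, Finset.mem_product]
  refine ⟨⟨⟨hQA, hQB⟩, adj_of h hQ1 hQ2⟩, ?_⟩
  show Lm fr p h a b Q + cst h a b i = v
  have hQ1' : Lm fr p h a b Q = v - cst h a b i := hQ1
  rw [hQ1']
  abel

/-- The set of possible values as a finite set. -/
def Rg (fr : Frame N d E Om) (p : Lin N → Co E P Om → F) (a b : Ty N d) :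
    Finset (Co E P Om → F) := Finset.univ.filter fun v => v ∈ Wab fr p a b

lemma card_Rg (a b : Ty N d) : (Rg fr p a b).card = Nat.card (Wab fr p a b) := by
  unfold Rg
  rw [Nat.card_eq_fintype_card, ← Fintype.card_subtype]

lemma card_Rg_pos (a b : Ty N d) : 0 < (Rg fr p a b).card :=
  Finset.card_pos.2 ⟨0, Finset.mem_filter.2 ⟨Finset.mem_univ _, Submodule.zero_mem _⟩⟩

/-- The direction from `a` to `b` is bad: the values at `b` of the parameters in `A` are far from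
uniform. -/
def bad (A : Finset (Matrix (Co E P Om) (Co E P Om) F)) (a b : Ty N d) : Prop :=
  (A.card : ℝ) ^ 2 < 40336 * ((Rg fr p a b).card * prs (Lm fr p h a b) A - (A.card : ℝ) ^ 2)

lemma not_bad {A : Finset (Matrix (Co E P Om) (Co E P Om) F)} {a b : Ty N d}
    (hb : ¬ bad h A a b) (v₁ : Co E P Om → F) (R : Finset (Co E P Om → F))
    (hR : ∀ v ∈ R, v - v₁ ∈ Wab fr p a b)
    (hc : (Rg fr p a b).card ≤ 2521 * R.card) :
    16 * ∑ v ∈ R, (cnt (Lm fr p h a b) A (v - v₁) - A.card / (Rg fr p a b).card) ^ 2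
      ≤ ((A.card : ℝ) / (Rg fr p a b).card) ^ 2 * R.card := by
  unfold bad at hb
  rw [not_lt] at hb
  have hw : (0 : ℝ) < (Rg fr p a b).card := by exact_mod_cast card_Rg_pos a b
  have h1 := l2_dev (Lm fr p h a b) A (Rg fr p a b)
    (fun Q => Finset.mem_filter.2 ⟨Finset.mem_univ _, Lm_mem h a b Q⟩) (card_Rg_pos a b)
  have h2 := sum_shift_le (fun v => (cnt (Lm fr p h a b) A v - A.card / (Rg fr p a b).card) ^ 2)
    (fun v => sq_nonneg _) R (Rg fr p a b) v₁
    (fun v hv => Finset.mem_filter.2 ⟨Finset.mem_univ _, hR v hv⟩)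
  have hc' : ((Rg fr p a b).card : ℝ) ≤ 2521 * R.card := by exact_mod_cast hc
  set w : ℝ := ((Rg fr p a b).card : ℝ)
  set s : ℝ := (A.card : ℝ)
  set T₀ := ∑ v ∈ Rg fr p a b, (cnt (Lm fr p h a b) A v - s / w) ^ 2
  have h3 : 40336 * (w * T₀) ≤ s ^ 2 := by rw [h1]; exact hb
  have h4 : w ≤ 2521 * R.card := hc'
  have h5 : 40336 * T₀ ≤ (s / w) ^ 2 * w := by
    have h6 : 40336 * T₀ * w ≤ (s / w) ^ 2 * w * w := by
      have h7 : (s / w) ^ 2 * w * w = s ^ 2 := by field_simp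
      rw [h7]; linarith only [h3]
    exact le_of_mul_le_mul_right h6 hw
  have h6 : (s / w) ^ 2 * w ≤ (s / w) ^ 2 * (2521 * R.card) :=
    mul_le_mul_of_nonneg_left h4 (sq_nonneg _)
  have h7 : 40336 * T₀ ≤ (s / w) ^ 2 * (2521 * R.card) := h5.trans h6
  linarith only [h7, h2]

/-- For two directions which are not bad there are many adjacent pairs. -/
lemma adj_of_not_bad (hI : HI fr p) {a b b' : Ty N d} (hd : D3 a b b') (i i' : Bool)
    {A B : Finset (Matrix (Co E P Om) (Co E P Om) F)} (hA : 0 < A.card) (hB : 0 < B.card)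
    (hab : ¬ bad h A a b) (hba : ¬ bad h B b a) :
    (A.card : ℝ) * B.card ≤ 20168 * (2521 : ℝ) ^ Fintype.card (Co E P Om) *
      (((A ×ˢ B).filter fun x => (dsg fr p h).Adj (a, i, x.1) (b, i', x.2)).card : ℝ) := by
  set v₁ := cst h a b i with hv1
  set v₂ := ev fr + cst h b a i' with hv2
  set R := Finset.univ.filter fun v : Co E P Om → F =>
    v - v₁ ∈ Wab fr p a b ∧ v - v₂ ∈ Wab fr p b a with hR
  have hz1 : ∀ w, v₁ (Sum.inr w) = 0 := fun w => cst_row h a b i w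
  have hz2 : ∀ w, v₂ (Sum.inr w) = 0 := fun w => by
    rw [hv2, Pi.add_apply, cst_row, ev_row, add_zero]
  have c1 : (Rg fr p a b).card ≤ 2521 * R.card := by
    rw [card_Rg]
    exact (card_R hI hd v₁ v₂ (fun w _ => hz1 w) (fun w _ => hz2 w)).le
  have c2 : (Rg fr p b a).card ≤ 2521 * R.card := by
    rw [card_Rg]
    have h1 := (card_R hI ⟨hd.ab.symm, hd.bc, hd.ac⟩ v₂ v₁ (fun w _ => hz2 w)
      (fun w _ => hz1 w)).le
    refine h1.trans (Nat.mul_le_mul_left _ (Finset.card_le_card ?_))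
    intro v hv
    rw [Finset.mem_filter] at hv
    exact Finset.mem_filter.2 ⟨hv.1, hv.2.2, hv.2.1⟩
  have n1 := not_bad h hab v₁ R (fun v hv => (Finset.mem_filter.1 hv).2.1) c1
  have n2 := not_bad h hba v₂ R (fun v hv => (Finset.mem_filter.1 hv).2.2) c2
  have hw1 : (0 : ℝ) < (Rg fr p a b).card := by exact_mod_cast card_Rg_pos a b
  have hw2 : (0 : ℝ) < (Rg fr p b a).card := by exact_mod_cast card_Rg_pos b a
  have hA' : (0 : ℝ) < A.card := by exact_mod_cast hA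
  have hB' : (0 : ℝ) < B.card := by exact_mod_cast hB
  have h3 := l2_overlap R (fun v => cnt (Lm fr p h a b) A (v - v₁))
    (fun v => cnt (Lm fr p h b a) B (v - v₂)) (fun v => cnt_nonneg _ _ _)
    (fun v => cnt_nonneg _ _ _) (div_pos hA' hw1) (div_pos hB' hw2) n1 n2
  have h4 := sum_le_adj h a b i i' A B R
  have h5 := h3.trans (mul_le_mul_of_nonneg_left h4 (by norm_num))
  set X : ℝ := (((A ×ˢ B).filter fun x =>
    (dsg fr p h).Adj (a, i, x.1) (b, i', x.2)).card : ℝ) with hX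
  have hX0 : 0 ≤ X := Nat.cast_nonneg _
  have c1' : ((Rg fr p a b).card : ℝ) ≤ 2521 * R.card := by exact_mod_cast c1
  have c3 : ((Rg fr p b a).card : ℝ) ≤ (2521 : ℝ) ^ Fintype.card (Co E P Om) := by
    have h6 : (Rg fr p b a).card ≤ Fintype.card (Co E P Om → F) := Finset.card_le_univ _
    rw [Fintype.card_fun, ZMod.card] at h6
    exact_mod_cast h6
  set w₁ : ℝ := ((Rg fr p a b).card : ℝ)
  set w₂ : ℝ := ((Rg fr p b a).card : ℝ)
  calc (A.card : ℝ) * B.card = (A.card / w₁) * (B.card / w₂) * w₁ * w₂ := by field_simp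
    _ ≤ (A.card / w₁) * (B.card / w₂) * (2521 * R.card) * w₂ := by
        refine mul_le_mul_of_nonneg_right (mul_le_mul_of_nonneg_left c1' ?_) hw2.le
        (clear * - hA hw1 hB hw2; positivity)
    _ = 2521 * ((A.card / w₁) * (B.card / w₂) * R.card) * w₂ := by ring
    _ ≤ 2521 * (8 * X) * w₂ := by
        refine mul_le_mul_of_nonneg_right (mul_le_mul_of_nonneg_left h5 (by norm_num)) hw2.le
    _ ≤ 2521 * (8 * X) * (2521 : ℝ) ^ Fintype.card (Co E P Om) :=
        mul_le_mul_of_nonneg_left c3 (by (clear * - h; positivity))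
    _ = 20168 * (2521 : ℝ) ^ Fintype.card (Co E P Om) * X := by ring

/-- Few directions are bad. -/
lemma card_bad (hI : HI fr p) {δ : ℝ} (hδ : 0 < δ) (S : Finset (Ty N d)) (hS : 3 ≤ S.card)
    (hdis : ∀ a ∈ S, ∀ b ∈ S, a ≠ b → Disjoint (lins a) (lins b)) {a : Ty N d} (ha : a ∈ S)
    (A : Finset (Matrix (Co E P Om) (Co E P Om) F))
    (hA : δ * Fintype.card (Matrix (Co E P Om) (Co E P Om) F) ≤ (A.card : ℝ)) :
    ((S.erase a).filter fun b => bad h A a b).card ≤ ⌊80672 / δ⌋₊ := by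
  have hMat : (0 : ℝ) < Fintype.card (Matrix (Co E P Om) (Co E P Om) F) := by
    exact_mod_cast Fintype.card_pos
  have hs : (0 : ℝ) < A.card := lt_of_lt_of_le (by positivity) hA
  have hD : ∀ b ∈ S.erase a, ∀ c ∈ S.erase a, b ≠ c → D3 a b c := by
    intro b hb c hc hbc
    rw [Finset.mem_erase] at hb hc
    exact ⟨hdis a ha b hb.2 hb.1.symm, hdis a ha c hc.2 hc.1.symm, hdis b hb.2 c hc.2 hbc⟩
  have hthird : ∀ b ∈ S.erase a, ∃ c ∈ S.erase a, b ≠ c := by
    intro b hb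
    have h1 : ((S.erase a).erase b).Nonempty := by
      rw [← Finset.card_pos, Finset.card_erase_of_mem hb, Finset.card_erase_of_mem ha]
      omega
    obtain ⟨c, hc⟩ := h1
    rw [Finset.mem_erase] at hc
    exact ⟨c, hc.2, hc.1.symm⟩
  have h1 := NOAP.dev_sum (S.erase a) (fun b => Lm fr p h a b) (by
    intro b₁ h1 b₂ h2 b₃ h3 h12 h13 h23 f₁ f₂ f₃ e2 e3
    obtain ⟨z₁, hz1⟩ := exists_dot f₁
    obtain ⟨z₂, hz2⟩ := exists_dot f₂
    obtain ⟨z₃, hz3⟩ := exists_dot f₃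
    have h4 := triple h hI (hD b₁ h1 b₂ h2 h12) (hD b₁ h1 b₃ h3 h13) (hD b₂ h2 b₃ h3 h23)
      (z₁ := z₁) (z₂ := z₂) (z₃ := z₃)
      (fun Q => by rw [← hz1, ← hz2]; exact LinearMap.congr_fun e2 Q)
      (fun Q => by rw [← hz1, ← hz3]; exact LinearMap.congr_fun e3 Q)
    refine LinearMap.ext fun Q => ?_
    show f₁ (Lm fr p h a b₁ Q) = 0
    rw [hz1, h4]) A
  have h2 : ∑ b ∈ S.erase a, ((Rg fr p a b).card * prs (Lm fr p h a b) A - (A.card : ℝ) ^ 2)
      ≤ 2 * Fintype.card (Matrix (Co E P Om) (Co E P Om) F) * A.card := by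
    refine le_trans (le_of_eq (Finset.sum_congr rfl fun b hb => ?_)) h1
    obtain ⟨c, hc, hbc⟩ := hthird b hb
    rw [range_Lm h hI (hD b hb c hc hbc), card_Rg]
    exact congrArg (fun t : ℝ => (Nat.card (Wab fr p a b) : ℝ) * t - (A.card : ℝ) ^ 2)
      (prs_eq (Lm fr p h a b) A _).symm
  have h3 : ∀ b, 0 ≤ (Rg fr p a b).card * prs (Lm fr p h a b) A - (A.card : ℝ) ^ 2 := by
    intro b
    rw [← l2_dev (Lm fr p h a b) A (Rg fr p a b)
      (fun Q => Finset.mem_filter.2 ⟨Finset.mem_univ _, Lm_mem h a b Q⟩) (card_Rg_pos a b)]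
    exact mul_nonneg (Nat.cast_nonneg _) (Finset.sum_nonneg fun v _ => sq_nonneg _)
  set J := (S.erase a).filter fun b => bad h A a b with hJ
  have h4 : (J.card : ℝ) * ((A.card : ℝ) ^ 2 / 40336) ≤ 2
      * Fintype.card (Matrix (Co E P Om) (Co E P Om) F) * A.card := by
    refine le_trans ?_ h2
    rw [← nsmul_eq_mul, ← Finset.sum_const]
    refine le_trans ?_ (Finset.sum_le_sum_of_subset_of_nonneg
      (Finset.filter_subset (fun b => bad h A a b) (S.erase a))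
      fun b _ _ => h3 b)
    refine Finset.sum_le_sum fun b hb => ?_
    have h5 := (Finset.mem_filter.1 hb).2
    unfold bad at h5
    linarith only [h5]
  refine Nat.le_floor ?_
  rw [le_div_iff₀ hδ]
  have h5 : (J.card : ℝ) * δ * (A.card : ℝ) ^ 2 ≤ 80672 * (A.card : ℝ) ^ 2 := by
    have h6 : δ * ((J.card : ℝ) * ((A.card : ℝ) ^ 2 / 40336)) ≤ δ * (2
      * Fintype.card (Matrix (Co E P Om) (Co E P Om) F) * A.card) :=
      mul_le_mul_of_nonneg_left h4 hδ.le
    have h7 : δ * (2 * Fintype.card (Matrix (Co E P Om) (Co E P Om) F) * A.card)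
        ≤ 2 * (A.card : ℝ) ^ 2 := by
      calc δ * (2 * Fintype.card (Matrix (Co E P Om) (Co E P Om) F) * A.card)
          = 2 * ((δ * Fintype.card (Matrix (Co E P Om) (Co E P Om) F)) * A.card) := by ring
        _ ≤ 2 * ((A.card : ℝ) * A.card) :=
          mul_le_mul_of_nonneg_left (mul_le_mul_of_nonneg_right hA hs.le) (by norm_num)
        _ = 2 * (A.card : ℝ) ^ 2 := by ring
    linarith only [h7, h6]
  exact le_of_mul_le_mul_right h5 (by (clear * - hs; positivity))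

end Vale.Agent.P060.HW.NOA

namespace Vale.Agent.P060.HW

open NOA

theorem noaCore : NOACore := by
  intro δ hδ
  refine ⟨2 * ⌊80672 / δ⌋₊ + 3, ?_⟩
  intro N d E P Om _ _ _ _ fr p h κ h12 hrow hev S hS hdis A ι hA
  have hI := HI.of_ev h12 hrow hev
  have hMat : (0 : ℝ) < Fintype.card (Matrix (Co E P Om) (Co E P Om) F) := by
    exact_mod_cast Fintype.card_pos
  have hpos : ∀ a ∈ S, 0 < (A a).card := by
    intro a ha
    have h1 : (0 : ℝ) < (A a).card := lt_of_lt_of_le (by positivity) (hA a ha)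
    exact_mod_cast h1
  obtain ⟨a, ha, b, hb, hab, n1, n2⟩ := exists_pair S (fun a b => bad h (A a) a b)
    ⌊80672 / δ⌋₊ (fun a ha => card_bad h hI hδ S (by omega) hdis ha (A a) (hA a ha)) (by omega)
  refine ⟨a, ha, b, hb, hab, ?_⟩
  have h1 : ((S.erase a).erase b).Nonempty := by
    rw [← Finset.card_pos, Finset.card_erase_of_mem (Finset.mem_erase.2 ⟨hab.symm, hb⟩),
      Finset.card_erase_of_mem ha]
    omega
  obtain ⟨c, hc⟩ := h1
  rw [Finset.mem_erase, Finset.mem_erase] at hc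
  have h2 := adj_of_not_bad h hI (b' := c) ⟨hdis a ha b hb hab, hdis a ha c hc.2.2 hc.2.1.symm,
    hdis b hb c hc.2.2 hc.1.symm⟩ (ι a) (ι b) (hpos a ha) (hpos b hb) n1 n2
  refine le_trans ?_ h2
  calc δ ^ 2 * (Fintype.card (Matrix (Co E P Om) (Co E P Om) F) : ℝ) ^ 2
      = (δ * Fintype.card (Matrix (Co E P Om) (Co E P Om) F))
        * (δ * Fintype.card (Matrix (Co E P Om) (Co E P Om) F)) := by ring
    _ ≤ (A a).card * (A b).card := mul_le_mul (hA a ha) (hA b hb) (by positivity)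
        (Nat.cast_nonneg _)

end Vale.Agent.P060.HW
end
end

section

/-!
# OUT-A
-/

namespace Vale.Agent.P060.HW

theorem notOutA : NotOutA := notOutA_of noaCore

end Vale.Agent.P060.HW
end

section

/-!
# Assembly: the final theorem
-/

noncomputable section

namespace Vale.Agent.P060.HW

/-- **Hadwiger's conjecture is false**, already for graphs with independence number at most two. -/
theorem disproof : ∃ n : ℕ, ∃ G : SimpleGraph (Fin n), G.indepNum ≤ 2 ∧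
    (hadwigerNumber G : ℕ∞) < G.chromaticNumber :=
  disproof_of_open tvK2 TvS.tvSel tvLoc ls notOutA

end Vale.Agent.P060.HW
end
end

section

/-!
# P060/HW: counterexamples for all large `t`

Adding dominating vertices to one counterexample gives a counterexample for every larger `t`.
-/

open scoped Classical

noncomputable section

namespace Vale.Agent.P060.HW.AllLarge

open Vale.Agent.P060

variable {V : Type*}

/-- The cone over `G`: a new vertex joined to all vertices. -/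
def cone (G : SimpleGraph V) : SimpleGraph (Option V) where
  Adj x y := x ≠ y ∧ ∀ a b, x = some a → y = some b → G.Adj a b
  symm := ⟨fun _ _ h => ⟨h.1.symm, fun a b ha hb => (h.2 b a hb ha).symm⟩⟩
  loopless := ⟨fun _ h => h.1 rfl⟩

lemma cone_some {G : SimpleGraph V} {a b : V} : (cone G).Adj (some a) (some b) ↔ G.Adj a b := by
  constructor
  · intro h
    exact h.2 a b rfl rfl
  · intro h
    refine ⟨fun e => h.ne (Option.some_injective _ e), fun a' b' ha hb => ?_⟩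
    cases ha
    cases hb
    exact h

lemma cone_none {G : SimpleGraph V} {a : V} : (cone G).Adj none (some a) :=
  ⟨by simp, fun _ _ h => by simp at h⟩

/-- Removing the apex from a set not containing it. -/
def isoPre (G : SimpleGraph V) (B : Set (Option V)) (hB : none ∉ B) :
    G.induce (some ⁻¹' B) ≃g (cone G).induce B where
  toFun x := ⟨some x.1, x.2⟩
  invFun x := ⟨x.1.get (by
    rcases x with ⟨x, hx⟩
    cases x with
    | none => exact absurd hx hB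
    | some a => rfl), by
    rcases x with ⟨x, hx⟩
    cases x with
    | none => exact absurd hx hB
    | some a => exact hx⟩
  left_inv x := by simp
  right_inv x := by simp
  map_rel_iff' := by
    intro x y
    simp [cone_some]

lemma minor_of_cone {G : SimpleGraph V} {t : ℕ} (h : HasCliqueMinor (cone G) (t + 1)) :
    HasCliqueMinor G t := by
  obtain ⟨B, hB, hd⟩ := h
  obtain ⟨i0, hi0⟩ : ∃ i0 : Fin (t + 1), ∀ i, i ≠ i0 → none ∉ B i := by
    by_cases hex : ∃ i, none ∈ B i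
    · obtain ⟨i, hi⟩ := hex
      exact ⟨i, fun j hj hn => Set.disjoint_left.1 (hd i j hj.symm).1 hi hn⟩
    · exact ⟨0, fun i _ hi => hex ⟨i, hi⟩⟩
  refine ⟨fun j => some ⁻¹' B (i0.succAbove j), fun j => ?_, fun j k hjk => ?_⟩
  · have hn := hi0 _ (Fin.succAbove_ne i0 j)
    obtain ⟨⟨x, hx⟩, hc⟩ := hB (i0.succAbove j)
    constructor
    · cases x with
      | none => exact absurd hx hn
      | some a => exact ⟨a, hx⟩
    · exact (isoPre G _ hn).connected_iff.2 hc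
  · obtain ⟨h1, x, hx, y, hy, hxy⟩ := hd _ _ (fun e => hjk (Fin.succAbove_right_injective e) :
      i0.succAbove j ≠ i0.succAbove k)
    have hnj := hi0 _ (Fin.succAbove_ne i0 j)
    have hnk := hi0 _ (Fin.succAbove_ne i0 k)
    refine ⟨Set.disjoint_left.2 fun a ha hb => Set.disjoint_left.1 h1 ha hb, ?_⟩
    cases x with
    | none => exact absurd hx hnj
    | some a =>
      cases y with
      | none => exact absurd hy hnk
      | some b => exact ⟨a, hx, b, hy, cone_some.1 hxy⟩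

lemma colorable_of_cone {G : SimpleGraph V} {t : ℕ} (h : (cone G).Colorable (t + 1)) :
    G.Colorable t := by
  obtain ⟨c⟩ := h
  have hc : ∀ v, c (some v) ≠ c none := fun v e => c.valid (cone_none (a := v)) e.symm
  have col : G.Coloring {x : Fin (t + 1) // x ≠ c none} :=
    SimpleGraph.Coloring.mk (fun v => ⟨c (some v), hc v⟩) (by
      intro v w hvw e
      exact c.valid (cone_some.2 hvw) (congrArg Subtype.val e))
  have := col.colorable
  rwa [Fintype.card_subtype_compl, Fintype.card_fin, Fintype.card_unique,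
    Nat.add_sub_cancel] at this

lemma indep_le {W : Type*} [Finite W] {G : SimpleGraph W} :
    G.indepNum ≤ 2 ↔ ∀ s : Finset W, G.IsIndepSet s → s.card ≤ 2 := by
  constructor
  · intro h s hs
    exact le_trans hs.card_le_indepNum h
  · intro h
    obtain ⟨s, hs⟩ := G.exists_isNIndepSet_indepNum
    rw [← hs.card_eq]
    exact h s hs.isIndepSet

lemma indep_cone [Finite V] {G : SimpleGraph V} (h : G.indepNum ≤ 2) :
    (cone G).indepNum ≤ 2 := by
  rw [indep_le] at h ⊢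
  intro s hs
  by_cases hn : none ∈ s
  · have : s ⊆ {none} := by
      intro x hx
      cases x with
      | none => simp
      | some a => exact absurd cone_none (hs hn hx (by simp))
    exact le_trans (Finset.card_le_card this) (by simp)
  · have e : s = (Finset.eraseNone s).image some := by
      rw [Finset.image_some_eraseNone, Finset.erase_eq_of_notMem hn]
    rw [e, Finset.card_image_of_injective _ (Option.some_injective _)]
    refine h _ ?_
    intro a ha b hb hab hadj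
    exact hs (Finset.mem_eraseNone.1 ha) (Finset.mem_eraseNone.1 hb)
      (fun e => hab (Option.some_injective _ e)) (cone_some.2 hadj)

/-- `t` is a failure of Hadwiger's conjecture on a graph with independence number at most two. -/
def Bad (t : ℕ) : Prop := ∃ (n : ℕ) (G : SimpleGraph (Fin n)), G.indepNum ≤ 2 ∧
  ¬ HasCliqueMinor G (t + 1) ∧ ¬ G.Colorable t

lemma minor_iso {W : Type*} {G : SimpleGraph V} {H : SimpleGraph W} (e : G ≃g H) {t : ℕ}
    (h : HasCliqueMinor G t) : HasCliqueMinor H t := by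
  obtain ⟨B, hB, hd⟩ := h
  refine ⟨fun i => e '' B i, fun i => ⟨(hB i).1.image _, ?_⟩, fun i j hij => ⟨?_, ?_⟩⟩
  · have hc := (hB i).2
    let f : G.induce (B i) →g H.induce (e '' B i) :=
      ⟨fun x => ⟨e x.1, x.1, x.2, rfl⟩, fun {x y} hxy => e.map_adj_iff.2 hxy⟩
    refine hc.map f ?_
    rintro ⟨_, x, hx, rfl⟩
    exact ⟨⟨x, hx⟩, rfl⟩
  · rw [Set.disjoint_left]
    rintro _ ⟨x, hx, rfl⟩ ⟨y, hy, hxy⟩
    have : y = x := e.injective hxy
    subst this
    exact Set.disjoint_left.1 (hd i j hij).1 hx hy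
  · obtain ⟨-, x, hx, y, hy, hxy⟩ := hd i j hij
    exact ⟨e x, ⟨x, hx, rfl⟩, e y, ⟨y, hy, rfl⟩, e.map_adj_iff.2 hxy⟩

lemma bad_succ {t : ℕ} (h : Bad t) : Bad (t + 1) := by
  obtain ⟨n, G, h1, h2, h3⟩ := h
  have hcard : Fintype.card (Option (Fin n)) = n + 1 := by simp
  let e : (cone G) ≃g (cone G).overFin hcard := (cone G).overFinIso hcard
  refine ⟨n + 1, (cone G).overFin hcard, ?_, ?_, ?_⟩
  · rw [indep_le]
    intro s hs
    have := (indep_le.1 (indep_cone h1)) (s.map e.symm.toEquiv.toEmbedding) ?_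
    · simpa using this
    · intro a ha b hb hab hadj
      simp only [Finset.coe_map, Set.mem_image] at ha hb
      obtain ⟨a', ha', rfl⟩ := ha
      obtain ⟨b', hb', rfl⟩ := hb
      exact hs ha' hb' (fun e' => hab (by rw [e'])) (e.symm.map_adj_iff.1 hadj)
  · intro hm
    exact h2 (minor_of_cone (minor_iso e.symm hm))
  · intro hc
    exact h3 (colorable_of_cone (hc.of_hom e.toHom))

lemma bad_mono {t u : ℕ} (htu : t ≤ u) (h : Bad t) : Bad u := by
  induction u, htu using Nat.le_induction with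
  | base => exact h
  | succ u _ ih => exact bad_succ ih

lemma minor_mono {G : SimpleGraph V} {s t : ℕ} (hst : s ≤ t) (h : HasCliqueMinor G t) :
    HasCliqueMinor G s := by
  obtain ⟨B, hB, hd⟩ := h
  refine ⟨fun i => B (Fin.castLE hst i), fun i => hB _, fun i j hij => hd _ _ fun e => hij ?_⟩
  exact Fin.castLE_injective hst e

/-- **Hadwiger's conjecture fails for all large `t`**, on graphs with independence number at most
two. -/
theorem all_large : ∃ t₀ : ℕ, ∀ t : ℕ, t₀ ≤ t → ∃ (n : ℕ) (G : SimpleGraph (Fin n)),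
    G.indepNum ≤ 2 ∧ ¬ HasCliqueMinor G (t + 1) ∧ ¬ G.Colorable t ∧
      (hadwigerNumber G : ℕ∞) < G.chromaticNumber := by
  obtain ⟨n, t, G, -, h1, h2, h3, -⟩ := FinalForm.final_form disproof
  refine ⟨t, fun u hu => ?_⟩
  obtain ⟨m, H, k1, k2, k3⟩ := bad_mono hu ⟨n, G, h1, h2, h3⟩
  refine ⟨m, H, k1, k2, k3, ?_⟩
  have e1 : hadwigerNumber H ≤ u := by
    refine csSup_le' fun s hs => ?_
    by_contra hlt
    exact k2 (minor_mono (by omega) hs)
  have e2 : ((u + 1 : ℕ) : ℕ∞) ≤ H.chromaticNumber := by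
    rw [SimpleGraph.le_chromaticNumber_iff_colorable]
    intro m' hm'
    by_contra hlt
    have : m' ≤ u := by
      by_contra hh
      exact hlt (by exact_mod_cast (by omega : u + 1 ≤ m'))
    exact k3 (hm'.mono this)
  refine lt_of_lt_of_le ?_ e2
  exact_mod_cast Nat.lt_succ_of_le e1

end Vale.Agent.P060.HW.AllLarge
end
end
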